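import Vale.Agent.P024.MathlibUsed
import Vale.Agent.P024.SolvClosed

set_option linter.all false

namespace AFast434651x5a
@[reducible] def a0.{u1, u2} {x1 : Type u1} {x2 : Type u2} [x3 : Field x1] [x4 : Field x2] [x5 : Algebra x1 x2] : MulOne Gal(x2/x1) := inferInstance
@[reducible] def a1.{u1, u2} {x1 : Type u1} {x2 : Type u2} [x3 : Field x1] [x4 : Field x2] [x5 : Algebra x1 x2] : MulOneClass Gal(x2/x1) := inferInstance
@[reducible] def a2.{u1, u2} {x1 : Type u1} {x2 : Type u2} [x3 : Field x1] [x4 : Field x2] [x5 : Algebra x1 x2] : Monoid Gal(x2/x1) := inferInstance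
@[reducible] def a3.{u1, u2} {x1 : Type u1} {x2 : Type u2} [x3 : Field x1] [x4 : Field x2] [x5 : Algebra x1 x2] : Mul Gal(x2/x1) := inferInstance
theorem a4.{u1, u2} {x1 : Type u1} {x2 : Type u2} [x3 : Field x1] [x4 : Field x2] [x5 : Algebra x1 x2] : MonoidHomClass Gal(x2/x1) x2 x2 := inferInstance
theorem a5.{u1, u2} {x1 : Type u1} {x2 : Type u2} [x3 : Field x1] [x4 : Field x2] [x5 : Algebra x1 x2] : RingHomClass Gal(x2/x1) x2 x2 := inferInstance
theorem a6.{u1} {x1 : Type u1} [x2 : Field x1] [x3 : NumberField x1] : AddMonoid.FG (NumberField.RingOfIntegers x1) := inferInstance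
theorem a7.{u1, u2} {x1 : Type u1} {x2 : Type u2} [x3 : Field x1] [x4 : Field x2] [x5 : Algebra x1 x2] : AlgHomClass Gal(x2/x1) x1 x2 x2 := inferInstance
@[reducible] def a8.{u1, u2} {x1 : Type u1} {x2 : Type u2} [x3 : Field x2] [x4 : Field x1] [x5 : Algebra x2 x1] {x6 : IntermediateField x2 x1} : Zero ↥x6 := inferInstance
theorem a9.{u1, u2} {x1 : Type u1} {x2 : Type u2} [x3 : Field x1] [x4 : Field x2] [x5 : Algebra x1 x2] : AddSubmonoidClass (IntermediateField x1 x2) x2 := inferInstance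
theorem a10.{u1, u2} {x1 : Type u1} {x2 : Type u2} [x3 : Field x1] [x4 : Field x2] [x5 : Algebra x1 x2] : NonUnitalAlgHomClass Gal(x2/x1) x1 x2 x2 := inferInstance
theorem a11.{u1, u2} {x1 : Type u1} {x2 : Type u2} [x3 : Field x1] [x4 : Field x2] [x5 : Algebra x1 x2] : MulHomClass Gal(x2/x1) x2 x2 := inferInstance
theorem a12.{u1, u2} {x1 : Type u1} {x2 : Type u2} [x3 : Field x1] [x4 : Field x2] [x5 : Algebra x1 x2] : MonoidWithZeroHomClass Gal(x2/x1) x2 x2 := inferInstance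
theorem a13.{u1, u2} {x1 : Type u1} {x2 : Type u2} [x3 : Field x1] [x4 : Field x2] [x5 : Algebra x1 x2] : ZeroMemClass (IntermediateField x1 x2) x2 := inferInstance
@[reducible] def a14.{u1} {x1 : Type u1} [x2 : Field x1] : Semiring (Ideal (NumberField.RingOfIntegers x1)) := inferInstance
theorem a15.{u1} {x1 : Type u1} [x2 : Field x1] {x3 : ValuationSubring x1} : ZeroLEOneClass x3.ValueGroup := inferInstance
@[reducible] def a16 : Mul (WithZero (Multiplicative ℤ)) := inferInstance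
theorem a17.{u1} {x1 : Type u1} [x2 : Field x1] [x3 : NumberField x1] : IsAddTorsionFree (NumberField.RingOfIntegers x1) := inferInstance
theorem a18.{u1, u2} {x1 : Type u1} {x2 : Type u2} [x3 : Field x2] [x4 : Field x1] [x5 : Algebra x2 x1] {x6 : IntermediateField x2 x1} : MonoidHomClass (↥x6 →+* x1) (↥x6) x1 := inferInstance
@[reducible] def a19.{u1, u2} {x1 : Type u1} {x2 : Type u2} [x3 : Field x1] [x4 : Field x2] [x5 : Algebra x1 x2] : Pow Gal(x2/x1) ℕ := inferInstance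
theorem a20.{u1, u2} {x1 : Type u1} {x2 : Type u2} [x3 : Field x1] [x4 : Field x2] [x5 : Algebra x1 x2] : SubsemiringClass (IntermediateField x1 x2) x2 := inferInstance
@[reducible] def a21.{u1, u2} {x1 : Type u1} {x2 : Type u2} [x3 : Field x1] [x4 : Field x2] [x5 : Algebra x1 x2] : NPow Gal(x2/x1) := inferInstance
@[reducible] def a22.{u1} {x1 : Type u1} [x2 : Field x1] : MulZeroOneClass (Ideal (NumberField.RingOfIntegers x1)) := inferInstance
@[reducible] def a23.{u1, u2} {x1 : Type u1} {x2 : Type u2} [x3 : Field x2] [x4 : Field x1] [x5 : Algebra x2 x1] {x6 : IntermediateField x2 x1} : Pow ↥x6 ℕ := inferInstance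
theorem a24.{u1, u2} {x1 : Type u1} {x2 : Type u2} [x3 : Field x2] [x4 : Field x1] [x5 : Algebra x2 x1] {x6 : IntermediateField x2 x1} : MonoidWithZeroHomClass (↥x6 →+* x1) (↥x6) x1 := inferInstance
theorem a25.{u1} {x1 : Type u1} [x2 : Field x1] : MonoidHomClass (x1 ≃+* x1) x1 x1 := inferInstance
@[reducible] def a26.{u1, u2} {x1 : Type u1} {x2 : Type u2} [x3 : Field x1] [x4 : Field x2] [x5 : Algebra x1 x2] : One Gal(x2/x1) := inferInstance
theorem a27.{u1} {x1 : Type u1} [x2 : Field x1] [x3 : NumberField x1] : IsAffineAddMonoid (NumberField.RingOfIntegers x1) := inferInstance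
theorem a28.{u1} {x1 : Type u1} [x2 : Field x1] {x3 : ValuationSubring x1} : MonoidHomClass (Valuation x1 x3.ValueGroup) x1 x3.ValueGroup := inferInstance
@[reducible] noncomputable def a29.{u1} {x1 : Type u1} [x2 : Field x1] {x3 : ValuationSubring x1} : One x3.ValueGroup := inferInstance
theorem a30.{u1} {x1 : Type u1} [x2 : Field x1] : RingHomClass (x1 ≃+* x1) x1 x1 := inferInstance
theorem a31.{u1, u2} {x1 : Type u1} {x2 : Type u2} [x3 : Field x1] [x4 : Field x2] : MulHomClass (x1 →+* x2) x1 x2 := inferInstance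
theorem a32.{u1, u2} {x1 : Type u1} {x2 : Type u2} [x3 : Field x1] [x4 : Field x2] [x5 : Algebra x1 x2] : AddMonoidHomClass Gal(x2/x1) x2 x2 := inferInstance
@[reducible] def a33 : LinearOrderedCommMonoidWithZero (WithZero (Multiplicative ℤ)) := inferInstance
theorem a34.{u1} {x1 : Type u1} [x2 : Field x1] : IsCancelAdd (NumberField.RingOfIntegers x1) := inferInstance
theorem a35.{u1} {x1 : Type u1} [x2 : Field x1] : NoZeroDivisors (NumberField.RingOfIntegers x1) := inferInstance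
@[reducible] noncomputable def a36.{u1} {x1 : Type u1} [x2 : Field x1] {x3 : ValuationSubring x1} : MulZeroClass x3.ValueGroup := inferInstance
@[reducible] noncomputable def a37.{u1} {x1 : Type u1} [x2 : Field x1] {x3 : ValuationSubring x1} : Preorder x3.ValueGroup := inferInstance
@[reducible] def a38.{u1, u2} {x1 : Type u1} {x2 : Type u2} [x3 : Field x2] [x4 : Field x1] [x5 : Algebra x2 x1] {x6 : IntermediateField x2 x1} : One ↥x6 := inferInstance
@[reducible] noncomputable def a39.{u1} {x1 : Type u1} [x2 : Field x1] {x3 : ValuationSubring x1} : PartialOrder x3.ValueGroup := inferInstance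
@[reducible] def a40.{u1} {x1 : Type u1} [x2 : Field x1] {x3 : ValuationSubring x1} : Semiring ↥x3 := inferInstance
theorem a41.{u1, u2} {x1 : Type u1} {x2 : Type u2} [x3 : Field x1] [x4 : Field x2] [x5 : Algebra x1 x2] : DistribMulActionSemiHomClass Gal(x2/x1) (⇑(MonoidHom.id x1)) x2 x2 := inferInstance
@[reducible] def a42.{u1} {x1 : Type u1} [x2 : Field x1] : IdemSemiring (Submodule (NumberField.RingOfIntegers x1) (NumberField.RingOfIntegers x1)) := inferInstance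
theorem a43.{u1} {x1 : Type u1} [x2 : Field x1] : MonoidHomClass (Valuation x1 (WithZero (Multiplicative ℤ))) x1 (WithZero (Multiplicative ℤ)) := inferInstance
@[reducible] def a44.{u1, u2} {x1 : Type u1} {x2 : Type u2} [x3 : Field x1] [x4 : Field x2] [x5 : Algebra x1 x2] : SMulZeroClass Gal(x2/x1) (NumberField.RingOfIntegers x2) := inferInstance
@[reducible] def a45.{u1, u2} {x1 : Type u1} {x2 : Type u2} [x3 : Field x1] [x4 : Field x2] [x5 : Algebra x1 x2] : SMul Gal(x2/x1) (NumberField.RingOfIntegers x2) := inferInstance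
theorem a46 : PosMulStrictMono (WithZero (Multiplicative ℤ)) := inferInstance
theorem a47 {x1 : ℕ} [x2 : Fact (Nat.Prime x1)] : NoZeroDivisors (ZMod x1) := inferInstance
@[reducible] noncomputable def a48.{u1} {x1 : Type u1} [x2 : Field x1] {x3 : ValuationSubring x1} : LE x3.ValueGroup := inferInstance
@[reducible] def a49.{u1} {x1 : Type u1} [x2 : Field x1] {x3 : ValuationSubring x1} : NonAssocSemiring ↥x3 := inferInstance
theorem a50 : IsOrderedCancelMonoid (Multiplicative ℤ) := inferInstance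
theorem a51.{u1} {x1 : Type u1} [x2 : Field x1] : MonoidWithZeroHomClass (x1 ≃+* x1) x1 x1 := inferInstance
theorem a52 : MulLeftStrictMono (Multiplicative ℤ) := inferInstance
theorem a53.{u1, u2} {x1 : Type u1} {x2 : Type u2} [x3 : Field x1] [x4 : Field x2] [x5 : Algebra x1 x2] : SubmonoidClass (IntermediateField x1 x2) x2 := inferInstance
theorem a54.{u1, u2} {x1 : Type u1} {x2 : Type u2} [x3 : Field x1] [x4 : Field x2] [x5 : Algebra x1 x2] : OneHomClass Gal(x2/x1) x2 x2 := inferInstance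
@[reducible] noncomputable def a55.{u1} {x1 : Type u1} [x2 : Field x1] {x3 : ValuationSubring x1} : Zero x3.ValueGroup := inferInstance
@[reducible] def a56 : NPow (WithZero (Multiplicative ℤ)) := inferInstance
theorem a57.{u1} {x1 : Type u1} [x2 : Field x1] {x3 : ValuationSubring x1} : MulLeftMono x3.ValueGroup := inferInstance
@[reducible] def a58 : Monoid (WithZero (Multiplicative ℤ)) := inferInstance
theorem a59 : ZeroLEOneClass (WithZero (Multiplicative ℤ)) := inferInstance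
theorem a60.{u1} {x1 : Type u1} [x2 : Field x1] : MulHomClass (x1 ≃+* x1) x1 x1 := inferInstance
theorem a61.{u1, u2} {x1 : Type u1} {x2 : Type u2} [x3 : Field x1] [x4 : Field x2] [x5 : Algebra x1 x2] : ZeroHomClass Gal(x2/x1) x2 x2 := inferInstance
theorem a62.{u1} {x1 : Type u1} [x2 : Field x1] {x3 : ValuationSubring x1} : Nontrivial x3.ValueGroup := inferInstance
theorem a63.{u1, u2} {x1 : Type u1} {x2 : Type u2} [x3 : Field x2] [x4 : Field x1] [x5 : Algebra x2 x1] {x6 : IntermediateField x2 x1} : MulHomClass (↥x6 →+* x1) (↥x6) x1 := inferInstance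
theorem a64.{u1, u2} {x1 : Type u1} {x2 : Type u2} [x3 : Field x1] [x4 : Field x2] : NonUnitalRingHomClass (x1 →+* x2) x1 x2 := inferInstance
@[reducible] def a65.{u1, u2} {x1 : Type u1} {x2 : Type u2} [x3 : Field x1] [x4 : Field x2] [x5 : Algebra x1 x2] : DistribSMul Gal(x2/x1) (NumberField.RingOfIntegers x2) := inferInstance
theorem a66.{u1} {x1 : Type u1} [x2 : Field x1] : NoZeroDivisors (Submodule (NumberField.RingOfIntegers x1) (NumberField.RingOfIntegers x1)) := inferInstance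
end AFast434651x5a
attribute [local instance] AFast434651x5a.a0 AFast434651x5a.a1 AFast434651x5a.a2 AFast434651x5a.a3
  AFast434651x5a.a4 AFast434651x5a.a5 AFast434651x5a.a6 AFast434651x5a.a7 AFast434651x5a.a8
  AFast434651x5a.a9 AFast434651x5a.a10 AFast434651x5a.a11 AFast434651x5a.a12 AFast434651x5a.a13
  AFast434651x5a.a14 AFast434651x5a.a15 AFast434651x5a.a16 AFast434651x5a.a17 AFast434651x5a.a18
  AFast434651x5a.a19 AFast434651x5a.a20 AFast434651x5a.a21 AFast434651x5a.a22 AFast434651x5a.a23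
  AFast434651x5a.a24 AFast434651x5a.a25 AFast434651x5a.a26 AFast434651x5a.a27 AFast434651x5a.a28
  AFast434651x5a.a29 AFast434651x5a.a30 AFast434651x5a.a31 AFast434651x5a.a32 AFast434651x5a.a33
  AFast434651x5a.a34 AFast434651x5a.a35 AFast434651x5a.a36 AFast434651x5a.a37 AFast434651x5a.a38
  AFast434651x5a.a39 AFast434651x5a.a40 AFast434651x5a.a41 AFast434651x5a.a42 AFast434651x5a.a43
  AFast434651x5a.a44 AFast434651x5a.a45 AFast434651x5a.a46 AFast434651x5a.a47 AFast434651x5a.a48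
  AFast434651x5a.a49 AFast434651x5a.a50 AFast434651x5a.a51 AFast434651x5a.a52 AFast434651x5a.a53
  AFast434651x5a.a54 AFast434651x5a.a55 AFast434651x5a.a56 AFast434651x5a.a57 AFast434651x5a.a58
  AFast434651x5a.a59 AFast434651x5a.a60 AFast434651x5a.a61 AFast434651x5a.a62 AFast434651x5a.a63
  AFast434651x5a.a64 AFast434651x5a.a65 AFast434651x5a.a66
namespace AFast434651x5b
theorem a0.{u1} {x1 : Type u1} [x2 : Field x1] : FaithfulSMul (NumberField.RingOfIntegers x1) x1 := inferInstance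
theorem a1.{u1, u2} {x1 : Type u1} {x2 : Type u2} [x3 : Field x2] [x4 : Field x1] [x5 : Algebra x2 x1] {x6 : IntermediateField x2 x1} : AddMonoidHomClass (↥x6 →+* x1) (↥x6) x1 := inferInstance
theorem a2.{u1, u2} {x1 : Type u1} {x2 : Type u2} [x3 : Field x2] [x4 : Field x1] [x5 : Algebra x2 x1] {x6 : IntermediateField x2 x1} : AddHomClass (Polynomial ↥x6 →ₐ[↥x6] x1) (Polynomial ↥x6) x1 := inferInstance
theorem a3.{u1, u2} {x1 : Type u1} {x2 : Type u2} [x3 : Field x2] [x4 : Field x1] [x5 : Algebra x2 x1] {x6 : IntermediateField x2 x1} : LinearMapClass (Polynomial ↥x6 →ₐ[↥x6] x1) (↥x6) (Polynomial ↥x6) x1 := inferInstance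
@[reducible] def a4.{u1, u2} {x1 : Type u1} {x2 : Type u2} [x3 : Field x2] [x4 : Field x1] [x5 : Algebra x2 x1] {x6 : IntermediateField x2 x1} [x7 : CharZero x1] : Module ℚ≥0 ↥x6 := inferInstance
@[reducible] noncomputable def a5.{u1, u2} {x1 : Type u1} {x2 : Type u2} [x3 : Field x2] [x4 : Field x1] [x5 : Algebra x2 x1] {x6 : IntermediateField x2 x1} : Algebra (↥x6) (Polynomial ↥x6) := inferInstance
theorem a6.{u1} {x1 : Type u1} [x2 : Field x1] : MulHomClass (Valuation x1 (WithZero (Multiplicative ℤ))) x1 (WithZero (Multiplicative ℤ)) := inferInstance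
@[reducible] def a7.{u1, u2} {x1 : Type u1} {x2 : Type u2} [x3 : Field x2] [x4 : Field x1] [x5 : Algebra x2 x1] {x6 : IntermediateField x2 x1} [x7 : CharZero x1] : Module ℚ ↥x6 := inferInstance
@[reducible] noncomputable def a8.{u1, u2} {x1 : Type u1} {x2 : Type u2} [x3 : Field x2] [x4 : Field x1] [x5 : Algebra x2 x1] {x6 : IntermediateField x2 x1} : Module (↥x6) (Polynomial ↥x6) := inferInstance
theorem a9.{u1, u2} {x1 : Type u1} {x2 : Type u2} [x3 : AddCommGroup x1] [x4 : AddCommGroup x2] : AddHomClass (x1 →+ x2) x1 x2 := inferInstance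
theorem a10 : Module.IsTorsionFree ℚ (AlgebraicClosure ℚ) := inferInstance
theorem a11.{u1} {x1 : Type u1} [x2 : Field x1] : AddMonoidHomClass (x1 ≃+* x1) x1 x1 := inferInstance
theorem a12.{u1} {x1 : Type u1} [x2 : Field x1] {x3 : ValuationSubring x1} : MulHomClass (Valuation x1 x3.ValueGroup) x1 x3.ValueGroup := inferInstance
theorem a13 : Module.FaithfullyFlat ℚ (AlgebraicClosure ℚ) := inferInstance
theorem a14.{u1} {x1 : Type u1} [x2 : Field x1] : AddMonoidHomClass (NumberField.RingOfIntegers x1 →+* x1) (NumberField.RingOfIntegers x1) x1 := inferInstance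
theorem a15 {x1 : Type} [x2 : Field x1] : FaithfulSMul (NumberField.RingOfIntegers x1) x1 := inferInstance
theorem a16.{u1, u2} {x1 : Type u1} [x2 : Field x1] {x3 : Type u2} [x4 : Field x3] [x5 : Algebra x1 x3] : FaithfulSMul (NumberField.RingOfIntegers x1) (NumberField.RingOfIntegers x3) := inferInstance
theorem a17.{u1} {x1 : Type u1} [x2 : Field x1] {x3 : IsDedekindDomain.HeightOneSpectrum (NumberField.RingOfIntegers x1)} : AddMonoidHomClass (NumberField.RingOfIntegers x1 →+* NumberField.RingOfIntegers x1 ⧸ x3.asIdeal) (NumberField.RingOfIntegers x1) (NumberField.RingOfIntegers x1 ⧸ x3.asIdeal) := inferInstance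
theorem a18.{u1, u2} {x1 : Type u1} {x2 : Type u2} [x3 : Field x2] [x4 : Field x1] [x5 : Algebra x2 x1] {x6 : IntermediateField x2 x1} [x7 : CharZero x1] : DistribMulActionSemiHomClass (↥x6 →+* x1) (⇑(RingHom.id ℚ≥0)) (↥x6) x1 := inferInstance
theorem a19.{u1, u2} {x1 : Type u1} {x2 : Type u2} [x3 : Field x2] [x4 : Field x1] [x5 : Algebra x2 x1] {x6 : IntermediateField x2 x1} [x7 : CharZero x1] : CharZero ↥x6 := inferInstance
theorem a20.{u1, u2, u3, u4} {x1 : Type u1} {x2 : Type u2} [x3 : Field x1] [x4 : Field x2] [x5 : Algebra x1 x2] {x6 : Type u3} {x7 : Type u4} [x8 : Field x6] [x9 : Field x7] [x10 : Algebra x6 x7] : MulHomClass (Gal(x2/x1) →* Gal(x7/x6)) Gal(x2/x1) Gal(x7/x6) := inferInstance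
@[reducible] def a21.{u1, u2} {x1 : Type u1} {x2 : Type u2} [x3 : Field x2] [x4 : Field x1] [x5 : Algebra x2 x1] {x6 : IntermediateField x2 x1} [x7 : CharZero x1] : Algebra ℚ≥0 ↥x6 := inferInstance
theorem a22 : Module.Flat ℚ (AlgebraicClosure ℚ) := inferInstance
theorem a23.{u1, u2} {x1 : Type u1} {x2 : Type u2} [x3 : Field x2] [x4 : Field x1] [x5 : Algebra x2 x1] {x6 : IntermediateField x2 x1} [x7 : CharZero x1] [x8 : NumberField ↥x6] : Algebra.IsAlgebraic ℚ ↥x6 := inferInstance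
theorem a24.{u1, u2} {x1 : Type u1} {x2 : Type u2} [x3 : Field x2] [x4 : Field x1] [x5 : Algebra x2 x1] {x6 : IntermediateField x2 x1} [x7 : CharZero x1] : LinearMapClass (↥x6 →+* x1) ℚ≥0 (↥x6) x1 := inferInstance
theorem a25.{u1} {x1 : Type u1} [x2 : Field x1] : Algebra.IsAlgebraic ℤ (NumberField.RingOfIntegers x1) := inferInstance
theorem a26.{u1, u2} {x1 : Type u1} {x2 : Type u2} [x3 : Field x1] [x4 : Field x2] : AddHomClass (x1 →+* x2) x1 x2 := inferInstance
theorem a27.{u1} {x1 : Type u1} [x2 : Field x1] : AddHomClass (NumberField.RingOfIntegers x1 →+* x1) (NumberField.RingOfIntegers x1) x1 := inferInstance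
@[reducible] def a28.{u1, u2} {x1 : Type u1} {x2 : Type u2} [x3 : Field x2] [x4 : Field x1] [x5 : Algebra x2 x1] {x6 : IntermediateField x2 x1} [x7 : CharZero x1] : Algebra ℚ ↥x6 := inferInstance
theorem a29.{u1, u2} {x1 : Type u1} {x2 : Type u2} [x3 : Field x2] [x4 : Field x1] [x5 : Algebra x2 x1] {x6 : IntermediateField x2 x1} : MulHomClass Gal(x1/↥x6) x1 x1 := inferInstance
theorem a30.{u1, u2} {x1 : Type u1} {x2 : Type u2} [x3 : Field x2] [x4 : Field x1] [x5 : Algebra x2 x1] {x6 : IntermediateField x2 x1} : NonUnitalAlgHomClass Gal(x1/↥x6) (↥x6) x1 x1 := inferInstance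
theorem a31 : IsScalarTower ℚ ℚ (AlgebraicClosure ℚ) := inferInstance
end AFast434651x5b
attribute [local instance] AFast434651x5b.a0 AFast434651x5b.a1 AFast434651x5b.a2 AFast434651x5b.a3
  AFast434651x5b.a4 AFast434651x5b.a5 AFast434651x5b.a6 AFast434651x5b.a7 AFast434651x5b.a8
  AFast434651x5b.a9 AFast434651x5b.a10 AFast434651x5b.a11 AFast434651x5b.a12 AFast434651x5b.a13
  AFast434651x5b.a14 AFast434651x5b.a15 AFast434651x5b.a16 AFast434651x5b.a17 AFast434651x5b.a18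
  AFast434651x5b.a19 AFast434651x5b.a20 AFast434651x5b.a21 AFast434651x5b.a22 AFast434651x5b.a23
  AFast434651x5b.a24 AFast434651x5b.a25 AFast434651x5b.a26 AFast434651x5b.a27 AFast434651x5b.a28
  AFast434651x5b.a29 AFast434651x5b.a30 AFast434651x5b.a31
section

section

/-!
The Heisenberg computation.
-/

namespace Vale.Agent.P024

open Finset

section Heis

variable {E : Type*} [Field E] {l : ℕ} {ζ : E}

lemma prod_one_sub (hl : 0 < l) (hζ : IsPrimitiveRoot ζ l) (X : E) (a : ℕ) :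
    ∏ i ∈ range l, (1 - ζ ^ (i + a) * X) = 1 - X ^ l := by
  have h := X_pow_sub_C_eq_prod hζ hl (α := ζ ^ a * X) (a := X ^ l) (by
    rw [mul_pow, ← pow_mul, mul_comm a l, pow_mul, hζ.pow_eq_one, one_pow, one_mul])
  have h2 := congrArg (Polynomial.eval 1) h
  rw [Polynomial.eval_prod] at h2
  simp only [Polynomial.eval_sub, Polynomial.eval_pow, Polynomial.eval_X, Polynomial.eval_C,
    one_pow] at h2
  rw [h2]
  refine prod_congr rfl fun i _ => ?_
  rw [pow_add, mul_assoc]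

lemma twist (hl : 0 < l) (hζ : IsPrimitiveRoot ζ l) (X : E) (a : ℕ) :
    (∏ i ∈ range l, (1 - ζ ^ (i + a) * X) ^ i) * (1 - X ^ l) ^ a =
      (∏ i ∈ range l, (1 - ζ ^ i * X) ^ i) * (∏ j ∈ range a, (1 - ζ ^ j * X)) ^ l := by
  induction a with
  | zero => simp
  | succ a ih =>
    have step : (∏ i ∈ range l, (1 - ζ ^ (i + (a + 1)) * X) ^ i) * (1 - X ^ l) =
        (∏ i ∈ range l, (1 - ζ ^ (i + a) * X) ^ i) * (1 - ζ ^ a * X) ^ l := by
      rw [← prod_one_sub hl hζ X (a + 1), ← prod_mul_distrib]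
      have e1 : ∀ i, (1 - ζ ^ (i + (a + 1)) * X) ^ i * (1 - ζ ^ (i + (a + 1)) * X) =
          (1 - ζ ^ ((i + 1) + a) * X) ^ (i + 1) := by
        intro i
        rw [← pow_succ, show i + (a + 1) = i + 1 + a by ring]
      simp only [e1]
      have e2 := Finset.prod_range_succ (fun i => (1 - ζ ^ (i + a) * X) ^ i) l
      have e3 := Finset.prod_range_succ' (fun i => (1 - ζ ^ (i + a) * X) ^ i) l
      rw [e2] at e3
      simp only [pow_zero, mul_one] at e3
      rw [← e3, pow_add, hζ.pow_eq_one, one_mul]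
    rw [pow_succ, prod_range_succ, mul_pow]
    calc _ = ((∏ i ∈ range l, (1 - ζ ^ (i + (a + 1)) * X) ^ i) * (1 - X ^ l)) *
            (1 - X ^ l) ^ a := by ring
      _ = ((∏ i ∈ range l, (1 - ζ ^ (i + a) * X) ^ i) * (1 - X ^ l) ^ a) *
            (1 - ζ ^ a * X) ^ l := by rw [step]; ring
      _ = _ := by rw [ih]; ring

lemma map_Z (hl : 0 < l) (hζ : IsPrimitiveRoot ζ l) (s : E ≃+* E) (hsζ : s ζ = ζ)
    (x X Y Z : E) (hX : X ^ l = x) (hY : Y ^ l = 1 - x)
    (hZ : Z ^ l = ∏ i ∈ range l, (1 - ζ ^ i * X) ^ i) (hZ0 : Z ≠ 0)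
    (hY0 : Y ≠ 0) (a : ℕ) (hsX : s X = ζ ^ a * X) :
    ∃ c : ℕ, s Z * Y ^ a = ζ ^ c * Z * ∏ j ∈ range a, (1 - ζ ^ j * X) := by
  have h1 : (s Z * Y ^ a) ^ l = (Z * ∏ j ∈ range a, (1 - ζ ^ j * X)) ^ l := by
    rw [mul_pow, mul_pow, ← map_pow, hZ, map_prod, ← twist hl hζ X a, ← pow_mul, mul_comm a l,
      pow_mul, hY, hX]
    congr 1
    refine prod_congr rfl fun i _ => ?_
    rw [map_pow, map_sub, map_mul, map_pow, hsζ, map_one, hsX, pow_add]
    ring
  have hne : Z * ∏ j ∈ range a, (1 - ζ ^ j * X) ≠ 0 := by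
    intro h0
    rw [h0, zero_pow hl.ne'] at h1
    have := pow_eq_zero_iff (hl.ne') |>.mp h1
    rcases mul_eq_zero.mp this with h2 | h2
    · exact hZ0 (by simpa using h2)
    · exact hY0 (pow_eq_zero_iff_of_pos' h2)
  have h2 : ((s Z * Y ^ a) / (Z * ∏ j ∈ range a, (1 - ζ ^ j * X))) ^ l = 1 := by
    rw [div_pow, h1, div_self (pow_ne_zero _ hne)]
  haveI : NeZero l := ⟨hl.ne'⟩
  obtain ⟨c, _, hc⟩ := hζ.eq_pow_of_pow_eq_one h2
  refine ⟨c, ?_⟩
  rw [hc, mul_assoc, div_mul_cancel₀ _ hne]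
where
  pow_eq_zero_iff_of_pos' {Y : E} {a : ℕ} (h : Y ^ a = 0) : Y = 0 := by
    by_contra hY
    exact pow_ne_zero a hY h

/-- `s, t` ring automorphisms fixing `x` and `ζ`, commuting on `Z`. -/
theorem heisenberg (hl : l.Prime) (hζ : IsPrimitiveRoot ζ l)
    (s t : E ≃+* E) (hsζ : s ζ = ζ) (htζ : t ζ = ζ)
    (x X Y Z : E) (hY0 : Y ≠ 0) (hX : X ^ l = x) (hY : Y ^ l = 1 - x)
    (hZ : Z ^ l = ∏ i ∈ Finset.range l, (1 - ζ ^ i * X) ^ i)
    (a b a' b' : ℕ) (hsX : s X = ζ ^ a * X) (hsY : s Y = ζ ^ b * Y)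
    (htX : t X = ζ ^ a' * X) (htY : t Y = ζ ^ b' * Y) (hst : s (t Z) = t (s Z)) :
    (a * b' : ℕ) ≡ a' * b [MOD l] := by
  have hl0 := hl.pos
  have hprod : ∏ i ∈ range l, (1 - ζ ^ i * X) = Y ^ l := by
    have := prod_one_sub hl0 hζ X 0
    simp only [add_zero] at this
    rw [this, hX, hY]
  have hne : ∀ i ∈ range l, (1 - ζ ^ i * X) ≠ 0 := by
    have : ∏ i ∈ range l, (1 - ζ ^ i * X) ≠ 0 := by rw [hprod]; exact pow_ne_zero _ hY0
    exact Finset.prod_ne_zero_iff.mp this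
  have hZ0 : Z ≠ 0 := by
    intro h0
    rw [h0, zero_pow hl0.ne'] at hZ
    exact (Finset.prod_ne_zero_iff.mpr fun i hi => pow_ne_zero _ (hne i hi)) hZ.symm
  obtain ⟨c, hc⟩ := map_Z hl0 hζ s hsζ x X Y Z hX hY hZ hZ0 hY0 a hsX
  obtain ⟨c', hc'⟩ := map_Z hl0 hζ t htζ x X Y Z hX hY hZ hZ0 hY0 a' htX
  have e1 : s (t Z) * (ζ ^ (b * a') * Y ^ (a + a')) =
      ζ ^ (c + c') * Z * ∏ j ∈ range (a + a'), (1 - ζ ^ j * X) := by
    have h := congrArg s hc'
    rw [map_mul, map_mul, map_mul, map_pow, map_pow, hsY, hsζ, map_prod] at h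
    have h3 : ∏ j ∈ range a', s (1 - ζ ^ j * X) = ∏ j ∈ range a', (1 - ζ ^ (a + j) * X) := by
      refine prod_congr rfl fun i _ => ?_
      rw [map_sub, map_mul, map_pow, hsζ, map_one, hsX, pow_add]; ring
    rw [h3] at h
    rw [prod_range_add]
    calc s (t Z) * (ζ ^ (b * a') * Y ^ (a + a'))
        = (s (t Z) * (ζ ^ b * Y) ^ a') * Y ^ a := by rw [pow_mul, pow_add, mul_pow]; ring
      _ = ζ ^ c' * (s Z * Y ^ a) * ∏ j ∈ range a', (1 - ζ ^ (a + j) * X) := by rw [h]; ring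
      _ = _ := by rw [hc, pow_add]; ring
  have e2 : t (s Z) * (ζ ^ (b' * a) * Y ^ (a + a')) =
      ζ ^ (c + c') * Z * ∏ j ∈ range (a + a'), (1 - ζ ^ j * X) := by
    have h := congrArg t hc
    rw [map_mul, map_mul, map_mul, map_pow, map_pow, htY, htζ, map_prod] at h
    have h3 : ∏ j ∈ range a, t (1 - ζ ^ j * X) = ∏ j ∈ range a, (1 - ζ ^ (a' + j) * X) := by
      refine prod_congr rfl fun i _ => ?_
      rw [map_sub, map_mul, map_pow, htζ, map_one, htX, pow_add]; ring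
    rw [h3] at h
    rw [add_comm a a', prod_range_add]
    calc t (s Z) * (ζ ^ (b' * a) * Y ^ (a' + a))
        = (t (s Z) * (ζ ^ b' * Y) ^ a) * Y ^ a' := by rw [pow_mul, pow_add, mul_pow]; ring
      _ = ζ ^ c * (t Z * Y ^ a') * ∏ j ∈ range a, (1 - ζ ^ (a' + j) * X) := by rw [h]; ring
      _ = _ := by rw [hc', pow_add]; ring
  rw [hst, ← e2] at e1
  have hts0 : t (s Z) ≠ 0 := by simpa using hZ0
  have e3 := mul_left_cancel₀ hts0 e1
  have e4 := mul_right_cancel₀ (pow_ne_zero _ hY0) e3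
  have e5 : ζ ^ (a * b') = ζ ^ (a' * b) := by rw [mul_comm a b', mul_comm a' b]; exact e4.symm
  haveI : NeZero l := ⟨hl0.ne'⟩
  have hu := hζ.isUnit hl0.ne'
  obtain ⟨u, hu⟩ := hu
  have hζu : IsPrimitiveRoot u l := by
    rw [← hu] at hζ; exact IsPrimitiveRoot.coe_units_iff.mp hζ
  have e6 : u ^ (a * b') = u ^ (a' * b) := by
    apply Units.ext; push_cast; rw [hu]; exact e5
  have := (pow_eq_pow_iff_modEq (x := u)).mp e6
  rwa [← hζu.eq_orderOf] at this

end Heis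

end Vale.Agent.P024
end
end

section

section

/-!
Rigid pairs of characters of a field give valuation rings.
-/

namespace Vale.Agent.P024.Rigid

variable {K : Type*} [Field K] {A B : Type*} [AddCommGroup A] [AddCommGroup B]

/-- Data for the construction of the valuation ring. -/
structure Datum (Ψ : K → A) (h : A →+ B) : Prop where
  mul : ∀ x y, x ≠ 0 → y ≠ 0 → Ψ (x * y) = Ψ x + Ψ y
  torsB : ∀ b : B, b + b = 0 → b = 0
  torsA : ∀ a : A, a + a = 0 → a = 0
  good : ∀ x, x ≠ 0 → h (Ψ x) ≠ 0 → 1 + x ≠ 0 ∧ (Ψ (1 + x) = 0 ∨ Ψ (1 + x) = Ψ x)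

variable {Ψ : K → A} {h : A →+ B}

namespace Datum

variable (D : Datum Ψ h)
include D

lemma map_one : Ψ 1 = 0 := by
  have := D.mul 1 1 one_ne_zero one_ne_zero
  rw [mul_one] at this
  exact (left_eq_add.mp this)

lemma map_neg_one : Ψ (-1) = 0 := by
  have := D.mul (-1) (-1) (by simp) (by simp)
  rw [neg_one_mul, neg_neg, D.map_one] at this
  exact D.torsA _ this.symm

lemma map_neg (x : K) : Ψ (-x) = Ψ x := by
  by_cases hx : x = 0
  · simp [hx]
  · have := D.mul (-1) x (by simp) hx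
    rw [neg_one_mul, D.map_neg_one, zero_add] at this
    exact this

lemma map_inv {x : K} (hx : x ≠ 0) : Ψ x⁻¹ = - Ψ x := by
  have := D.mul x x⁻¹ hx (inv_ne_zero hx)
  rw [mul_inv_cancel₀ hx, D.map_one] at this
  exact (neg_eq_of_add_eq_zero_right this.symm).symm

/-- sum property -/
lemma sum {r s : K} (hr : r ≠ 0) (hs : s ≠ 0) (hrs : h (Ψ r) ≠ h (Ψ s)) :
    r + s ≠ 0 ∧ (Ψ (r + s) = Ψ r ∨ Ψ (r + s) = Ψ s) := by
  have hz : r⁻¹ * s ≠ 0 := mul_ne_zero (inv_ne_zero hr) hs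
  have hΨ : Ψ (r⁻¹ * s) = - Ψ r + Ψ s := by
    rw [D.mul _ _ (inv_ne_zero hr) hs, D.map_inv hr]
  have hh : h (Ψ (r⁻¹ * s)) ≠ 0 := by
    rw [hΨ, _root_.map_add, _root_.map_neg]
    intro h0
    apply hrs
    have := neg_add_eq_zero.mp h0
    exact this
  obtain ⟨h1, h2⟩ := D.good _ hz hh
  have hrw : r + s = r * (1 + r⁻¹ * s) := by
    field_simp
  refine ⟨?_, ?_⟩
  · rw [hrw]; exact mul_ne_zero hr h1
  · rw [hrw, D.mul _ _ hr h1]
    rcases h2 with h2 | h2
    · left; rw [h2, add_zero]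
    · right; rw [h2, hΨ]; abel

end Datum

/-- The set `O⁻`. -/
def OM (Ψ : K → A) (h : A →+ B) : Set K := {x | x ≠ 0 ∧ h (Ψ x) ≠ 0 ∧ Ψ (1 + x) = 0}

/-- The set `O⁺`. -/
def OP (Ψ : K → A) (h : A →+ B) : Set K :=
  {x | x ≠ 0 ∧ h (Ψ x) = 0 ∧ ∀ y ∈ OM Ψ h, x * y ∈ OM Ψ h}

namespace Datum

variable (D : Datum Ψ h)
include D

lemma om_or_inv {x : K} (hx : x ≠ 0) (hh : h (Ψ x) ≠ 0) : x ∈ OM Ψ h ∨ x⁻¹ ∈ OM Ψ h := by
  obtain ⟨h1, h2⟩ := D.good x hx hh
  rcases h2 with h2 | h2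
  · left; exact ⟨hx, hh, h2⟩
  · right
    refine ⟨inv_ne_zero hx, ?_, ?_⟩
    · rw [D.map_inv hx, _root_.map_neg]; simpa using hh
    · have : 1 + x⁻¹ = x⁻¹ * (1 + x) := by field_simp; ring
      rw [this, D.mul _ _ (inv_ne_zero hx) h1, D.map_inv hx, h2]; abel

lemma not_both {x : K} (h1 : x ∈ OM Ψ h) (h2 : x⁻¹ ∈ OM Ψ h) : False := by
  obtain ⟨hx, hh, h3⟩ := h1
  obtain ⟨hx', hh', h4⟩ := h2
  have h5 : 1 + x ≠ 0 := (D.good x hx hh).1
  have : 1 + x⁻¹ = x⁻¹ * (1 + x) := by field_simp; ring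
  rw [this, D.mul _ _ (inv_ne_zero hx) h5, h3, add_zero] at h4
  apply hh'
  rw [h4, map_zero]

lemma om_neg {x : K} (hx : x ∈ OM Ψ h) : -x ∈ OM Ψ h := by
  obtain ⟨hx0, hh, h1⟩ := hx
  have hnx : -x ≠ 0 := neg_ne_zero.mpr hx0
  have hhn : h (Ψ (-x)) ≠ 0 := by rwa [D.map_neg]
  refine ⟨hnx, hhn, ?_⟩
  obtain ⟨h2, h3⟩ := D.good (-x) hnx hhn
  rcases h3 with h3 | h3
  · exact h3
  · exfalso
    rw [D.map_neg] at h3
    have h4 : 1 + x ≠ 0 := (D.good x hx0 hh).1
    have h5 : Ψ (1 + -(x * x)) = Ψ x := by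
      have : (1 : K) + -(x * x) = (1 + -x) * (1 + x) := by ring
      rw [this, D.mul _ _ h2 h4, h3, h1, add_zero]
    have hxx : x * x ≠ 0 := mul_ne_zero hx0 hx0
    have h6 : Ψ (-(x * x)) = Ψ x + Ψ x := by rw [D.map_neg, D.mul _ _ hx0 hx0]
    have h7 : h (Ψ (-(x * x))) ≠ 0 := by
      rw [h6, map_add]
      exact fun h0 => hh (D.torsB _ h0)
    obtain ⟨_, h8⟩ := D.good (-(x * x)) (neg_ne_zero.mpr hxx) h7
    rw [h5, h6] at h8
    apply hh
    rcases h8 with h8 | h8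
    · rw [h8, map_zero]
    · rw [left_eq_add.mp h8, map_zero]

/-- (A) -/
lemma one_add_mul {x y : K} (hx : x ∈ OM Ψ h) (hy : y ∈ OM Ψ h) :
    1 + x * y ≠ 0 ∧ Ψ (1 + x * y) = 0 := by
  have key : ∀ {x y : K}, x ∈ OM Ψ h → y ∈ OM Ψ h →
      1 + x * y ≠ 0 ∧ (Ψ (1 + x * y) = 0 ∨ Ψ (1 + x * y) = Ψ x) := by
    intro x y hx hy
    have hny := D.om_neg hy
    have h1y : 1 + -y ≠ 0 := (D.good (-y) hny.1 hny.2.1).1
    have h1x : 1 + x ≠ 0 := (D.good x hx.1 hx.2.1).1
    have hs0 : (-x) * (1 + -y) ≠ 0 := mul_ne_zero (neg_ne_zero.mpr hx.1) h1y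
    have hΨs : Ψ ((-x) * (1 + -y)) = Ψ x := by
      rw [D.mul _ _ (neg_ne_zero.mpr hx.1) h1y, D.map_neg, hny.2.2, add_zero]
    have hne : h (Ψ (1 + x)) ≠ h (Ψ ((-x) * (1 + -y))) := by
      rw [hΨs, hx.2.2, map_zero]; exact fun h0 => hx.2.1 h0.symm
    obtain ⟨h1, h2⟩ := D.sum h1x hs0 hne
    have hrw : (1 : K) + x * y = 1 + x + -x * (1 + -y) := by ring
    rw [hrw]
    refine ⟨h1, ?_⟩
    rcases h2 with h2 | h2
    · left; rw [h2, hx.2.2]
    · right; rw [h2, hΨs]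
  obtain ⟨h0, h1⟩ := key hx hy
  refine ⟨h0, ?_⟩
  rcases h1 with h1 | h1
  · exact h1
  obtain ⟨_, h2⟩ := key hy hx
  rw [mul_comm y x] at h2
  rcases h2 with h2 | h2
  · exact h2
  exfalso
  have hΨ : Ψ (x * y) = Ψ x + Ψ x := by
    rw [D.mul _ _ hx.1 hy.1, ← h2, h1]
  have hh : h (Ψ (x * y)) ≠ 0 := by
    rw [hΨ, map_add]; exact fun h0 => hx.2.1 (D.torsB _ h0)
  obtain ⟨_, h3⟩ := D.good (x * y) (mul_ne_zero hx.1 hy.1) hh
  rw [h1, hΨ] at h3
  apply hx.2.1
  rcases h3 with h3 | h3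
  · rw [h3, map_zero]
  · rw [left_eq_add.mp h3, map_zero]

lemma om_mul_om {x y : K} (hx : x ∈ OM Ψ h) (hy : y ∈ OM Ψ h) (hxy : h (Ψ (x * y)) ≠ 0) :
    x * y ∈ OM Ψ h :=
  ⟨mul_ne_zero hx.1 hy.1, hxy, (D.one_add_mul hx hy).2⟩

lemma om_mul_om' {x y : K} (hx : x ∈ OM Ψ h) (hy : y ∈ OM Ψ h) (hxy : h (Ψ (x * y)) = 0) :
    x * y ∈ OP Ψ h := by
  refine ⟨mul_ne_zero hx.1 hy.1, hxy, ?_⟩
  intro z hz
  have hxy' : h (Ψ x) + h (Ψ y) = 0 := by rw [← map_add, ← D.mul _ _ hx.1 hy.1, hxy]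
  have hxyz : h (Ψ (x * y * z)) ≠ 0 := by
    rw [D.mul _ _ (mul_ne_zero hx.1 hy.1) hz.1, map_add, hxy, zero_add]; exact hz.2.1
  by_cases hyz : h (Ψ (y * z)) = 0
  · by_cases hxz : h (Ψ (x * z)) = 0
    · exfalso
      rw [D.mul _ _ hy.1 hz.1, map_add] at hyz
      rw [D.mul _ _ hx.1 hz.1, map_add] at hxz
      apply hz.2.1
      apply D.torsB
      have : h (Ψ z) + h (Ψ z) = (h (Ψ x) + h (Ψ z)) + (h (Ψ y) + h (Ψ z))
          - (h (Ψ x) + h (Ψ y)) := by abel
      rw [this, hyz, hxz, hxy']; simp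
    · have h1 := D.om_mul_om hx hz hxz
      have h2 : y * (x * z) ∈ OM Ψ h := D.om_mul_om hy h1 (by
        rw [show y * (x * z) = x * y * z by ring]; exact hxyz)
      rwa [show y * (x * z) = x * y * z by ring] at h2
  · have h1 := D.om_mul_om hy hz hyz
    have h2 : x * (y * z) ∈ OM Ψ h := D.om_mul_om hx h1 (by
      rw [show x * (y * z) = x * y * z by ring]; exact hxyz)
    rwa [show x * (y * z) = x * y * z by ring] at h2

lemma op_mul_om {x y : K} (hx : x ∈ OP Ψ h) (hy : y ∈ OM Ψ h) : x * y ∈ OM Ψ h :=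
  hx.2.2 y hy

lemma op_mul_op {x y : K} (hx : x ∈ OP Ψ h) (hy : y ∈ OP Ψ h) : x * y ∈ OP Ψ h := by
  refine ⟨mul_ne_zero hx.1 hy.1, ?_, ?_⟩
  · rw [D.mul _ _ hx.1 hy.1, map_add, hx.2.1, hy.2.1, add_zero]
  · intro z hz
    rw [mul_assoc]
    exact hx.2.2 _ (hy.2.2 _ hz)

end Datum

/-- The carrier of the valuation ring. -/
def OO (Ψ : K → A) (h : A →+ B) : Set K := {x | x = 0 ∨ x ∈ OM Ψ h ∨ x ∈ OP Ψ h}

namespace Datum

variable (D : Datum Ψ h)
include D

lemma om_of_oo {x : K} (hx : x ∈ OO Ψ h) (hx0 : x ≠ 0) (hh : h (Ψ x) ≠ 0) : x ∈ OM Ψ h := by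
  rcases hx with hx | hx | hx
  · exact absurd hx hx0
  · exact hx
  · exact absurd hx.2.1 hh

lemma oo_mul {x y : K} (hx : x ∈ OO Ψ h) (hy : y ∈ OO Ψ h) : x * y ∈ OO Ψ h := by
  rcases hx with hx | hx | hx
  · left; rw [hx, zero_mul]
  · rcases hy with hy | hy | hy
    · left; rw [hy, mul_zero]
    · by_cases hh : h (Ψ (x * y)) = 0
      · right; right; exact D.om_mul_om' hx hy hh
      · right; left; exact D.om_mul_om hx hy hh
    · right; left; rw [mul_comm]; exact D.op_mul_om hy hx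
  · rcases hy with hy | hy | hy
    · left; rw [hy, mul_zero]
    · right; left; exact D.op_mul_om hx hy
    · right; right; exact D.op_mul_op hx hy

lemma oo_or_inv (x : K) : x ∈ OO Ψ h ∨ x⁻¹ ∈ OO Ψ h := by
  by_cases hx0 : x = 0
  · left; left; exact hx0
  by_cases hh : h (Ψ x) = 0
  · by_cases hxp : x ∈ OP Ψ h
    · left; right; right; exact hxp
    right; right; right
    have : ∃ z ∈ OM Ψ h, x * z ∉ OM Ψ h := by
      by_contra hcon
      push Not at hcon
      exact hxp ⟨hx0, hh, hcon⟩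
    obtain ⟨z, hz, hxz⟩ := this
    have hxz0 : x * z ≠ 0 := mul_ne_zero hx0 hz.1
    have hhxz : h (Ψ (x * z)) ≠ 0 := by
      rw [D.mul _ _ hx0 hz.1, map_add, hh, zero_add]; exact hz.2.1
    have hinv : (x * z)⁻¹ ∈ OM Ψ h := (D.om_or_inv hxz0 hhxz).resolve_left hxz
    refine ⟨inv_ne_zero hx0, by rw [D.map_inv hx0, _root_.map_neg, hh, neg_zero], ?_⟩
    intro y hy
    have h1 : y * ((x * z)⁻¹ * z) ∈ OO Ψ h :=
      D.oo_mul (Or.inr (Or.inl hy)) (D.oo_mul (Or.inr (Or.inl hinv)) (Or.inr (Or.inl hz)))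
    have h2 : y * ((x * z)⁻¹ * z) = x⁻¹ * y := by
      have := hz.1
      field_simp
    rw [h2] at h1
    refine D.om_of_oo h1 (mul_ne_zero (inv_ne_zero hx0) hy.1) ?_
    rw [D.mul _ _ (inv_ne_zero hx0) hy.1, map_add, D.map_inv hx0, _root_.map_neg, hh, neg_zero,
      zero_add]
    exact hy.2.1
  · rcases D.om_or_inv hx0 hh with h1 | h1
    · left; right; left; exact h1
    · right; right; left; exact h1

lemma one_add_om {x : K} (hx : x ∈ OM Ψ h) : 1 + x ∈ OP Ψ h := by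
  have h1x : 1 + x ≠ 0 := (D.good x hx.1 hx.2.1).1
  refine ⟨h1x, by rw [hx.2.2, map_zero], ?_⟩
  intro z hz
  have h1z : 1 + z ≠ 0 := (D.good z hz.1 hz.2.1).1
  have hw0 : (1 + x) * z ≠ 0 := mul_ne_zero h1x hz.1
  have hΨw : Ψ ((1 + x) * z) = Ψ z := by rw [D.mul _ _ h1x hz.1, hx.2.2, zero_add]
  have hhw : h (Ψ ((1 + x) * z)) ≠ 0 := by rw [hΨw]; exact hz.2.1
  refine ⟨hw0, hhw, ?_⟩
  obtain ⟨h1w, h2⟩ := D.good _ hw0 hhw
  rcases h2 with h2 | h2
  · exact h2
  exfalso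
  rw [hΨw] at h2
  by_cases hxz : h (Ψ (x * z)) = 0
  · have hxz' : h (Ψ x) + h (Ψ z) = 0 := by rw [← map_add, ← D.mul _ _ hx.1 hz.1, hxz]
    have hne : h (Ψ (1 + (1 + x) * z)) ≠ h (Ψ x) := by
      rw [h2]
      intro h0
      apply hz.2.1
      apply D.torsB
      rw [← hxz', h0]
    obtain ⟨_, h3⟩ := D.sum h1w hx.1 hne
    have h4 : 1 + (1 + x) * z + x = (1 + x) * (1 + z) := by ring
    rw [h4, D.mul _ _ h1x h1z, hx.2.2, hz.2.2, add_zero] at h3
    rcases h3 with h3 | h3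
    · apply hz.2.1; rw [← h2, ← h3, map_zero]
    · apply hx.2.1; rw [← h3, map_zero]
  · have hxz0 : x * z ≠ 0 := mul_ne_zero hx.1 hz.1
    have hne : h (Ψ (1 + z)) ≠ h (Ψ (x * z)) := by
      rw [hz.2.2, map_zero]; exact fun h0 => hxz h0.symm
    obtain ⟨_, h3⟩ := D.sum h1z hxz0 hne
    have h4 : 1 + z + x * z = 1 + (1 + x) * z := by ring
    rw [h4, h2, hz.2.2, D.mul _ _ hx.1 hz.1] at h3
    rcases h3 with h3 | h3
    · apply hz.2.1; rw [h3, map_zero]
    · apply hx.2.1; rw [right_eq_add.mp h3, map_zero]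

lemma one_add_op {x : K} (hx : x ∈ OP Ψ h) (h1x : 1 + x ≠ 0) : 1 + x ∈ OO Ψ h := by
  by_cases hh : h (Ψ (1 + x)) = 0
  · right; right
    refine ⟨h1x, hh, ?_⟩
    intro z hz
    have h1z : 1 + z ≠ 0 := (D.good z hz.1 hz.2.1).1
    have hxz : x * z ∈ OM Ψ h := hx.2.2 z hz
    have h1xz : 1 + x * z ≠ 0 := (D.good _ hxz.1 hxz.2.1).1
    have hw0 : (1 + x) * z ≠ 0 := mul_ne_zero h1x hz.1
    have hhw : h (Ψ ((1 + x) * z)) ≠ 0 := by
      rw [D.mul _ _ h1x hz.1, map_add, hh, zero_add]; exact hz.2.1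
    refine ⟨hw0, hhw, ?_⟩
    obtain ⟨h1w, _⟩ := D.good _ hw0 hhw
    by_contra hcon
    have hne : h (Ψ (1 + z)) ≠ h (Ψ (x * z)) := by
      rw [hz.2.2, map_zero]; exact fun h0 => hxz.2.1 h0.symm
    obtain ⟨_, h3⟩ := D.sum h1z hxz.1 hne
    have h4 : 1 + z + x * z = 1 + (1 + x) * z := by ring
    rw [h4, hz.2.2] at h3
    have h5 : Ψ (1 + (1 + x) * z) = Ψ (x * z) := h3.resolve_left hcon
    have hne' : h (Ψ (1 + x * z)) ≠ h (Ψ z) := by
      rw [hxz.2.2, map_zero]; exact fun h0 => hz.2.1 h0.symm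
    obtain ⟨_, h6⟩ := D.sum h1xz hz.1 hne'
    have h7 : 1 + x * z + z = 1 + (1 + x) * z := by ring
    rw [h7, hxz.2.2] at h6
    have h8 : Ψ (1 + (1 + x) * z) = Ψ z := h6.resolve_left hcon
    have hΨx : Ψ x = 0 := by
      have : Ψ (x * z) = Ψ z := by rw [← h5, h8]
      rw [D.mul _ _ hx.1 hz.1] at this
      exact add_eq_right.mp this
    have hxzz0 : x * z * z ≠ 0 := mul_ne_zero hxz.1 hz.1
    have hΨ2 : Ψ (x * z * z) = Ψ z + Ψ z := by
      rw [D.mul _ _ hxz.1 hz.1, D.mul _ _ hx.1 hz.1, hΨx, zero_add]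
    have hne2 : h (Ψ (1 + (1 + x) * z)) ≠ h (Ψ (x * z * z)) := by
      rw [h8, hΨ2, map_add]
      intro h0
      exact hz.2.1 (left_eq_add.mp h0)
    obtain ⟨_, h9⟩ := D.sum h1w hxzz0 hne2
    have h10 : 1 + (1 + x) * z + x * z * z = (1 + z) * (1 + x * z) := by ring
    rw [h10, D.mul _ _ h1z h1xz, hz.2.2, hxz.2.2, add_zero, h8, hΨ2] at h9
    rcases h9 with h9 | h9
    · apply hz.2.1; rw [← h9, map_zero]
    · apply hz.2.1
      apply D.torsB
      rw [← map_add, ← h9, map_zero]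
  · right; left
    rcases D.om_or_inv h1x hh with h1 | h1
    · exact h1
    · exfalso
      have hn := D.om_neg h1
      have h2 : 1 + -(1 + x)⁻¹ = (1 + x)⁻¹ * x := by field_simp; ring
      have h3 := hn.2.2
      rw [h2, D.mul _ _ (inv_ne_zero h1x) hx.1] at h3
      apply h1.2.1
      rw [eq_neg_of_add_eq_zero_left h3, _root_.map_neg, hx.2.1, neg_zero]

lemma one_add_oo {x : K} (hx : x ∈ OO Ψ h) : 1 + x ∈ OO Ψ h := by
  by_cases h1x : 1 + x = 0
  · left; exact h1x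
  rcases hx with hx | hx | hx
  · rw [hx, add_zero]
    right; right
    refine ⟨one_ne_zero, by rw [D.map_one, map_zero], ?_⟩
    intro y hy; rwa [one_mul]
  · right; right; exact D.one_add_om hx
  · exact D.one_add_op hx h1x

lemma oo_add {x y : K} (hx : x ∈ OO Ψ h) (hy : y ∈ OO Ψ h) : x + y ∈ OO Ψ h := by
  by_cases hx0 : x = 0
  · rw [hx0, zero_add]; exact hy
  by_cases hy0 : y = 0
  · rw [hy0, add_zero]; exact hx
  rcases D.oo_or_inv (x⁻¹ * y) with h1 | h1
  · have : x + y = x * (1 + x⁻¹ * y) := by field_simp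
    rw [this]
    exact D.oo_mul hx (D.one_add_oo h1)
  · have : x + y = y * (1 + (x⁻¹ * y)⁻¹) := by field_simp; ring
    rw [this]
    exact D.oo_mul hy (D.one_add_oo h1)

lemma one_mem : (1 : K) ∈ OO Ψ h := by
  have := D.one_add_oo (x := 0) (Or.inl rfl)
  rwa [add_zero] at this

lemma neg_one_mem : (-1 : K) ∈ OO Ψ h := by
  right; right
  refine ⟨by simp, by rw [D.map_neg_one, map_zero], ?_⟩
  intro y hy
  rw [neg_one_mul]
  exact D.om_neg hy

/-- The valuation ring. -/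
def valuationSubring : ValuationSubring K where
  carrier := OO Ψ h
  mul_mem' := D.oo_mul
  one_mem' := D.one_mem
  add_mem' := D.oo_add
  zero_mem' := Or.inl rfl
  neg_mem' := by
    intro x hx
    rw [← neg_one_mul]
    exact D.oo_mul D.neg_one_mem hx
  mem_or_inv_mem' := D.oo_or_inv

lemma mem_valuationSubring {x : K} : x ∈ D.valuationSubring ↔ x ∈ OO Ψ h := Iff.rfl

lemma one_add_of_inv_notMem {x : K} (hx : x ∈ D.valuationSubring)
    (hx' : x⁻¹ ∉ D.valuationSubring) : Ψ (1 + x) = 0 := by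
  rw [D.mem_valuationSubring] at hx hx'
  rcases hx with hx | hx | hx
  · rw [hx, add_zero, D.map_one]
  · exact hx.2.2
  · have hx0 := hx.1
    have hxi0 := inv_ne_zero hx0
    have hh : h (Ψ x⁻¹) = 0 := by rw [D.map_inv hx0, _root_.map_neg, hx.2.1, neg_zero]
    have : ∃ z ∈ OM Ψ h, x⁻¹ * z ∉ OM Ψ h := by
      by_contra hcon
      push Not at hcon
      exact hx' (Or.inr (Or.inr ⟨hxi0, hh, hcon⟩))
    obtain ⟨z, hz, hxz⟩ := this
    have hhxz : h (Ψ (x⁻¹ * z)) ≠ 0 := by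
      rw [D.mul _ _ hxi0 hz.1, map_add, hh, zero_add]; exact hz.2.1
    have hinv := (D.om_or_inv (mul_ne_zero hxi0 hz.1) hhxz).resolve_left hxz
    have h1 := (D.one_add_mul hinv hz).2
    have h2 : (x⁻¹ * z)⁻¹ * z = x := by
      have := hz.1
      field_simp
    rwa [h2] at h1

lemma exists_notMem {z : K} (hz : z ≠ 0) (hh : h (Ψ z) ≠ 0) : ∃ x, x ∉ D.valuationSubring := by
  by_contra hcon
  push Not at hcon
  have h1 : z ∈ OM Ψ h := D.om_of_oo (hcon z) hz hh
  have hh' : h (Ψ z⁻¹) ≠ 0 := by rw [D.map_inv hz, _root_.map_neg]; simpa using hh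
  have h2 : z⁻¹ ∈ OM Ψ h := D.om_of_oo (hcon z⁻¹) (inv_ne_zero hz) hh'
  exact D.not_both h1 h2

end Datum

end Vale.Agent.P024.Rigid
end
end

section

section

/-!
A pair of characters with values in `ZMod l` (`l` an odd prime) killing the symbols `{x, 1 - x}`
comes from a valuation ring.
-/

namespace Vale.Agent.P024.Rigid

variable {K : Type*} [Field K] {l : ℕ} [Fact l.Prime]

/-- A pair of characters killing `{x, 1 + x}`. -/
structure RPair (f g : K → ZMod l) : Prop where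
  fmul : ∀ x y, x ≠ 0 → y ≠ 0 → f (x * y) = f x + f y
  gmul : ∀ x y, x ≠ 0 → y ≠ 0 → g (x * y) = g x + g y
  rel : ∀ x, x ≠ 0 → 1 + x ≠ 0 → f x * g (1 + x) = f (1 + x) * g x

lemma zmod_two_ne (hl : l ≠ 2) : (2 : ZMod l) ≠ 0 := by
  have hp := (Fact.out : l.Prime)
  intro h
  have : ((2 : ℕ) : ZMod l) = 0 := by exact_mod_cast h
  rw [ZMod.natCast_eq_zero_iff] at this
  exact hl ((Nat.prime_dvd_prime_iff_eq hp Nat.prime_two).mp this)

namespace RPair

variable {f g : K → ZMod l} (P : RPair f g)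
include P

lemma fone : f 1 = 0 := by
  have := P.fmul 1 1 one_ne_zero one_ne_zero
  rw [mul_one] at this
  exact (left_eq_add.mp this)

lemma gone : g 1 = 0 := by
  have := P.gmul 1 1 one_ne_zero one_ne_zero
  rw [mul_one] at this
  exact (left_eq_add.mp this)

lemma finv {x : K} (hx : x ≠ 0) : f x⁻¹ = - f x := by
  have := P.fmul x x⁻¹ hx (inv_ne_zero hx)
  rw [mul_inv_cancel₀ hx, P.fone] at this
  exact (neg_eq_of_add_eq_zero_right this.symm).symm

lemma ginv {x : K} (hx : x ≠ 0) : g x⁻¹ = - g x := by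
  have := P.gmul x x⁻¹ hx (inv_ne_zero hx)
  rw [mul_inv_cancel₀ hx, P.gone] at this
  exact (neg_eq_of_add_eq_zero_right this.symm).symm

lemma fneg_one (hl : l ≠ 2) : f (-1) = 0 := by
  have := P.fmul (-1) (-1) (by simp) (by simp)
  rw [neg_one_mul, neg_neg, P.fone, ← two_mul] at this
  exact (mul_eq_zero.mp this.symm).resolve_left (zmod_two_ne hl)

lemma gneg_one (hl : l ≠ 2) : g (-1) = 0 := by
  have := P.gmul (-1) (-1) (by simp) (by simp)
  rw [neg_one_mul, neg_neg, P.gone, ← two_mul] at this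
  exact (mul_eq_zero.mp this.symm).resolve_left (zmod_two_ne hl)

/-- The line property. -/
lemma line {r s : K} (hr : r ≠ 0) (hs : s ≠ 0) (hrs : r + s ≠ 0) :
    (f (r + s) - f r) * (g s - g r) = (g (r + s) - g r) * (f s - f r) := by
  have hz : r⁻¹ * s ≠ 0 := mul_ne_zero (inv_ne_zero hr) hs
  have hrw : r + s = r * (1 + r⁻¹ * s) := by field_simp
  have h1 : 1 + r⁻¹ * s ≠ 0 := by
    intro h; apply hrs; rw [hrw, h, mul_zero]
  have hrel := P.rel _ hz h1
  rw [P.fmul _ _ (inv_ne_zero hr) hs, P.gmul _ _ (inv_ne_zero hr) hs, P.finv hr, P.ginv hr] at hrel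
  rw [hrw, P.fmul _ _ hr h1, P.gmul _ _ hr h1]
  linear_combination -hrel

lemma add_ne_zero (hl : l ≠ 2) {r s : K} (hr : r ≠ 0)
    (hrs : f r ≠ f s ∨ g r ≠ g s) : r + s ≠ 0 := by
  intro h
  have h1 : s = (-1) * r := by linear_combination h
  rcases hrs with h2 | h2
  · apply h2
    rw [h1, P.fmul _ _ (by simp) hr, P.fneg_one hl, zero_add]
  · apply h2
    rw [h1, P.gmul _ _ (by simp) hr, P.gneg_one hl, zero_add]

/-- Two independent bad elements are impossible. -/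
lemma no_two_bad (hl : l ≠ 2) {x y : K} (hx0 : x ≠ 0) (hy0 : y ≠ 0)
    (hfx : f x = 1) (hgx : g x = 0) (hfy : f y = 0) (hgy : g y = 1)
    (hx1 : 1 + x ≠ 0) (hy1 : 1 + y ≠ 0)
    (ha0 : f (1 + x) ≠ 0) (ha1 : f (1 + x) ≠ 1) (hgx1 : g (1 + x) = 0)
    (hb0 : g (1 + y) ≠ 0) (hb1 : g (1 + y) ≠ 1) (hfy1 : f (1 + y) = 0) : False := by
  set a := f (1 + x) with ha
  set b := g (1 + y) with hb
  have ha1' : 1 - a ≠ 0 := fun h => ha1 (by linear_combination -h)
  have hb1' : 1 - b ≠ 0 := fun h => hb1 (by linear_combination -h)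
  obtain ⟨p, hp⟩ : ∃ p : ZMod l, p * (1 - a) = a := ⟨a / (1 - a), div_mul_cancel₀ _ ha1'⟩
  obtain ⟨q, hq⟩ : ∃ q : ZMod l, q * (1 - b) = b := ⟨b / (1 - b), div_mul_cancel₀ _ hb1'⟩
  have hp0 : p ≠ 0 := by rintro rfl; apply ha0; rw [← hp, zero_mul]
  have hq0 : q ≠ 0 := by rintro rfl; apply hb0; rw [← hq, zero_mul]
  -- the induction
  have key : ∀ i : ℕ, 1 ≤ i →
      ((i : K) + x ≠ 0 ∧ f (i + x) * (i + p) = p ∧ g (i + x) = 0) ∧
      ((i : K) + y ≠ 0 ∧ g (i + y) * (i + q) = q ∧ f (i + y) = 0) ∧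
      ((i : K) + x + y ≠ 0 ∧ ((i : ZMod l) + p + q ≠ 0) ∧ f (i + x + y) * (i + p + q) = p ∧
        g (i + x + y) * (i + p + q) = q) := by
    intro i hi
    induction i, hi using Nat.le_induction with
    | base =>
      simp only [Nat.cast_one]
      have h1x : f (1 + x) * (1 + p) = p := by rw [← ha]; linear_combination -hp
      have h1y : g (1 + y) * (1 + q) = q := by rw [← hb]; linear_combination -hq
      refine ⟨⟨hx1, h1x, hgx1⟩, ⟨hy1, h1y, hfy1⟩, ?_⟩
      have hne : (1 : K) + x + y ≠ 0 :=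
        P.add_ne_zero hl hx1 (Or.inr (by rw [hgx1, hgy]; exact zero_ne_one))
      set u := f (1 + x + y) with hu
      set t := g (1 + x + y) with ht
      -- line through 1+x and y
      have l1 := P.line hx1 hy0 hne
      rw [← hu, ← ht, ← ha, hgx1, hfy, hgy] at l1
      -- line through 1+y and x
      have hrw : (1 : K) + x + y = 1 + y + x := by ring
      have hne2 : (1 : K) + y + x ≠ 0 := by rwa [← hrw]
      have l2 := P.line hy1 hx0 hne2
      rw [← hrw, ← hu, ← ht, ← hb, hfy1, hfx, hgx] at l2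
      -- l1 : (u - a) * (1 - 0) = (t - 0) * (0 - a)
      -- l2 : (u - 0) * (0 - b) = (t - b) * (1 - 0)
      have e1 : u * (1 + p) + t * p = p := by linear_combination (1 + p) * l1 - (1 - t) * hp
      have e2 : u * q + t * (1 + q) = q := by
        linear_combination -(1 + q) * l2 - (1 - u) * hq
      have hN : (1 : ZMod l) + p + q ≠ 0 := by
        intro hN
        have h3 : p + q = 0 := by
          have : (u + t) * (1 + p + q) = p + q := by linear_combination e1 + e2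
          rw [← this, hN, mul_zero]
        have : (1 : ZMod l) = 0 := by linear_combination hN - h3
        exact one_ne_zero this
      have hs : (1 - (u + t)) * (1 + p + q) = 1 := by linear_combination -e1 - e2
      refine ⟨hne, hN, ?_, ?_⟩
      · have : u = p * (1 - (u + t)) := by linear_combination e1
        rw [this]; linear_combination p * hs
      · have : t = q * (1 - (u + t)) := by linear_combination e2
        rw [this]; linear_combination q * hs
    | succ i hi ih =>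
      obtain ⟨⟨hx0', hfi, hgi⟩, ⟨hy0', hgi', hfi'⟩, ⟨hxy0', hN, hfxy, hgxy⟩⟩ := ih
      push_cast
      have hfC0 : f (i + x + y) ≠ 0 := by
        intro h0; rw [h0, zero_mul] at hfxy; exact hp0 hfxy.symm
      -- C_{i+1}
      have hC0 : (i : K) + 1 + x + y ≠ 0 := by
        have := P.add_ne_zero hl hxy0' (Or.inl (by rw [P.fone]; exact hfC0))
        intro h0; apply this; linear_combination h0
      set u := f ((i : K) + 1 + x + y) with hu
      set t := g ((i : K) + 1 + x + y) with ht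
      have hut : u * q = t * p := by
        have hrw : (i : K) + 1 + x + y = 1 + (i + x + y) := by ring
        have hr := P.line one_ne_zero hxy0' (by rwa [← hrw])
        rw [← hrw, ← hu, ← ht, P.fone, P.gone] at hr
        have : (u * q - t * p) * 1 = 0 := by
          linear_combination (↑i + p + q) * hr - u * hgxy + t * hfxy
        linear_combination this
      have hi0 : (i : ZMod l) + p ≠ 0 := by
        intro h0; rw [h0, mul_zero] at hfi; exact hp0 hfi.symm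
      have hiq0 : (i : ZMod l) + q ≠ 0 := by
        intro h0; rw [h0, mul_zero] at hgi'; exact hq0 hgi'.symm
      have h1q : g (1 + y) * (1 + q) = q := by rw [← hb]; linear_combination -hq
      have h1q0 : (1 : ZMod l) + q ≠ 0 := by
        intro h0; rw [h0, mul_zero] at h1q; exact hq0 h1q.symm
      have hC2 : u * (i + p) * q + t * p * (1 + q) = p * q := by
        have hrw : (i : K) + 1 + x + y = (i + x) + (1 + y) := by ring
        have hr := P.line hx0' hy1 (by rwa [← hrw])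
        rw [← hrw, ← hu, ← ht, hgi, hfy1] at hr
        -- (u - A) * (B - 0) = (t - 0) * (0 - A)
        linear_combination (↑i + p) * (1 + q) * hr + (p - t * (1 + q)) * h1q * 0
          - (u * (i+p) - f (i + x) * (i + p)) * h1q + q * hfi * 1
          - t * (1 + q) * hfi
      have hs1 : u * (i + 1 + p + q) = p := by
        have : u * (i + 1 + p + q) * q = p * q := by
          linear_combination hC2 - (- (1 + q)) * hut * 1
        exact mul_right_cancel₀ hq0 this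
      have ht1 : t * (i + 1 + p + q) = q := by
        have : t * (i + 1 + p + q) * p = q * p := by
          linear_combination hC2 - ((i + p)) * hut * 1
        exact mul_right_cancel₀ hp0 this
      have hN1 : (i : ZMod l) + 1 + p + q ≠ 0 := by
        intro h0; rw [h0, mul_zero] at hs1; exact hp0 hs1.symm
      -- A_{i+1}
      have hfA0 : f (i + x) ≠ 0 := by
        intro h0; rw [h0, zero_mul] at hfi; exact hp0 hfi.symm
      have hA0 : (i : K) + 1 + x ≠ 0 := by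
        have := P.add_ne_zero hl hx0' (Or.inl (by rw [P.fone]; exact hfA0))
        intro h0; apply this; linear_combination h0
      have hgA : g (i + 1 + x) = 0 := by
        have hrw : (i : K) + 1 + x = 1 + (i + x) := by ring
        have hr := P.line one_ne_zero hx0' (by rwa [← hrw])
        rw [← hrw, P.fone, P.gone, hgi] at hr
        have : g (i + 1 + x) * f (i + x) = 0 := by linear_combination -hr
        exact (mul_eq_zero.mp this).resolve_right hfA0
      have hfA : f (i + 1 + x) * (i + 1 + p) = p := by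
        have hr := P.line hA0 hy0 hC0
        rw [← hu, ← ht, hgA, hfy, hgy] at hr
        -- (u - F) * (1 - 0) = (t - 0) * (0 - F)
        linear_combination -(i + 1 + p + q) * hr + hs1 + f (i + 1 + x) * ht1
      -- B_{i+1}
      have hgB0 : g (i + y) ≠ 0 := by
        intro h0; rw [h0, zero_mul] at hgi'; exact hq0 hgi'.symm
      have hB0 : (i : K) + 1 + y ≠ 0 := by
        have := P.add_ne_zero hl hy0' (Or.inr (by rw [P.gone]; exact hgB0))
        intro h0; apply this; linear_combination h0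
      have hfB : f (i + 1 + y) = 0 := by
        have hrw : (i : K) + 1 + y = 1 + (i + y) := by ring
        have hr := P.line one_ne_zero hy0' (by rwa [← hrw])
        rw [← hrw, P.fone, P.gone, hfi'] at hr
        have : f (i + 1 + y) * g (i + y) = 0 := by linear_combination hr
        exact (mul_eq_zero.mp this).resolve_right hgB0
      have hgB : g (i + 1 + y) * (i + 1 + q) = q := by
        have hrw : (i : K) + 1 + x + y = (i + 1 + y) + x := by ring
        have hr := P.line hB0 hx0 (by rwa [← hrw])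
        rw [← hrw, ← hu, ← ht, hfB, hfx, hgx] at hr
        -- (u - 0) * (0 - G) = (t - G) * (1 - 0)
        linear_combination (i + 1 + p + q) * hr + ht1 + g (i + 1 + y) * hs1
      exact ⟨⟨hA0, hfA, hgA⟩, ⟨hB0, hgB, hfB⟩, ⟨hC0, hN1, hs1, ht1⟩⟩
  have hlpos : 0 < l := (Fact.out : l.Prime).pos
  -- choose i ≡ -p
  obtain ⟨i, hi1, hi2⟩ : ∃ i : ℕ, 1 ≤ i ∧ (i : ZMod l) = -p := by
    refine ⟨(-p).val + l, by omega, ?_⟩
    push_cast
    rw [ZMod.natCast_zmod_val, ZMod.natCast_self, add_zero]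
  obtain ⟨⟨_, h, _⟩, _⟩ := key i hi1
  rw [hi2] at h
  apply hp0
  rw [← h]; ring

/-- determinant form of the bad element lemma -/
lemma no_two_bad' (hl : l ≠ 2) {x y : K} (hx0 : x ≠ 0) (hy0 : y ≠ 0)
    (hD : f x * g y - f y * g x ≠ 0)
    (hx1 : 1 + x ≠ 0) (hy1 : 1 + y ≠ 0)
    (hbx : ¬ (f (1 + x) = 0 ∧ g (1 + x) = 0)) (hbx' : ¬ (f (1 + x) = f x ∧ g (1 + x) = g x))
    (hby : ¬ (f (1 + y) = 0 ∧ g (1 + y) = 0)) (hby' : ¬ (f (1 + y) = f y ∧ g (1 + y) = g y)) :
    False := by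
  set D := f x * g y - f y * g x with hDdef
  let f' : K → ZMod l := fun z => (f z * g y - f y * g z) / D
  let g' : K → ZMod l := fun z => (f x * g z - f z * g x) / D
  have P' : RPair f' g' := by
    refine ⟨?_, ?_, ?_⟩
    · intro a b ha hb
      simp only [f']
      rw [P.fmul a b ha hb, P.gmul a b ha hb]; ring
    · intro a b ha hb
      simp only [g']
      rw [P.fmul a b ha hb, P.gmul a b ha hb]; ring
    · intro a ha ha1
      have := P.rel a ha ha1
      simp only [f', g']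
      rw [div_mul_div_comm, div_mul_div_comm]
      congr 1
      linear_combination D * this
  have rec1 : ∀ z, f z = f' z * f x + g' z * f y := by
    intro z
    simp only [f', g']
    field_simp
    rw [hDdef]; ring
  have rec2 : ∀ z, g z = f' z * g x + g' z * g y := by
    intro z
    simp only [f', g']
    field_simp
    rw [hDdef]; ring
  have hf'x : f' x = 1 := div_self hD
  have hg'x : g' x = 0 := by simp only [g']; rw [sub_self, zero_div]
  have hf'y : f' y = 0 := by simp only [f']; rw [sub_self, zero_div]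
  have hg'y : g' y = 1 := div_self hD
  have hgx1 : g' (1 + x) = 0 := by
    have := P'.rel x hx0 hx1
    rw [hf'x, hg'x] at this; linear_combination this
  have hfy1 : f' (1 + y) = 0 := by
    have := P'.rel y hy0 hy1
    rw [hf'y, hg'y] at this; linear_combination -this
  refine P'.no_two_bad hl hx0 hy0 hf'x hg'x hf'y hg'y hx1 hy1 ?_ ?_ hgx1 ?_ ?_ hfy1
  · intro h0
    apply hbx
    rw [rec1 (1 + x), rec2 (1 + x), h0, hgx1]
    constructor <;> ring
  · intro h0
    apply hbx'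
    rw [rec1 (1 + x), rec2 (1 + x), h0, hgx1]
    constructor <;> ring
  · intro h0
    apply hby
    rw [rec1 (1 + y), rec2 (1 + y), h0, hfy1]
    constructor <;> ring
  · intro h0
    apply hby'
    rw [rec1 (1 + y), rec2 (1 + y), h0, hfy1]
    constructor <;> ring

/-- An independent pair of characters killing `{x, 1 + x}` is trivial on `1 + 𝔪` for some
nontrivial valuation ring. -/
theorem exists_valuationSubring (hl : l ≠ 2) (hind : ∃ x y, x ≠ 0 ∧ y ≠ 0 ∧ f x * g y ≠ f y * g x) :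
    ∃ O : ValuationSubring K, (∃ x, x ∉ O) ∧
      ∀ x, x ∈ O → x⁻¹ ∉ O → f (1 + x) = 0 ∧ g (1 + x) = 0 := by
  classical
  have h2 := zmod_two_ne (l := l) hl
  let Ψ : K → ZMod l × ZMod l := fun z => (f z, g z)
  have hmul : ∀ x y, x ≠ 0 → y ≠ 0 → Ψ (x * y) = Ψ x + Ψ y := by
    intro x y hx hy
    simp only [Ψ, Prod.mk_add_mk, P.fmul x y hx hy, P.gmul x y hx hy]
  have tors1 : ∀ b : ZMod l, b + b = 0 → b = 0 := by
    intro b hb
    rw [← two_mul] at hb
    exact (mul_eq_zero.mp hb).resolve_left h2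
  have tors2 : ∀ a : ZMod l × ZMod l, a + a = 0 → a = 0 := by
    rintro ⟨a, b⟩ h
    rw [Prod.mk_add_mk, Prod.mk_eq_zero] at h
    rw [Prod.mk_eq_zero]
    exact ⟨tors1 _ h.1, tors1 _ h.2⟩
  -- general conclusion from a functional
  have concl : ∀ h : ZMod l × ZMod l →+ ZMod l, (∃ z, z ≠ 0 ∧ h (Ψ z) ≠ 0) →
      (∀ x, x ≠ 0 → h (Ψ x) ≠ 0 → (Ψ (1 + x) = 0 ∨ Ψ (1 + x) = Ψ x)) →
      ∃ O : ValuationSubring K, (∃ x, x ∉ O) ∧
      ∀ x, x ∈ O → x⁻¹ ∉ O → f (1 + x) = 0 ∧ g (1 + x) = 0 := by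
    intro h ⟨z, hz0, hz⟩ hgood
    have D : Datum Ψ h := by
      refine ⟨hmul, tors1, tors2, ?_⟩
      intro x hx hh
      refine ⟨?_, hgood x hx hh⟩
      intro h0
      have hx1 : x = -1 := by linear_combination h0
      apply hh
      have : Ψ x = 0 := by
        rw [hx1]
        simp only [Ψ, P.fneg_one hl, P.gneg_one hl]
        rfl
      rw [this, map_zero]
    refine ⟨D.valuationSubring, D.exists_notMem hz0 hz, ?_⟩
    intro x hx hx'
    have := D.one_add_of_inv_notMem hx hx'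
    simp only [Ψ, Prod.mk_eq_zero] at this
    exact this
  by_cases hbad : ∃ x, x ≠ 0 ∧ 1 + x ≠ 0 ∧ Ψ (1 + x) ≠ 0 ∧ Ψ (1 + x) ≠ Ψ x ∧ Ψ x ≠ 0
  · obtain ⟨x₀, hx0, hx1, hb1, hb2, hΨ0⟩ := hbad
    let h : ZMod l × ZMod l →+ ZMod l :=
      { toFun := fun a => f x₀ * a.2 - a.1 * g x₀
        map_zero' := by simp
        map_add' := by intro a b; simp only [Prod.fst_add, Prod.snd_add]; ring }
    have hh : ∀ z, h (Ψ z) = f x₀ * g z - f z * g x₀ := fun z => rfl
    refine concl h ?_ ?_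
    · by_contra hcon
      push Not at hcon
      obtain ⟨x, y, hx, hy, hxy⟩ := hind
      have e1 := hcon x hx
      have e2 := hcon y hy
      rw [hh] at e1 e2
      apply hxy
      by_cases hf0 : f x₀ = 0
      · have hg0 : g x₀ ≠ 0 := by
          intro hg0; apply hΨ0; simp only [Ψ, hf0, hg0]; rfl
        have h3 : f x = 0 := by
          have : f x * g x₀ = 0 := by linear_combination -e1 + g x * hf0
          exact (mul_eq_zero.mp this).resolve_right hg0
        have h4 : f y = 0 := by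
          have : f y * g x₀ = 0 := by linear_combination -e2 + g y * hf0
          exact (mul_eq_zero.mp this).resolve_right hg0
        rw [h3, h4]; ring
      · apply mul_left_cancel₀ hf0
        linear_combination f x * e2 - f y * e1
    · intro x hx hhx
      by_contra hcon
      push Not at hcon
      obtain ⟨hc1, hc2⟩ := hcon
      have hx1' : 1 + x ≠ 0 := by
        intro h0
        have hx1 : x = -1 := by linear_combination h0
        apply hhx
        rw [hh, hx1, P.fneg_one hl, P.gneg_one hl]; ring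
      refine P.no_two_bad' hl hx0 hx ?_ hx1 hx1' ?_ ?_ ?_ ?_
      · rw [hh] at hhx; exact hhx
      · intro h0; apply hb1; simp only [Ψ, h0.1, h0.2]; rfl
      · intro h0; apply hb2; simp only [Ψ, h0.1, h0.2]
      · intro h0; apply hc1; simp only [Ψ, h0.1, h0.2]; rfl
      · intro h0; apply hc2; simp only [Ψ, h0.1, h0.2]
  · push Not at hbad
    have hgood : ∀ x, x ≠ 0 → Ψ x ≠ 0 → (Ψ (1 + x) = 0 ∨ Ψ (1 + x) = Ψ x) := by
      intro x hx hΨ
      by_contra hcon
      push Not at hcon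
      have hx1' : 1 + x ≠ 0 := by
        intro h0
        have hx1 : x = -1 := by linear_combination h0
        apply hΨ
        rw [hx1]
        simp only [Ψ, P.fneg_one hl, P.gneg_one hl]
        rfl
      exact hΨ (hbad x hx hx1' hcon.1 hcon.2)
    obtain ⟨x, y, hx, hy, hxy⟩ := hind
    by_cases hfne : ∃ z, z ≠ 0 ∧ f z ≠ 0
    · refine concl (AddMonoidHom.fst _ _) hfne ?_
      intro z hz hfz
      apply hgood z hz
      intro h0; apply hfz; rw [h0]; rfl
    · push Not at hfne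
      exfalso
      apply hxy
      rw [hfne x hx, hfne y hy]; ring

end RPair

end Vale.Agent.P024.Rigid
end
end

section

section

/-!
Kummer exponents of automorphisms and the resulting rigid pair.
-/

namespace Vale.Agent.P024

section Kum

variable {E : Type*} [Field E] {l : ℕ} {ζ : E}

open Classical in
/-- exponent of `g` on an `l`-th root of `x`. -/
noncomputable def kum (hpow : ∀ x : E, ∃ y : E, y ^ l = x) (ζ : E) (g : E ≃+* E) (x : E) :
    ZMod l :=
  if h : ∃ e : ℕ, g (hpow x).choose = ζ ^ e * (hpow x).choose then (h.choose : ZMod l) else 0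

lemma pow_eq_pow_iff' (hl : 0 < l) (hζ : IsPrimitiveRoot ζ l) (i j : ℕ) :
    ζ ^ i = ζ ^ j ↔ (i : ZMod l) = j := by
  have hu := hζ.isUnit hl.ne'
  obtain ⟨u, hu⟩ := hu
  have hζu : IsPrimitiveRoot u l := by
    rw [← hu] at hζ; exact IsPrimitiveRoot.coe_units_iff.mp hζ
  have h1 : ζ ^ i = ζ ^ j ↔ u ^ i = u ^ j := by
    rw [← hu, ← Units.val_pow_eq_pow_val, ← Units.val_pow_eq_pow_val, Units.val_inj]
  rw [h1, pow_eq_pow_iff_modEq, ← hζu.eq_orderOf, ZMod.natCast_eq_natCast_iff]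

variable (hpow : ∀ x : E, ∃ y : E, y ^ l = x)

lemma exists_exp (hl : 0 < l) (hζ : IsPrimitiveRoot ζ l) {b c : E} (hc : c ≠ 0)
    (h : b ^ l = c ^ l) : ∃ e : ℕ, b = ζ ^ e * c := by
  have h2 : (b / c) ^ l = 1 := by
    rw [div_pow, h, div_self (pow_ne_zero _ hc)]
  have : NeZero l := ⟨hl.ne'⟩
  obtain ⟨e, _, he⟩ := hζ.eq_pow_of_pow_eq_one h2
  exact ⟨e, by rw [he, div_mul_cancel₀ _ hc]⟩

lemma kum_spec (hl : 0 < l) (hζ : IsPrimitiveRoot ζ l) {g : E ≃+* E} (hgζ : g ζ = ζ)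
    {x : E} (hx0 : x ≠ 0) (hgx : g x = x) {b : E} (hb : b ^ l = x) (e : ℕ) :
    g b = ζ ^ e * b ↔ (e : ZMod l) = kum hpow ζ g x := by
  set c := (hpow x).choose with hc
  have hcl : c ^ l = x := (hpow x).choose_spec
  have hc0 : c ≠ 0 := by
    rintro h0; rw [h0, zero_pow hl.ne'] at hcl; exact hx0 hcl.symm
  have hex : ∃ e : ℕ, g (hpow x).choose = ζ ^ e * (hpow x).choose := by
    apply exists_exp hl hζ hc0
    rw [← map_pow, ← hc, hcl, hgx]
  have hk : kum hpow ζ g x = (hex.choose : ZMod l) := by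
    unfold kum; rw [dif_pos hex]
  have hks : g c = ζ ^ hex.choose * c := hex.choose_spec
  generalize hex.choose = e1 at hk hks
  obtain ⟨k, hk2⟩ := exists_exp hl hζ hc0 (hb.trans hcl.symm)
  have hgb : g b = ζ ^ e1 * b := by
    rw [hk2, map_mul, map_pow, hgζ, hks]; ring
  have hb0 : b ≠ 0 := by
    rintro h0; rw [h0, zero_pow hl.ne'] at hb; exact hx0 hb.symm
  rw [hgb, hk, mul_left_inj' hb0, pow_eq_pow_iff' hl hζ]
  exact eq_comm

lemma exists_kum (hl : 0 < l) (hζ : IsPrimitiveRoot ζ l) {g : E ≃+* E} (hgζ : g ζ = ζ)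
    {x : E} (hx0 : x ≠ 0) (hgx : g x = x) {b : E} (hb : b ^ l = x) :
    ∃ e : ℕ, g b = ζ ^ e * b ∧ (e : ZMod l) = kum hpow ζ g x := by
  have hb0 : b ≠ 0 := by
    rintro h0; rw [h0, zero_pow hl.ne'] at hb; exact hx0 hb.symm
  obtain ⟨e, he⟩ := exists_exp (b := g b) hl hζ hb0 (by rw [← map_pow, hb, hgx])
  exact ⟨e, he, (kum_spec hpow hl hζ hgζ hx0 hgx hb e).mp he⟩

lemma kum_mul (hl : 0 < l) (hζ : IsPrimitiveRoot ζ l) {g : E ≃+* E} (hgζ : g ζ = ζ)
    {x y : E} (hx0 : x ≠ 0) (hy0 : y ≠ 0) (hgx : g x = x) (hgy : g y = y) :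
    kum hpow ζ g (x * y) = kum hpow ζ g x + kum hpow ζ g y := by
  obtain ⟨b, hb⟩ := hpow x
  obtain ⟨c, hc⟩ := hpow y
  obtain ⟨e, he, he'⟩ := exists_kum hpow hl hζ hgζ hx0 hgx hb
  obtain ⟨f, hf, hf'⟩ := exists_kum hpow hl hζ hgζ hy0 hgy hc
  rw [← he', ← hf']
  have h1 : g (b * c) = ζ ^ (e + f) * (b * c) := by rw [map_mul, he, hf, pow_add]; ring
  have h2 := (kum_spec hpow hl hζ hgζ (mul_ne_zero hx0 hy0) (by rw [map_mul, hgx, hgy])
    (b := b * c) (by rw [mul_pow, hb, hc]) (e + f)).mp h1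
  rw [← h2]; push_cast; ring

lemma kum_eq_zero_iff (hl : 0 < l) (hζ : IsPrimitiveRoot ζ l) {g : E ≃+* E} (hgζ : g ζ = ζ)
    {x : E} (hx0 : x ≠ 0) (hgx : g x = x) {b : E} (hb : b ^ l = x) :
    kum hpow ζ g x = 0 ↔ g b = b := by
  have := kum_spec hpow hl hζ hgζ hx0 hgx hb 0
  rw [pow_zero, one_mul, Nat.cast_zero] at this
  rw [this]; exact eq_comm

lemma kum_pow_l (hl : 0 < l) (hζ : IsPrimitiveRoot ζ l) {g : E ≃+* E} (hgζ : g ζ = ζ)
    {x : E} (hx0 : x ≠ 0) (hgx : g x = x) : kum hpow ζ g (x ^ l) = 0 :=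
  (kum_eq_zero_iff hpow hl hζ hgζ (pow_ne_zero _ hx0) (by rw [map_pow, hgx]) rfl).mpr hgx

lemma kum_pow (hl : 0 < l) (hζ : IsPrimitiveRoot ζ l) {g : E ≃+* E} (hgζ : g ζ = ζ)
    {x : E} (hx0 : x ≠ 0) (hgx : g x = x) (n : ℕ) :
    kum hpow ζ g (x ^ n) = n * kum hpow ζ g x := by
  induction n with
  | zero =>
    rw [pow_zero, Nat.cast_zero, zero_mul]
    exact (kum_eq_zero_iff hpow hl hζ hgζ one_ne_zero (map_one _) (one_pow l)).mpr (map_one _)
  | succ n ih =>
    rw [pow_succ, kum_mul hpow hl hζ hgζ (pow_ne_zero _ hx0) hx0 (by rw [map_pow, hgx]) hgx, ih]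
    push_cast; ring

end Kum

section Pair

variable {E : Type*} [Field E] {l : ℕ} [Fact l.Prime] {ζ : E}

/-- The common fixed field of `s` and `t`. -/
def fixed2 (s t : E ≃+* E) : Subfield E :=
  RingHom.eqLocusField (s : E →+* E) (RingHom.id E) ⊓
    RingHom.eqLocusField (t : E →+* E) (RingHom.id E)

lemma mem_fixed2 {s t : E ≃+* E} {x : E} : x ∈ fixed2 s t ↔ s x = x ∧ t x = x := by
  unfold fixed2
  rw [Subfield.mem_inf]
  rfl

/-- Commutation on the Heisenberg element. -/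
lemma comm_on_Z (hζ : IsPrimitiveRoot ζ l) {s t δ : E ≃+* E} {q : ℕ}
    (hsζ : s ζ = ζ) (htζ : t ζ = ζ)
    (hrel : ∀ x, s (t x) = δ ((t ^ q) (s x))) (hq1 : 1 ≤ q) (hq2 : l ^ 2 ∣ q - 1)
    (hδ : ∀ b : E, (δ ^ l) b = b → δ b = b)
    {x X Y Z : E} (hX : X ^ l = x) (hY : Y ^ l = 1 - x) (hsx : s x = x) (htx : t x = x)
    (hX0 : X ≠ 0) (hY0 : Y ≠ 0)
    (hZ : Z ^ l = ∏ i ∈ Finset.range l, (1 - ζ ^ i * X) ^ i) : s (t Z) = t (s Z) := by
  have hl : l.Prime := Fact.out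
  have hl0 := hl.pos
  have hlq : l ∣ q - 1 := dvd_trans (dvd_pow_self l two_ne_zero) hq2
  have hprod : ∏ i ∈ Finset.range l, (1 - ζ ^ i * X) = Y ^ l := by
    have := prod_one_sub hl0 hζ X 0
    simp only [add_zero] at this
    rw [this, hX, hY]
  have hne : ∀ i ∈ Finset.range l, (1 - ζ ^ i * X) ≠ 0 := by
    have : ∏ i ∈ Finset.range l, (1 - ζ ^ i * X) ≠ 0 := by rw [hprod]; exact pow_ne_zero _ hY0
    exact Finset.prod_ne_zero_iff.mp this
  have hZ0 : Z ≠ 0 := by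
    intro h0
    rw [h0, zero_pow hl0.ne'] at hZ
    exact (Finset.prod_ne_zero_iff.mpr fun i hi => pow_ne_zero _ (hne i hi)) hZ.symm
  -- powers of `t` on Kummer elements
  have tpow : ∀ (W : E) (c : ℕ), t W = ζ ^ c * W → ∀ n : ℕ, (t ^ n) W = ζ ^ (c * n) * W := by
    intro W c hW n
    induction n with
    | zero => simp
    | succ n ih =>
      rw [pow_succ', RingAut.mul_apply, ih, map_mul, map_pow, htζ, hW, Nat.mul_succ, pow_add]; ring
  have tpow_l : ∀ (W : E) (c : ℕ), t W = ζ ^ c * W → ∀ n : ℕ, l ∣ n → (t ^ n) W = W := by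
    intro W c hW n ⟨k, hk⟩
    rw [tpow W c hW n, hk, show c * (l * k) = l * (c * k) by ring, pow_mul, hζ.pow_eq_one,
      one_pow, one_mul]
  have tq : ∀ W : E, (t ^ (q - 1)) W = W → (t ^ q) W = t W := by
    intro W hW
    have : q = (q - 1) + 1 := by omega
    rw [this, pow_succ', RingAut.mul_apply, hW]
  -- δ fixes ζ
  have htqζ : ∀ n : ℕ, (t ^ n) ζ = ζ := by
    intro n
    induction n with
    | zero => rfl
    | succ n ih => rw [pow_succ', RingAut.mul_apply, ih, htζ]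
  have hδζ : δ ζ = ζ := by
    have := hrel ζ
    rw [htζ, hsζ, htqζ] at this
    exact this.symm
  -- δ fixes Kummer elements
  have hδK : ∀ (W : E) (a a' : ℕ), s W = ζ ^ a * W → t W = ζ ^ a' * W → W ≠ 0 → δ W = W := by
    intro W a a' hs ht hW
    have h1 := hrel W
    rw [ht, hs, map_mul, map_pow, hsζ, hs, map_mul, map_pow, htqζ, tq W (tpow_l W a' ht _ hlq),
      ht, map_mul, map_mul, map_pow, map_pow, hδζ] at h1
    have h2 : ζ ^ a * (ζ ^ a' * W) = ζ ^ a * (ζ ^ a' * δ W) := by rw [← h1]; ring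
    have hζ0 : ζ ≠ 0 := hζ.ne_zero hl0.ne'
    have h3 := mul_left_cancel₀ (pow_ne_zero a hζ0) h2
    exact (mul_left_cancel₀ (pow_ne_zero a' hζ0) h3).symm
  obtain ⟨a, hsX⟩ := exists_exp (b := s X) hl0 hζ hX0 (by rw [← map_pow, hX, hsx])
  obtain ⟨a', htX⟩ := exists_exp (b := t X) hl0 hζ hX0 (by rw [← map_pow, hX, htx])
  obtain ⟨b, hsY⟩ := exists_exp (b := s Y) hl0 hζ hY0
    (by rw [← map_pow, hY, map_sub, map_one, hsx])
  obtain ⟨b', htY⟩ := exists_exp (b := t Y) hl0 hζ hY0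
    (by rw [← map_pow, hY, map_sub, map_one, htx])
  have hδX : δ X = X := hδK X a a' hsX htX hX0
  have hδY : δ Y = Y := hδK Y b b' hsY htY hY0
  -- an automorphism fixing ζ and X maps Z to a multiple
  have hfixZ : ∀ g : E ≃+* E, g ζ = ζ → g X = X → ∃ c : ℕ, g Z = ζ ^ c * Z := by
    intro g hgζ hgX
    apply exists_exp hl0 hζ hZ0
    rw [← map_pow, hZ, map_prod]
    refine Finset.prod_congr rfl fun i _ => ?_
    rw [map_pow, map_sub, map_mul, map_pow, hgζ, map_one, hgX]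
  have hfixpow : ∀ g : E ≃+* E, g ζ = ζ → g X = X → (g ^ l) Z = Z := by
    intro g hgζ hgX
    obtain ⟨c, hc⟩ := hfixZ g hgζ hgX
    have gp : ∀ n : ℕ, (g ^ n) Z = ζ ^ (c * n) * Z := by
      intro n
      induction n with
      | zero => simp
      | succ n ih =>
        rw [pow_succ', RingAut.mul_apply, ih, map_mul, map_pow, hgζ, hc, Nat.mul_succ, pow_add]; ring
    rw [gp, mul_comm c l, pow_mul, hζ.pow_eq_one, one_pow, one_mul]
  have hδZ : δ Z = Z := hδ Z (hfixpow δ hδζ hδX)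
  have htqZ : (t ^ (q - 1)) Z = Z := by
    obtain ⟨k, hk⟩ := hq2
    have h1 : ((t ^ l) ^ l) Z = Z := hfixpow (t ^ l) (htqζ l) (tpow_l X a' htX l (dvd_refl l))
    have h2 : ∀ n : ℕ, (((t ^ l) ^ l) ^ n) Z = Z := by
      intro n
      induction n with
      | zero => rfl
      | succ n ih => rw [pow_succ', RingAut.mul_apply, ih, h1]
    rw [hk, pow_two, mul_assoc, pow_mul, pow_mul]
    exact h2 k
  -- the field generated by ζ, X, Y, Z
  let M : Subfield E := Subfield.closure {ζ, X, Y, Z}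
  have hζM : ζ ∈ M := Subfield.subset_closure (by simp)
  have hXM : X ∈ M := Subfield.subset_closure (by simp)
  have hYM : Y ∈ M := Subfield.subset_closure (by simp)
  have hZM : Z ∈ M := Subfield.subset_closure (by simp)
  have hMfix : ∀ g : E ≃+* E, g ζ = ζ → g X = X → g Y = Y → g Z = Z → ∀ w ∈ M, g w = w := by
    intro g h1 h2 h3 h4 w hw
    have : M ≤ RingHom.eqLocusField (g : E →+* E) (RingHom.id E) := by
      rw [Subfield.closure_le]
      intro y hy
      simp only [Set.mem_insert_iff, Set.mem_singleton_iff] at hy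
      rcases hy with rfl | rfl | rfl | rfl
      · exact h1
      · exact h2
      · exact h3
      · exact h4
    exact this hw
  have hmapM : ∀ (g : E ≃+* E) (a b : ℕ), g ζ = ζ → g X = ζ ^ a * X → g Y = ζ ^ b * Y →
      ∀ w ∈ M, g w ∈ M := by
    intro g a b h1 h2 h3 w hw
    have : M ≤ M.comap (g : E →+* E) := by
      rw [Subfield.closure_le]
      intro y hy
      simp only [Set.mem_insert_iff, Set.mem_singleton_iff] at hy
      change g y ∈ M
      rcases hy with rfl | rfl | rfl | rfl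
      · rw [h1]; exact hζM
      · rw [h2]; exact M.mul_mem (pow_mem hζM _) hXM
      · rw [h3]; exact M.mul_mem (pow_mem hζM _) hYM
      · obtain ⟨c, hc⟩ := map_Z hl0 hζ g h1 x X Y y hX hY hZ hZ0 hY0 a h2
        have : g y = ζ ^ c * y * (∏ j ∈ Finset.range a, (1 - ζ ^ j * X)) * (Y ^ a)⁻¹ := by
          rw [← hc, mul_assoc, mul_inv_cancel₀ (pow_ne_zero _ hY0), mul_one]
        rw [this]
        refine M.mul_mem (M.mul_mem (M.mul_mem (pow_mem hζM _) hZM) ?_)
          (M.inv_mem (pow_mem hYM _))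
        exact M.prod_mem fun j _ => M.sub_mem M.one_mem (M.mul_mem (pow_mem hζM _) hXM)
    exact this hw
  have hsZM : s Z ∈ M := hmapM s a b hsζ hsX hsY Z hZM
  have htsZM : t (s Z) ∈ M := hmapM t a' b' htζ htX htY _ hsZM
  have e1 : (t ^ (q - 1)) (s Z) = s Z :=
    hMfix (t ^ (q - 1)) (htqζ _) (tpow_l X a' htX _ hlq) (tpow_l Y b' htY _ hlq) htqZ _ hsZM
  have e2 : δ (t (s Z)) = t (s Z) := hMfix δ hδζ hδX hδY hδZ _ htsZM
  rw [hrel Z, tq _ e1, e2]

/-- the rigid pair attached to `s, t`. -/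
theorem rpair (hl2 : l ≠ 2) (hζ : IsPrimitiveRoot ζ l) (hpow : ∀ x : E, ∃ y : E, y ^ l = x)
    {s t δ : E ≃+* E} {q : ℕ}
    (hsζ : s ζ = ζ) (htζ : t ζ = ζ)
    (hrel : ∀ x, s (t x) = δ ((t ^ q) (s x))) (hq1 : 1 ≤ q) (hq2 : l ^ 2 ∣ q - 1)
    (hδ : ∀ b : E, (δ ^ l) b = b → δ b = b) :
    Rigid.RPair (K := fixed2 s t) (fun x => kum hpow ζ t (x : E))
      (fun x => kum hpow ζ s (x : E)) := by
  have hl : l.Prime := Fact.out
  have hl0 := hl.pos
  refine ⟨?_, ?_, ?_⟩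
  · intro x y hx hy
    exact kum_mul hpow hl0 hζ htζ (by simpa using hx) (by simpa using hy)
      (mem_fixed2.mp x.2).2 (mem_fixed2.mp y.2).2
  · intro x y hx hy
    exact kum_mul hpow hl0 hζ hsζ (by simpa using hx) (by simpa using hy)
      (mem_fixed2.mp x.2).1 (mem_fixed2.mp y.2).1
  · intro x hx hx1
    set y : E := -(x : E) with hy
    have hx0 : (x : E) ≠ 0 := by simpa using hx
    have hy0 : y ≠ 0 := by rw [hy]; exact neg_ne_zero.mpr hx0
    have h1y : 1 - y = 1 + (x : E) := by rw [hy]; ring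
    have h1x0 : 1 + (x : E) ≠ 0 := by
      intro h0; apply hx1; apply Subtype.ext; push_cast; exact h0
    have hsx := (mem_fixed2.mp x.2).1
    have htx := (mem_fixed2.mp x.2).2
    have hsy : s y = y := by rw [hy, map_neg, hsx]
    have hty : t y = y := by rw [hy, map_neg, htx]
    obtain ⟨X, hX⟩ := hpow y
    obtain ⟨Y, hY⟩ := hpow (1 - y)
    obtain ⟨Z, hZ⟩ := hpow (∏ i ∈ Finset.range l, (1 - ζ ^ i * X) ^ i)
    have hX0 : X ≠ 0 := by rintro rfl; rw [zero_pow hl0.ne'] at hX; exact hy0 hX.symm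
    have hY0 : Y ≠ 0 := by
      rintro rfl; rw [zero_pow hl0.ne', h1y] at hY; exact h1x0 hY.symm
    have hcomm := comm_on_Z hζ hsζ htζ hrel hq1 hq2 hδ hX hY hsy hty hX0 hY0 hZ
    have h1y0 : 1 - y ≠ 0 := by rw [h1y]; exact h1x0
    obtain ⟨a, ha, ha'⟩ := exists_kum hpow hl0 hζ hsζ hy0 hsy hX
    obtain ⟨b, hb, hb'⟩ := exists_kum hpow hl0 hζ hsζ h1y0
      (by rw [map_sub, map_one, hsy]) hY
    obtain ⟨a', ha2, ha2'⟩ := exists_kum hpow hl0 hζ htζ hy0 hty hX
    obtain ⟨b', hb2, hb2'⟩ := exists_kum hpow hl0 hζ htζ h1y0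
      (by rw [map_sub, map_one, hty]) hY
    have hH := heisenberg hl hζ s t hsζ htζ y X Y Z hY0 hX hY hZ a b a' b' ha hb ha2 hb2 hcomm
    have hH' : ((a * b' : ℕ) : ZMod l) = ((a' * b : ℕ) : ZMod l) :=
      (ZMod.natCast_eq_natCast_iff _ _ _).mpr hH
    push_cast at hH'
    have hodd : Odd l := hl.odd_of_ne_two hl2
    have hneg1 : ∀ g : E ≃+* E, g ζ = ζ → g (x : E) = x →
        kum hpow ζ g y = kum hpow ζ g (x : E) := by
      intro g hgζ hgx
      have h2 : kum hpow ζ g (-1) = 0 := by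
        apply (kum_eq_zero_iff hpow hl0 hζ hgζ (by simp) (by simp) (b := -1) hodd.neg_one_pow).mpr
        simp
      rw [hy, ← neg_one_mul, kum_mul hpow hl0 hζ hgζ (by simp) hx0 (by simp) hgx, h2, zero_add]
    change kum hpow ζ t (x : E) * kum hpow ζ s ((1 + x : fixed2 s t) : E) =
      kum hpow ζ t ((1 + x : fixed2 s t) : E) * kum hpow ζ s (x : E)
    have hc : ((1 + x : fixed2 s t) : E) = 1 - y := by push_cast; rw [h1y]
    rw [hc, ← hneg1 t htζ htx, ← hneg1 s hsζ hsx, ← ha', ← hb', ← ha2', ← hb2']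
    linear_combination -hH'

end Pair

end Vale.Agent.P024
end
end

section

section

namespace Vale.Agent.P024

open scoped NumberField

section Defs
variable {F E : Type*} [Field F] [Field E] [Algebra F E]

/-- `g` stabilizes the valuation subring `O`. -/
def Stab (O : ValuationSubring E) (g : E ≃ₐ[F] E) : Prop := ∀ x : E, g x ∈ O ↔ x ∈ O

/-- `g` acts on the residue field of `O` as the `q`-th power map. -/
def ActsPow (O : ValuationSubring E) (g : E ≃ₐ[F] E) (q : ℕ) : Prop :=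
  ∀ x ∈ O, g x - x ^ q ∈ O.nonunits

end Defs

end Vale.Agent.P024
end
end

section

section

namespace Vale.Agent.P024

open scoped NumberField Pointwise
open IsDedekindDomain NumberField

section Integers

variable {E : Type*} [Field E]

lemma coe_mem_valuationSubring (O : ValuationSubring E) (x : 𝓞 E) : (x : E) ∈ O := by
  have hx : IsIntegral ℤ (x : E) := RingOfIntegers.isIntegral_coe x
  have hx' : IsIntegral O (x : E) := hx.tower_top
  obtain ⟨y, hy⟩ := (IsIntegrallyClosed.isIntegral_iff (R := O) (K := E)).mp hx'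
  rw [← hy]
  exact y.2

/-- The ring homomorphism from the integers to a valuation subring. -/
noncomputable def toVal (O : ValuationSubring E) : 𝓞 E →+* O :=
  (algebraMap (𝓞 E) E).codRestrict O.toSubring (coe_mem_valuationSubring O)

/-- The center of a valuation subring on the ring of integers. -/
noncomputable def center (O : ValuationSubring E) : Ideal (𝓞 E) :=
  (IsLocalRing.maximalIdeal O).comap (toVal O)

instance (O : ValuationSubring E) : (center O).IsPrime := by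
  unfold center; infer_instance

lemma mem_center (O : ValuationSubring E) (x : 𝓞 E) : x ∈ center O ↔ (x : E) ∈ O.nonunits := by
  unfold center
  rw [Ideal.mem_comap, ValuationSubring.mem_nonunits_iff_exists_mem_maximalIdeal]
  constructor
  · intro h
    exact ⟨coe_mem_valuationSubring O x, h⟩
  · rintro ⟨_, h⟩
    exact h

variable [CharZero E] [Algebra.IsAlgebraic ℚ E]

lemma exists_nat_mem_nonunits (O : ValuationSubring E) (hO : O ≠ ⊤) :
    ∃ n : ℕ, n ≠ 0 ∧ (n : E) ∈ O.nonunits := by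
  by_contra hcon
  push Not at hcon
  apply hO
  rw [eq_top_iff]
  intro x _
  have hn : ∀ n : ℕ, ((n : E)⁻¹) ∈ O := by
    intro n
    by_cases h0 : n = 0
    · simp [h0, O.zero_mem]
    · have h1 := hcon n h0
      rcases O.mem_or_inv_mem (n : E) with h2 | h2
      · by_contra h3
        apply h1
        rw [ValuationSubring.mem_nonunits_iff]
        rw [← ValuationSubring.valuation_le_one_iff, not_le, map_inv₀] at h3
        have hv : O.valuation (n : E) ≠ 0 := by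
          rw [Valuation.ne_zero_iff]; exact_mod_cast h0
        exact (one_lt_inv₀ (zero_lt_iff.mpr hv)).mp h3
      · exact h2
  have hq : ∀ q : ℚ, algebraMap ℚ E q ∈ O := by
    intro q
    have e : algebraMap ℚ E q = (q.num : E) * ((q.den : E)⁻¹) := by
      rw [eq_ratCast, Rat.cast_def, div_eq_mul_inv]
    rw [e]
    exact O.mul_mem _ _ (by exact_mod_cast (intCast_mem O q.num)) (hn q.den)
  let f : ℚ →+* O := (algebraMap ℚ E).codRestrict O.toSubring hq
  have hx : IsIntegral ℚ x := Algebra.IsIntegral.isIntegral x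
  obtain ⟨p, hp1, hp2⟩ := hx
  have hx' : IsIntegral O x := by
    refine ⟨p.map f, hp1.map f, ?_⟩
    rw [Polynomial.eval₂_map]
    exact hp2
  obtain ⟨y, hy⟩ := (IsIntegrallyClosed.isIntegral_iff (R := O) (K := E)).mp hx'
  rw [← hy]
  exact y.2

end Integers

section TRANS0

variable {E : Type*} [Field E] [CharZero E] [Algebra.IsAlgebraic ℚ E]

/-- the center on a number field of a nontrivial valuation subring, and description of `O ∩ K` -/
theorem exists_center {K : Type*} [Field K] [NumberField K] [Algebra K E]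
    (O : ValuationSubring E) (hO : O ≠ ⊤) :
    ∃ v : HeightOneSpectrum (𝓞 K),
      (∀ x : 𝓞 K, x ∈ v.asIdeal ↔ algebraMap K E x ∈ O.nonunits) := by
  have key : ∀ x : 𝓞 K, x ∈ (center O).comap (algebraMap (𝓞 K) (𝓞 E)) ↔
      algebraMap K E x ∈ O.nonunits := by
    intro x
    rw [Ideal.mem_comap, mem_center]
    rfl
  refine ⟨⟨(center O).comap (algebraMap (𝓞 K) (𝓞 E)), inferInstance, ?_⟩, key⟩
  obtain ⟨n, hn0, hn⟩ := exists_nat_mem_nonunits O hO
  intro hbot
  have h1 : ((n : 𝓞 K)) ∈ (center O).comap (algebraMap (𝓞 K) (𝓞 E)) := by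
    rw [key]; simpa using hn
  rw [hbot, Ideal.mem_bot] at h1
  exact hn0 (by exact_mod_cast h1)

omit [CharZero E] [Algebra.IsAlgebraic ℚ E] in
theorem mem_iff_of_center {K : Type*} [Field K] [NumberField K] [Algebra K E]
    (O : ValuationSubring E) (_hO : O ≠ ⊤) (v : HeightOneSpectrum (𝓞 K))
    (hv : ∀ x : 𝓞 K, x ∈ v.asIdeal ↔ algebraMap K E x ∈ O.nonunits) (x : K) :
    (algebraMap K E x ∈ O ↔ v.valuation K x ≤ 1) ∧
    (algebraMap K E x ∈ O.nonunits ↔ v.valuation K x < 1) := by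
  have hunit : ∀ d : 𝓞 K, d ∉ v.asIdeal → O.valuation (algebraMap K E d) = 1 := by
    intro d hd
    rw [hv, ValuationSubring.mem_nonunits_iff, not_lt] at hd
    refine le_antisymm ?_ hd
    rw [ValuationSubring.valuation_le_one_iff]
    exact coe_mem_valuationSubring O (algebraMap (𝓞 K) (𝓞 E) d)
  have key1 : ∀ y : K, v.valuation K y ≤ 1 → algebraMap K E y ∈ O := by
    intro y hy
    obtain ⟨n, d, hnd⟩ := v.exists_primeCompl_mul_eq_of_integer y hy
    have h1 := congrArg (fun t => O.valuation (algebraMap K E t)) hnd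
    simp only [map_mul] at h1
    rw [hunit d d.2, mul_one] at h1
    rw [← ValuationSubring.valuation_le_one_iff, h1, ValuationSubring.valuation_le_one_iff]
    exact coe_mem_valuationSubring O (algebraMap (𝓞 K) (𝓞 E) n)
  have key2 : ∀ y : K, v.valuation K y < 1 → algebraMap K E y ∈ O.nonunits := by
    intro y hy
    obtain ⟨n, d, hnd⟩ := v.exists_primeCompl_mul_eq_of_integer y hy.le
    have h1 := congrArg (fun t => O.valuation (algebraMap K E t)) hnd
    simp only [map_mul] at h1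
    rw [hunit d d.2, mul_one] at h1
    rw [ValuationSubring.mem_nonunits_iff, h1, ← ValuationSubring.mem_nonunits_iff, ← hv]
    have h2 := congrArg (v.valuation K) hnd
    rw [map_mul, v.valuation_of_algebraMap, v.valuation_of_algebraMap,
      (v.intValuation_eq_one_iff_mem_primeCompl d).mpr d.2, mul_one] at h2
    rw [← v.intValuation_lt_one_iff_mem, ← h2]
    exact hy
  have key3 : ∀ y : K, v.valuation K y = 1 → O.valuation (algebraMap K E y) = 1 := by
    intro y hy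
    have a1 := key1 y hy.le
    have a2 := key1 y⁻¹ (by rw [map_inv₀, hy, inv_one])
    rw [← ValuationSubring.valuation_le_one_iff] at a1 a2
    rw [map_inv₀, map_inv₀] at a2
    have hy0 : y ≠ 0 := by
      rintro rfl
      simp at hy
    have hne : O.valuation (algebraMap K E y) ≠ 0 := by
      rw [Valuation.ne_zero_iff]; simpa using hy0
    refine le_antisymm a1 ?_
    exact (inv_le_one₀ (zero_lt_iff.mpr hne)).mp a2
  have key4 : 1 < v.valuation K x → algebraMap K E x ∉ O := by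
    intro hx
    have hx0 : x ≠ 0 := by
      rintro rfl
      simp at hx
    have h1 : v.valuation K x⁻¹ < 1 := by
      rw [map_inv₀]; exact inv_lt_one_of_one_lt₀ hx
    have h2 := key2 _ h1
    rw [ValuationSubring.mem_nonunits_iff, map_inv₀, map_inv₀] at h2
    have hne : O.valuation (algebraMap K E x) ≠ 0 := by
      rw [Valuation.ne_zero_iff]; simpa using hx0
    rw [← ValuationSubring.valuation_le_one_iff, not_le]
    exact (inv_lt_one₀ (zero_lt_iff.mpr hne)).mp h2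
  constructor
  · refine ⟨fun h => ?_, key1 x⟩
    by_contra hcon
    exact key4 (not_le.mp hcon) h
  · refine ⟨fun h => ?_, key2 x⟩
    have hxO : algebraMap K E x ∈ O := by
      rw [ValuationSubring.mem_nonunits_iff] at h
      rw [← ValuationSubring.valuation_le_one_iff]
      exact h.le
    have h1 : v.valuation K x ≤ 1 := by
      by_contra hcon
      exact key4 (not_le.mp hcon) hxO
    rcases lt_or_eq_of_le h1 with h2 | h2
    · exact h2
    · rw [ValuationSubring.mem_nonunits_iff, key3 x h2] at h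
      exact absurd h (lt_irrefl _)

omit [Algebra.IsAlgebraic ℚ E] in
/-- every maximal ideal of `𝓞 K` is the center of a valuation subring of `E` -/
theorem exists_valuationSubring_over {K : Type*} [Field K] [NumberField K] [Algebra K E]
    (v : HeightOneSpectrum (𝓞 K)) :
    ∃ O : ValuationSubring E, O ≠ ⊤ ∧
      (∀ x : 𝓞 K, x ∈ v.asIdeal ↔ algebraMap K E x ∈ O.nonunits) := by
  let f : 𝓞 K →+* E := (algebraMap K E).comp (algebraMap (𝓞 K) K)
  have hf : Function.Injective f :=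
    (algebraMap K E).injective.comp (FaithfulSMul.algebraMap_injective (𝓞 K) K)
  let A : Subring E := f.range
  let e : 𝓞 K ≃+* A := RingEquiv.ofBijective f.rangeRestrict
    ⟨fun x y h => hf (congrArg Subtype.val h), f.rangeRestrict_surjective⟩
  let I : Ideal A := v.asIdeal.map (e : 𝓞 K →+* A)
  have hI : I ≠ ⊤ := by
    intro h
    have : v.asIdeal = ⊤ := by
      have h2 : (v.asIdeal.map (e : 𝓞 K →+* A)).comap (e : 𝓞 K →+* A) = v.asIdeal :=
        Ideal.comap_map_of_bijective _ e.bijective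
      rw [← h2]
      change Ideal.comap _ I = ⊤
      rw [h, Ideal.comap_top]
    exact v.isPrime.ne_top this
  obtain ⟨O, hO1, hO2⟩ := Ideal.image_subset_nonunits_valuationSubring I hI
  have hsub : ∀ x : 𝓞 K, x ∈ v.asIdeal → algebraMap K E x ∈ O.nonunits := by
    intro x hx
    apply hO2
    exact ⟨e x, Ideal.mem_map_of_mem _ hx, rfl⟩
  refine ⟨O, ?_, fun x => ⟨hsub x, fun hx => ?_⟩⟩
  · rintro rfl
    obtain ⟨x, hx, hx0⟩ := Submodule.exists_mem_ne_zero_of_ne_bot v.ne_bot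
    have h1 := hsub x hx
    rw [ValuationSubring.mem_nonunits_iff] at h1
    have h2 : algebraMap K E x ≠ 0 := by
      intro h; apply hx0; apply hf; simpa [f] using h
    have h3 : (⊤ : ValuationSubring E).valuation (algebraMap K E x)⁻¹ ≤ 1 := by
      rw [ValuationSubring.valuation_le_one_iff]; trivial
    rw [map_inv₀] at h3
    have hne : (⊤ : ValuationSubring E).valuation (algebraMap K E x) ≠ 0 := by
      rw [Valuation.ne_zero_iff]; exact h2
    have h4 := (inv_le_one₀ (zero_lt_iff.mpr hne)).mp h3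
    exact absurd h1 (not_lt.mpr h4)
  · by_contra hcon
    have hmax : v.asIdeal.IsMaximal := v.isMaximal
    obtain ⟨y, z, hz, hyz⟩ := hmax.exists_inv hcon
    have h1 := hsub z hz
    have h2 : algebraMap K E ((y * x : 𝓞 K) : K) ∈ O.nonunits := by
      rw [ValuationSubring.mem_nonunits_iff] at hx ⊢
      have e1 : ((y * x : 𝓞 K) : K) = (y : K) * (x : K) := map_mul (algebraMap (𝓞 K) K) y x
      rw [e1, map_mul, map_mul]
      have : O.valuation (algebraMap K E y) ≤ 1 := by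
        rw [ValuationSubring.valuation_le_one_iff]
        exact coe_mem_valuationSubring O (algebraMap (𝓞 K) (𝓞 E) y)
      exact lt_of_le_of_lt (mul_le_of_le_one_left' this) hx
    have h3 : algebraMap K E (((y * x + z : 𝓞 K)) : K) ∈ O.nonunits := by
      rw [ValuationSubring.mem_nonunits_iff] at h1 h2 ⊢
      have e1 : ((y * x + z : 𝓞 K) : K) = ((y * x : 𝓞 K) : K) + (z : K) :=
        map_add (algebraMap (𝓞 K) K) (y * x) z
      rw [e1, map_add]
      exact lt_of_le_of_lt (O.valuation.map_add _ _) (max_lt h2 h1)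
    rw [hyz] at h3
    rw [ValuationSubring.mem_nonunits_iff] at h3
    simp at h3

/-- the bridge: `O` is the localization of the integers at its center -/
lemma exists_mul_integral (O : ValuationSubring E) (hO : O ≠ ⊤) {x : E} (hx : x ∈ O) :
    ∃ s b : 𝓞 E, s ∉ center O ∧ (s : E) * x = b := by
  let K := IntermediateField.adjoin ℚ {x}
  have hfin : FiniteDimensional ℚ K :=
    IntermediateField.adjoin.finiteDimensional (Algebra.IsIntegral.isIntegral x)
  have : NumberField K := { to_charZero := inferInstance, to_finiteDimensional := hfin }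
  obtain ⟨v, hv⟩ := exists_center (K := K) O hO
  let y : K := ⟨x, IntermediateField.mem_adjoin_simple_self ℚ x⟩
  have hy : algebraMap K E y ∈ O := hx
  have h1 := ((mem_iff_of_center O hO v hv y).1).mp hy
  obtain ⟨n, d, hnd⟩ := v.exists_primeCompl_mul_eq_of_integer y h1
  refine ⟨algebraMap (𝓞 K) (𝓞 E) d, algebraMap (𝓞 K) (𝓞 E) n, ?_, ?_⟩
  · rw [mem_center]
    have := d.2
    intro h
    exact this ((hv d).mpr h)
  · have h2 := congrArg (algebraMap K E) hnd
    rw [map_mul, mul_comm] at h2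
    exact h2

omit [CharZero E] [Algebra.IsAlgebraic ℚ E] in
lemma mem_of_mul_integral (O : ValuationSubring E) {x : E} {s b : 𝓞 E}
    (hs : s ∉ center O) (h : (s : E) * x = b) : x ∈ O := by
  rw [mem_center, ValuationSubring.mem_nonunits_iff, not_lt] at hs
  have h1 : O.valuation (s : E) = 1 := by
    refine le_antisymm ?_ hs
    rw [ValuationSubring.valuation_le_one_iff]
    exact coe_mem_valuationSubring O s
  have h2 := congrArg O.valuation h
  rw [map_mul, h1, one_mul] at h2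
  rw [← ValuationSubring.valuation_le_one_iff, h2, ValuationSubring.valuation_le_one_iff]
  exact coe_mem_valuationSubring O b

end TRANS0

section TRANS1

variable {M E : Type*} [Field M] [Field E] [Algebra M E]

lemma coe_smul_integers (g : E ≃ₐ[M] E) (b : 𝓞 E) : ((g • b : 𝓞 E) : E) = g (b : E) := rfl

instance smulCommClass_integers : SMulCommClass (E ≃ₐ[M] E) (𝓞 M) (𝓞 E) where
  smul_comm g a b := by
    apply RingOfIntegers.ext
    rw [coe_smul_integers]
    rw [Algebra.smul_def, Algebra.smul_def]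
    have e1 : ∀ x y : 𝓞 E, ((x * y : 𝓞 E) : E) = (x : E) * (y : E) := fun x y =>
      map_mul (algebraMap (𝓞 E) E) x y
    rw [e1, e1, map_mul, coe_smul_integers]
    congr 1
    exact g.commutes (a : M)

variable [IsGalois M E]

instance isInvariant_integers : Algebra.IsInvariant (𝓞 M) (𝓞 E) (E ≃ₐ[M] E) where
  isInvariant b hb := by
    have h1 : ∀ g : E ≃ₐ[M] E, g (b : E) = b := fun g => by
      rw [← coe_smul_integers, hb g]
    have h2 : (b : E) ∈ (⊥ : IntermediateField M E) :=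
      (InfiniteGalois.mem_bot_iff_fixed (b : E)).mpr h1
    rw [IntermediateField.mem_bot] at h2
    obtain ⟨m, hm⟩ := h2
    have hint : IsIntegral ℤ m := by
      have h3 : IsIntegral ℤ (algebraMap M E m) := by
        rw [hm]; exact RingOfIntegers.isIntegral_coe b
      exact (isIntegral_algebraMap_iff (algebraMap M E).injective).mp h3
    refine ⟨⟨m, hint⟩, ?_⟩
    apply RingOfIntegers.ext
    exact hm

lemma continuousSMul_integers [TopologicalSpace (𝓞 E)] [DiscreteTopology (𝓞 E)] :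
    ContinuousSMul (E ≃ₐ[M] E) (𝓞 E) := by
  rw [continuousSMul_iff_stabilizer_isOpen]
  intro x
  have h := stabilizer_isOpen_of_isIntegral (K := M) (L := E) (x : E)
  convert h using 1
  ext g
  simp only [SetLike.mem_coe, MulAction.mem_stabilizer_iff]
  constructor
  · intro h
    exact congrArg (fun t : 𝓞 E => (t : E)) h
  · intro h
    exact RingOfIntegers.ext h

end TRANS1

section TRANS

variable {M E : Type*} [Field M] [Field E] [Algebra M E] [IsGalois M E] [CharZero E]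
  [Algebra.IsAlgebraic ℚ E]

omit [IsGalois M E] in
/-- If `g` maps the center of `O` to the center of `O'` then `g` maps `O` to `O'`. -/
lemma mem_iff_of_smul_center (O O' : ValuationSubring E) (hO : O ≠ ⊤) (hO' : O' ≠ ⊤)
    (g : E ≃ₐ[M] E) (hg : center O' = g • center O) (x : E) : g x ∈ O' ↔ x ∈ O := by
  have hmem : ∀ s : 𝓞 E, g • s ∈ center O' ↔ s ∈ center O := by
    intro s
    rw [hg, Ideal.smul_mem_pointwise_smul_iff]
  constructor
  · intro hx
    obtain ⟨s, b, hs, hsb⟩ := exists_mul_integral O' hO' hx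
    have h1 : ((g⁻¹ • s : 𝓞 E) : E) * x = (g⁻¹ • b : 𝓞 E) := by
      have h2 := congrArg (g⁻¹ : E ≃ₐ[M] E) hsb
      rw [map_mul] at h2
      have h3 : (g⁻¹ : E ≃ₐ[M] E) (g x) = x := by
        rw [← AlgEquiv.mul_apply, inv_mul_cancel]; rfl
      rw [h3] at h2
      exact h2
    refine mem_of_mul_integral O (s := g⁻¹ • s) ?_ h1
    intro h4
    apply hs
    rw [← hmem] at h4
    rwa [smul_inv_smul] at h4
  · intro hx
    obtain ⟨s, b, hs, hsb⟩ := exists_mul_integral O hO hx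
    have h1 : ((g • s : 𝓞 E) : E) * g x = (g • b : 𝓞 E) := by
      have h2 := congrArg g hsb
      rw [map_mul] at h2
      exact h2
    refine mem_of_mul_integral O' (s := g • s) ?_ h1
    intro h4
    exact hs ((hmem s).mp h4)

theorem exists_conj (O O' : ValuationSubring E) (hO : O ≠ ⊤) (hO' : O' ≠ ⊤)
    (h : ∀ x : M, algebraMap M E x ∈ O ↔ algebraMap M E x ∈ O') :
    ∃ g : E ≃ₐ[M] E, ∀ x, g x ∈ O' ↔ x ∈ O := by
  have hnon : ∀ x : M, algebraMap M E x ∈ O.nonunits ↔ algebraMap M E x ∈ O'.nonunits := by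
    intro x
    by_cases hx : x = 0
    · subst hx
      simp
    · have key : ∀ V : ValuationSubring E, algebraMap M E x ∈ V.nonunits ↔
          algebraMap M E x⁻¹ ∉ V := by
        intro V
        have hne : V.valuation (algebraMap M E x) ≠ 0 := by
          rw [Valuation.ne_zero_iff]; simpa using hx
        rw [ValuationSubring.mem_nonunits_iff, ← ValuationSubring.valuation_le_one_iff, not_le,
          map_inv₀, map_inv₀]
        exact (one_lt_inv₀ (zero_lt_iff.mpr hne)).symm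
      rw [key O, key O', h]
  have hunder : (center O).under (𝓞 M) = (center O').under (𝓞 M) := by
    ext a
    rw [Ideal.mem_under, Ideal.mem_under, mem_center, mem_center]
    exact hnon (a : M)
  let : TopologicalSpace (𝓞 E) := ⊥
  have : DiscreteTopology (𝓞 E) := ⟨rfl⟩
  have := continuousSMul_integers (M := M) (E := E)
  obtain ⟨g, hg⟩ := Algebra.IsInvariant.exists_smul_of_under_eq_of_profinite
    (A := 𝓞 M) (B := 𝓞 E) (G := E ≃ₐ[M] E) (center O) (center O') hunder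
  exact ⟨g, mem_iff_of_smul_center O O' hO hO' g hg⟩

lemma exists_lift (O : ValuationSubring E) (hO : O ≠ ⊤)
    (τ : (𝓞 E ⧸ center O) ≃+* (𝓞 E ⧸ center O))
    (hτ : ∀ a : 𝓞 M, τ (Ideal.Quotient.mk (center O) (algebraMap (𝓞 M) (𝓞 E) a)) =
      Ideal.Quotient.mk (center O) (algebraMap (𝓞 M) (𝓞 E) a)) :
    ∃ g : E ≃ₐ[M] E, Stab O g ∧
      ∀ b : 𝓞 E, Ideal.Quotient.mk (center O) (g • b) = τ (Ideal.Quotient.mk (center O) b) := by
  let : TopologicalSpace (𝓞 E) := ⊥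
  have : DiscreteTopology (𝓞 E) := ⟨rfl⟩
  have := continuousSMul_integers (M := M) (E := E)
  let P : Ideal (𝓞 M) := (center O).under (𝓞 M)
  let σ : (𝓞 E ⧸ center O) ≃ₐ[𝓞 M ⧸ P] (𝓞 E ⧸ center O) :=
    AlgEquiv.ofRingEquiv (f := τ) (by
      intro r
      obtain ⟨a, rfl⟩ := Ideal.Quotient.mk_surjective r
      exact hτ a)
  obtain ⟨g, hg⟩ := Ideal.Quotient.stabilizerHom_surjective_of_profinite
    (A := 𝓞 M) (B := 𝓞 E) (G := E ≃ₐ[M] E) P (center O) σ
  refine ⟨g.1, ?_, ?_⟩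
  · intro x
    refine mem_iff_of_smul_center O O hO hO g.1 ?_ x
    exact g.2.symm
  · intro b
    have h1 := DFunLike.congr_fun hg (Ideal.Quotient.mk (center O) b)
    exact h1

omit [IsGalois M E] in
/-- congruence on integral elements extends to `O` -/
lemma congr_of_integers (O : ValuationSubring E) (hO : O ≠ ⊤) (g : E ≃ₐ[M] E) (hg : Stab O g)
    (σ : E →* E) (hσ : ∀ x, O.valuation x = 1 → O.valuation (σ x) = 1)
    (h : ∀ b : 𝓞 E, g b - σ b ∈ O.nonunits) : ∀ x ∈ O, g x - σ x ∈ O.nonunits := by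
  intro x hx
  obtain ⟨s, b, hs, hsb⟩ := exists_mul_integral O hO hx
  have hsu : O.valuation (s : E) = 1 := by
    rw [mem_center, ValuationSubring.mem_nonunits_iff, not_lt] at hs
    refine le_antisymm ?_ hs
    rw [ValuationSubring.valuation_le_one_iff]
    exact coe_mem_valuationSubring O s
  have hσu : O.valuation (σ s) = 1 := hσ _ hsu
  have h1 : g s * g x = g b := by rw [← map_mul, hsb]
  have h2 : σ s * σ x = σ b := by rw [← map_mul, hsb]
  have h3 : σ s * (g x - σ x) = (g b - σ b) - (g s - σ s) * g x := by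
    rw [← h1, ← h2]; ring
  have h4 : σ s * (g x - σ x) ∈ O.nonunits := by
    rw [h3, ValuationSubring.mem_nonunits_iff]
    have hb := h b
    have hs' := h s
    rw [ValuationSubring.mem_nonunits_iff] at hb hs'
    have hgx : O.valuation (g x) ≤ 1 := by
      rw [ValuationSubring.valuation_le_one_iff]; exact (hg x).mpr hx
    have h5 : O.valuation ((g s - σ s) * g x) < 1 := by
      rw [map_mul]
      exact lt_of_le_of_lt (mul_le_of_le_one_right' hgx) hs'
    exact lt_of_le_of_lt (O.valuation.map_sub _ _) (max_lt hb h5)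
  rw [ValuationSubring.mem_nonunits_iff] at h4 ⊢
  rwa [map_mul, hσu, one_mul] at h4

theorem exists_stab_lift (O : ValuationSubring E) (hO : O ≠ ⊤) (σ : E ≃+* E)
    (hσ : ∀ x, σ x ∈ O ↔ x ∈ O)
    (hM : ∀ x : M, algebraMap M E x ∈ O →
      σ (algebraMap M E x) - algebraMap M E x ∈ O.nonunits) :
    ∃ g : E ≃ₐ[M] E, Stab O g ∧ ∀ x ∈ O, g x - σ x ∈ O.nonunits := by
  have hσn : ∀ x, σ x ∈ O.nonunits ↔ x ∈ O.nonunits := by
    intro x
    by_cases hx : x = 0
    · subst hx; simp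
    · have key : ∀ y : E, y ≠ 0 → (y ∈ O.nonunits ↔ y⁻¹ ∉ O) := by
        intro y hy
        have hne : O.valuation y ≠ 0 := by
          rw [Valuation.ne_zero_iff]; exact hy
        rw [ValuationSubring.mem_nonunits_iff, ← ValuationSubring.valuation_le_one_iff, not_le,
          map_inv₀]
        exact (one_lt_inv₀ (zero_lt_iff.mpr hne)).symm
      rw [key _ hx, key (σ x) (by simpa using hx), ← map_inv₀, hσ]
  -- the induced automorphism of the integers
  let σ' : 𝓞 E ≃+* 𝓞 E := RingOfIntegers.mapRingEquiv σ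
  have hσ' : ∀ b : 𝓞 E, ((σ' b : 𝓞 E) : E) = σ b := fun b => rfl
  have hcomap : (center O).map (σ' : 𝓞 E →+* 𝓞 E) = center O := by
    ext b
    rw [Ideal.mem_map_iff_of_surjective (σ' : 𝓞 E →+* 𝓞 E) σ'.surjective]
    constructor
    · rintro ⟨c, hc, rfl⟩
      rw [mem_center] at hc ⊢
      exact (hσn c).mpr hc
    · intro hb
      refine ⟨σ'.symm b, ?_, by simp⟩
      rw [mem_center] at hb ⊢
      rw [← hσn, ← hσ', RingEquiv.apply_symm_apply]
      exact hb
  let τ : (𝓞 E ⧸ center O) ≃+* (𝓞 E ⧸ center O) :=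
    Ideal.quotientEquiv (center O) (center O) σ' hcomap.symm
  have hτ : ∀ b : 𝓞 E, τ (Ideal.Quotient.mk (center O) b) = Ideal.Quotient.mk (center O) (σ' b) :=
    fun b => rfl
  obtain ⟨g, hg, hgb⟩ := exists_lift (M := M) O hO τ (by
    intro a
    rw [hτ, Ideal.Quotient.eq, mem_center]
    have h1 := hM (a : M) (coe_mem_valuationSubring O (algebraMap (𝓞 M) (𝓞 E) a))
    exact h1)
  refine ⟨g, hg, congr_of_integers O hO g hg (σ : E →* E) ?_ ?_⟩
  · intro x hx
    refine le_antisymm ?_ ?_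
    · rw [ValuationSubring.valuation_le_one_iff]
      refine (hσ x).mpr ?_
      rw [← ValuationSubring.valuation_le_one_iff]
      exact hx.le
    · have h1 := hσn x
      rw [ValuationSubring.mem_nonunits_iff, ValuationSubring.mem_nonunits_iff] at h1
      rw [← not_lt]
      intro h2
      have h3 := h1.mp h2
      rw [hx] at h3
      exact lt_irrefl _ h3
  intro b
  have h1 := hgb b
  rw [hτ, Ideal.Quotient.eq, mem_center] at h1
  exact h1

theorem exists_frob {K : Type*} [Field K] [NumberField K] [Algebra K E] [IsGalois K E]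
    (O : ValuationSubring E) (hO : O ≠ ⊤) (v : HeightOneSpectrum (𝓞 K))
    (hv : ∀ x : 𝓞 K, x ∈ v.asIdeal ↔ algebraMap K E x ∈ O.nonunits) :
    ∃ s : E ≃ₐ[K] E, Stab O s ∧ ActsPow O s (Nat.card (𝓞 K ⧸ v.asIdeal)) := by
  have hP : v.asIdeal = (center O).under (𝓞 K) := by
    ext a
    rw [hv, Ideal.mem_under, mem_center]
    rfl
  have : (center O).LiesOver v.asIdeal := ⟨hP⟩
  have hmax : v.asIdeal.IsMaximal := v.isMaximal
  have : Algebra.IsIntegral (𝓞 K) (𝓞 E) := ⟨fun x => by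
    have h1 : IsIntegral ℤ (x : E) := RingOfIntegers.isIntegral_coe x
    have h2 : IsIntegral ℤ x :=
      (isIntegral_algebraMap_iff (FaithfulSMul.algebraMap_injective (𝓞 E) E)).mp h1
    exact h2.tower_top⟩
  have hmax2 : (center O).IsMaximal := by
    apply Ideal.isMaximal_of_isIntegral_of_isMaximal_comap (R := 𝓞 K)
    have h3 : Ideal.comap (algebraMap (𝓞 K) (𝓞 E)) (center O) = v.asIdeal := hP.symm
    rw [h3]
    exact hmax
  let : Field (𝓞 K ⧸ v.asIdeal) := Ideal.Quotient.field _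
  let : Field (𝓞 E ⧸ center O) := Ideal.Quotient.field _
  have : Finite (𝓞 K ⧸ v.asIdeal) := v.asIdeal.finiteQuotientOfFreeOfNeBot v.ne_bot
  let : Fintype (𝓞 K ⧸ v.asIdeal) := Fintype.ofFinite _
  let φ := FiniteField.frobeniusAlgEquivOfAlgebraic (𝓞 K ⧸ v.asIdeal) (𝓞 E ⧸ center O)
  have hφ : ∀ x, φ x = x ^ Nat.card (𝓞 K ⧸ v.asIdeal) := by
    intro x
    rw [Nat.card_eq_fintype_card]
    rfl
  obtain ⟨g, hg, hgb⟩ := exists_lift (M := K) O hO φ.toRingEquiv (by
    intro a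
    exact φ.commutes (Ideal.Quotient.mk v.asIdeal a))
  refine ⟨g, hg, ?_⟩
  have h5 := congr_of_integers O hO g hg (powMonoidHom (Nat.card (𝓞 K ⧸ v.asIdeal))) ?_ ?_
  · exact h5
  · intro x hx
    rw [powMonoidHom_apply, map_pow, hx, one_pow]
  · intro b
    have h1 : Ideal.Quotient.mk (center O) (g • b) = φ (Ideal.Quotient.mk (center O) b) := hgb b
    rw [hφ, ← map_pow, Ideal.Quotient.eq, mem_center] at h1
    exact h1

end TRANS

end Vale.Agent.P024
end
end

section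

section

/-!
Common definitions of Route 2.
-/

namespace Vale.Agent.P024

open scoped NumberField
open IsDedekindDomain

section Defs2

/-- The valuation of `y` at `v` is divisible by `l` (in particular `y ≠ 0`). -/
def DvdVal {K : Type*} [Field K] [NumberField K] (v : HeightOneSpectrum (𝓞 K)) (l : ℕ) (y : K) :
    Prop :=
  ∃ z : K, v.valuation K (y * z ^ l) = 1

/-- `z` is an `l`-th power modulo `v`. -/
def IsPowMod {K : Type*} [Field K] [NumberField K] (v : HeightOneSpectrum (𝓞 K)) (l : ℕ) (z : K) :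
    Prop :=
  ∃ y : K, v.valuation K (z - y ^ l) < 1

/-- `v` is the center on `K` of the valuation subring `O` of `E`. -/
def IsCenter {K E : Type*} [Field K] [Field E] [Algebra K E]
    (O : ValuationSubring E) (v : HeightOneSpectrum (𝓞 K)) : Prop :=
  ∀ x : 𝓞 K, x ∈ v.asIdeal ↔ algebraMap K E x ∈ O.nonunits

end Defs2

end Vale.Agent.P024
end
end

section

section

/-!
[L] the local lemma.
-/

namespace Vale.Agent.P024

open scoped NumberField
open IsDedekindDomain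

/-! ### Auxiliary facts on valuation subrings -/

section Aux

variable {K : Type*} [Field K] (O : ValuationSubring K)

lemma val_nonunit_add {x : K} (hx : x ∈ O.nonunits) : O.valuation (1 + x) = 1 := by
  rw [ValuationSubring.mem_nonunits_iff] at hx
  have h1 : O.valuation (1 : K) = 1 := map_one _
  have := Valuation.map_add_eq_of_lt_left (v := O.valuation) (x := 1) (y := x)
    (by rw [h1]; exact hx)
  rw [this, h1]

lemma sub_mem_nonunits {x y : K} (hx : x ∈ O.nonunits) (hy : y ∈ O.nonunits) :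
    x - y ∈ O.nonunits := by
  rw [ValuationSubring.mem_nonunits_iff] at *
  exact lt_of_le_of_lt (Valuation.map_sub _ _ _) (max_lt hx hy)

lemma mem_of_val_eq_one {x : K} (hx : O.valuation x = 1) : x ∈ O := by
  rw [← ValuationSubring.valuation_le_one_iff, hx]

/-- residue of a element of valuation `≤ 1`. -/
lemma residue_eq_iff {x y : K} (hx : x ∈ O) (hy : y ∈ O) :
    IsLocalRing.residue O ⟨x, hx⟩ = IsLocalRing.residue O ⟨y, hy⟩ ↔ x - y ∈ O.nonunits := by
  rw [← sub_eq_zero, ← map_sub, IsLocalRing.residue_eq_zero_iff,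
    ValuationSubring.mem_nonunits_iff_exists_mem_maximalIdeal]
  constructor
  · intro h
    exact ⟨O.sub_mem hx hy, h⟩
  · rintro ⟨_, h⟩
    exact h

end Aux

section Core

variable {E : Type*} [Field E] [CharZero E] [Algebra.IsAlgebraic ℚ E] {l : ℕ} [Fact l.Prime] {ζ : E}

theorem unit_pow_sub_one' {K : Type*} [Field K] [NumberField K] (v : HeightOneSpectrum (𝓞 K))
    {y : K} (hy : v.valuation K y = 1) :
    v.valuation K (y ^ (Ideal.absNorm v.asIdeal - 1) - 1) < 1 := by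
  classical
  let : Field (𝓞 K ⧸ v.asIdeal) := Ideal.Quotient.field v.asIdeal
  have : Finite (𝓞 K ⧸ v.asIdeal) := Ideal.finiteQuotientOfFreeOfNeBot _ v.ne_bot
  let := Fintype.ofFinite (𝓞 K ⧸ v.asIdeal)
  have hcard : Fintype.card (𝓞 K ⧸ v.asIdeal) = Ideal.absNorm v.asIdeal := by
    rw [← Nat.card_eq_fintype_card]; rfl
  obtain ⟨n, d, hnd⟩ := v.exists_primeCompl_mul_eq_of_integer y hy.le
  have hd : (d : 𝓞 K) ∉ v.asIdeal := d.2
  have hdv : v.valuation K (algebraMap (𝓞 K) K d) = 1 := by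
    refine le_antisymm (v.valuation_le_one _) ?_
    rw [← not_lt, v.valuation_lt_one_iff_mem]
    exact hd
  have hn : n ∉ v.asIdeal := by
    rw [← v.valuation_lt_one_iff_mem (K := K)]
    change ¬ v.valuation K (algebraMap (𝓞 K) K n) < 1
    rw [← hnd, map_mul, hy, hdv]
    simp
  set N := Ideal.absNorm v.asIdeal
  have h1 : ∀ a : 𝓞 K, a ∉ v.asIdeal → a ^ (N - 1) - 1 ∈ v.asIdeal := by
    intro a ha
    rw [← Ideal.Quotient.eq_zero_iff_mem, map_sub, map_pow, map_one, ← hcard,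
      FiniteField.pow_card_sub_one_eq_one, sub_self]
    rwa [Ne, Ideal.Quotient.eq_zero_iff_mem]
  have h2 : n ^ (N - 1) - (d : 𝓞 K) ^ (N - 1) ∈ v.asIdeal := by
    have := v.asIdeal.sub_mem (h1 n hn) (h1 d hd)
    convert this using 1
    ring
  have h3 : y ^ (N - 1) - 1 = algebraMap (𝓞 K) K (n ^ (N - 1) - (d : 𝓞 K) ^ (N - 1)) *
      (algebraMap (𝓞 K) K d ^ (N - 1))⁻¹ := by
    have hd0 : algebraMap (𝓞 K) K d ≠ 0 := by
      intro h0; rw [h0, map_zero] at hdv; exact zero_ne_one hdv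
    rw [map_sub, map_pow, map_pow, ← hnd]
    field_simp
    ring
  rw [h3, map_mul, map_inv₀, map_pow, hdv, one_pow, inv_one, mul_one,
    v.valuation_lt_one_iff_mem]
  exact h2

theorem unit_pow_sub_one {K : Type*} [Field K] [CharZero K] [Algebra.IsAlgebraic ℚ K]
    (O : ValuationSubring K) (hO : O ≠ ⊤) {x : K} (hx : O.valuation x = 1) :
    ∃ n : ℕ, 0 < n ∧ x ^ n - 1 ∈ O.nonunits := by
  have hfin : FiniteDimensional ℚ (IntermediateField.adjoin ℚ {x}) :=
    IntermediateField.adjoin.finiteDimensional (Algebra.IsIntegral.isIntegral x)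
  have : NumberField (IntermediateField.adjoin ℚ {x}) :=
    { to_charZero := inferInstance, to_finiteDimensional := hfin }
  obtain ⟨v, hv⟩ := exists_center (K := IntermediateField.adjoin ℚ {x}) O hO
  have key := mem_iff_of_center (K := IntermediateField.adjoin ℚ {x}) O hO v hv
  set y : IntermediateField.adjoin ℚ {x} := ⟨x, IntermediateField.mem_adjoin_simple_self ℚ x⟩
  have hy : v.valuation _ y = 1 := by
    refine le_antisymm ((key y).1.mp (mem_of_val_eq_one O hx)) ?_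
    rw [← not_lt, ← (key y).2, ValuationSubring.mem_nonunits_iff, not_lt]
    exact hx.ge
  refine ⟨Ideal.absNorm v.asIdeal - 1, ?_, ?_⟩
  · have : 1 < Ideal.absNorm v.asIdeal := by
      have h0 : Ideal.absNorm v.asIdeal ≠ 0 := by
        rw [Ne, Ideal.absNorm_eq_zero_iff]; exact v.ne_bot
      have h1 : Ideal.absNorm v.asIdeal ≠ 1 := by
        rw [Ne, Ideal.absNorm_eq_one_iff]; exact v.isPrime.ne_top
      omega
    omega
  · have := (key (y ^ (Ideal.absNorm v.asIdeal - 1) - 1)).2.mpr (unit_pow_sub_one' v hy)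
    simpa using this

instance isAlgebraic_fixed2 (s t : E ≃+* E) : Algebra.IsAlgebraic ℚ (fixed2 s t) := by
  refine ⟨fun x => ?_⟩
  have h : IsAlgebraic ℚ (x : E) := Algebra.IsAlgebraic.isAlgebraic _
  exact (isAlgebraic_algHom_iff (RingHom.toRatAlgHom (fixed2 s t).subtype)
    (fixed2 s t).subtype.injective).mp h

/-- core of the local lemma, for the common fixed field of `s` and `t`. -/
theorem local_core (hl2 : l ≠ 2) (hζ : IsPrimitiveRoot ζ l) (hpow : ∀ x : E, ∃ y : E, y ^ l = x)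
    {s t δ : E ≃+* E} {q : ℕ}
    (hrel : ∀ x, s (t x) = δ ((t ^ q) (s x))) (hq1 : 1 < q) (hq2 : l ^ 2 ∣ q - 1)
    (hδ : ∀ b : E, (δ ^ l) b = b → δ b = b)
    (hsroot : ∀ n : ℕ, ∀ ξ : E, ξ ^ (l ^ n) = 1 → s ξ = ξ ^ q)
    (htroot : ∀ n : ℕ, ∀ ξ : E, ξ ^ (l ^ n) = 1 → t ξ = ξ)
    (hne : ∃ x : fixed2 s t, x ≠ 0 ∧ kum hpow ζ t (x : E) ≠ 0) :
    ∃ O : ValuationSubring (fixed2 s t), O ≠ ⊤ ∧ ((l : ℕ) : fixed2 s t) ∉ O.nonunits ∧
      (∀ x : fixed2 s t, O.valuation x = 1 → kum hpow ζ t (x : E) = 0) ∧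
      (∀ x : fixed2 s t, O.valuation x = 1 → x ^ (q - 1) - 1 ∈ O.nonunits →
        ∀ e : ℕ, (e : ZMod l) = kum hpow ζ s (x : E) → ∀ z : fixed2 s t, (z : E) = ζ ^ e →
          x ^ ((q - 1) / l) - z ∈ O.nonunits) := by
  have hl : l.Prime := Fact.out
  have hl0 := hl.pos
  have hζ1 : ζ ^ (l ^ 1) = 1 := by rw [pow_one]; exact hζ.pow_eq_one
  have htζ : t ζ = ζ := htroot 1 ζ hζ1
  have hlq : l ∣ q - 1 := dvd_trans (dvd_pow_self l two_ne_zero) hq2
  have hsζ : s ζ = ζ := by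
    rw [hsroot 1 ζ hζ1]
    obtain ⟨k, hk⟩ := hlq
    have : q = l * k + 1 := by omega
    rw [this, pow_succ, pow_mul, hζ.pow_eq_one, one_pow, one_mul]
  have P := rpair hl2 hζ hpow hsζ htζ hrel hq1.le hq2 hδ
  set f : fixed2 s t → ZMod l := fun x => kum hpow ζ t (x : E) with hf
  set g : fixed2 s t → ZMod l := fun x => kum hpow ζ s (x : E) with hg
  -- the decomposition `q - 1 = l ^ M * h`
  obtain ⟨M, h, hh, hMh⟩ := Nat.exists_eq_pow_mul_and_not_dvd (n := q - 1) (by omega) l hl.ne_one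
  have hM2 : 2 ≤ M := by
    by_contra hcon
    have h2 : l ^ 2 ∣ l ^ M * h := hMh ▸ hq2
    have h3 : l ^ 2 ∣ l * h := by
      refine h2.trans (mul_dvd_mul_right ?_ h)
      conv_rhs => rw [← pow_one l]
      exact pow_dvd_pow l (by omega)
    rw [pow_two] at h3
    exact hh (Nat.dvd_of_mul_dvd_mul_left hl0 h3)
  have hhz : (h : ZMod l) ≠ 0 := by rwa [Ne, ZMod.natCast_eq_zero_iff]
  have hexω : ∀ n : ℕ, ∃ ω : E, ω ^ (l ^ n) = ζ := by
    intro n
    induction n with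
    | zero => exact ⟨ζ, by simp⟩
    | succ n ih =>
      obtain ⟨ω, hω⟩ := ih
      obtain ⟨ω', hω'⟩ := hpow ω
      exact ⟨ω', by rw [pow_succ', pow_mul, hω', hω]⟩
  obtain ⟨ω, hω⟩ := hexω M
  have hω1 : ω ^ (l ^ (M + 1)) = 1 := by rw [pow_succ, pow_mul, hω, hζ.pow_eq_one]
  have htω : t ω = ω := htroot _ ω hω1
  have hsω : s ω = ζ ^ h * ω := by
    rw [hsroot _ ω hω1]
    have : q = l ^ M * h + 1 := by omega
    rw [this, pow_succ, pow_mul, hω]
  have hω0 : ω ≠ 0 := by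
    rintro rfl
    rw [zero_pow (pow_ne_zero _ hl0.ne')] at hω
    exact hζ.ne_zero hl0.ne' hω.symm
  have hηmem : ω ^ l ∈ fixed2 s t := by
    rw [mem_fixed2, map_pow, map_pow, htω, hsω, mul_pow, ← pow_mul, mul_comm h l, pow_mul,
      hζ.pow_eq_one, one_pow, one_mul]
    exact ⟨rfl, rfl⟩
  obtain ⟨η, hη⟩ : ∃ η : fixed2 s t, (η : E) = ω ^ l := ⟨⟨_, hηmem⟩, rfl⟩
  have hη0 : η ≠ 0 := by
    intro h0
    rw [h0] at hη
    exact pow_ne_zero l hω0 (by rw [← hη]; rfl)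
  have hηE0 : (η : E) ≠ 0 := by simpa using hη0
  obtain ⟨ζ', hζ'⟩ : ∃ z : fixed2 s t, (z : E) = ζ := ⟨⟨ζ, mem_fixed2.mpr ⟨hsζ, htζ⟩⟩, rfl⟩
  have hζ'p : IsPrimitiveRoot ζ' l := by
    rw [← hζ'] at hζ
    exact hζ.of_map_of_injective (f := (fixed2 s t).subtype) Subtype.val_injective
  have hηpow : η ^ (l ^ (M - 1)) = ζ' := by
    apply Subtype.ext
    push_cast
    rw [hη, hζ', ← pow_mul, ← pow_succ', show M - 1 + 1 = M by omega, hω]
  have hηone : η ^ (l ^ M) = 1 := by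
    have : M = (M - 1) + 1 := by omega
    rw [this, pow_succ, pow_mul, hηpow, hζ'p.pow_eq_one]
  have hfη : f η = 0 := by
    rw [hf]
    exact (kum_eq_zero_iff hpow hl0 hζ htζ hηE0 (mem_fixed2.mp η.2).2 hη.symm).mpr htω
  have hgη : g η = h := by
    rw [hg]
    exact ((kum_spec hpow hl0 hζ hsζ hηE0 (mem_fixed2.mp η.2).1 hη.symm h).mp hsω).symm
  have fpow : ∀ x : fixed2 s t, x ≠ 0 → ∀ n : ℕ, f (x ^ n) = n * f x := by
    intro x hx n
    rw [hf]
    have := kum_pow hpow hl0 hζ htζ (x := (x : E)) (by simpa using hx) (mem_fixed2.mp x.2).2 n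
    simpa using this
  have gpow : ∀ x : fixed2 s t, x ≠ 0 → ∀ n : ℕ, g (x ^ n) = n * g x := by
    intro x hx n
    rw [hg]
    have := kum_pow hpow hl0 hζ hsζ (x := (x : E)) (by simpa using hx) (mem_fixed2.mp x.2).1 n
    simpa using this
  obtain ⟨x0, hx0, hfx0⟩ := hne
  have hfx0' : f x0 ≠ 0 := hfx0
  obtain ⟨O, ⟨x1, hx1⟩, hO⟩ := P.exists_valuationSubring hl2 ⟨x0, η, hx0, hη0, by
    rw [hgη, hfη, zero_mul]; exact mul_ne_zero hfx0' hhz⟩
  have hOtop : O ≠ ⊤ := by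
    rintro rfl; exact hx1 trivial
  have hone : ∀ x ∈ O.nonunits, f (1 + x) = 0 ∧ g (1 + x) = 0 := by
    intro x hx
    by_cases h0 : x = 0
    · subst h0; rw [add_zero]; exact ⟨P.fone, P.gone⟩
    · rw [ValuationSubring.mem_nonunits_iff] at hx
      refine hO x (by rw [← ValuationSubring.valuation_le_one_iff]; exact hx.le) ?_
      rw [← ValuationSubring.valuation_le_one_iff, map_inv₀, not_le]
      exact (one_lt_inv₀ (zero_lt_iff.mpr (by rwa [Valuation.ne_zero_iff]))).mpr hx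
  have val0 : ∀ x : fixed2 s t, O.valuation x = 1 → x ≠ 0 := by
    rintro x hx rfl
    rw [map_zero] at hx; exact zero_ne_one hx
  have hcong : ∀ x y : fixed2 s t, O.valuation y = 1 → x - y ∈ O.nonunits →
      f x = f y ∧ g x = g y := by
    intro x y hy hxy
    have hy0 := val0 y hy
    have h1 : (x - y) / y ∈ O.nonunits := by
      rw [ValuationSubring.mem_nonunits_iff] at hxy ⊢
      rw [map_div₀, hy, div_one]; exact hxy
    have h2 : x = y * (1 + (x - y) / y) := by field_simp; ring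
    have h3 : 1 + (x - y) / y ≠ 0 := val0 _ (val_nonunit_add O h1)
    obtain ⟨h4, h5⟩ := hone _ h1
    constructor
    · conv_lhs => rw [h2]
      rw [P.fmul _ _ hy0 h3, h4, add_zero]
    · conv_lhs => rw [h2]
      rw [P.gmul _ _ hy0 h3, h5, add_zero]
  -- residues
  let k := IsLocalRing.ResidueField O
  have val_of_pow : ∀ (x : fixed2 s t) (n : ℕ), n ≠ 0 → O.valuation (x ^ n) = 1 →
      O.valuation x = 1 := by
    intro x n hn hx
    rw [map_pow] at hx
    exact (pow_eq_one_iff_of_nonneg zero_le hn).mp hx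
  have hηv : O.valuation η = 1 := val_of_pow η (l ^ M) (pow_ne_zero _ hl0.ne')
    (by rw [hηone, map_one])
  have hηO : η ∈ O := mem_of_val_eq_one O hηv
  have hlO : ((l : ℕ) : fixed2 s t) ∉ O.nonunits := by
    intro hlO
    have hk : ((l : ℕ) : k) = 0 := by
      have h1 : ((l : ℕ) : fixed2 s t) ∈ O := O.nonunits_le hlO
      have h2 := (residue_eq_iff O h1 O.zero_mem).mpr (by rw [sub_zero]; exact hlO)
      have h3 : (⟨((l : ℕ) : fixed2 s t), h1⟩ : O) = ((l : ℕ) : O) := rfl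
      have h4 : (⟨(0 : fixed2 s t), O.zero_mem⟩ : O) = 0 := rfl
      rw [h3, h4, map_natCast, map_zero] at h2
      exact h2
    have : CharP k l := (CharP.charP_iff_prime_eq_zero hl).mpr hk
    have : ExpChar k l := ExpChar.prime hl
    have h5 : (IsLocalRing.residue O ⟨η, hηO⟩) ^ (l ^ M * 1) = 1 := by
      rw [← map_pow, ← map_one (IsLocalRing.residue O)]
      congr 1
      apply Subtype.ext
      push_cast
      rw [mul_one, hηone]
    rw [ExpChar.pow_prime_pow_mul_eq_one_iff, pow_one] at h5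
    have h6 : (⟨(1 : fixed2 s t), O.one_mem⟩ : O) = 1 := rfl
    rw [← map_one (IsLocalRing.residue O), ← h6, residue_eq_iff] at h5
    have h7 := (hcong η 1 (map_one _) h5).2
    rw [hgη, P.gone] at h7
    exact hhz h7
  -- residue of units
  have hres : ∀ (x : fixed2 s t) (hx : O.valuation x = 1) (y : fixed2 s t)
      (hy : O.valuation y = 1),
      IsLocalRing.residue O ⟨x, mem_of_val_eq_one O hx⟩ =
        IsLocalRing.residue O ⟨y, mem_of_val_eq_one O hy⟩ → f x = f y ∧ g x = g y := by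
    intro x hx y hy h
    exact hcong x y hy ((residue_eq_iff O _ _).mp h)
  have respow : ∀ (x : fixed2 s t) (hx : x ∈ O) (n : ℕ) (hxn : x ^ n ∈ O),
      IsLocalRing.residue O ⟨x ^ n, hxn⟩ = (IsLocalRing.residue O ⟨x, hx⟩) ^ n := by
    intro x hx n hxn
    rw [← map_pow]
    rfl
  have valpow : ∀ (x : fixed2 s t) (hx : O.valuation x = 1) (n : ℕ), O.valuation (x ^ n) = 1 := by
    intro x hx n
    rw [map_pow, hx, one_pow]
  have hζ'v : O.valuation ζ' = 1 := val_of_pow ζ' l hl0.ne' (by rw [hζ'p.pow_eq_one, map_one])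
  have hηprim : IsPrimitiveRoot (IsLocalRing.residue O ⟨η, hηO⟩) (l ^ M) := by
    have hM' : M = (M - 1) + 1 := by omega
    have h6 : (⟨(1 : fixed2 s t), O.one_mem⟩ : O) = 1 := rfl
    have h1 : ¬ (IsLocalRing.residue O ⟨η, hηO⟩) ^ (l ^ (M - 1)) = 1 := by
      rw [← respow η hηO _ (O.pow_mem hηO _)]
      intro h1
      have h2 : (IsLocalRing.residue O ⟨ζ', mem_of_val_eq_one O hζ'v⟩) = 1 := by
        rw [← h1]; congr 2; exact hηpow.symm
      have h3 : ∑ i ∈ Finset.range l, (⟨ζ', mem_of_val_eq_one O hζ'v⟩ : O) ^ i = 0 := by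
        apply Subtype.ext
        have := hζ'p.geom_sum_eq_zero hl.one_lt
        push_cast
        exact this
      have h4 := congrArg (IsLocalRing.residue O) h3
      rw [map_sum, map_zero] at h4
      simp only [map_pow, h2, one_pow, Finset.sum_const, Finset.card_range, nsmul_eq_mul,
        mul_one] at h4
      apply hlO
      have h7 : ((l : ℕ) : fixed2 s t) ∈ O := natCast_mem O l
      have h8 := (residue_eq_iff O h7 O.zero_mem).mp (by
        have h9 : (⟨((l : ℕ) : fixed2 s t), h7⟩ : O) = ((l : ℕ) : O) := rfl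
        have h10 : (⟨(0 : fixed2 s t), O.zero_mem⟩ : O) = 0 := rfl
        rw [h9, h10, map_natCast, map_zero]
        exact h4)
      rwa [sub_zero] at h8
    have h2 : (IsLocalRing.residue O ⟨η, hηO⟩) ^ (l ^ (M - 1 + 1)) = 1 := by
      rw [← respow η hηO _ (O.pow_mem hηO _), ← map_one (IsLocalRing.residue O), ← h6]
      congr 2
      rw [← hM', hηone]
    have h3 := orderOf_eq_prime_pow h1 h2
    rw [hM', ← h3]
    exact IsPrimitiveRoot.orderOf _
  -- Claim 1
  have hunit : ∀ x : fixed2 s t, O.valuation x = 1 → f x = 0 := by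
    intro x hx
    obtain ⟨n, hn0, hn⟩ := unit_pow_sub_one O hOtop hx
    obtain ⟨r, m, hm, hrm⟩ := Nat.exists_eq_pow_mul_and_not_dvd (n := n) (by omega) l hl.ne_one
    have hmz : (m : ZMod l) ≠ 0 := by rwa [Ne, ZMod.natCast_eq_zero_iff]
    have hxm := valpow x hx m
    have hx0 := val0 x hx
    suffices h : f (x ^ m) = 0 by
      rw [fpow x hx0 m] at h
      exact (mul_eq_zero.mp h).resolve_left hmz
    set y := x ^ m with hy
    have hyO := mem_of_val_eq_one O hxm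
    have h1 : (IsLocalRing.residue O ⟨y, hyO⟩) ^ (l ^ r) = 1 := by
      have h2 : y ^ (l ^ r) = x ^ n := by rw [hy, ← pow_mul, mul_comm, ← hrm]
      have h3 := respow y hyO (l ^ r) (O.pow_mem hyO _)
      rw [← h3]
      have h6 : (⟨(1 : fixed2 s t), O.one_mem⟩ : O) = 1 := rfl
      rw [← map_one (IsLocalRing.residue O), ← h6, residue_eq_iff, h2]
      exact hn
    obtain ⟨r', _, hr'⟩ := (Nat.dvd_prime_pow hl).mp (orderOf_dvd_of_pow_eq_one h1)
    have hprim : IsPrimitiveRoot (IsLocalRing.residue O ⟨y, hyO⟩) (l ^ r') := by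
      rw [← hr']; exact IsPrimitiveRoot.orderOf _
    have hlpos : ∀ n : ℕ, l ^ n ≠ 0 := fun n => pow_ne_zero _ hl0.ne'
    rcases le_or_gt r' M with hle | hlt
    · have h2 : (IsLocalRing.residue O ⟨y, hyO⟩) ^ (l ^ M) = 1 := by
        obtain ⟨c, hc⟩ := pow_dvd_pow l hle
        rw [hc, pow_mul, hprim.pow_eq_one, one_pow]
      have : NeZero (l ^ M) := ⟨hlpos M⟩
      obtain ⟨c, _, hc⟩ := hηprim.eq_pow_of_pow_eq_one h2
      rw [← respow η hηO c (O.pow_mem hηO c)] at hc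
      rw [(hres y hxm (η ^ c) (valpow η hηv c) hc.symm).1, fpow η hη0, hfη, mul_zero]
    · exfalso
      have h2 : IsPrimitiveRoot ((IsLocalRing.residue O ⟨y, hyO⟩) ^ (l ^ (r' - M))) (l ^ M) := by
        refine hprim.pow (Nat.pos_of_ne_zero (hlpos r')) ?_
        rw [← pow_add]; congr 1; omega
      have : NeZero (l ^ M) := ⟨hlpos M⟩
      obtain ⟨c, _, hc⟩ := h2.eq_pow_of_pow_eq_one hηprim.pow_eq_one
      rw [← pow_mul, ← respow y hyO _ (O.pow_mem hyO _)] at hc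
      have h3 := (hres _ (valpow y hxm _) η hηv hc).2
      rw [gpow y (val0 y hxm), hgη] at h3
      have h4 : ((l ^ (r' - M) * c : ℕ) : ZMod l) = 0 := by
        rw [ZMod.natCast_eq_zero_iff]
        exact Dvd.dvd.mul_right (dvd_pow_self l (by omega)) c
      rw [h4, zero_mul] at h3
      exact hhz h3.symm
  refine ⟨O, hOtop, hlO, hunit, ?_⟩
  intro x hx hxq e he z hz
  have hxO := mem_of_val_eq_one O hx
  have hx0 := val0 x hx
  have hxh := valpow x hx h
  have h1 : (IsLocalRing.residue O ⟨x ^ h, mem_of_val_eq_one O hxh⟩) ^ (l ^ M) = 1 := by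
    rw [← respow _ _ _ (O.pow_mem (mem_of_val_eq_one O hxh) _)]
    have h6 : (⟨(1 : fixed2 s t), O.one_mem⟩ : O) = 1 := rfl
    rw [← map_one (IsLocalRing.residue O), ← h6, residue_eq_iff, ← pow_mul, mul_comm h, ← hMh]
    exact hxq
  have : NeZero (l ^ M) := ⟨pow_ne_zero _ hl0.ne'⟩
  obtain ⟨c, _, hc⟩ := hηprim.eq_pow_of_pow_eq_one h1
  rw [← respow η hηO c (O.pow_mem hηO c)] at hc
  have h2 := (hres _ (valpow η hηv c) _ hxh hc).2
  rw [gpow η hη0, gpow x hx0, hgη, mul_comm] at h2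
  have h3 : (c : ZMod l) = g x := mul_left_cancel₀ hhz h2
  have h4 : ζ ^ c = ζ ^ e := (pow_eq_pow_iff' hl0 hζ c e).mpr (by rw [h3, he])
  have h5 : z = (η ^ c) ^ (l ^ (M - 1)) := by
    apply Subtype.ext
    rw [← pow_mul, mul_comm c, pow_mul, hηpow]
    push_cast
    rw [hζ', hz, h4]
  have h6 : x ^ ((q - 1) / l) = (x ^ h) ^ (l ^ (M - 1)) := by
    rw [← pow_mul]
    congr 1
    have hM' : M = (M - 1) + 1 := by omega
    rw [hMh, hM', pow_succ]
    simp only [Nat.add_sub_cancel]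
    rw [show l ^ (M - 1) * l * h = h * l ^ (M - 1) * l by ring, Nat.mul_div_cancel _ hl0]
  have h7 : (⟨(x ^ h) ^ (l ^ (M - 1)), O.pow_mem (mem_of_val_eq_one O hxh) _⟩ : O) = 
    (⟨x ^ h, (mem_of_val_eq_one O hxh)⟩ : O) ^ (l ^ (M - 1)) := rfl
  rw [h5, h6, ← residue_eq_iff O (O.pow_mem (mem_of_val_eq_one O hxh) _)
    (O.pow_mem (O.pow_mem hηO c) _), respow (x ^ h) (mem_of_val_eq_one O hxh),
    respow (η ^ c) (O.pow_mem hηO c), hc]

end Core

/-! ### Divisibility of valuations -/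

section Dvd

variable {K : Type*} [Field K] [NumberField K] (v : HeightOneSpectrum (𝓞 K)) {l : ℕ}

lemma dvdVal_iff (hl0 : l ≠ 0) (y : K) :
    DvdVal v l y ↔ y ≠ 0 ∧ (l : ℤ) ∣ WithZero.log (v.valuation K y) := by
  constructor
  · rintro ⟨z, hz⟩
    have hyz : y * z ^ l ≠ 0 := by
      intro h0; rw [h0, map_zero] at hz; exact zero_ne_one hz
    have hy : y ≠ 0 := left_ne_zero_of_mul hyz
    have hz0 : z ^ l ≠ 0 := right_ne_zero_of_mul hyz
    have hz0' : z ≠ 0 := by rintro rfl; exact hz0 (zero_pow hl0)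
    refine ⟨hy, ?_⟩
    have h1 := congrArg WithZero.log hz
    rw [map_mul, map_pow, WithZero.log_mul ((Valuation.ne_zero_iff _).mpr hy)
      (pow_ne_zero _ ((Valuation.ne_zero_iff _).mpr hz0')), WithZero.log_pow, WithZero.log_one,
      nsmul_eq_mul] at h1
    exact ⟨-WithZero.log (v.valuation K z), by linear_combination h1⟩
  · rintro ⟨hy, c, hc⟩
    obtain ⟨z, hz⟩ := v.valuation_surjective K (WithZero.exp (-c))
    refine ⟨z, ?_⟩
    have h1 : v.valuation K y = WithZero.exp ((l : ℤ) * c) := by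
      rw [← hc, WithZero.exp_log ((Valuation.ne_zero_iff _).mpr hy)]
    rw [map_mul, map_pow, hz, h1, ← WithZero.exp_nsmul, ← WithZero.exp_add, nsmul_eq_mul]
    simp

end Dvd

theorem local_lemma {F E : Type*} [Field F] [Field E] [Algebra F E] [IsGalois F E]
    [CharZero E] [Algebra.IsAlgebraic ℚ E] (K : IntermediateField F E) [NumberField K]
    {l : ℕ} (hl : l.Prime) (hl2 : l ≠ 2) (hpow : ∀ x : E, ∃ y : E, y ^ l = x)
    {ζ : E} (hζ : IsPrimitiveRoot ζ l) (s t δ : E ≃ₐ[F] E) (q : ℕ)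
    (hsK : ∀ x ∈ K, s x = x) (htK : ∀ x ∈ K, t x = x)
    (hrel : s * t = δ * t ^ q * s) (hq1 : 1 < q) (hq2 : l ^ 2 ∣ q - 1)
    (hδ : ∀ b : E, ∀ n : ℕ, (δ ^ (l ^ n)) b = b → δ b = b)
    (hsζ : ∀ n : ℕ, ∀ ξ : E, ξ ^ (l ^ n) = 1 → s ξ = ξ ^ q)
    (htζ : ∀ n : ℕ, ∀ ξ : E, ξ ^ (l ^ n) = 1 → t ξ = ξ)
    (hne : ∃ b : E, b ^ l ∈ K ∧ t b ≠ b) :
    ∃ w : HeightOneSpectrum (𝓞 K), (l : 𝓞 K) ∉ w.asIdeal ∧
      (∀ b : E, ∀ x : K, b ^ l = (x : E) → DvdVal w l x → t b = b) ∧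
      (∀ b : E, ∀ x : K, x ≠ 0 → b ^ l = (x : E) → t b = b → DvdVal w l x) ∧
      (∀ b : E, ∀ x : K, b ^ l = (x : E) → w.valuation K x = 1 →
        w.valuation K (x ^ (q - 1) - 1) < 1 →
        ∀ e : ℕ, s b = ζ ^ e * b → ∀ y : K, (y : E) = ζ ^ e →
          w.valuation K (x ^ ((q - 1) / l) - y) < 1) := by
  have : Fact l.Prime := ⟨hl⟩
  have hl0 := hl.pos
  let S : E ≃+* E := s.toRingEquiv
  let T : E ≃+* E := t.toRingEquiv
  let D : E ≃+* E := δ.toRingEquiv
  have hS : ∀ x, S x = s x := fun _ => rfl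
  have hT : ∀ x, T x = t x := fun _ => rfl
  have hD : ∀ x, D x = δ x := fun _ => rfl
  have hTpow : ∀ (n : ℕ) (x : E), (T ^ n) x = (t ^ n) x := by
    intro n
    induction n with
    | zero => intro x; rfl
    | succ n ih => intro x; rw [pow_succ, pow_succ, RingAut.mul_apply, ih, AlgEquiv.mul_apply]; rfl
  have hDpow : ∀ (n : ℕ) (x : E), (D ^ n) x = (δ ^ n) x := by
    intro n
    induction n with
    | zero => intro x; rfl
    | succ n ih => intro x; rw [pow_succ, pow_succ, RingAut.mul_apply, ih, AlgEquiv.mul_apply]; rfl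
  have hrel' : ∀ x, S (T x) = D ((T ^ q) (S x)) := by
    intro x
    rw [hTpow, hS, hT, hD, hS]
    have := congrArg (fun g : E ≃ₐ[F] E => g x) hrel
    exact this
  have hδ' : ∀ b : E, (D ^ l) b = b → D b = b := by
    intro b hb
    rw [hDpow] at hb
    exact hδ b 1 (by rw [pow_one]; exact hb)
  have htζ1 : T ζ = ζ := htζ 1 ζ (by rw [pow_one, hζ.pow_eq_one])
  have hlq : l ∣ q - 1 := dvd_trans (dvd_pow_self l two_ne_zero) hq2
  have hsζ1 : S ζ = ζ := by
    rw [hS, hsζ 1 ζ (by rw [pow_one, hζ.pow_eq_one])]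
    obtain ⟨k, hk⟩ := hlq
    have : q = l * k + 1 := by omega
    rw [this, pow_succ, pow_mul, hζ.pow_eq_one, one_pow, one_mul]
  have hKf : ∀ x : K, (x : E) ∈ fixed2 S T := fun x => mem_fixed2.mpr ⟨hsK x x.2, htK x x.2⟩
  let ι : K →+* fixed2 S T :=
    (algebraMap K E).codRestrict (fixed2 S T) hKf
  let : Algebra K (fixed2 S T) := ι.toAlgebra
  have hι : ∀ x : K, ((algebraMap K (fixed2 S T) x : fixed2 S T) : E) = x := fun _ => rfl
  have hne' : ∃ x : fixed2 S T, x ≠ 0 ∧ kum hpow ζ T (x : E) ≠ 0 := by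
    obtain ⟨b, hbK, hb⟩ := hne
    have hb0 : b ≠ 0 := by rintro rfl; exact hb (map_zero _)
    refine ⟨⟨b ^ l, hKf ⟨b ^ l, hbK⟩⟩, ?_, ?_⟩
    · intro h0
      have := congrArg Subtype.val h0
      exact pow_ne_zero l hb0 this
    · rw [Ne, kum_eq_zero_iff hpow hl0 hζ htζ1 (pow_ne_zero l hb0) (htK _ hbK) rfl]
      exact hb
  obtain ⟨O, hO, hlO, hunit, hresid⟩ := local_core hl2 hζ hpow hrel' hq1 hq2 hδ'
    (fun n ξ hξ => hsζ n ξ hξ) (fun n ξ hξ => htζ n ξ hξ) hne'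
  obtain ⟨w, hw⟩ := exists_center (K := K) O hO
  have hmem := mem_iff_of_center (K := K) O hO w hw
  have hval : ∀ x : K, w.valuation K x = 1 → O.valuation (algebraMap K (fixed2 S T) x) = 1 := by
    intro x hx
    refine le_antisymm ?_ ?_
    · rw [ValuationSubring.valuation_le_one_iff, (hmem x).1, hx]
    · rw [← not_lt, ← ValuationSubring.mem_nonunits_iff, (hmem x).2, hx]
      exact lt_irrefl _
  -- the character of `t` on `K`
  have hf1 : ∀ x : K, DvdVal w l x → kum hpow ζ T (x : E) = 0 := by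
    rintro x ⟨z, hz⟩
    have hyz : x * z ^ l ≠ 0 := by
      intro h0; rw [h0, map_zero] at hz; exact zero_ne_one hz
    have hx0 : x ≠ 0 := left_ne_zero_of_mul hyz
    have hz0 : z ^ l ≠ 0 := right_ne_zero_of_mul hyz
    have hz0' : z ≠ 0 := by rintro rfl; exact hz0 (zero_pow hl0.ne')
    have h1 := hunit _ (hval _ hz)
    rw [hι] at h1
    push_cast at h1
    have hxE : (x : E) ≠ 0 := by simpa using hx0
    have hzE : (z : E) ≠ 0 := by simpa using hz0'
    rw [kum_mul hpow hl0 hζ htζ1 hxE (pow_ne_zero _ hzE) (htK x x.2)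
      (by rw [map_pow]; congr 1; exact htK z z.2), kum_pow_l hpow hl0 hζ htζ1 hzE (htK z z.2),
      add_zero] at h1
    exact h1
  refine ⟨w, ?_, ?_, ?_, ?_⟩
  · rw [hw]
    simpa using hlO
  · intro b x hb hx
    have hx0 : x ≠ 0 := ((dvdVal_iff w hl0.ne' x).mp hx).1
    have hxE : (x : E) ≠ 0 := by simpa using hx0
    exact (kum_eq_zero_iff hpow hl0 hζ htζ1 hxE (htK x x.2) hb).mp (hf1 x hx)
  · intro b x hx0 hb htb
    have hxE : (x : E) ≠ 0 := by simpa using hx0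
    have hfx := (kum_eq_zero_iff hpow hl0 hζ htζ1 hxE (htK x x.2) hb).mpr htb
    obtain ⟨b0, hb0K, hb0⟩ := hne
    have hb00 : b0 ≠ 0 := by rintro rfl; exact hb0 (map_zero _)
    set x0 : K := ⟨b0 ^ l, hb0K⟩ with hx0def
    have hx0E : (x0 : E) ≠ 0 := pow_ne_zero l hb00
    have hx00 : x0 ≠ 0 := by intro h; apply hx0E; rw [h]; rfl
    have hfx0 : kum hpow ζ T (x0 : E) ≠ 0 := by
      rw [Ne, kum_eq_zero_iff hpow hl0 hζ htζ1 hx0E (htK _ hb0K) (b := b0) rfl]
      exact hb0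
    rw [dvdVal_iff w hl0.ne']
    refine ⟨hx0, ?_⟩
    by_contra hnd
    set n := WithZero.log (w.valuation K x) with hn
    set n0 := WithZero.log (w.valuation K x0) with hn0
    have hnz : (n : ZMod l) ≠ 0 := by rwa [Ne, ZMod.intCast_zmod_eq_zero_iff_dvd]
    obtain ⟨a, ha⟩ : ∃ a : ℕ, (n0 : ZMod l) + a * n = 0 := by
      refine ⟨((-(n0 : ZMod l)) * (n : ZMod l)⁻¹).val, ?_⟩
      rw [ZMod.natCast_zmod_val, mul_assoc, inv_mul_cancel₀ hnz]
      ring
    have hd : DvdVal w l (x0 * x ^ a) := by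
      rw [dvdVal_iff w hl0.ne']
      refine ⟨mul_ne_zero hx00 (pow_ne_zero _ hx0), ?_⟩
      rw [map_mul, map_pow, WithZero.log_mul ((Valuation.ne_zero_iff _).mpr hx00)
        (pow_ne_zero _ ((Valuation.ne_zero_iff _).mpr hx0)), WithZero.log_pow, nsmul_eq_mul,
        ← ZMod.intCast_zmod_eq_zero_iff_dvd]
      push_cast
      exact ha
    have h1 := hf1 _ hd
    push_cast at h1
    rw [kum_mul hpow hl0 hζ htζ1 hx0E (pow_ne_zero _ hxE) (htK x0 x0.2)
      (by rw [map_pow]; congr 1; exact htK x x.2), kum_pow hpow hl0 hζ htζ1 hxE (htK x x.2),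
      hfx, mul_zero, add_zero] at h1
    exact hfx0 h1
  · intro b x hb hx hxq e he y hy
    have hx0 : x ≠ 0 := by
      rintro rfl; rw [map_zero] at hx; exact zero_ne_one hx
    have hxE : (x : E) ≠ 0 := by simpa using hx0
    have h1 : (e : ZMod l) = kum hpow ζ S (x : E) :=
      (kum_spec hpow hl0 hζ hsζ1 hxE (hsK x x.2) hb e).mp he
    have h2 : (algebraMap K (fixed2 S T) x) ^ (q - 1) - 1 ∈ O.nonunits := by
      have := (hmem (x ^ (q - 1) - 1)).2.mpr hxq
      rwa [map_sub, map_pow, map_one] at this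
    have h3 := hresid _ (hval x hx) h2 e (by rw [hι]; exact h1)
      (algebraMap K (fixed2 S T) y) (by rw [hι, hy])
    rw [← (hmem _).2, map_sub, map_pow]
    exact h3

end Vale.Agent.P024
end
end

section

section

/-!
[K] Kummer transfer along a continuous homomorphism of Galois groups.
-/

namespace Vale.Agent.P024

open scoped NumberField

section Kummer

variable {F₁ E₁ F₂ E₂ : Type*} [Field F₁] [Field E₁] [Algebra F₁ E₁] [IsGalois F₁ E₁]
    [Field F₂] [Field E₂] [Algebra F₂ E₂] [IsGalois F₂ E₂]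

theorem kummer_transfer
    (α : (E₁ ≃ₐ[F₁] E₁) →* (E₂ ≃ₐ[F₂] E₂)) (hα : Continuous α)
    (K₁ : IntermediateField F₁ E₁) [FiniteDimensional F₁ K₁]
    {l : ℕ} (hl : l.Prime)
    {ζ₁ : E₁} (hζ₁ : IsPrimitiveRoot ζ₁ l) (hζ₁K : ζ₁ ∈ K₁)
    {ζ₂ : E₂} (hζ₂ : IsPrimitiveRoot ζ₂ l)
    (a : E₂) (ha : a ≠ 0)
    (hαa : ∀ g : E₁ ≃ₐ[F₁] E₁, (∀ x ∈ K₁, g x = x) → (α g) (a ^ l) = a ^ l)
    (hαζ : ∀ g : E₁ ≃ₐ[F₁] E₁, (∀ x ∈ K₁, g x = x) → (α g) ζ₂ = ζ₂) :
    ∃ b : E₁, b ≠ 0 ∧ b ^ l ∈ K₁ ∧ ∀ g : E₁ ≃ₐ[F₁] E₁, (∀ x ∈ K₁, g x = x) →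
      ∀ e : ℕ, (α g) a = ζ₂ ^ e * a → g b = ζ₁ ^ e * b := by
  classical
  have hl0 : l ≠ 0 := hl.ne_zero
  have : NeZero l := ⟨hl0⟩
  have hζ₂0 : ζ₂ ≠ 0 := hζ₂.ne_zero hl0
  have hζ₁0 : ζ₁ ≠ 0 := hζ₁.ne_zero hl0
  have hexp : ∀ e : ℕ, ζ₂ ^ e = 1 → ζ₁ ^ e = 1 := fun e he =>
    (hζ₁.pow_eq_one_iff_dvd e).mpr ((hζ₂.pow_eq_one_iff_dvd e).mp he)
  by_cases hA : ∀ g : E₁ ≃ₐ[F₁] E₁, (∀ x ∈ K₁, g x = x) → (α g) a = a
  · refine ⟨1, one_ne_zero, by rw [one_pow]; exact K₁.one_mem, ?_⟩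
    intro g hg e he
    rw [hA g hg] at he
    have h1 : ζ₂ ^ e = 1 := by
      have h2 : (ζ₂ ^ e - 1) * a = 0 := by rw [sub_mul, one_mul, ← he, sub_self]
      exact sub_eq_zero.mp ((mul_eq_zero.mp h2).resolve_right ha)
    rw [map_one, hexp e h1, one_mul]
  push Not at hA
  obtain ⟨σ0, hσ0, hσ0a⟩ := hA
  -- the exponent of `σ0`
  have hexpo : ∀ g : E₁ ≃ₐ[F₁] E₁, (∀ x ∈ K₁, g x = x) → ∃ e : ℕ, (α g) a = ζ₂ ^ e * a := by
    intro g hg
    have h1 : ((α g) a / a) ^ l = 1 := by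
      rw [div_pow, ← map_pow, hαa g hg, div_self (pow_ne_zero l ha)]
    obtain ⟨i, -, hi⟩ := hζ₂.eq_pow_of_pow_eq_one h1
    exact ⟨i, by rw [hi]; field_simp⟩
  -- powers
  have hpow : ∀ g : E₁ ≃ₐ[F₁] E₁, (∀ x ∈ K₁, g x = x) → ∀ e : ℕ, (α g) a = ζ₂ ^ e * a →
      ∀ n : ℕ, (∀ x ∈ K₁, (g ^ n) x = x) ∧ (α (g ^ n)) a = ζ₂ ^ (e * n) * a := by
    intro g hg e he n
    induction n with
    | zero => simp
    | succ n ih =>
      refine ⟨fun x hx => ?_, ?_⟩
      · rw [pow_succ', AlgEquiv.mul_apply, ih.1 x hx, hg x hx]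
      · rw [pow_succ', map_mul, AlgEquiv.mul_apply, ih.2, map_mul, map_pow, hαζ g hg, he,
          ← mul_assoc, ← pow_add]
        congr 2
  obtain ⟨e0, he0⟩ := hexpo σ0 hσ0
  have he0l : ¬ l ∣ e0 := by
    intro h
    apply hσ0a
    rw [he0, (hζ₂.pow_eq_one_iff_dvd e0).mpr h, one_mul]
  obtain ⟨m, hm⟩ := Nat.exists_mul_mod_eq_one_of_coprime
    ((Nat.Prime.coprime_iff_not_dvd hl).mpr he0l).symm hl.one_lt
  set σ : E₁ ≃ₐ[F₁] E₁ := σ0 ^ m with hσdef
  have hσK : ∀ x ∈ K₁, σ x = x := (hpow σ0 hσ0 e0 he0 m).1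
  have hσa : (α σ) a = ζ₂ ^ 1 * a := by
    rw [(hpow σ0 hσ0 e0 he0 m).2]
    congr 1
    have h1 : e0 * m = l * (e0 * m / l) + 1 := by
      have := Nat.div_add_mod (e0 * m) l
      omega
    rw [h1, pow_add, pow_mul, hζ₂.pow_eq_one, one_pow, one_mul]
  have hσpow : ∀ n : ℕ, (∀ x ∈ K₁, (σ ^ n) x = x) ∧ (α (σ ^ n)) a = ζ₂ ^ n * a := by
    intro n
    have := hpow σ hσK 1 hσa n
    rwa [one_mul] at this
  -- the subgroup `H`
  let H : Subgroup (E₁ ≃ₐ[F₁] E₁) :=
    K₁.fixingSubgroup ⊓ (MulAction.stabilizer (E₂ ≃ₐ[F₂] E₂) a).comap α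
  have hHmem : ∀ g, g ∈ H ↔ (∀ x ∈ K₁, g x = x) ∧ (α g) a = a := by
    intro g
    rw [Subgroup.mem_inf, Subgroup.mem_comap, MulAction.mem_stabilizer_iff,
      IntermediateField.mem_fixingSubgroup_iff]
    rfl
  have hHopen : IsOpen (H : Set (E₁ ≃ₐ[F₁] E₁)) := by
    have h1 : IsOpen (K₁.fixingSubgroup : Set (E₁ ≃ₐ[F₁] E₁)) := K₁.fixingSubgroup_isOpen
    have h2 : IsOpen ((MulAction.stabilizer (E₂ ≃ₐ[F₂] E₂) a).comap α : Set (E₁ ≃ₐ[F₁] E₁)) :=
      (stabilizer_isOpen_of_isIntegral (K := F₂) (L := E₂) a).preimage hα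
    exact h1.inter h2
  have hHclosed : IsClosed (H : Set (E₁ ≃ₐ[F₁] E₁)) := Subgroup.isClosed_of_isOpen H hHopen
  let M : IntermediateField F₁ E₁ := IntermediateField.fixedField H
  have hMfix : M.fixingSubgroup = H :=
    InfiniteGalois.fixingSubgroup_fixedField ⟨H, hHclosed⟩
  have hM : ∀ c ∈ M, ∀ h ∈ H, h c = c := by
    intro c hc h hh
    exact (IntermediateField.mem_fixedField_iff H c).mp hc h hh
  -- conjugation invariance
  have hconj : ∀ c ∈ M, ∀ h ∈ H, ∀ i : ℕ, h ((σ ^ i) c) = (σ ^ i) c := by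
    intro c hc h hh i
    have h1 : (σ ^ i)⁻¹ * h * (σ ^ i) ∈ H := by
      rw [hHmem]
      have hhm := (hHmem h).mp hh
      have hinv : ∀ x, (σ ^ i) x = x → ((σ ^ i)⁻¹ : E₁ ≃ₐ[F₁] E₁) x = x := by
        intro x hx
        have := congrArg ((σ ^ i)⁻¹ : E₁ ≃ₐ[F₁] E₁) hx
        rw [← AlgEquiv.mul_apply, inv_mul_cancel, AlgEquiv.one_apply] at this
        exact this.symm
      refine ⟨fun x hx => ?_, ?_⟩
      · rw [AlgEquiv.mul_apply, AlgEquiv.mul_apply, (hσpow i).1 x hx, hhm.1 x hx]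
        exact hinv x ((hσpow i).1 x hx)
      · rw [map_mul, map_mul, AlgEquiv.mul_apply, AlgEquiv.mul_apply, (hσpow i).2, map_mul,
          map_pow, hαζ h hhm.1, hhm.2, ← (hσpow i).2, ← AlgEquiv.mul_apply, ← map_mul,
          inv_mul_cancel, map_one, AlgEquiv.one_apply]
    have h2 := hM c hc _ h1
    rw [AlgEquiv.mul_apply, AlgEquiv.mul_apply] at h2
    have h3 := congrArg (σ ^ i) h2
    rwa [← AlgEquiv.mul_apply, mul_inv_cancel, AlgEquiv.one_apply] at h3
  -- nonvanishing of a Lagrange resolvent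
  have hres : ∃ c ∈ M, (∑ i ∈ Finset.range l, (ζ₁⁻¹) ^ i * (σ ^ i) c) ≠ 0 := by
    by_contra hcon
    push Not at hcon
    let φ : Fin l → (M →* E₁) := fun i =>
      (((σ ^ (i : ℕ) : E₁ ≃ₐ[F₁] E₁) : E₁ →* E₁)).comp (algebraMap M E₁ : M →* E₁)
    have hφ : Function.Injective φ := by
      intro i j hij
      have key : ∀ i j : Fin l, φ i = φ j → i < j → False := by
        intro i j hij hlt
        have h1 : (σ ^ ((j : ℕ) - (i : ℕ))) ∈ M.fixingSubgroup := by
          rw [IntermediateField.mem_fixingSubgroup_iff]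
          intro x hx
          have h2 : (σ ^ (i : ℕ)) x = (σ ^ (j : ℕ)) x :=
            DFunLike.congr_fun hij (⟨x, hx⟩ : M)
          apply (σ ^ (i : ℕ)).injective
          rw [← AlgEquiv.mul_apply, ← pow_add]
          have h3 : (i : ℕ) + ((j : ℕ) - (i : ℕ)) = (j : ℕ) := by
            have : (i : ℕ) < (j : ℕ) := hlt
            omega
          rw [h3]
          exact h2.symm
        rw [hMfix, hHmem, (hσpow _).2] at h1
        have h4 : ζ₂ ^ ((j : ℕ) - (i : ℕ)) = 1 := by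
          have h5 : (ζ₂ ^ ((j : ℕ) - (i : ℕ)) - 1) * a = 0 := by
            rw [sub_mul, one_mul, h1.2, sub_self]
          exact sub_eq_zero.mp ((mul_eq_zero.mp h5).resolve_right ha)
        have h6 := (hζ₂.pow_eq_one_iff_dvd _).mp h4
        have h7 : (i : ℕ) < (j : ℕ) := hlt
        have h8 := Nat.le_of_dvd (by omega) h6
        have h9 := j.2
        omega
      rcases lt_trichotomy i j with h | h | h
      · exact (key i j hij h).elim
      · exact h
      · exact (key j i hij.symm h).elim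
    have hli : LinearIndependent E₁ (fun i : Fin l => (φ i : M → E₁)) :=
      (linearIndependent_monoidHom M E₁).comp φ hφ
    rw [Fintype.linearIndependent_iff] at hli
    have h1 := hli (fun i => (ζ₁⁻¹) ^ (i : ℕ)) (by
      funext c
      rw [Finset.sum_apply]
      simp only [Pi.smul_apply, smul_eq_mul, Pi.zero_apply]
      have h2 := hcon (c : E₁) c.2
      rw [Finset.sum_range] at h2
      exact h2) ⟨0, hl.pos⟩
    simp at h1
  obtain ⟨c, hcM, hc⟩ := hres
  set b : E₁ := ∑ i ∈ Finset.range l, (ζ₁⁻¹) ^ i * (σ ^ i) c with hb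
  have hσb : σ b = ζ₁ * b := by
    have h1 : σ b = ∑ i ∈ Finset.range l, (ζ₁⁻¹) ^ i * (σ ^ (i + 1)) c := by
      rw [hb, map_sum]
      refine Finset.sum_congr rfl fun i _ => ?_
      rw [map_mul, map_pow, map_inv₀, hσK ζ₁ hζ₁K, ← AlgEquiv.mul_apply, ← pow_succ']
    have h2 : ζ₁⁻¹ * σ b = ∑ i ∈ Finset.range l, (ζ₁⁻¹) ^ (i + 1) * (σ ^ (i + 1)) c := by
      rw [h1, Finset.mul_sum]
      refine Finset.sum_congr rfl fun i _ => ?_
      ring
    have h3 := Finset.sum_range_succ (fun i => (ζ₁⁻¹) ^ i * (σ ^ i) c) l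
    have h4 := Finset.sum_range_succ' (fun i => (ζ₁⁻¹) ^ i * (σ ^ i) c) l
    have h5 : (σ ^ l) c = c := by
      apply hM c hcM
      rw [hHmem]
      refine ⟨(hσpow l).1, ?_⟩
      rw [(hσpow l).2, hζ₂.pow_eq_one, one_mul]
    have h6 : ζ₁⁻¹ * σ b = b := by
      rw [h2]
      rw [h3] at h4
      rw [h5, inv_pow, hζ₁.pow_eq_one, inv_one, one_mul, pow_zero, pow_zero, one_mul,
        AlgEquiv.one_apply] at h4
      exact (add_right_cancel h4).symm
    calc σ b = ζ₁ * (ζ₁⁻¹ * σ b) := by rw [← mul_assoc, mul_inv_cancel₀ hζ₁0, one_mul]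
      _ = ζ₁ * b := by rw [h6]
  have hσpb : ∀ n : ℕ, (σ ^ n) b = ζ₁ ^ n * b := by
    intro n
    induction n with
    | zero => simp
    | succ n ih =>
      rw [pow_succ', AlgEquiv.mul_apply, ih, map_mul, map_pow, hσK ζ₁ hζ₁K, hσb]
      ring
  have hHb : ∀ h ∈ H, h b = b := by
    intro h hh
    rw [hb, map_sum]
    refine Finset.sum_congr rfl fun i _ => ?_
    rw [map_mul, map_pow, map_inv₀, ((hHmem h).mp hh).1 ζ₁ hζ₁K, hconj c hcM h hh i]
  have hmain : ∀ g : E₁ ≃ₐ[F₁] E₁, (∀ x ∈ K₁, g x = x) →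
      ∀ e : ℕ, (α g) a = ζ₂ ^ e * a → g b = ζ₁ ^ e * b := by
    intro g hg e he
    have h1 : (σ ^ e)⁻¹ * g ∈ H := by
      rw [hHmem]
      refine ⟨fun x hx => ?_, ?_⟩
      · rw [AlgEquiv.mul_apply, hg x hx]
        have := congrArg ((σ ^ e)⁻¹ : E₁ ≃ₐ[F₁] E₁) ((hσpow e).1 x hx)
        rw [← AlgEquiv.mul_apply, inv_mul_cancel, AlgEquiv.one_apply] at this
        exact this.symm
      · rw [map_mul, AlgEquiv.mul_apply, he, ← (hσpow e).2, ← AlgEquiv.mul_apply, ← map_mul,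
          inv_mul_cancel, map_one, AlgEquiv.one_apply]
    have h2 := hHb _ h1
    rw [AlgEquiv.mul_apply] at h2
    have h3 := congrArg (σ ^ e) h2
    rw [← AlgEquiv.mul_apply, mul_inv_cancel, AlgEquiv.one_apply, hσpb] at h3
    exact h3
  refine ⟨b, hc, ?_, hmain⟩
  have h1 : b ^ l ∈ IntermediateField.fixedField K₁.fixingSubgroup := by
    rw [IntermediateField.mem_fixedField_iff]
    intro g hg
    rw [IntermediateField.mem_fixingSubgroup_iff] at hg
    obtain ⟨e, he⟩ := hexpo g hg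
    rw [map_pow, hmain g hg e he, mul_pow, ← pow_mul, mul_comm e l, pow_mul, hζ₁.pow_eq_one,
      one_pow, one_mul]
  rwa [InfiniteGalois.fixedField_fixingSubgroup] at h1

end Kummer

end Vale.Agent.P024
end
end

section

section

/-!
Finitely many ramified primes; comparison of two primes by divisibility of valuations.
-/

namespace Vale.Agent.P024

open scoped NumberField
open IsDedekindDomain

/-- (U1) all but finitely many primes are unramified over `ℚ`. -/
theorem finite_ramified (K : Type*) [Field K] [NumberField K] :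
    {w : HeightOneSpectrum (𝓞 K) | ∃ p : ℕ, p.Prime ∧ (p : 𝓞 K) ∈ w.asIdeal ∧
      w.valuation K (p : K) ≠ WithZero.exp (-1 : ℤ)}.Finite := by
  have hfin := Ideal.finite_factors (R := 𝓞 K) (I := differentIdeal ℤ (𝓞 K))
    (differentIdeal_ne_bot)
  refine hfin.subset ?_
  rintro w ⟨p, hp, hpw, hval⟩
  have hfp : Fact p.Prime := ⟨hp⟩
  show w.asIdeal ∣ differentIdeal ℤ (𝓞 K)
  have hmax : (Ideal.span {(p : ℤ)}).IsMaximal :=
    PrincipalIdealRing.isMaximal_of_irreducible (Nat.prime_iff_prime_int.1 hp).irreducible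
  have hne : Ideal.span {(p : ℤ)} ≠ ⊥ := by
    rw [Ne, Ideal.span_singleton_eq_bot]
    exact_mod_cast hp.ne_zero
  have hmap : (Ideal.span {(p : ℤ)}).map (algebraMap ℤ (𝓞 K)) = Ideal.span {(p : 𝓞 K)} := by
    rw [Ideal.map_span, Set.image_singleton]
    simp
  -- the valuation is at most `exp (-2)`
  have hv : w.valuation K (p : K) = w.intValuation (p : 𝓞 K) := by
    rw [← w.valuation_of_algebraMap (K := K)]
    simp
  have h1 : w.intValuation (p : 𝓞 K) < 1 := (w.intValuation_lt_one_iff_mem _).2 hpw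
  have hp0 : (p : 𝓞 K) ≠ 0 := Nat.cast_ne_zero.2 hp.ne_zero
  have h2 : w.intValuation (p : 𝓞 K) ≤ WithZero.exp (-((2 : ℕ) : ℤ)) := by
    have h3 := w.intValuation_ne_zero _ hp0
    rw [hv] at hval
    rw [← WithZero.exp_log h3] at h1 hval ⊢
    rw [← WithZero.exp_zero, WithZero.exp_lt_exp] at h1
    rw [WithZero.exp_le_exp]
    have h4 : WithZero.log (w.intValuation (p : 𝓞 K)) ≠ -1 := fun h => hval (by rw [h])
    push_cast
    omega
  rw [w.intValuation_le_pow_iff_dvd] at h2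
  have := pow_sub_one_dvd_differentIdeal ℤ (B := 𝓞 K) (p := Ideal.span {(p : ℤ)}) w.asIdeal 2 hne
    (by rw [hmap]; exact h2)
  simpa using this

/-- (U2) -/
theorem eq_of_dvdVal_imp {K : Type*} [Field K] [NumberField K] {l : ℕ} (hl : l.Prime)
    (w w' : HeightOneSpectrum (𝓞 K)) (h : ∀ x : K, x ≠ 0 → DvdVal w l x → DvdVal w' l x) :
    w = w' := by
  by_contra hne
  have hne' : w.asIdeal ≠ w'.asIdeal := fun e => hne (HeightOneSpectrum.ext e)
  have hcop : IsCoprime w.asIdeal (w'.asIdeal ^ 2) := by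
    refine IsCoprime.pow_right ?_
    rw [Ideal.isCoprime_iff_sup_eq]
    exact w.isMaximal.coprime_of_ne w'.isMaximal hne'
  obtain ⟨i, hi, j, hj, hij⟩ := (Ideal.isCoprime_iff_exists).1 hcop
  obtain ⟨π, hπ⟩ := w'.intValuation_exists_uniformizer
  set x : 𝓞 K := j + i * π with hx
  -- at `w`
  have h1 : w.intValuation x = 1 := by
    have h2 : w.intValuation (x - 1) < w.intValuation 1 := by
      rw [map_one, w.intValuation_lt_one_iff_mem]
      have e : x - 1 = i * (π - 1) := by linear_combination hx + hij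
      rw [e]
      exact Ideal.mul_mem_right _ _ hi
    have h3 := (w.intValuation).map_add_eq_of_lt_right h2
    rwa [sub_add_cancel, map_one] at h3
  -- at `w'`
  have h2 : w'.intValuation x = WithZero.exp (-1 : ℤ) := by
    have h3 : w'.intValuation (x - π) < w'.intValuation π := by
      have e : x - π = j * (1 - π) := by linear_combination hx + π * hij
      have h4 : x - π ∈ w'.asIdeal ^ 2 := by
        rw [e]; exact Ideal.mul_mem_right _ _ hj
      rw [← w'.intValuation_le_pow_iff_mem] at h4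
      rw [hπ]
      refine lt_of_le_of_lt h4 ?_
      rw [WithZero.exp_lt_exp]
      norm_num
    have h4 := (w'.intValuation).map_add_eq_of_lt_right h3
    rwa [sub_add_cancel, hπ] at h4
  have hx0 : x ≠ 0 := by
    intro h0
    rw [h0, map_zero] at h1
    exact zero_ne_one h1
  have hxK : algebraMap (𝓞 K) K x ≠ 0 :=
    (map_ne_zero_iff _ (FaithfulSMul.algebraMap_injective (𝓞 K) K)).2 hx0
  obtain ⟨z, hz⟩ := h (algebraMap (𝓞 K) K x) hxK
    ⟨1, by rw [one_pow, mul_one, w.valuation_of_algebraMap, h1]⟩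
  rw [map_mul, w'.valuation_of_algebraMap, h2, map_pow] at hz
  have hz0 : w'.valuation K z ≠ 0 := by
    intro h0
    rw [h0, zero_pow hl.ne_zero, mul_zero] at hz
    exact zero_ne_one hz
  rw [← WithZero.exp_log hz0, ← WithZero.exp_nsmul, ← WithZero.exp_add, ← WithZero.exp_zero] at hz
  have h5 := WithZero.exp_injective hz
  have h6 : (l : ℤ) ∣ 1 := ⟨WithZero.log (w'.valuation K z), by
    rw [nsmul_eq_mul] at h5; linarith⟩
  have h7 : l ∣ 1 := by exact_mod_cast h6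
  exact hl.one_lt.ne' (Nat.dvd_one.1 h7)

end Vale.Agent.P024
end
end

section

section

/-!
Tame elements: automorphisms preserving a valuation subring.
-/

namespace Vale.Agent.P024

open scoped NumberField
open IsDedekindDomain

section Tame

variable {F E : Type*} [Field F] [Field E] [Algebra F E] [IsGalois F E] [CharZero E]
  [Algebra.IsAlgebraic ℚ E]

/-- orbits of automorphisms are finite -/
theorem exists_pow_apply_eq {F E : Type*} [Field F] [Field E] [Algebra F E]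
    [Algebra.IsAlgebraic F E] (g : E ≃ₐ[F] E) (x : E) : ∃ n : ℕ, 0 < n ∧ (g ^ n) x = x := by
  have hx : IsIntegral F x := (Algebra.IsAlgebraic.isAlgebraic x).isIntegral
  have hfin : (Set.range fun n : ℕ => (g ^ n) x).Finite := by
    refine Set.Finite.subset ((minpoly F x).rootSet_finite E) ?_
    rintro y ⟨n, rfl⟩
    rw [Polynomial.mem_rootSet]
    refine ⟨minpoly.ne_zero hx, ?_⟩
    have := Polynomial.aeval_algHom_apply ((g ^ n : E ≃ₐ[F] E) : E →ₐ[F] E) x (minpoly F x)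
    simp only [minpoly.aeval, map_zero] at this
    exact this
  obtain ⟨a, b, hab, h⟩ : ∃ a b : ℕ, a < b ∧ (g ^ a) x = (g ^ b) x := by
    by_contra hcon
    push Not at hcon
    have hinj : Function.Injective fun n : ℕ => (g ^ n) x := by
      intro a b hab
      rcases lt_trichotomy a b with h | h | h
      · exact absurd hab (hcon a b h)
      · exact h
      · exact absurd hab.symm (hcon b a h)
    exact Set.infinite_range_of_injective hinj hfin
  refine ⟨b - a, by omega, ?_⟩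
  apply (g ^ a).injective
  rw [← AlgEquiv.mul_apply, ← pow_add, show a + (b - a) = b by omega, h]

/-- (C0) elements of the decomposition group preserve the valuation. -/
theorem valuation_map_eq (O : ValuationSubring E) (g : E ≃ₐ[F] E) (hg : Stab O g) (x : E) :
    O.valuation (g x) = O.valuation x := by
  have hle : ∀ a b : E, O.valuation (g a) ≤ O.valuation (g b) ↔
      O.valuation a ≤ O.valuation b := by
    intro a b
    by_cases hb : b = 0
    · subst hb
      simp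
    · have hgb : g b ≠ 0 := by simpa using hb
      have h1 : ∀ c d : E, d ≠ 0 → (O.valuation c ≤ O.valuation d ↔ c / d ∈ O) := by
        intro c d hd
        rw [← O.valuation_le_one_iff, map_div₀, div_le_one₀]
        exact (zero_lt_iff.2 ((O.valuation.ne_zero_iff).2 hd))
      rw [h1 _ _ hgb, h1 _ _ hb, ← map_div₀, hg]
  have hlt : ∀ a b : E, O.valuation (g a) < O.valuation (g b) ↔
      O.valuation a < O.valuation b := by
    intro a b
    rw [← not_le, ← not_le, hle]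
  obtain ⟨n, hn, hx⟩ := exists_pow_apply_eq g x
  -- monotonicity along the orbit
  rcases lt_trichotomy (O.valuation (g x)) (O.valuation x) with h | h | h
  · exfalso
    have h1 : ∀ k : ℕ, O.valuation ((g ^ (k + 1)) x) < O.valuation x := by
      intro k
      induction k with
      | zero => simpa using h
      | succ k ih =>
        rw [pow_succ', AlgEquiv.mul_apply]
        exact ((hlt _ _).2 ih).trans h
    have h2 := h1 (n - 1)
    rw [show n - 1 + 1 = n by omega, hx] at h2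
    exact lt_irrefl _ h2
  · exact h
  · exfalso
    have h1 : ∀ k : ℕ, O.valuation x < O.valuation ((g ^ (k + 1)) x) := by
      intro k
      induction k with
      | zero => simpa using h
      | succ k ih =>
        rw [pow_succ', AlgEquiv.mul_apply]
        exact h.trans ((hlt _ _).2 ih)
    have h2 := h1 (n - 1)
    rw [show n - 1 + 1 = n by omega, hx] at h2
    exact lt_irrefl _ h2

/-- `a` and `b` have the same leading term with respect to `O` -/
def Near {E : Type*} [Field E] (O : ValuationSubring E) (a b : E) : Prop :=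
  a ≠ 0 ∧ b ≠ 0 ∧ a / b - 1 ∈ O.nonunits

namespace Near

variable {E : Type*} [Field E] {O : ValuationSubring E}

theorem refl {a : E} (ha : a ≠ 0) : Near O a a := ⟨ha, ha, by
  rw [div_self ha, sub_self]; exact O.nonunits.zero_mem⟩

theorem val_eq_one_of {x : E} (h : x - 1 ∈ O.nonunits) : O.valuation x = 1 := by
  have h1 : O.valuation (x - 1) < O.valuation 1 := by rw [map_one]; exact h
  have h2 := O.valuation.map_add_eq_of_lt_right h1
  rw [sub_add_cancel, map_one] at h2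
  exact h2

theorem mul_mem_nonunits {x y : E} (hx : O.valuation x ≤ 1) (hy : y ∈ O.nonunits) :
    x * y ∈ O.nonunits := by
  show O.valuation (x * y) < 1
  rw [map_mul, mul_comm]
  exact mul_lt_one_of_lt_of_le hy hx

theorem mul {a b c d : E} (h1 : Near O a b) (h2 : Near O c d) : Near O (a * c) (b * d) := by
  refine ⟨mul_ne_zero h1.1 h2.1, mul_ne_zero h1.2.1 h2.2.1, ?_⟩
  have e : a * c / (b * d) - 1 = (a / b) * (c / d - 1) + (a / b - 1) := by
    rw [mul_div_mul_comm]; ring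
  rw [e]
  exact O.nonunits.add_mem (mul_mem_nonunits (val_eq_one_of h1.2.2).le h2.2.2) h1.2.2

theorem inv {a b : E} (h : Near O a b) : Near O a⁻¹ b⁻¹ := by
  refine ⟨inv_ne_zero h.1, inv_ne_zero h.2.1, ?_⟩
  have e : a⁻¹ / b⁻¹ - 1 = -(b / a) * (a / b - 1) := by
    have ha := h.1
    have hb := h.2.1
    field_simp
    ring
  rw [e]
  refine mul_mem_nonunits (le_of_eq ?_) h.2.2
  rw [Valuation.map_neg]
  have h3 := val_eq_one_of h.2.2
  rw [show b / a = (a / b)⁻¹ by rw [inv_div], map_inv₀, h3, inv_one]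

theorem symm {a b : E} (h : Near O a b) : Near O b a := by
  have h1 := h.inv
  refine ⟨h.2.1, h.1, ?_⟩
  have := h1.2.2
  rwa [inv_div_inv] at this

theorem trans {a b c : E} (h1 : Near O a b) (h2 : Near O b c) : Near O a c := by
  have h3 := h1.mul h2
  refine ⟨h1.1, h2.2.1, ?_⟩
  have h4 := h3.2.2
  have hb := h1.2.1
  rwa [mul_comm b c, mul_div_mul_right _ _ hb] at h4

theorem div {a b c d : E} (h1 : Near O a b) (h2 : Near O c d) : Near O (a / c) (b / d) := by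
  rw [div_eq_mul_inv, div_eq_mul_inv]; exact h1.mul h2.inv

theorem pow {a b : E} (h : Near O a b) (n : ℕ) : Near O (a ^ n) (b ^ n) := by
  induction n with
  | zero => simpa using refl (O := O) (one_ne_zero (α := E))
  | succ n ih => rw [pow_succ, pow_succ]; exact ih.mul h

end Near

theorem nonunits_map (O : ValuationSubring E) (g : E ≃ₐ[F] E) (hg : Stab O g) {x : E}
    (hx : x ∈ O.nonunits) : g x ∈ O.nonunits := by
  show O.valuation _ < 1
  rw [valuation_map_eq O g hg]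
  exact hx

/-- units: a Frobenius power acts as a power up to principal units -/
theorem near_of_actsPow {O : ValuationSubring E} {g : E ≃ₐ[F] E} {q : ℕ}
    (h : ActsPow O g q) {u : E} (hu : O.valuation u = 1) : Near O (g u) (u ^ q) := by
  have hu0 : u ≠ 0 := by
    rintro rfl
    simp at hu
  refine ⟨by simpa using hu0, pow_ne_zero _ hu0, ?_⟩
  have h1 := h u ((O.valuation_le_one_iff u).1 hu.le)
  have e : g u / u ^ q - 1 = (u ^ q)⁻¹ * (g u - u ^ q) := by
    field_simp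
  rw [e]
  refine Near.mul_mem_nonunits (le_of_eq ?_) h1
  rw [map_inv₀, map_pow, hu, one_pow, inv_one]

theorem theta_indep {O : ValuationSubring E} {t : E ≃ₐ[F] E} (ht' : ActsPow O t 1)
    {a b : E} (ha : a ≠ 0) (hb : b ≠ 0) (hab : O.valuation a = O.valuation b) :
    Near O (t a / a) (t b / b) := by
  have hu : O.valuation (a / b) = 1 := by
    rw [map_div₀, hab, div_self ((O.valuation.ne_zero_iff).2 hb)]
  have h1 := near_of_actsPow ht' hu
  rw [pow_one, map_div₀] at h1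
  have htb : t b ≠ 0 := by simpa using hb
  have hta : t a ≠ 0 := by simpa using ha
  have h2 := h1.div (Near.refl (O := O) (a := a / b) (div_ne_zero ha hb))
  rw [div_self (div_ne_zero ha hb)] at h2
  have h3 := h2.mul (Near.refl (O := O) (a := t b / b) (div_ne_zero htb hb))
  rw [one_mul] at h3
  have e : t a / t b / (a / b) * (t b / b) = t a / a := by
    field_simp
  rwa [e] at h3

theorem theta_pow {O : ValuationSubring E} {t : E ≃ₐ[F] E} (ht : Stab O t) (ht' : ActsPow O t 1)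
    {x : E} (hx : x ≠ 0) (n : ℕ) : Near O ((t ^ n) x / x) ((t x / x) ^ n) := by
  induction n with
  | zero =>
    simpa [div_self hx] using Near.refl (O := O) (one_ne_zero (α := E))
  | succ n ih =>
    have hv : ∀ k : ℕ, O.valuation ((t ^ k) x) = O.valuation x := by
      intro k
      induction k with
      | zero => simp
      | succ k ihk => rw [pow_succ', AlgEquiv.mul_apply, valuation_map_eq O t ht, ihk]
    have hn0 : (t ^ n) x ≠ 0 := (map_ne_zero (t ^ n)).2 hx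
    have h1 := theta_indep ht' hn0 hx (hv n)
    have h2 := h1.mul ih
    rw [pow_succ', AlgEquiv.mul_apply, pow_succ']
    have e : t ((t ^ n) x) / (t ^ n) x * ((t ^ n) x / x) = t ((t ^ n) x) / x := by
      field_simp
    rwa [e] at h2

/-- (C1) the tame relation. -/
theorem theta_rel (O : ValuationSubring E) (s t : E ≃ₐ[F] E) (q : ℕ)
    (hs : Stab O s) (hs' : ActsPow O s q) (ht : Stab O t) (ht' : ActsPow O t 1) :
    ∀ x : E, x ≠ 0 → (s * t * s⁻¹ * (t ^ q)⁻¹) x / x - 1 ∈ O.nonunits := by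
  intro x hx
  set y : E := (t ^ q)⁻¹ x with hy
  have hy0 : y ≠ 0 := by simpa [hy] using hx
  have hxy : x = (t ^ q) y := by
    rw [hy, ← AlgEquiv.mul_apply, mul_inv_cancel, AlgEquiv.one_apply]
  set z : E := s⁻¹ y with hz
  have hz0 : z ≠ 0 := by simpa [hz] using hy0
  have hyz : y = s z := by
    rw [hz, ← AlgEquiv.mul_apply, mul_inv_cancel, AlgEquiv.one_apply]
  have hvz : O.valuation z = O.valuation y := by rw [hyz, valuation_map_eq O s hs]
  have htz0 : t z ≠ 0 := by simpa using hz0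
  -- `s (t z) / y` is near `(t z / z)^q`, near `(t y / y)^q`
  have h1 : Near O (s (t z / z)) ((t z / z) ^ q) := by
    apply near_of_actsPow hs'
    rw [map_div₀, valuation_map_eq O t ht, div_self ((O.valuation.ne_zero_iff).2 hz0)]
  have h2 : Near O ((t z / z) ^ q) ((t y / y) ^ q) := (theta_indep ht' hz0 hy0 hvz).pow q
  have h3 : Near O ((t y / y) ^ q) ((t ^ q) y / y) := (theta_pow ht ht' hy0 q).symm
  have h4 : Near O (s (t z) / y) ((t ^ q) y / y) := by
    have := (h1.trans h2).trans h3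
    rwa [map_div₀, ← hyz] at this
  have h5 := h4.mul (Near.refl (O := O) (a := y) hy0)
  rw [div_mul_cancel₀ _ hy0, div_mul_cancel₀ _ hy0, ← hxy] at h5
  exact h5.2.2

/-- (C2) elements of wild inertia: no prime-to-`p` torsion. -/
theorem wild_fix (O : ValuationSubring E) (δ : E ≃ₐ[F] E)
    (hδ : ∀ x : E, x ≠ 0 → δ x / x - 1 ∈ O.nonunits) (n : ℕ) (hn : (n : E) ∉ O.nonunits)
    (b : E) (hb : (δ ^ n) b = b) : δ b = b := by
  by_contra hne
  set c : E := b - δ b with hc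
  have hc0 : c ≠ 0 := sub_ne_zero.2 (Ne.symm hne)
  have hnear : ∀ i : ℕ, Near O ((δ ^ i) c) c := by
    intro i
    induction i with
    | zero => simpa using Near.refl (O := O) hc0
    | succ i ih =>
      have hi0 : (δ ^ i) c ≠ 0 := (map_ne_zero (δ ^ i)).2 hc0
      rw [pow_succ', AlgEquiv.mul_apply]
      exact Near.trans ⟨by simpa using hi0, hi0, hδ _ hi0⟩ ih
  have hsum : ∑ i ∈ Finset.range n, (δ ^ i) c = 0 := by
    have h1 : ∀ i, (δ ^ i) c = (δ ^ i) b - (δ ^ (i + 1)) b := by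
      intro i
      rw [hc, map_sub, pow_succ, AlgEquiv.mul_apply]
    simp only [h1]
    rw [Finset.sum_range_sub', pow_zero, AlgEquiv.one_apply, hb, sub_self]
  apply hn
  have h2 : (n : E) = -∑ i ∈ Finset.range n, ((δ ^ i) c / c - 1) := by
    rw [Finset.sum_sub_distrib, ← Finset.sum_div, hsum]
    simp
  rw [h2]
  exact O.nonunits.neg_mem (O.nonunits.sum_mem fun i _ => (hnear i).2.2)

/-- (C3) the same for open subgroups. -/
theorem wild_mem (O : ValuationSubring E) (δ : E ≃ₐ[F] E)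
    (hδ : ∀ x : E, x ≠ 0 → δ x / x - 1 ∈ O.nonunits) (n : ℕ) (hn : (n : E) ∉ O.nonunits)
    (V : Subgroup (E ≃ₐ[F] E)) (hV : IsOpen (V : Set (E ≃ₐ[F] E))) (hn' : δ ^ n ∈ V) : δ ∈ V := by
  have hVc : IsClosed (V : Set (E ≃ₐ[F] E)) := V.isClosed_of_isOpen hV
  have h1 := InfiniteGalois.fixingSubgroup_fixedField (⟨V, hVc⟩ : ClosedSubgroup (E ≃ₐ[F] E))
  have h2 : δ ∈ (IntermediateField.fixedField V).fixingSubgroup := by
    rw [IntermediateField.mem_fixingSubgroup_iff]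
    intro b hb
    refine wild_fix O δ hδ n hn b ?_
    rw [IntermediateField.mem_fixedField_iff] at hb
    exact hb _ hn'
  have h3 : (IntermediateField.fixedField V).fixingSubgroup = V := h1
  rwa [h3] at h2

/-- roots of unity of order invertible in the residue field that are congruent to `1` -/
theorem root_eq_one {E : Type*} [Field E] (O : ValuationSubring E) (n : ℕ)
    (hn : (n : E) ∉ O.nonunits) (η : E) (hη : η ^ n = 1) (h : η - 1 ∈ O.nonunits) : η = 1 := by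
  by_contra hne
  apply hn
  have h1 : ∑ i ∈ Finset.range n, η ^ i = 0 := by
    have h2 := mul_geom_sum η n
    rw [hη, sub_self] at h2
    exact (mul_eq_zero.1 h2).resolve_left (sub_ne_zero.2 hne)
  have h3 : (n : E) = -∑ i ∈ Finset.range n, (η ^ i - 1) := by
    rw [Finset.sum_sub_distrib, h1]
    simp
  rw [h3]
  refine O.nonunits.neg_mem (O.nonunits.sum_mem fun i _ => ?_)
  have h4 : η ^ i - 1 = (∑ j ∈ Finset.range i, η ^ j) * (η - 1) := (geom_sum_mul η i).symm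
  rw [h4]
  have hηO : η ∈ O := by
    have := O.nonunits_le h
    simpa using O.add_mem _ _ this O.one_mem
  refine Near.mul_mem_nonunits ((O.valuation_le_one_iff _).2 ?_) h
  exact O.toSubring.sum_mem fun j _ => O.toSubring.pow_mem hηO j

/-- (C4) roots of unity of order prime to the residue characteristic are fixed by inertia, and
raised to the `q` by a Frobenius. -/
theorem acts_on_root (O : ValuationSubring E) (s : E ≃ₐ[F] E) (q : ℕ)
    (hs' : ActsPow O s q) (n : ℕ) (hn : (n : E) ∉ O.nonunits) (ζ : E) (hζ : ζ ^ n = 1) :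
    s ζ = ζ ^ q := by
  have hn0 : n ≠ 0 := by
    rintro rfl
    exact hn (by simp)
  have hζ0 : ζ ≠ 0 := by
    rintro rfl
    rw [zero_pow hn0] at hζ
    exact zero_ne_one hζ
  have hv : O.valuation ζ = 1 := by
    have h1 : O.valuation ζ ^ n = 1 := by rw [← map_pow, hζ, map_one]
    exact (pow_eq_one_iff_of_nonneg zero_le hn0).1 h1
  have h1 := near_of_actsPow hs' hv
  have h2 : (s ζ / ζ ^ q) ^ n = 1 := by
    rw [div_pow, ← map_pow, hζ, map_one, ← pow_mul, mul_comm, pow_mul, hζ, one_pow, div_one]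
  have h3 := root_eq_one O n hn _ h2 h1.2.2
  rwa [div_eq_one_iff_eq (pow_ne_zero _ hζ0)] at h3

end Tame

end Vale.Agent.P024
end
end

section

section

/-!
Facts on valuation subrings of algebraic extensions of the rational numbers.
-/

namespace Vale.Agent.P024

section ALG
variable {E : Type*} [Field E] [CharZero E] [Algebra.IsAlgebraic ℚ E]

theorem val_eq_one_of_notMem {K : Type*} [Field K] (O : ValuationSubring K) {x : K} (hx : x ∈ O)
    (h : x ∉ O.nonunits) : O.valuation x = 1 :=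
  le_antisymm ((O.valuation_le_one_iff x).2 hx) (not_lt.1 h)

theorem val_intCast_le_one {K : Type*} [Field K] (O : ValuationSubring K) (n : ℤ) :
    O.valuation (n : K) ≤ 1 :=
  (O.valuation_le_one_iff _).2 (intCast_mem O n)

theorem not_mem_nonunits_of_coprime {K : Type*} [Field K] (O : ValuationSubring K) {m n : ℕ}
    (h : m.Coprime n) (h1 : (m : K) ∈ O.nonunits) (h2 : (n : K) ∈ O.nonunits) : False := by
  have hb := Nat.gcd_eq_gcd_ab m n
  rw [h.gcd_eq_one] at hb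
  have h3 : (1 : K) = (m : K) * ((m.gcdA n : ℤ) : K) + (n : K) * ((m.gcdB n : ℤ) : K) := by
    exact_mod_cast congrArg (fun z : ℤ => (z : K)) hb
  have h4 : O.valuation ((m : K) * ((m.gcdA n : ℤ) : K)) < 1 := by
    rw [map_mul]
    exact mul_lt_one_of_lt_of_le h1 (val_intCast_le_one O _)
  have h5 : O.valuation ((n : K) * ((m.gcdB n : ℤ) : K)) < 1 := by
    rw [map_mul]
    exact mul_lt_one_of_lt_of_le h2 (val_intCast_le_one O _)
  have h6 := O.valuation.map_add_lt h4 h5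
  rw [← h3, map_one] at h6
  exact lt_irrefl _ h6

theorem prime_unique (O : ValuationSubring E) {p q : ℕ} (hp : p.Prime) (hq : q.Prime)
    (h1 : (p : E) ∈ O.nonunits) (h2 : (q : E) ∈ O.nonunits) : p = q := by
  by_contra hne
  exact not_mem_nonunits_of_coprime O ((Nat.coprime_primes hp hq).2 hne) h1 h2

end ALG

end Vale.Agent.P024
end
end

section

section

/-!
Finiteness of the group of classes modulo `l`-th powers with valuation divisible by `l` outside `l`.
-/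

namespace Vale.Agent.P024

open scoped NumberField nonZeroDivisors
open IsDedekindDomain

section Units

theorem finite_units_mod (K : Type*) [Field K] [NumberField K] (l : ℕ) (hl : l ≠ 0) :
    ∃ T : Finset (𝓞 K)ˣ, ∀ u : (𝓞 K)ˣ, ∃ t ∈ T, ∃ w : (𝓞 K)ˣ, u = t * w ^ l := by
  classical
  set P : Subgroup (𝓞 K)ˣ := (powMonoidHom l : (𝓞 K)ˣ →* (𝓞 K)ˣ).range with hP
  have hfg : Group.FG ((𝓞 K)ˣ ⧸ P) := by
    have : Group.FG (𝓞 K)ˣ := Group.fg_iff_monoid_fg.2 inferInstance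
    infer_instance
  have hfin : Finite ((𝓞 K)ˣ ⧸ P) := by
    apply CommGroup.finite_of_fg_isMulTorsion
    intro x
    rw [isOfFinOrder_iff_pow_eq_one]
    refine ⟨l, Nat.pos_of_ne_zero hl, ?_⟩
    induction x using QuotientGroup.induction_on with
    | H z =>
      rw [← QuotientGroup.mk_pow, QuotientGroup.eq_one_iff]
      exact ⟨z, rfl⟩
  have := Fintype.ofFinite ((𝓞 K)ˣ ⧸ P)
  refine ⟨Finset.univ.image (fun q : (𝓞 K)ˣ ⧸ P => q.out), fun u => ?_⟩
  refine ⟨(QuotientGroup.mk u : (𝓞 K)ˣ ⧸ P).out, Finset.mem_image_of_mem _ (Finset.mem_univ _), ?_⟩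
  have h1 : (QuotientGroup.mk ((QuotientGroup.mk u : (𝓞 K)ˣ ⧸ P).out) : (𝓞 K)ˣ ⧸ P) =
      QuotientGroup.mk u := Quotient.out_eq' _
  rw [QuotientGroup.eq] at h1
  obtain ⟨w, hw⟩ := h1
  refine ⟨w, ?_⟩
  rw [show w ^ l = powMonoidHom l w from rfl, hw]
  group

end Units

section Ideals

variable {R : Type*} [CommRing R] [IsDedekindDomain R]

theorem ideal_decomp (l : ℕ) (S : Finset (HeightOneSpectrum R)) (I : Ideal R) (hI : I ≠ 0)
    (h : ∀ v : HeightOneSpectrum R, v ∉ S →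
      l ∣ (Associates.mk v.asIdeal).count (Associates.mk I).factors) :
    ∃ J : Ideal R, J ≠ 0 ∧
      I = J ^ l * ∏ v ∈ S, v.asIdeal ^
        ((Associates.mk v.asIdeal).count (Associates.mk I).factors % l) := by
  classical
  set c : HeightOneSpectrum R → ℕ := fun v =>
    (Associates.mk v.asIdeal).count (Associates.mk I).factors with hc
  have hfin : (Function.mulSupport fun v : HeightOneSpectrum R => v.maxPowDividing I).Finite :=
    Ideal.hasFiniteMulSupport hI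
  set D := hfin.toFinset ∪ S with hD
  have h1 : I = ∏ v ∈ D, v.asIdeal ^ c v := by
    conv_lhs => rw [← Ideal.finprod_heightOneSpectrum_factorization hI]
    rw [finprod_eq_prod_of_mulSupport_subset _ (s := D)]
    · rfl
    · intro v hv
      simp only [hD, Finset.coe_union, Set.Finite.coe_toFinset]
      exact Or.inl hv
  refine ⟨∏ v ∈ D, v.asIdeal ^ (c v / l), ?_, ?_⟩
  · rw [Finset.prod_ne_zero_iff]
    intro v _
    exact pow_ne_zero _ v.ne_bot
  · have h2 : ∏ v ∈ S, v.asIdeal ^ (c v % l) = ∏ v ∈ D, v.asIdeal ^ (c v % l) := by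
      apply Finset.prod_subset
      · rw [hD]; exact Finset.subset_union_right
      · intro v _ hv
        rw [Nat.mod_eq_zero_of_dvd (h v hv), pow_zero]
    show I = (∏ v ∈ D, v.asIdeal ^ (c v / l)) ^ l * ∏ v ∈ S, v.asIdeal ^ (c v % l)
    rw [h2, ← Finset.prod_pow, ← Finset.prod_mul_distrib]
    conv_lhs => rw [h1]
    apply Finset.prod_congr rfl
    intro v _
    rw [← pow_mul, ← pow_add, mul_comm, Nat.div_add_mod]

end Ideals

section Selmer

variable {K : Type*} [Field K] [NumberField K]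

theorem dvd_count_of_dvdVal {l : ℕ} (v : HeightOneSpectrum (𝓞 K)) (a : 𝓞 K) (ha : a ≠ 0)
    (h : DvdVal v l (a : K)) :
    l ∣ (Associates.mk v.asIdeal).count (Associates.mk (Ideal.span {a})).factors := by
  obtain ⟨z, hz⟩ := h
  rw [map_mul, map_pow] at hz
  have hz0 : l = 0 ∨ v.valuation K z ≠ 0 := by
    by_contra hcon
    push Not at hcon
    rw [hcon.2, zero_pow hcon.1, mul_zero] at hz
    exact zero_ne_one hz
  rw [show ((a : 𝓞 K) : K) = algebraMap (𝓞 K) K a from rfl, v.valuation_of_algebraMap,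
    v.intValuation_if_neg ha] at hz
  rcases hz0 with hl | hz0
  · subst hl
    rw [pow_zero, mul_one, ← WithZero.exp_zero, WithZero.exp_inj] at hz
    simpa using hz
  · rw [← WithZero.exp_log hz0, ← WithZero.exp_nsmul, ← WithZero.exp_add, ← WithZero.exp_zero,
      WithZero.exp_inj] at hz
    have : (((Associates.mk v.asIdeal).count (Associates.mk (Ideal.span {a})).factors : ℕ) : ℤ) =
        (l : ℤ) * WithZero.log (v.valuation K z) := by
      simp only [nsmul_eq_mul] at hz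
      linarith
    exact_mod_cast Dvd.intro _ this.symm

theorem DvdVal.mul_pow {v : HeightOneSpectrum (𝓞 K)} {l : ℕ} {y : K} (h : DvdVal v l y) {b : K}
    (hb : b ≠ 0) : DvdVal v l (y * b ^ l) := by
  obtain ⟨z, hz⟩ := h
  refine ⟨z * b⁻¹, ?_⟩
  rw [← hz]
  congr 1
  rw [_root_.mul_pow, inv_pow]
  field_simp

theorem selmer_finite (K : Type*) [Field K] [NumberField K] (l : ℕ) (hl : l ≠ 0) :
    ∃ T : Finset K, (∀ t ∈ T, t ≠ 0) ∧
      ∀ y : K, y ≠ 0 → (∀ v : HeightOneSpectrum (𝓞 K), (l : 𝓞 K) ∉ v.asIdeal → DvdVal v l y) →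
        ∃ t ∈ T, ∃ z : K, z ≠ 0 ∧ y = t * z ^ l := by
  classical
  obtain ⟨U, hU⟩ := finite_units_mod K l hl
  -- primes over `l`
  have hSfin : {v : HeightOneSpectrum (𝓞 K) | v.asIdeal ∣ Ideal.span {(l : 𝓞 K)}}.Finite := by
    apply Ideal.finite_factors
    rw [Ne, Ideal.zero_eq_bot, Ideal.span_singleton_eq_bot]
    exact_mod_cast hl
  set S := hSfin.toFinset with hS
  have hSmem : ∀ v : HeightOneSpectrum (𝓞 K), v ∉ S → (l : 𝓞 K) ∉ v.asIdeal := by
    intro v hv h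
    apply hv
    rw [hS, Set.Finite.mem_toFinset]
    show v.asIdeal ∣ _
    rw [Ideal.dvd_iff_le, Ideal.span_singleton_le_iff_mem]
    exact h
  -- the set of integral elements
  let H : Set (𝓞 K) := {a | a ≠ 0 ∧ ∀ v : HeightOneSpectrum (𝓞 K), (l : 𝓞 K) ∉ v.asIdeal →
    DvdVal v l (a : K)}
  have hdec : ∀ a : H, ∃ J : (Ideal (𝓞 K))⁰, Ideal.span {(a : 𝓞 K)} = (J : Ideal (𝓞 K)) ^ l *
      ∏ v ∈ S, v.asIdeal ^
        ((Associates.mk v.asIdeal).count (Associates.mk (Ideal.span {(a : 𝓞 K)})).factors % l) := by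
    intro a
    obtain ⟨J, hJ, h⟩ := ideal_decomp l S (Ideal.span {(a : 𝓞 K)}) (by
      rw [Ne, Ideal.zero_eq_bot, Ideal.span_singleton_eq_bot]; exact a.2.1) (fun v hv =>
        dvd_count_of_dvdVal v a a.2.1 (a.2.2 v (hSmem v hv)))
    exact ⟨⟨J, mem_nonZeroDivisors_iff_ne_zero.2 hJ⟩, h⟩
  choose J hJ using hdec
  let f : H → ClassGroup (𝓞 K) × (S → Fin l) := fun a =>
    (ClassGroup.mk0 (J a), fun v => ⟨(Associates.mk v.1.asIdeal).count
      (Associates.mk (Ideal.span {(a : 𝓞 K)})).factors % l, Nat.mod_lt _ (Nat.pos_of_ne_zero hl)⟩)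
  have hf : ∀ a b : H, f a = f b → ∃ u : (𝓞 K)ˣ, ∃ z : K, z ≠ 0 ∧
      ((a : 𝓞 K) : K) = ((b : 𝓞 K) : K) * ((u : 𝓞 K) : K) * z ^ l := by
    intro a b hab
    have h1 : ClassGroup.mk0 (J a) = ClassGroup.mk0 (J b) := congrArg Prod.fst hab
    have h2 : ∀ v ∈ S, (Associates.mk v.asIdeal).count
        (Associates.mk (Ideal.span {(a : 𝓞 K)})).factors % l = (Associates.mk v.asIdeal).count
        (Associates.mk (Ideal.span {(b : 𝓞 K)})).factors % l := by
      intro v hv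
      have := congrFun (congrArg Prod.snd hab) ⟨v, hv⟩
      exact congrArg Fin.val this
    rw [ClassGroup.mk0_eq_mk0_iff] at h1
    obtain ⟨x, y, hx, hy, hxy⟩ := h1
    have h3 : Ideal.span {x ^ l * (a : 𝓞 K)} = Ideal.span {y ^ l * (b : 𝓞 K)} := by
      rw [← Ideal.span_singleton_mul_span_singleton, ← Ideal.span_singleton_mul_span_singleton,
        ← Ideal.span_singleton_pow, ← Ideal.span_singleton_pow, hJ a, hJ b, ← mul_assoc,
        ← mul_assoc, ← _root_.mul_pow, ← _root_.mul_pow, hxy]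
      congr 1
      exact Finset.prod_congr rfl fun v hv => by rw [h2 v hv]
    rw [Ideal.span_singleton_eq_span_singleton] at h3
    obtain ⟨u, hu⟩ := h3
    have hx' : (x : K) ≠ 0 := by exact_mod_cast hx
    have hy' : (y : K) ≠ 0 := by exact_mod_cast hy
    have hu' := congrArg (fun t : 𝓞 K => (t : K)) hu
    have hu0 : ((u : 𝓞 K) : K) ≠ 0 := by
      have := u.ne_zero
      exact_mod_cast this
    have hinv : ((u⁻¹ : (𝓞 K)ˣ) : 𝓞 K) * (u : 𝓞 K) = 1 := Units.inv_mul u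
    have hinv' := congrArg (fun t : 𝓞 K => (t : K)) hinv
    simp only [map_mul, map_pow, map_one] at hu' hinv'
    refine ⟨u⁻¹, y / x, div_ne_zero hy' hx', ?_⟩
    rw [div_pow]
    field_simp
    linear_combination (((u⁻¹ : (𝓞 K)ˣ) : 𝓞 K) : K) * hu' - (x : K) ^ l * ((a : 𝓞 K) : K) * hinv'
  -- choose representatives
  have : Fintype (ClassGroup (𝓞 K) × (S → Fin l)) := Fintype.ofFinite _
  let rep : ClassGroup (𝓞 K) × (S → Fin l) → K := fun c =>
    if h : ∃ a : H, f a = c then ((h.choose : 𝓞 K) : K) else 1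
  have hrep : ∀ a : H, ∃ u : (𝓞 K)ˣ, ∃ z : K, z ≠ 0 ∧
      ((a : 𝓞 K) : K) = rep (f a) * ((u : 𝓞 K) : K) * z ^ l := by
    intro a
    have h : ∃ a' : H, f a' = f a := ⟨a, rfl⟩
    have h' : rep (f a) = ((h.choose : 𝓞 K) : K) := dif_pos h
    rw [h']
    exact hf a h.choose h.choose_spec.symm
  have hrep0 : ∀ c, rep c ≠ 0 := by
    intro c
    by_cases h : ∃ a : H, f a = c
    · have h' : rep c = ((h.choose : 𝓞 K) : K) := dif_pos h
      rw [h']
      have := h.choose.2.1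
      exact_mod_cast this
    · have h' : rep c = 1 := dif_neg h
      rw [h']
      exact one_ne_zero
  refine ⟨(Finset.univ ×ˢ U).image (fun p => rep p.1 * ((p.2 : 𝓞 K) : K)), ?_, ?_⟩
  · intro t ht
    rw [Finset.mem_image] at ht
    obtain ⟨⟨c, u⟩, -, rfl⟩ := ht
    refine mul_ne_zero (hrep0 c) ?_
    have := u.ne_zero
    exact_mod_cast this
  · intro y hy hyv
    -- reduce to an integral element
    obtain ⟨a, b, hb, rfl⟩ := IsFractionRing.div_surjective (A := 𝓞 K) y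
    have hb0 : (b : 𝓞 K) ≠ 0 := nonZeroDivisors.ne_zero hb
    have hb0' : (algebraMap (𝓞 K) K b) ≠ 0 := by
      rwa [Ne, FaithfulSMul.algebraMap_eq_zero_iff]
    have ha0 : (a : 𝓞 K) ≠ 0 := by
      rintro rfl
      simp at hy
    have hl1 : (b : K) ^ l = (b : K) * (b : K) ^ (l - 1) := by
      rw [← pow_succ', Nat.sub_add_cancel (Nat.pos_of_ne_zero hl)]
    have heq : algebraMap (𝓞 K) K a / algebraMap (𝓞 K) K b * (algebraMap (𝓞 K) K b) ^ l =
        algebraMap (𝓞 K) K (a * b ^ (l - 1)) := by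
      rw [map_mul, map_pow]
      rw [hl1]
      field_simp
    have hmem : a * b ^ (l - 1) ∈ H := by
      refine ⟨mul_ne_zero ha0 (pow_ne_zero _ hb0), fun v hv => ?_⟩
      have := (hyv v hv).mul_pow hb0'
      rwa [heq] at this
    obtain ⟨u, z, hz0, hz⟩ := hrep ⟨_, hmem⟩
    obtain ⟨t, htU, w, hw⟩ := hU u
    refine ⟨rep (f ⟨_, hmem⟩) * ((t : 𝓞 K) : K), Finset.mem_image.2
      ⟨(f ⟨_, hmem⟩, t), Finset.mem_product.2 ⟨Finset.mem_univ _, htU⟩, rfl⟩,
      ((w : 𝓞 K) : K) * z / algebraMap (𝓞 K) K b, ?_, ?_⟩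
    · refine div_ne_zero (mul_ne_zero ?_ hz0) hb0'
      have := w.ne_zero
      exact_mod_cast this
    · have hz' : algebraMap (𝓞 K) K (a * b ^ (l - 1)) = rep (f ⟨_, hmem⟩) * ((u : 𝓞 K) : K) * z ^ l :=
        hz
      have hw' : ((u : 𝓞 K) : K) = ((t : 𝓞 K) : K) * ((w : 𝓞 K) : K) ^ l := by
        have := congrArg (fun t : (𝓞 K)ˣ => ((t : 𝓞 K) : K)) hw
        simpa using this
      rw [hz', hw'] at heq
      have hbl : (algebraMap (𝓞 K) K b) ^ l ≠ 0 := pow_ne_zero _ hb0'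
      rw [div_pow, _root_.mul_pow, mul_div_assoc', eq_div_iff hbl, heq]
      ring

end Selmer

end Vale.Agent.P024
end
end

section

section

/-!
[F] the hitting lemma.
-/

namespace Vale.Agent.P024

open scoped NumberField nonZeroDivisors
open IsDedekindDomain

/-- primes in the same ideal class: an element with divisor `w - w₀` -/
theorem exists_quot_of_class_eq {K : Type*} [Field K] [NumberField K]
    (w w₀ : HeightOneSpectrum (𝓞 K)) (hne : w ≠ w₀)
    (h : ClassGroup.mk0 ⟨w.asIdeal, mem_nonZeroDivisors_iff_ne_zero.2 w.ne_bot⟩ =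
      ClassGroup.mk0 ⟨w₀.asIdeal, mem_nonZeroDivisors_iff_ne_zero.2 w₀.ne_bot⟩) :
    ∃ x : K, x ≠ 0 ∧ w.valuation K x = WithZero.exp (-1 : ℤ) ∧
      ∀ v : HeightOneSpectrum (𝓞 K), v ≠ w → v ≠ w₀ → v.valuation K x = 1 := by
  classical
  rw [ClassGroup.mk0_eq_mk0_iff] at h
  obtain ⟨b, a, hb, ha, hab⟩ := h
  simp only at hab
  -- (b) w = (a) w₀, x = a / b
  have hb' : algebraMap (𝓞 K) K b ≠ 0 := by rwa [Ne, FaithfulSMul.algebraMap_eq_zero_iff]
  have ha' : algebraMap (𝓞 K) K a ≠ 0 := by rwa [Ne, FaithfulSMul.algebraMap_eq_zero_iff]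
  have hcount : ∀ v : HeightOneSpectrum (𝓞 K),
      (Associates.mk v.asIdeal).count (Associates.mk (Ideal.span {b})).factors +
      (Associates.mk v.asIdeal).count (Associates.mk w.asIdeal).factors =
      (Associates.mk v.asIdeal).count (Associates.mk (Ideal.span {a})).factors +
      (Associates.mk v.asIdeal).count (Associates.mk w₀.asIdeal).factors := by
    intro v
    have hirr : Irreducible (Associates.mk v.asIdeal) :=
      (Associates.irreducible_mk).2 v.irreducible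
    rw [← Associates.count_mul (Associates.mk_ne_zero.2 (by
        rw [Ne, Ideal.zero_eq_bot, Ideal.span_singleton_eq_bot]; exact hb))
        (Associates.mk_ne_zero.2 w.ne_bot) hirr,
      ← Associates.count_mul (Associates.mk_ne_zero.2 (by
        rw [Ne, Ideal.zero_eq_bot, Ideal.span_singleton_eq_bot]; exact ha))
        (Associates.mk_ne_zero.2 w₀.ne_bot) hirr, Associates.mk_mul_mk, Associates.mk_mul_mk, hab]
  have hself : ∀ v : HeightOneSpectrum (𝓞 K),
      (Associates.mk v.asIdeal).count (Associates.mk v.asIdeal).factors = 1 := fun v =>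
    Associates.count_self ((Associates.irreducible_mk).2 v.irreducible)
  have hother : ∀ v v' : HeightOneSpectrum (𝓞 K), v ≠ v' →
      (Associates.mk v.asIdeal).count (Associates.mk v'.asIdeal).factors = 0 := by
    intro v v' hvv
    refine Associates.count_eq_zero_of_ne ((Associates.irreducible_mk).2 v.irreducible)
      ((Associates.irreducible_mk).2 v'.irreducible) ?_
    intro h
    rw [Associates.mk_eq_mk_iff_associated, associated_iff_eq] at h
    exact hvv (HeightOneSpectrum.ext h)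
  have hval : ∀ v : HeightOneSpectrum (𝓞 K), v.valuation K
      (algebraMap (𝓞 K) K a / algebraMap (𝓞 K) K b) =
      WithZero.exp
        (((Associates.mk v.asIdeal).count (Associates.mk (Ideal.span {b})).factors : ℤ) -
        (Associates.mk v.asIdeal).count (Associates.mk (Ideal.span {a})).factors) := by
    intro v
    rw [map_div₀, v.valuation_of_algebraMap, v.valuation_of_algebraMap, v.intValuation_if_neg ha,
      v.intValuation_if_neg hb, ← WithZero.exp_sub]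
    congr 1
    ring
  refine ⟨algebraMap (𝓞 K) K a / algebraMap (𝓞 K) K b, div_ne_zero ha' hb', ?_, ?_⟩
  · rw [hval]
    congr 1
    have h1 := hcount w
    rw [hself, hother w w₀ hne] at h1
    omega
  · intro v hv hv₀
    rw [hval, ← WithZero.exp_zero]
    congr 1
    have h1 := hcount v
    rw [hother v w hv, hother v w₀ hv₀] at h1
    omega

theorem dvdVal_of_valuation_eq_one {K : Type*} [Field K] [NumberField K]
    {v : HeightOneSpectrum (𝓞 K)} {l : ℕ} {y : K} (h : v.valuation K y = 1) : DvdVal v l y :=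
  ⟨1, by rw [one_pow, mul_one, h]⟩

theorem hit {K₁ K₂ : Type*} [Field K₁] [NumberField K₁] [Field K₂] [NumberField K₂]
    {l : ℕ} (hl : l.Prime) (κ : K₂ → K₁) (hκ0 : ∀ x, x ≠ 0 → κ x ≠ 0)
    (hκ : ∀ x y : K₂, x ≠ 0 → y ≠ 0 → ∃ z : K₁, κ (x * y) * z ^ l = κ x * κ y)
    (hker : ∃ S : Finset K₂, ∀ x : K₂, x ≠ 0 → (∃ z : K₁, κ x = z ^ l) →
      ∃ s ∈ S, s ≠ 0 ∧ ∃ z : K₂, x = s * z ^ l)
    (hloc : ∀ v : HeightOneSpectrum (𝓞 K₁), (l : 𝓞 K₁) ∉ v.asIdeal →
      (∃ x : K₂, x ≠ 0 ∧ ¬ DvdVal v l (κ x)) →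
      ∃ w : HeightOneSpectrum (𝓞 K₂), ∀ x : K₂, DvdVal w l x → DvdVal v l (κ x)) :
    {w : HeightOneSpectrum (𝓞 K₂) | ¬ ∃ v : HeightOneSpectrum (𝓞 K₁), (l : 𝓞 K₁) ∉ v.asIdeal ∧
      (∃ x : K₂, x ≠ 0 ∧ ¬ DvdVal v l (κ x)) ∧
      ∀ x : K₂, DvdVal w l x → DvdVal v l (κ x)}.Finite := by
  classical
  by_contra hinf
  set W : Set (HeightOneSpectrum (𝓞 K₂)) :=
    {w : HeightOneSpectrum (𝓞 K₂) | ¬ ∃ v : HeightOneSpectrum (𝓞 K₁), (l : 𝓞 K₁) ∉ v.asIdeal ∧
      (∃ x : K₂, x ≠ 0 ∧ ¬ DvdVal v l (κ x)) ∧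
      ∀ x : K₂, DvdVal w l x → DvdVal v l (κ x)} with hW
  have hWinf : W.Infinite := hinf
  have hl0 : l ≠ 0 := hl.ne_zero
  -- pigeonhole on the class group
  let cl : HeightOneSpectrum (𝓞 K₂) → ClassGroup (𝓞 K₂) := fun w =>
    ClassGroup.mk0 ⟨w.asIdeal, mem_nonZeroDivisors_iff_ne_zero.2 w.ne_bot⟩
  obtain ⟨c, -, hc⟩ : ∃ c ∈ (Set.univ : Set (ClassGroup (𝓞 K₂))), (W ∩ cl ⁻¹' {c}).Infinite := by
    by_contra hcon
    push Not at hcon
    apply hWinf
    have : W ⊆ ⋃ c : ClassGroup (𝓞 K₂), (W ∩ cl ⁻¹' {c}) := by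
      intro w hw
      rw [Set.mem_iUnion]
      exact ⟨cl w, hw, rfl⟩
    refine (Set.finite_iUnion fun c => ?_).subset this
    exact hcon c (Set.mem_univ _)
  set W' := W ∩ cl ⁻¹' {c} with hW'
  obtain ⟨w₀, hw₀⟩ := hc.nonempty
  have hc' : (W' \ {w₀}).Infinite := hc.diff (Set.finite_singleton w₀)
  have hx : ∀ w : ↥(W' \ {w₀}), ∃ x : K₂, x ≠ 0 ∧
      (w : HeightOneSpectrum (𝓞 K₂)).valuation K₂ x = WithZero.exp (-1 : ℤ) ∧
      ∀ v : HeightOneSpectrum (𝓞 K₂), v ≠ w → v ≠ w₀ → v.valuation K₂ x = 1 := by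
    rintro ⟨w, hw, hw'⟩
    refine exists_quot_of_class_eq w w₀ hw' ?_
    have h1 : cl w = c := hw.2
    have h2 : cl w₀ = c := hw₀.2
    exact h1.trans h2.symm
  choose x hx0 hxw hxv using hx
  -- the images under `κ` are in the Selmer group
  have hsel : ∀ w : ↥(W' \ {w₀}), ∀ v : HeightOneSpectrum (𝓞 K₁), (l : 𝓞 K₁) ∉ v.asIdeal →
      DvdVal v l (κ (x w)) := by
    intro w v hv
    by_contra hcon
    obtain ⟨w', hw'⟩ := hloc v hv ⟨x w, hx0 w, hcon⟩
    have hmiss : w' ∈ W := by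
      by_cases h1 : w' = w
      · rw [h1]; exact w.2.1.1
      · by_cases h2 : w' = w₀
        · rw [h2]; exact hw₀.1
        · exact absurd (hw' _ (dvdVal_of_valuation_eq_one (hxv w w' h1 h2))) hcon
    exact hmiss ⟨v, hv, ⟨x w, hx0 w, hcon⟩, hw'⟩
  obtain ⟨T, hT0, hT⟩ := selmer_finite K₁ l hl0
  have hT' : ∀ w : ↥(W' \ {w₀}), ∃ t : T, ∃ z : K₁, z ≠ 0 ∧ κ (x w) = t * z ^ l := by
    intro w
    obtain ⟨t, ht, z, hz⟩ := hT (κ (x w)) (hκ0 _ (hx0 w)) (hsel w)
    exact ⟨⟨t, ht⟩, z, hz⟩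
  choose t z hz0 hz using hT'
  have hinf1 : Infinite ↥(W' \ {w₀}) := hc'.to_subtype
  obtain ⟨t₀, ht₀⟩ := Finite.exists_infinite_fiber t
  obtain ⟨w₁, hw₁⟩ : (t ⁻¹' {t₀}).Nonempty := Set.Nonempty.of_subtype
  -- `κ` of quotients
  have hone : ∃ y : K₁, y ≠ 0 ∧ κ 1 = y ^ l := by
    obtain ⟨y, hy⟩ := hκ 1 1 one_ne_zero one_ne_zero
    rw [one_mul] at hy
    have h1 := mul_left_cancel₀ (hκ0 1 one_ne_zero) hy
    refine ⟨y, ?_, h1.symm⟩
    rintro rfl
    rw [zero_pow hl0] at h1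
    exact hκ0 1 one_ne_zero h1.symm
  have hquot : ∀ w : ↥(W' \ {w₀}), t w = t₀ → ∃ y : K₁, κ (x w * (x w₁)⁻¹) = y ^ l := by
    intro w hw
    obtain ⟨y₀, hy₀, hκ1⟩ := hone
    obtain ⟨y₁, hy₁⟩ := hκ (x w) (x w₁)⁻¹ (hx0 w) (inv_ne_zero (hx0 w₁))
    obtain ⟨y₂, hy₂⟩ := hκ (x w₁) (x w₁)⁻¹ (hx0 w₁) (inv_ne_zero (hx0 w₁))
    rw [mul_inv_cancel₀ (hx0 w₁), hκ1] at hy₂
    have ha := hz w
    have hb := hz w₁
    rw [hw] at ha
    have hw₁' : t w₁ = t₀ := hw₁
    rw [hw₁'] at hb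
    have ht0 : (t₀ : K₁) ≠ 0 := hT0 _ t₀.2
    have hne1 : κ (x w₁)⁻¹ ≠ 0 := hκ0 _ (inv_ne_zero (hx0 w₁))
    have hz1 : z w₁ ≠ 0 := hz0 w₁
    have hy10 : y₁ ≠ 0 := by
      rintro rfl
      rw [zero_pow hl0, mul_zero] at hy₁
      exact mul_ne_zero (hκ0 _ (hx0 w)) hne1 hy₁.symm
    refine ⟨y₀ * y₂ * z w / (z w₁ * y₁), ?_⟩
    rw [div_pow, mul_pow, mul_pow, mul_pow, eq_div_iff (mul_ne_zero (pow_ne_zero _ hz1)
      (pow_ne_zero _ hy10))]
    have e1 : κ (x w * (x w₁)⁻¹) * (z w₁ ^ l * y₁ ^ l) = κ (x w) * κ (x w₁)⁻¹ * z w₁ ^ l := by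
      rw [← hy₁]; ring
    rw [e1, hy₂, ha, hb]
    ring
  obtain ⟨S, hS⟩ := hker
  have hS' : ∀ w : ↥(t ⁻¹' {t₀}), ∃ s : S, (s : K₂) ≠ 0 ∧ ∃ y : K₂, x w.1 * (x w₁)⁻¹ = s * y ^ l := by
    intro w
    obtain ⟨s, hs, hs0, y, hy⟩ := hS (x w.1 * (x w₁)⁻¹)
      (mul_ne_zero (hx0 _) (inv_ne_zero (hx0 _))) (hquot w.1 w.2)
    exact ⟨⟨s, hs⟩, hs0, y, hy⟩
  choose s hs0 y hy using hS'
  obtain ⟨s₀, hs₀⟩ := Finite.exists_infinite_fiber s
  obtain ⟨a, b, hab⟩ := @exists_pair_ne _ (@Infinite.instNontrivial _ hs₀)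
  have ha1 : s a.1 = s₀ := a.2
  have hb1 : s b.1 = s₀ := b.2
  have ha2 := hy a.1
  have hb2 := hy b.1
  rw [ha1] at ha2
  rw [hb1] at hb2
  have hs00 : (s₀ : K₂) ≠ 0 := by rw [← ha1]; exact hs0 _
  have hxa0 := hx0 a.1.1
  have hxb0 := hx0 b.1.1
  have hx10 := hx0 w₁
  have hyb0 : y b.1 ≠ 0 := by
    intro h0
    rw [h0, zero_pow hl0, mul_zero] at hb2
    exact mul_ne_zero hxb0 (inv_ne_zero hx10) hb2
  have hrel : x a.1.1 = x b.1.1 * (y a.1 / y b.1) ^ l := by
    rw [div_pow]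
    field_simp at ha2 hb2 ⊢
    have hyb : y b.1 ^ l ≠ 0 := pow_ne_zero _ hyb0
    rw [ha2, hb2]
    ring
  have hne : (a.1.1 : HeightOneSpectrum (𝓞 K₂)) ≠ b.1.1 := by
    intro h
    apply hab
    exact Subtype.ext (Subtype.ext (Subtype.ext h))
  have h1 := congrArg ((a.1.1 : HeightOneSpectrum (𝓞 K₂)).valuation K₂) hrel
  rw [map_mul, map_pow, hxw, hxv b.1.1 a.1.1 hne a.1.1.2.2, one_mul] at h1
  have hq0 : (a.1.1 : HeightOneSpectrum (𝓞 K₂)).valuation K₂ (y a.1 / y b.1) ≠ 0 := by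
    intro h0
    rw [h0, zero_pow hl0] at h1
    exact WithZero.exp_ne_zero h1
  rw [← WithZero.exp_log hq0, ← WithZero.exp_nsmul, WithZero.exp_inj] at h1
  have h2 : (l : ℤ) ∣ 1 := by
    refine ⟨-(WithZero.log ((a.1.1 : HeightOneSpectrum (𝓞 K₂)).valuation K₂ (y a.1 / y b.1))), ?_⟩
    simp only [nsmul_eq_mul] at h1
    linarith
  have h3 : l ∣ 1 := by exact_mod_cast h2
  exact hl.one_lt.ne' (Nat.dvd_one.1 h3)

end Vale.Agent.P024
end
end

section

section

/-!
The tame relation together with a moved Kummer generator forces the action on roots of unity of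
`l`-power order.
-/

namespace Vale.Agent.P024

section AutoCyc

variable {F E : Type*} [Field F] [Field E] [Algebra F E]

theorem pow_apply_root (g : E ≃ₐ[F] E) {ξ : E} {a : ℕ} (h : g ξ = ξ ^ a) (n : ℕ) :
    (g ^ n) ξ = ξ ^ (a ^ n) := by
  induction n with
  | zero => simp
  | succ n ih => rw [pow_succ', AlgEquiv.mul_apply, ih, map_pow, h, ← pow_mul, pow_succ, mul_comm]

theorem pow_apply_kummer (g : E ≃ₐ[F] E) {ξ X : E} {c : ℕ} (hξ : g ξ = ξ) (h : g X = ξ ^ c * X)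
    (n : ℕ) : (g ^ n) X = ξ ^ (c * n) * X := by
  induction n with
  | zero => simp
  | succ n ih =>
    rw [pow_succ', AlgEquiv.mul_apply, ih, map_mul, map_pow, hξ, h, Nat.mul_succ, pow_add]
    ring

theorem exists_exp_root (g : E ≃ₐ[F] E) {M : ℕ} (hM : 0 < M) {ξ : E} (hξ : IsPrimitiveRoot ξ M) :
    ∃ a : ℕ, g ξ = ξ ^ a := by
  have : NeZero M := ⟨hM.ne'⟩
  obtain ⟨a, -, ha⟩ := hξ.eq_pow_of_pow_eq_one (ξ := g ξ) (by
    rw [← map_pow, hξ.pow_eq_one, map_one])
  exact ⟨a, ha.symm⟩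

theorem rootPow_eq_iff_modEq {M : ℕ} {ξ : E} (hξ : IsPrimitiveRoot ξ M) (a b : ℕ) (hM : 0 < M) :
    ξ ^ a = ξ ^ b ↔ a ≡ b [MOD M] := by
  have h0 : ξ ≠ 0 := hξ.ne_zero hM.ne'
  rw [Nat.modEq_iff_dvd, ← hξ.zpow_eq_one_iff_dvd, zpow_sub₀ h0, zpow_natCast, zpow_natCast,
    div_eq_one_iff_eq (pow_ne_zero _ h0), eq_comm]

variable (K : IntermediateField F E) {l : ℕ}

theorem modEq_one_of_fix (hl : l.Prime) (g : E ≃ₐ[F] E) (hg : ∀ x ∈ K, g x = x)
    (hμ : ∃ ξ ∈ K, IsPrimitiveRoot ξ (l ^ 2)) (N : ℕ) (hN : 2 ≤ N) {ξ : E}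
    (hξ : IsPrimitiveRoot ξ (l ^ N)) {a : ℕ} (ha : g ξ = ξ ^ a) : a ≡ 1 [MOD l ^ 2] := by
  obtain ⟨η, hηK, hη⟩ := hμ
  have hpos : ∀ n : ℕ, 0 < l ^ n := fun n => pow_pos hl.pos n
  have : NeZero (l ^ 2) := ⟨(hpos 2).ne'⟩
  have h1 : IsPrimitiveRoot (ξ ^ (l ^ (N - 2))) (l ^ 2) := by
    apply hξ.pow (hpos N)
    rw [← pow_add]
    congr 1
    omega
  obtain ⟨i, -, hi⟩ := hη.eq_pow_of_pow_eq_one h1.pow_eq_one
  have h2 : g (ξ ^ (l ^ (N - 2))) = ξ ^ (l ^ (N - 2)) := by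
    rw [← hi, map_pow, hg η hηK]
  have h3 : (ξ ^ (l ^ (N - 2))) ^ a = (ξ ^ (l ^ (N - 2))) ^ 1 := by
    rw [pow_one]
    conv_rhs => rw [← h2]
    rw [map_pow, ha, ← pow_mul, ← pow_mul, mul_comm]
  exact (rootPow_eq_iff_modEq h1 a 1 (hpos 2)).1 h3

theorem auto_cyc (hl : l.Prime) (hl2 : l ≠ 2) (hpow : ∀ x : E, ∃ y : E, y ^ l = x)
    (hroot : ∀ n : ℕ, ∃ ξ : E, IsPrimitiveRoot ξ (l ^ n)) (s t δ : E ≃ₐ[F] E) (q : ℕ)
    (hsK : ∀ x ∈ K, s x = x) (htK : ∀ x ∈ K, t x = x)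
    (hrel : s * t = δ * t ^ q * s) (hq1 : 1 < q)
    (hδ : ∀ b : E, ∀ n : ℕ, (δ ^ (l ^ n)) b = b → δ b = b)
    (hμ : ∃ ξ ∈ K, IsPrimitiveRoot ξ (l ^ 2))
    (hne : ∃ b : E, b ^ l ∈ K ∧ t b ≠ b) :
    (∀ n : ℕ, ∀ ξ : E, ξ ^ (l ^ n) = 1 → s ξ = ξ ^ q) ∧
      (∀ n : ℕ, ∀ ξ : E, ξ ^ (l ^ n) = 1 → t ξ = ξ) := by
  have hpos : ∀ n : ℕ, 0 < l ^ n := fun n => pow_pos hl.pos n
  have hrel' : ∀ x, s (t x) = δ ((t ^ q) (s x)) := by
    intro x
    have := congrArg (fun g : E ≃ₐ[F] E => g x) hrel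
    simpa [AlgEquiv.mul_apply] using this
  have htqK : ∀ x ∈ K, (t ^ q) x = x := by
    intro x hx
    have h : ∀ n : ℕ, (t ^ n) x = x := by
      intro n
      induction n with
      | zero => rfl
      | succ n ih => rw [pow_succ', AlgEquiv.mul_apply, ih, htK x hx]
    exact h q
  have hδK : ∀ x ∈ K, δ x = x := by
    intro x hx
    have h := hrel' x
    rw [htK x hx, hsK x hx, htqK x hx] at h
    exact h.symm
  -- `δ` fixes roots of unity of `l`-power order
  have hδξ : ∀ N : ℕ, 2 ≤ N → ∀ ξ : E, IsPrimitiveRoot ξ (l ^ N) → δ ξ = ξ := by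
    intro N hN ξ hξ
    obtain ⟨d, hd⟩ := exists_exp_root δ (hpos N) hξ
    have hd1 := modEq_one_of_fix K hl δ hδK hμ N hN hξ hd
    apply hδ ξ N
    rw [pow_apply_root δ hd]
    conv_rhs => rw [← pow_one ξ]
    rw [rootPow_eq_iff_modEq hξ _ _ (hpos N)]
    have h1 : ((l : ℕ) : ℤ) ∣ (d : ℤ) - (1 : ℤ) := by
      have h2 : d ≡ 1 [MOD l] := hd1.of_dvd (dvd_pow_self l two_ne_zero)
      have h3 := (Nat.modEq_iff_dvd.1 h2.symm)
      push_cast at h3
      exact h3
    have h4 := dvd_sub_pow_of_dvd_sub h1 N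
    rw [one_pow] at h4
    apply Nat.ModEq.symm
    rw [Nat.modEq_iff_dvd]
    push_cast
    exact dvd_trans (pow_dvd_pow _ (Nat.le_succ N)) h4
  -- `t` fixes roots of unity of `l`-power order
  have ht : ∀ n : ℕ, ∀ ξ : E, ξ ^ (l ^ n) = 1 → t ξ = ξ := by
    intro n ξ' hξ'
    obtain ⟨k, h, hh, hkh⟩ := Nat.exists_eq_pow_mul_and_not_dvd (n := q - 1) (by omega) l
      hl.one_lt.ne'
    set N := n + k + 2 with hNdef
    obtain ⟨ξ, hξ⟩ := hroot N
    obtain ⟨a, ha⟩ := exists_exp_root t (hpos N) hξ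
    obtain ⟨u, hu⟩ := exists_exp_root s (hpos N) hξ
    have ha1 := modEq_one_of_fix K hl t htK hμ N (by omega) hξ ha
    have hu1 := modEq_one_of_fix K hl s hsK hμ N (by omega) hξ hu
    have h1 : ξ ^ (u * a) = ξ ^ (u * a ^ q) := by
      have h2 := hrel' ξ
      have h3 : s (t ξ) = ξ ^ (u * a) := by rw [ha, map_pow, hu, ← pow_mul]
      have h4 : δ ((t ^ q) (s ξ)) = ξ ^ (u * a ^ q) := by
        rw [hu, map_pow, pow_apply_root t ha, map_pow, map_pow, hδξ N (by omega) ξ hξ, ← pow_mul,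
          mul_comm]
      rw [h3, h4] at h2
      exact h2
    rw [rootPow_eq_iff_modEq hξ _ _ (hpos N)] at h1
    have hcopu : Nat.Coprime (l ^ N) u := by
      apply Nat.Coprime.pow_left
      rw [Nat.Prime.coprime_iff_not_dvd hl]
      intro hdvd
      have h3 : u ≡ 1 [MOD l] := hu1.of_dvd (dvd_pow_self l two_ne_zero)
      have h4 : u ≡ 0 [MOD l] := (Nat.modEq_zero_iff_dvd).2 hdvd
      have h5 := (h4.symm.trans h3)
      rw [Nat.ModEq, Nat.zero_mod, Nat.mod_eq_of_lt hl.one_lt] at h5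
      exact zero_ne_one h5
    have hna : ¬ l ∣ a := by
      intro hdvd
      have h3 : a ≡ 1 [MOD l] := ha1.of_dvd (dvd_pow_self l two_ne_zero)
      have h4 : a ≡ 0 [MOD l] := (Nat.modEq_zero_iff_dvd).2 hdvd
      have h5 := (h4.symm.trans h3)
      rw [Nat.ModEq, Nat.zero_mod, Nat.mod_eq_of_lt hl.one_lt] at h5
      exact zero_ne_one h5
    have hcopa : Nat.Coprime (l ^ N) a :=
      Nat.Coprime.pow_left _ ((Nat.Prime.coprime_iff_not_dvd hl).2 hna)
    have h2 : a ≡ a ^ q [MOD l ^ N] := Nat.ModEq.cancel_left_of_coprime hcopu h1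
    have h3 : 1 ≡ a ^ (q - 1) [MOD l ^ N] := by
      apply Nat.ModEq.cancel_left_of_coprime hcopa
      rw [mul_one, ← pow_succ', show q - 1 + 1 = q by omega]
      exact h2
    -- lifting the exponent
    have hdiv : ((l : ℕ) : ℤ) ∣ (a : ℤ) - 1 := by
      have h4 : a ≡ 1 [MOD l] := ha1.of_dvd (dvd_pow_self l two_ne_zero)
      have h5 := (Nat.modEq_iff_dvd.1 h4.symm)
      push_cast at h5
      exact h5
    have hnd : ¬ ((l : ℕ) : ℤ) ∣ (a : ℤ) := by
      exact_mod_cast hna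
    have hlte := Int.emultiplicity_pow_sub_pow hl (hl.odd_of_ne_two hl2) hdiv hnd (q - 1)
    rw [one_pow] at hlte
    have h6 : (N : ℕ∞) ≤ emultiplicity ((l : ℕ) : ℤ) ((a : ℤ) ^ (q - 1) - 1) := by
      rw [← pow_dvd_iff_le_emultiplicity]
      have h7 := Nat.modEq_iff_dvd.1 h3
      push_cast at h7
      exact h7
    have h8 : emultiplicity l (q - 1) = k := by
      rw [hkh]
      have hl' : Prime l := hl.prime
      rw [emultiplicity_mul hl', emultiplicity_pow_self_of_prime hl', 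
        emultiplicity_eq_zero.2 hh, add_zero]
    rw [hlte, h8] at h6
    have h9 : (n : ℕ∞) ≤ emultiplicity ((l : ℕ) : ℤ) ((a : ℤ) - 1) := by
      have h10 : ((n + 2 : ℕ) : ℕ∞) + (k : ℕ∞) ≤
          emultiplicity ((l : ℕ) : ℤ) ((a : ℤ) - 1) + (k : ℕ∞) := by
        refine le_trans ?_ h6
        rw [hNdef]
        push_cast
        rw [add_right_comm]
      have h11 := (ENat.add_le_add_iff_right (ENat.natCast_ne_top k)).1 h10
      refine le_trans ?_ h11
      exact_mod_cast Nat.le_add_right n 2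
    rw [← pow_dvd_iff_le_emultiplicity] at h9
    -- conclude
    have : NeZero (l ^ n) := ⟨(hpos n).ne'⟩
    have hξn : IsPrimitiveRoot (ξ ^ (l ^ (k + 2))) (l ^ n) := by
      apply hξ.pow (hpos N)
      rw [← pow_add]
      congr 1
      omega
    obtain ⟨i, -, hi⟩ := hξn.eq_pow_of_pow_eq_one hξ'
    have h12 : a ≡ 1 [MOD l ^ n] := by
      apply Nat.ModEq.symm
      rw [Nat.modEq_iff_dvd]
      push_cast
      exact h9
    have h13 : t (ξ ^ (l ^ (k + 2))) = ξ ^ (l ^ (k + 2)) := by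
      rw [map_pow, ha, ← pow_mul, mul_comm, pow_mul]
      conv_rhs => rw [← pow_one (ξ ^ (l ^ (k + 2)))]
      rw [rootPow_eq_iff_modEq hξn _ _ (hpos n)]
      exact h12
    rw [← hi, map_pow, h13]
  refine ⟨?_, ht⟩
  -- iterated roots
  have hpow' : ∀ n : ℕ, ∀ x : E, ∃ y : E, y ^ (l ^ n) = x := by
    intro n
    induction n with
    | zero => intro x; exact ⟨x, by simp⟩
    | succ n ih =>
      intro x
      obtain ⟨y, hy⟩ := hpow x
      obtain ⟨z, hz⟩ := ih y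
      exact ⟨z, by rw [pow_succ, pow_mul, hz, hy]⟩
  obtain ⟨b, hbK, hb⟩ := hne
  have hb0 : b ≠ 0 := by rintro rfl; exact hb (map_zero _)
  intro n ξ' hξ'
  set N := n + 2 with hNdef
  obtain ⟨ξ, hξ⟩ := hroot N
  have : NeZero (l ^ N) := ⟨(hpos N).ne'⟩
  obtain ⟨X, hX⟩ := hpow' (N - 1) b
  have hXN : X ^ (l ^ N) = b ^ l := by
    rw [← hX, ← pow_mul, ← pow_succ, show N - 1 + 1 = N by omega]
  have hX0 : X ≠ 0 := by
    rintro rfl
    rw [zero_pow (hpos _).ne'] at hX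
    exact hb0 hX.symm
  have hexp : ∀ g : E ≃ₐ[F] E, (∀ x ∈ K, g x = x) → ∃ c : ℕ, g X = ξ ^ c * X := by
    intro g hg
    have h1 : (g X / X) ^ (l ^ N) = 1 := by
      rw [div_pow, ← map_pow, hXN, hg _ hbK, div_self (pow_ne_zero _ hb0)]
    obtain ⟨c, -, hc⟩ := hξ.eq_pow_of_pow_eq_one h1
    exact ⟨c, by rw [hc, div_mul_cancel₀ _ hX0]⟩
  obtain ⟨c, hc⟩ := hexp t htK
  obtain ⟨d, hd⟩ := hexp s hsK
  obtain ⟨e, he⟩ := hexp δ hδK
  obtain ⟨u, hu⟩ := exists_exp_root s (hpos N) hξ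
  have htξ : t ξ = ξ := ht N ξ hξ.pow_eq_one
  have hδξ' : δ ξ = ξ := hδξ N (by omega) ξ hξ
  have hcl : ¬ l ∣ c := by
    rintro ⟨c', rfl⟩
    apply hb
    rw [← hX, map_pow, hc, mul_pow, ← pow_mul]
    have h1 : l * c' * l ^ (N - 1) = l ^ N * c' := by
      have : N = (N - 1) + 1 := by omega
      conv_rhs => rw [this, pow_succ]
      ring
    rw [h1, pow_mul, hξ.pow_eq_one, one_pow, one_mul]
  have hδX : δ X = X := by
    apply hδ X N
    rw [pow_apply_kummer δ hδξ' he, mul_comm e, pow_mul, hξ.pow_eq_one, one_pow, one_mul]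
  have h1 := hrel' X
  have htqξ : (t ^ q) ξ = ξ := by
    have := pow_apply_root t (a := 1) (ξ := ξ) (by rw [pow_one]; exact htξ) q
    rwa [one_pow, pow_one] at this
  rw [hc, hd, map_mul, map_pow, hu, hd, map_mul, map_pow, htqξ, pow_apply_kummer t htξ hc, map_mul,
    map_mul, map_pow, map_pow, hδξ', hδX, ← mul_assoc, ← mul_assoc, ← pow_mul, ← pow_add,
    ← pow_add] at h1
  have h2 := mul_right_cancel₀ hX0 h1
  rw [rootPow_eq_iff_modEq hξ _ _ (hpos N), add_comm] at h2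
  have h3 : u * c ≡ c * q [MOD l ^ N] := Nat.ModEq.add_left_cancel' d h2
  have hcopc : Nat.Coprime (l ^ N) c :=
    Nat.Coprime.pow_left _ ((Nat.Prime.coprime_iff_not_dvd hl).2 hcl)
  have h4 : u ≡ q [MOD l ^ N] := by
    apply Nat.ModEq.cancel_left_of_coprime hcopc
    rw [mul_comm c u]
    exact h3
  have h5 : s ξ = ξ ^ q := by
    rw [hu, rootPow_eq_iff_modEq hξ _ _ (hpos N)]
    exact h4
  have hξ'' : ξ' ^ (l ^ N) = 1 := by
    rw [hNdef, pow_add, pow_mul, hξ', one_pow]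
  obtain ⟨i, -, hi⟩ := hξ.eq_pow_of_pow_eq_one hξ''
  rw [← hi, map_pow, h5, ← pow_mul, ← pow_mul, mul_comm]

end AutoCyc

end Vale.Agent.P024
end
end

section

section

/-!
Primes of number fields and embeddings.
-/

namespace Vale.Agent.P024

open scoped NumberField nonZeroDivisors Pointwise
open IsDedekindDomain NumberField

section Pull

variable {K Z : Type*} [Field K] [NumberField K] [Field Z] [NumberField Z]

theorem exists_num_den (v : HeightOneSpectrum (𝓞 K)) (x : K) (h : v.valuation K x ≤ 1) :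
    ∃ a b : 𝓞 K, b ∉ v.asIdeal ∧ x * (b : K) = a := by
  obtain ⟨n, d, hnd⟩ := v.exists_primeCompl_mul_eq_or_mul_eq (K := K) x
  rcases hnd with hnd | hnd
  · exact ⟨n, d, d.2, hnd⟩
  · refine ⟨d, n, ?_, hnd⟩
    intro hn
    have h1 := congrArg (v.valuation K) hnd
    rw [map_mul] at h1
    have h2 : v.valuation K (algebraMap (𝓞 K) K n) < 1 := (v.valuation_lt_one_iff_mem n).2 hn
    have h3 : v.valuation K (algebraMap (𝓞 K) K d) = 1 := v.valuation_eq_one_iff_notMem.2 d.2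
    rw [h3] at h1
    have h4 : v.valuation K x * v.valuation K (algebraMap (𝓞 K) K n) < 1 :=
      lt_of_le_of_lt (mul_le_of_le_one_left' h) h2
    exact absurd h1 h4.ne

/-- pull back of a prime along an embedding of number fields -/
noncomputable def pullPrime (f : K →+* Z) (P : HeightOneSpectrum (𝓞 Z)) :
    HeightOneSpectrum (𝓞 K) where
  asIdeal := P.asIdeal.comap (RingOfIntegers.mapRingHom f)
  isPrime := P.isPrime.comap _
  ne_bot := by
    intro h
    have h1 : ((Ideal.absNorm P.asIdeal : ℕ) : 𝓞 K) ∈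
        P.asIdeal.comap (RingOfIntegers.mapRingHom f) := by
      rw [Ideal.mem_comap, map_natCast]
      exact Ideal.absNorm_mem P.asIdeal
    rw [h, Ideal.mem_bot, Nat.cast_eq_zero, Ideal.absNorm_eq_zero_iff] at h1
    exact P.ne_bot h1

variable (f : K →+* Z) (P : HeightOneSpectrum (𝓞 Z))

theorem mem_pullPrime (a : 𝓞 K) :
    a ∈ (pullPrime f P).asIdeal ↔ RingOfIntegers.mapRingHom f a ∈ P.asIdeal := Iff.rfl

theorem valuation_pull_eq_one_of_notMem (b : 𝓞 K) (hb : b ∉ (pullPrime f P).asIdeal) :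
    P.valuation Z (f (b : K)) = 1 := by
  have : f (b : K) = algebraMap (𝓞 Z) Z (RingOfIntegers.mapRingHom f b) := rfl
  rw [this, P.valuation_eq_one_iff_notMem]
  exact hb

theorem valuation_pull_le_one {x : K} (h : (pullPrime f P).valuation K x ≤ 1) :
    P.valuation Z (f x) ≤ 1 := by
  obtain ⟨a, b, hb, hab⟩ := exists_num_den _ x h
  have h1 := congrArg (fun t => P.valuation Z (f t)) hab
  simp only [map_mul] at h1
  rw [valuation_pull_eq_one_of_notMem f P b hb, mul_one] at h1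
  rw [h1]
  have : f (a : K) = algebraMap (𝓞 Z) Z (RingOfIntegers.mapRingHom f a) := rfl
  rw [this]
  exact P.valuation_le_one _

theorem valuation_pull_lt_one {x : K} (h : (pullPrime f P).valuation K x < 1) :
    P.valuation Z (f x) < 1 := by
  obtain ⟨a, b, hb, hab⟩ := exists_num_den _ x h.le
  have h1 := congrArg (fun t => P.valuation Z (f t)) hab
  simp only [map_mul] at h1
  rw [valuation_pull_eq_one_of_notMem f P b hb, mul_one] at h1
  rw [h1]
  have : f (a : K) = algebraMap (𝓞 Z) Z (RingOfIntegers.mapRingHom f a) := rfl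
  rw [this, P.valuation_lt_one_iff_mem, ← mem_pullPrime, ← (pullPrime f P).valuation_lt_one_iff_mem
    (K := K)]
  have h2 := congrArg ((pullPrime f P).valuation K) hab
  rw [map_mul] at h2
  have h3 : (pullPrime f P).valuation K (algebraMap (𝓞 K) K b) = 1 :=
    (pullPrime f P).valuation_eq_one_iff_notMem.2 hb
  have h4 : (pullPrime f P).valuation K (b : K) = 1 := h3
  rw [h4, mul_one] at h2
  have h5 : (pullPrime f P).valuation K (algebraMap (𝓞 K) K a) = (pullPrime f P).valuation K x :=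
    h2.symm
  rw [h5]
  exact h

theorem valuation_pull_eq_one {x : K} (h : (pullPrime f P).valuation K x = 1) :
    P.valuation Z (f x) = 1 := by
  apply le_antisymm (valuation_pull_le_one f P h.le)
  have h1 : (pullPrime f P).valuation K x⁻¹ ≤ 1 := by rw [map_inv₀, h, inv_one]
  have h2 := valuation_pull_le_one f P h1
  have hx : x ≠ 0 := by
    rintro rfl
    rw [map_zero] at h
    exact zero_ne_one h
  rw [map_inv₀, map_inv₀] at h2
  have h3 : P.valuation Z (f x) ≠ 0 := by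
    rw [Ne, Valuation.zero_iff]
    rwa [map_eq_zero]
  exact (inv_le_one₀ (zero_lt_iff.2 h3)).1 h2

theorem exists_pull_eq (v : HeightOneSpectrum (𝓞 K)) : ∃ P : HeightOneSpectrum (𝓞 Z),
    pullPrime f P = v := by
  let _ : Algebra K Z := f.toAlgebra
  obtain ⟨Q, -, hQ1, hQ2⟩ := Ideal.exists_ideal_over_prime_of_isIntegral (R := 𝓞 K) (S := 𝓞 Z)
    v.asIdeal ⊥ (by
      rw [show (⊥ : Ideal (𝓞 Z)).comap (algebraMap (𝓞 K) (𝓞 Z)) = ⊥ from ?_]
      · exact bot_le
      · rw [← RingHom.ker_eq_comap_bot, ← RingHom.injective_iff_ker_eq_bot]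
        exact FaithfulSMul.algebraMap_injective (𝓞 K) (𝓞 Z))
  refine ⟨⟨Q, hQ1, ?_⟩, ?_⟩
  · rintro rfl
    apply v.ne_bot
    rw [← hQ2, ← RingHom.ker_eq_comap_bot, ← RingHom.injective_iff_ker_eq_bot]
    exact FaithfulSMul.algebraMap_injective (𝓞 K) (𝓞 Z)
  · apply HeightOneSpectrum.ext
    exact hQ2

theorem absNorm_pull (hP : (Ideal.absNorm P.asIdeal).Prime) :
    Ideal.absNorm (pullPrime f P).asIdeal = Ideal.absNorm P.asIdeal := by
  have hfin : Finite (𝓞 Z ⧸ P.asIdeal) := Nat.finite_of_card_ne_zero (by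
    rw [← Submodule.cardQuot_apply, ← Ideal.absNorm_apply]; exact hP.ne_zero)
  let g : 𝓞 K ⧸ (pullPrime f P).asIdeal →+* 𝓞 Z ⧸ P.asIdeal :=
    Ideal.quotientMap P.asIdeal (RingOfIntegers.mapRingHom f) le_rfl
  have hg : Function.Injective g := Ideal.quotientMap_injective
  have hdvd : Nat.card g.toAddMonoidHom.range ∣ Nat.card (𝓞 Z ⧸ P.asIdeal) :=
    AddSubgroup.card_addSubgroup_dvd_card _
  have hcard : Nat.card (𝓞 K ⧸ (pullPrime f P).asIdeal) = Nat.card g.toAddMonoidHom.range :=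
    Nat.card_congr (AddMonoidHom.ofInjective (f := g.toAddMonoidHom) hg).toEquiv
  rw [Ideal.absNorm_apply, Submodule.cardQuot_apply, Ideal.absNorm_apply,
    Submodule.cardQuot_apply, hcard]
  rw [Ideal.absNorm_apply, Submodule.cardQuot_apply] at hP
  rcases (Nat.dvd_prime hP).1 hdvd with h | h
  · exfalso
    have h1 : Subsingleton (𝓞 K ⧸ (pullPrime f P).asIdeal) :=
      (Nat.card_eq_one_iff_unique.1 (hcard.trans h)).1
    exact (pullPrime f P).isPrime.ne_top (Ideal.Quotient.subsingleton_iff.1 h1)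
  · exact h

theorem under_eq_span {p : ℕ} (hp : p.Prime) (hpP : (p : 𝓞 Z) ∈ P.asIdeal) :
    P.asIdeal.LiesOver (Ideal.span {(p : ℤ)}) := by
  have hmax : (Ideal.span {(p : ℤ)}).IsMaximal :=
    Ideal.IsPrime.isMaximal (by
      rw [Ideal.span_singleton_prime (by exact_mod_cast hp.ne_zero)]
      exact Nat.prime_iff_prime_int.1 hp)
      (by simpa using hp.ne_zero)
  constructor
  have hne : P.asIdeal.under ℤ ≠ ⊤ := by
    intro h
    apply P.isPrime.ne_top
    rw [Ideal.eq_top_iff_one] at h ⊢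
    simpa using h
  apply hmax.eq_of_le hne
  rw [Ideal.span_singleton_le_iff_mem, Ideal.mem_comap]
  simpa using hpP

end Pull

section Gal

variable {Z : Type*} [Field Z] [NumberField Z] [IsGalois ℚ Z]

theorem exists_gal_pull (P Q : HeightOneSpectrum (𝓞 Z)) {p : ℕ} (hp : p.Prime)
    (hpP : (p : 𝓞 Z) ∈ P.asIdeal) (hpQ : (p : 𝓞 Z) ∈ Q.asIdeal) :
    ∃ σ : Z ≃ₐ[ℚ] Z, pullPrime (σ : Z →+* Z) P = Q := by
  have := under_eq_span P hp hpP
  have := under_eq_span Q hp hpQ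
  have := P.isPrime
  have := Q.isPrime
  obtain ⟨σ, hσ⟩ := Ideal.exists_smul_eq_of_isGaloisGroup (Ideal.span {(p : ℤ)}) Q.asIdeal
    P.asIdeal (Z ≃ₐ[ℚ] Z)
  refine ⟨σ, ?_⟩
  apply HeightOneSpectrum.ext
  ext x
  rw [mem_pullPrime, ← hσ, Ideal.mem_pointwise_smul_iff_inv_smul_mem]
  have : σ⁻¹ • (RingOfIntegers.mapRingHom (σ : Z →+* Z) x) = x := by
    rw [inv_smul_eq_iff]
    rfl
  rw [this]

end Gal

end Vale.Agent.P024
end
end

section

section

/-!
Residue symbols at primes of degree one.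
-/

namespace Vale.Agent.P024

open scoped NumberField
open IsDedekindDomain NumberField

section Congr

variable {Z Γ : Type*} [Field Z] [LinearOrderedCommGroupWithZero Γ] (P : Valuation Z Γ)

theorem congr_mul {a b c d : Z} (ha : P a ≤ 1) (hd : P d ≤ 1)
    (h1 : P (a - b) < 1) (h2 : P (c - d) < 1) : P (a * c - b * d) < 1 := by
  have : a * c - b * d = a * (c - d) + (a - b) * d := by ring
  rw [this]
  refine lt_of_le_of_lt (P.map_add _ _) (max_lt ?_ ?_)
  · rw [map_mul]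
    exact lt_of_le_of_lt (mul_le_of_le_one_left' ha) h2
  · rw [map_mul]
    exact lt_of_le_of_lt (mul_le_of_le_one_right' hd) h1

theorem congr_pow {a b : Z} (ha : P a ≤ 1) (hb : P b ≤ 1) (h1 : P (a - b) < 1) (n : ℕ) :
    P (a ^ n - b ^ n) < 1 := by
  induction n with
  | zero => simp
  | succ n ih =>
    rw [pow_succ, pow_succ]
    exact congr_mul P (by rw [map_pow]; exact pow_le_one₀ zero_le ha) hb ih h1

end Congr

/-- in a finite cyclic group -/
theorem exists_pow_of_pow_eq_one {G : Type*} [Group G] [Finite G] [IsCyclic G] {l : ℕ}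
    (hl : l ∣ Nat.card G) (a : G) (ha : a ^ (Nat.card G / l) = 1) : ∃ c : G, c ^ l = a := by
  obtain ⟨g, hg⟩ := IsCyclic.exists_generator (α := G)
  obtain ⟨k, rfl⟩ := (Submonoid.mem_powers_iff _ _).1 (mem_powers_iff_mem_zpowers.2 (hg a))
  obtain ⟨m, hm⟩ := hl
  have hcard : 0 < Nat.card G := Nat.card_pos
  have hl0 : 0 < l := by
    rcases Nat.eq_zero_or_pos l with h | h
    · subst h
      rw [zero_mul] at hm
      omega
    · exact h
  have hm0 : 0 < m := by
    rcases Nat.eq_zero_or_pos m with h | h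
    · subst h
      rw [mul_zero] at hm
      omega
    · exact h
  rw [hm, Nat.mul_div_cancel_left _ hl0, ← pow_mul, ← orderOf_dvd_iff_pow_eq_one,
    orderOf_eq_card_of_forall_mem_zpowers hg, hm] at ha
  obtain ⟨k', rfl⟩ := Nat.dvd_of_mul_dvd_mul_right hm0 ha
  exact ⟨g ^ k', by rw [← pow_mul, mul_comm]⟩

variable {Z : Type*} [Field Z] [NumberField Z]

theorem isPowMod_of_pow_eq_one (P : HeightOneSpectrum (𝓞 Z)) {l : ℕ}
    (hP : (Ideal.absNorm P.asIdeal).Prime) (hl : l ∣ Ideal.absNorm P.asIdeal - 1) (a : Z)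
    (ha : P.valuation Z a = 1)
    (h : P.valuation Z (a ^ ((Ideal.absNorm P.asIdeal - 1) / l) - 1) < 1) : IsPowMod P l a := by
  classical
  obtain ⟨x, y, hy, hxy⟩ := exists_num_den P a ha.le
  have hcardP : Nat.card (𝓞 Z ⧸ P.asIdeal) = Ideal.absNorm P.asIdeal := by
    rw [Ideal.absNorm_apply, Submodule.cardQuot_apply]
  have hfin : Finite (𝓞 Z ⧸ P.asIdeal) := Nat.finite_of_card_ne_zero (by
    rw [hcardP]; exact hP.ne_zero)
  have hmax : P.asIdeal.IsMaximal := P.isMaximal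
  let _ : Field (𝓞 Z ⧸ P.asIdeal) := Ideal.Quotient.field P.asIdeal
  let π := Ideal.Quotient.mk P.asIdeal
  have hπ : ∀ t : 𝓞 Z, π t = 0 ↔ t ∈ P.asIdeal := fun t => Ideal.Quotient.eq_zero_iff_mem
  have hy0 : π y ≠ 0 := by rw [Ne, hπ]; exact hy
  have hyv : P.valuation Z (y : Z) = 1 := P.valuation_eq_one_iff_notMem.2 hy
  have hxv : P.valuation Z (x : Z) = 1 := by rw [← hxy, map_mul, ha, hyv, one_mul]
  have hx0 : π x ≠ 0 := by
    rw [Ne, hπ]
    exact P.valuation_eq_one_iff_notMem.1 hxv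
  set M := (Ideal.absNorm P.asIdeal - 1) / l with hM
  -- the residue of `a` to the `M` is one
  have h1 : π x ^ M = π y ^ M := by
    rw [← map_pow, ← map_pow, ← sub_eq_zero, ← map_sub, hπ, ← P.valuation_lt_one_iff_mem (K := Z)]
    change P.valuation Z (algebraMap (𝓞 Z) Z (x ^ M - y ^ M)) < 1
    rw [map_sub, map_pow, map_pow]
    have : (algebraMap (𝓞 Z) Z) x ^ M - (algebraMap (𝓞 Z) Z) y ^ M =
        (a ^ M - 1) * (y : Z) ^ M := by
      have hxy' : (algebraMap (𝓞 Z) Z) x = a * (y : Z) := hxy.symm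
      rw [hxy', mul_pow]
      ring
    rw [this, map_mul, map_pow, hyv, one_pow, mul_one]
    exact h
  let u : (𝓞 Z ⧸ P.asIdeal)ˣ := Units.mk0 (π x / π y) (div_ne_zero hx0 hy0)
  have hcardU : Nat.card (𝓞 Z ⧸ P.asIdeal)ˣ = Ideal.absNorm P.asIdeal - 1 := by
    rw [Nat.card_units, hcardP]
  obtain ⟨c, hc⟩ := exists_pow_of_pow_eq_one (l := l) (by rw [hcardU]; exact hl) u (by
    rw [hcardU]
    apply Units.ext
    rw [Units.val_pow_eq_pow_val, Units.val_mk0, Units.val_one, ← hM, div_pow, h1]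
    exact div_self (pow_ne_zero _ hy0))
  obtain ⟨c₁, hc₁⟩ := Ideal.Quotient.mk_surjective (c : 𝓞 Z ⧸ P.asIdeal)
  refine ⟨c₁, ?_⟩
  have h2 : π x = π (y * c₁ ^ l) := by
    have h3 := congrArg Units.val hc
    rw [Units.val_pow_eq_pow_val, Units.val_mk0, ← hc₁, eq_div_iff hy0] at h3
    rw [map_mul, map_pow, mul_comm]
    exact h3.symm
  rw [← sub_eq_zero, ← map_sub, hπ, ← P.valuation_lt_one_iff_mem (K := Z)] at h2
  have h4 : algebraMap (𝓞 Z) Z (x - y * c₁ ^ l) = (a - (c₁ : Z) ^ l) * (y : Z) := by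
    rw [map_sub, map_mul, map_pow]
    have hxy' : (algebraMap (𝓞 Z) Z) x = a * (y : Z) := hxy.symm
    rw [hxy']
    ring
  change P.valuation Z (algebraMap (𝓞 Z) Z (x - y * c₁ ^ l)) < 1 at h2
  rw [h4, map_mul, hyv, mul_one] at h2
  exact h2

/-- the main computation at a prime `P` of degree one. -/
theorem isPowMod_of_symbols (P : HeightOneSpectrum (𝓞 Z)) {l : ℕ}
    (hP : (Ideal.absNorm P.asIdeal).Prime) (hl : l ∣ Ideal.absNorm P.asIdeal - 1)
    {ζ : Z} (hζ : ζ ^ l = 1) (hl0 : l ≠ 0) (c c' m : ℕ) (hcc : c + c' = l * m)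
    (A B : Z) (hA : P.valuation Z A = 1) (hB : P.valuation Z B = 1) (e : ℕ)
    (h1 : P.valuation Z (A ^ ((Ideal.absNorm P.asIdeal - 1) / l) - (ζ ^ c) ^ e) < 1)
    (h2 : P.valuation Z (B ^ ((Ideal.absNorm P.asIdeal - 1) / l) - ζ ^ e) < 1) :
    IsPowMod P l (A * B ^ c') := by
  apply isPowMod_of_pow_eq_one P hP hl
  · rw [map_mul, map_pow, hA, hB, one_pow, one_mul]
  · set M := (Ideal.absNorm P.asIdeal - 1) / l with hM
    have hζv : P.valuation Z ζ = 1 := by
      have := congrArg (P.valuation Z) hζ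
      rw [map_pow, map_one] at this
      exact (pow_eq_one_iff.1 this).resolve_right hl0
    have h3 := congr_pow (P.valuation Z) (a := B ^ M) (b := ζ ^ e)
      (by rw [map_pow, hB, one_pow]) (by rw [map_pow, hζv, one_pow]) h2 c'
    have h4 := congr_mul (P.valuation Z) (a := A ^ M) (b := (ζ ^ c) ^ e) (c := (B ^ M) ^ c')
      (d := (ζ ^ e) ^ c') (by rw [map_pow, hA, one_pow])
      (by rw [map_pow, map_pow, hζv, one_pow, one_pow]) h1 h3
    have e1 : (A * B ^ c') ^ M = A ^ M * (B ^ M) ^ c' := by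
      rw [mul_pow, ← pow_mul, ← pow_mul, mul_comm c' M]
    have e2 : (ζ ^ c) ^ e * (ζ ^ e) ^ c' = 1 := by
      rw [← pow_mul, ← pow_mul, ← pow_add]
      have : c * e + e * c' = l * (m * e) := by
        calc c * e + e * c' = (c + c') * e := by ring
          _ = l * (m * e) := by rw [hcc]; ring
      rw [this, pow_mul, hζ, one_pow]
    rw [e1, ← e2]
    exact h4

theorem isPowMod_mul_pow (P : HeightOneSpectrum (𝓞 Z)) {l : ℕ} (hl0 : l ≠ 0) {a b : Z}
    (ha : P.valuation Z a = 1) (hab : P.valuation Z (a * b ^ l) = 1)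
    (h : IsPowMod P l (a * b ^ l)) : IsPowMod P l a := by
  obtain ⟨y, hy⟩ := h
  rw [map_mul, ha, one_mul, map_pow] at hab
  have hb : P.valuation Z b = 1 := (pow_eq_one_iff.1 hab).resolve_right hl0
  have hb0 : b ≠ 0 := by
    rintro rfl
    rw [map_zero] at hb
    exact zero_ne_one hb
  refine ⟨y / b, ?_⟩
  have : a - (y / b) ^ l = (a * b ^ l - y ^ l) / b ^ l := by
    rw [div_pow]
    have := pow_ne_zero l hb0
    field_simp
  rw [this, map_div₀, map_pow, hb, one_pow, div_one]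
  exact hy

end Vale.Agent.P024
end
end

section

section

/-!
P024: prime ideals and the pole of the Dedekind zeta function.

* `upper`: `∑ N(P)^{-s} ≤ log (1/(s-1)) + C` over all primes of a number field;
* `lower`: `∑ N(P)^{-s} ≥ log (1/(s-1)) - C` over the primes of prime norm.
-/

open NumberField Ideal IsDedekindDomain Filter Topology
open scoped ENNReal

namespace Vale.Agent.P024

theorem tsum_split {α : Type*} (f : α → ℝ≥0∞) (S : Set α) :
    ∑' x, f x = ∑' x : S, f x + ∑' x : (Sᶜ : Set α), f x := by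
  rw [tsum_subtype, tsum_subtype, ← ENNReal.tsum_add]
  refine tsum_congr fun x => ?_
  rw [Set.indicator_self_add_compl_apply]

section Zeta

variable (K : Type*) [Field K] [NumberField K]

/-- Sum of `N(I)^{-s}` over all (nonzero) ideals. -/
noncomputable def zetaE (s : ℝ) : ℝ≥0∞ :=
  ∑' I : Ideal (𝓞 K), ENNReal.ofReal ((absNorm I : ℝ) ^ (-s))

theorem zetaE_eq (s : ℝ) : zetaE K s = ∑' n : ℕ,
    ENNReal.ofReal ((Nat.card {I : Ideal (𝓞 K) // absNorm I = n} : ℝ) * (n : ℝ) ^ (-s)) := by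
  rw [zetaE, ← ENNReal.tsum_fiberwise _ (fun I : Ideal (𝓞 K) => absNorm I)]
  refine tsum_congr fun n => ?_
  have h1 : ∀ I : (fun I : Ideal (𝓞 K) => absNorm I) ⁻¹' {n},
      ENNReal.ofReal ((absNorm (I : Ideal (𝓞 K)) : ℝ) ^ (-s)) =
        ENNReal.ofReal ((n : ℝ) ^ (-s)) := by
    rintro ⟨I, hI⟩
    have : absNorm I = n := hI
    simp [this]
  rw [tsum_congr h1, ENNReal.tsum_const]
  have h2 : ENat.card ((fun I : Ideal (𝓞 K) => absNorm I) ⁻¹' {n}) =
      (Nat.card {I : Ideal (𝓞 K) // absNorm I = n} : ℕ∞) := by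
    have : Finite {I : Ideal (𝓞 K) // absNorm I = n} := Ideal.finite_setOfPred_absNorm_eq n
    have : ENat.card ((fun I : Ideal (𝓞 K) => absNorm I) ⁻¹' {n}) =
      ENat.card {I : Ideal (𝓞 K) // absNorm I = n} := rfl
    rw [this, ENat.card_eq_coe_natCard]
  rw [h2, ENNReal.ofReal_mul (by positivity)]
  congr 1
  rw [ENNReal.ofReal_natCast]
  rfl

theorem dedekindZeta_eq {s : ℝ} (hs : s ≠ 0) :
    dedekindZeta K (s : ℂ) = ((∑' n : ℕ,
      (Nat.card {I : Ideal (𝓞 K) // absNorm I = n} : ℝ) * (n : ℝ) ^ (-s) : ℝ) : ℂ) := by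
  rw [dedekindZeta, LSeries, Complex.ofReal_tsum]
  refine tsum_congr fun n => ?_
  rcases eq_or_ne n 0 with rfl | hn
  · simp [Real.zero_rpow (neg_ne_zero.2 hs)]
  · rw [LSeries.term_of_ne_zero hn]
    push_cast
    rw [Complex.ofReal_cpow (by positivity), div_eq_mul_inv]
    push_cast
    rw [Complex.cpow_neg]

theorem zetaE_toReal (s : ℝ) :
    (zetaE K s).toReal = ∑' n : ℕ,
      (Nat.card {I : Ideal (𝓞 K) // absNorm I = n} : ℝ) * (n : ℝ) ^ (-s) := by
  rw [zetaE_eq, ENNReal.tsum_toReal_eq (fun _ => ENNReal.ofReal_ne_top)]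
  refine tsum_congr fun n => ?_
  rw [ENNReal.toReal_ofReal (by positivity)]

/-- the pole of the zeta function -/
theorem tendsto_zetaE :
    Tendsto (fun s : ℝ => (s - 1) * (zetaE K s).toReal) (𝓝[>] 1)
      (𝓝 (dedekindZeta_residue K)) := by
  have h := tendsto_sub_one_mul_dedekindZeta_nhdsGT K
  have h2 : Tendsto (fun s : ℝ => (((s - 1) * (zetaE K s).toReal : ℝ) : ℂ)) (𝓝[>] 1)
      (𝓝 ((dedekindZeta_residue K : ℝ) : ℂ)) := by
    refine h.congr' ?_
    filter_upwards [self_mem_nhdsWithin] with s hs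
    have hs' : (s : ℝ) ≠ 0 := by
      have : (1 : ℝ) < s := hs
      positivity
    rw [dedekindZeta_eq K hs', zetaE_toReal]
    push_cast
    rfl
  exact (Complex.continuous_re.tendsto _).comp h2

theorem eventually_ne_top : ∀ᶠ s : ℝ in 𝓝[>] 1, zetaE K s ≠ ∞ := by
  have h := (tendsto_zetaE K).eventually_ne (dedekindZeta_residue_ne_zero K)
  filter_upwards [h] with s hs htop
  apply hs
  rw [htop]
  simp

/-- the norm of a prime as a real number -/
noncomputable def nm (p : HeightOneSpectrum (𝓞 K)) (s : ℝ) : ℝ :=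
  (absNorm p.asIdeal : ℝ) ^ (-s)

variable {K}

theorem two_le_absNorm (p : HeightOneSpectrum (𝓞 K)) : 2 ≤ absNorm p.asIdeal := by
  have h1 : absNorm p.asIdeal ≠ 0 := by
    rw [Ne, absNorm_eq_zero_iff]
    exact p.ne_bot
  have h2 : absNorm p.asIdeal ≠ 1 := by
    rw [Ne, absNorm_eq_one_iff]
    exact p.isPrime.ne_top
  omega

theorem nm_nonneg (p : HeightOneSpectrum (𝓞 K)) (s : ℝ) : 0 ≤ nm K p s := by
  unfold nm
  positivity

theorem nm_le_half (p : HeightOneSpectrum (𝓞 K)) {s : ℝ} (hs : 1 ≤ s) : nm K p s ≤ 1 / 2 := by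
  unfold nm
  have h2 : (2 : ℝ) ≤ absNorm p.asIdeal := by exact_mod_cast two_le_absNorm p
  calc (absNorm p.asIdeal : ℝ) ^ (-s) ≤ (2 : ℝ) ^ (-s) :=
        Real.rpow_le_rpow_of_nonpos (by norm_num) h2 (by linarith)
    _ ≤ (2 : ℝ) ^ (-1 : ℝ) := Real.rpow_le_rpow_of_exponent_le (by norm_num) (by linarith)
    _ = 1 / 2 := by rw [Real.rpow_neg_one]; norm_num

theorem prod_nm (A : Finset (HeightOneSpectrum (𝓞 K))) (s : ℝ) :
    ∏ p ∈ A, nm K p s = ((absNorm (∏ p ∈ A, p.asIdeal) : ℕ) : ℝ) ^ (-s) := by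
  unfold nm
  rw [map_prod, Nat.cast_prod, ← Real.finsetProd_rpow _ _ (fun _ _ => by positivity)]

theorem dvd_prod_iff (A : Finset (HeightOneSpectrum (𝓞 K))) (p : HeightOneSpectrum (𝓞 K)) :
    p.asIdeal ∣ ∏ q ∈ A, q.asIdeal ↔ p ∈ A := by
  constructor
  · intro h
    have hp : Prime p.asIdeal := p.prime
    obtain ⟨q, hq, hpq⟩ := (hp.dvd_finsetProd_iff _).1 h
    have hq' : Prime q.asIdeal := q.prime
    have : p.asIdeal = q.asIdeal := by
      have := (hp.dvd_prime_iff_associated hq').1 hpq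
      exact associated_iff_eq.1 this
    rwa [HeightOneSpectrum.ext this]
  · intro h
    exact Finset.dvd_prod_of_mem _ h

theorem prod_injOn : Function.Injective
    (fun A : Finset (HeightOneSpectrum (𝓞 K)) => ∏ q ∈ A, q.asIdeal) := by
  intro A B h
  ext p
  rw [← dvd_prod_iff, ← dvd_prod_iff]
  have h' : ∏ q ∈ A, q.asIdeal = ∏ q ∈ B, q.asIdeal := h
  rw [h']

/-- squarefree ideals -/
theorem prod_one_add_le (Q : Finset (HeightOneSpectrum (𝓞 K))) (s : ℝ) :
    ENNReal.ofReal (∏ p ∈ Q, (1 + nm K p s)) ≤ zetaE K s := by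
  rw [Finset.prod_one_add, ENNReal.ofReal_sum_of_nonneg
    (fun A _ => Finset.prod_nonneg fun p _ => nm_nonneg p s)]
  have h1 : ∀ A ∈ Q.powerset, ENNReal.ofReal (∏ p ∈ A, nm K p s) =
      (fun I : Ideal (𝓞 K) => ENNReal.ofReal ((absNorm I : ℝ) ^ (-s)))
        (∏ p ∈ A, p.asIdeal) := by
    intro A _
    rw [prod_nm]
  rw [Finset.sum_congr rfl h1]
  calc _ ≤ ∑' A : Finset (HeightOneSpectrum (𝓞 K)),
        (fun I : Ideal (𝓞 K) => ENNReal.ofReal ((absNorm I : ℝ) ^ (-s)))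
        (∏ p ∈ A, p.asIdeal) := ENNReal.sum_le_tsum _
    _ ≤ _ := ENNReal.tsum_comp_le_tsum_of_injective prod_injOn _

theorem le_log_one_add {x : ℝ} (hx : 0 ≤ x) : x - x ^ 2 ≤ Real.log (1 + x) := by
  have h := Real.le_log_one_add_of_nonneg hx
  refine le_trans ?_ h
  rw [le_div_iff₀ (by linarith)]
  nlinarith [mul_nonneg hx hx, mul_nonneg (mul_nonneg hx hx) hx]

variable (K) in
/-- finiteness at `2` -/
theorem zetaE_two_ne_top : zetaE K 2 ≠ ∞ := by
  have h1 : ∀ᶠ s : ℝ in 𝓝[>] 1, s < 2 :=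
    nhdsWithin_le_nhds (Iio_mem_nhds (by norm_num))
  obtain ⟨s, hs, hs2, hs1⟩ := ((eventually_ne_top K).and (h1.and self_mem_nhdsWithin)).exists
  refine ne_top_of_le_ne_top hs (ENNReal.tsum_le_tsum fun I => ENNReal.ofReal_le_ofReal ?_)
  rcases Nat.eq_zero_or_pos (absNorm I) with h0 | h0
  · rw [h0, Nat.cast_zero, Real.zero_rpow (by norm_num), Real.zero_rpow]
    have : (1 : ℝ) < s := hs1
    exact neg_ne_zero.2 (by linarith)
  · exact Real.rpow_le_rpow_of_exponent_le (by exact_mod_cast h0) (by linarith)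

/-- the sum of squares over primes is bounded -/
theorem sum_sq_le (Q : Finset (HeightOneSpectrum (𝓞 K))) {s : ℝ} (hs : 1 ≤ s) :
    ∑ p ∈ Q, nm K p s ^ 2 ≤ (zetaE K 2).toReal := by
  have h1 : ∀ p : HeightOneSpectrum (𝓞 K), nm K p s ^ 2 ≤ (absNorm p.asIdeal : ℝ) ^ (-2 : ℝ) := by
    intro p
    have h2 : (1 : ℝ) ≤ absNorm p.asIdeal := by
      have := two_le_absNorm p
      exact_mod_cast le_trans (by norm_num) this
    unfold nm
    rw [← Real.rpow_natCast, ← Real.rpow_mul (by positivity)]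
    exact Real.rpow_le_rpow_of_exponent_le h2 (by push_cast; linarith)
  refine le_trans (Finset.sum_le_sum fun p _ => h1 p) ?_
  rw [← ENNReal.ofReal_le_iff_le_toReal (zetaE_two_ne_top K),
    ENNReal.ofReal_sum_of_nonneg (fun _ _ => by positivity)]
  have hinj : Function.Injective (fun p : HeightOneSpectrum (𝓞 K) => p.asIdeal) :=
    fun p q h => HeightOneSpectrum.ext h
  calc _ ≤ ∑' p : HeightOneSpectrum (𝓞 K),
        (fun I : Ideal (𝓞 K) => ENNReal.ofReal ((absNorm I : ℝ) ^ (-2 : ℝ))) p.asIdeal :=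
          ENNReal.sum_le_tsum _
    _ ≤ _ := ENNReal.tsum_comp_le_tsum_of_injective hinj _

theorem sum_nm_le (Q : Finset (HeightOneSpectrum (𝓞 K))) {s : ℝ} (hs : 1 ≤ s)
    (htop : zetaE K s ≠ ∞) :
    ∑ p ∈ Q, nm K p s ≤ Real.log (zetaE K s).toReal + (zetaE K 2).toReal := by
  have h1 : ∏ p ∈ Q, (1 + nm K p s) ≤ (zetaE K s).toReal := by
    rw [← ENNReal.ofReal_le_iff_le_toReal htop]
    exact prod_one_add_le Q s
  have h2 : 0 < ∏ p ∈ Q, (1 + nm K p s) :=
    Finset.prod_pos fun p _ => by linarith [nm_nonneg p s]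
  have h3 := Real.log_le_log h2 h1
  rw [Real.log_prod (fun p _ => ne_of_gt (by linarith [nm_nonneg p s]))] at h3
  have h4 := sum_sq_le Q hs
  calc ∑ p ∈ Q, nm K p s ≤ ∑ p ∈ Q, (Real.log (1 + nm K p s) + nm K p s ^ 2) :=
        Finset.sum_le_sum fun p _ => by linarith [le_log_one_add (nm_nonneg p s)]
    _ = ∑ p ∈ Q, Real.log (1 + nm K p s) + ∑ p ∈ Q, nm K p s ^ 2 := Finset.sum_add_distrib
    _ ≤ _ := by linarith

variable (K) in
/-- two-sided bounds for the zeta function near `1` -/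
theorem zetaE_bounds : ∃ C : ℝ, ∀ᶠ s : ℝ in 𝓝[>] 1, zetaE K s ≠ ∞ ∧
    Real.log (zetaE K s).toReal ≤ Real.log (1 / (s - 1)) + C ∧
    Real.log (1 / (s - 1)) ≤ Real.log (zetaE K s).toReal + C ∧ 0 < (zetaE K s).toReal := by
  have hpos := dedekindZeta_residue_pos K
  have h1 := (tendsto_zetaE K).eventually_lt_const
    (show dedekindZeta_residue K < 2 * dedekindZeta_residue K by linarith)
  have h2 := (tendsto_zetaE K).eventually_const_lt
    (show dedekindZeta_residue K / 2 < dedekindZeta_residue K by linarith)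
  refine ⟨|Real.log (2 * dedekindZeta_residue K)| + |Real.log (dedekindZeta_residue K / 2)|, ?_⟩
  filter_upwards [h1, h2, eventually_ne_top K, self_mem_nhdsWithin] with s h1 h2 h3 h4
  have hs : 0 < s - 1 := sub_pos.2 h4
  have hz : 0 < (zetaE K s).toReal := by
    by_contra hcon
    have : (s - 1) * (zetaE K s).toReal ≤ 0 :=
      mul_nonpos_of_nonneg_of_nonpos hs.le (not_lt.1 hcon)
    linarith
  have e : Real.log (zetaE K s).toReal = Real.log (1 / (s - 1)) +
      Real.log ((s - 1) * (zetaE K s).toReal) := by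
    rw [← Real.log_mul (by positivity) (by positivity)]
    congr 1
    field_simp
  have h5 : Real.log ((s - 1) * (zetaE K s).toReal) ≤ Real.log (2 * dedekindZeta_residue K) :=
    Real.log_le_log (by positivity) h1.le
  have h6 : Real.log (dedekindZeta_residue K / 2) ≤ Real.log ((s - 1) * (zetaE K s).toReal) :=
    Real.log_le_log (by positivity) h2.le
  have h7 := le_abs_self (Real.log (2 * dedekindZeta_residue K))
  have h8 := neg_abs_le (Real.log (dedekindZeta_residue K / 2))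
  have h9 := abs_nonneg (Real.log (2 * dedekindZeta_residue K))
  have h10 := abs_nonneg (Real.log (dedekindZeta_residue K / 2))
  refine ⟨h3, ?_, ?_, hz⟩
  · rw [e]; linarith
  · rw [e]; linarith

variable (K) in
/-- **Upper bound** for the sum over primes. -/
theorem upper : ∃ C : ℝ, ∀ᶠ s : ℝ in 𝓝[>] 1,
    ∑' p : HeightOneSpectrum (𝓞 K), ENNReal.ofReal (nm K p s) ≤
      ENNReal.ofReal (Real.log (1 / (s - 1)) + C) := by
  obtain ⟨C, hC⟩ := zetaE_bounds K
  refine ⟨C + (zetaE K 2).toReal, ?_⟩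
  filter_upwards [hC, self_mem_nhdsWithin] with s hs hs1
  rw [ENNReal.tsum_eq_iSup_sum]
  refine iSup_le fun Q => ?_
  rw [← ENNReal.ofReal_sum_of_nonneg (fun p _ => nm_nonneg p s)]
  apply ENNReal.ofReal_le_ofReal
  have := sum_nm_le Q (le_of_lt hs1) hs.1
  linarith [hs.2.1]

/-! ### Lower bound -/

variable (K) in
/-- nonzero ideals all of whose prime factors lie in `Q` -/
def Supp (Q : Finset (HeightOneSpectrum (𝓞 K))) : Set (Ideal (𝓞 K)) :=
  {I | I ≠ ⊥ ∧ ∀ p : HeightOneSpectrum (𝓞 K), p.asIdeal ∣ I → p ∈ Q}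

theorem eq_top_of_mem_supp_empty {I : Ideal (𝓞 K)} (hI : I ∈ Supp K ∅) : I = ⊤ := by
  by_contra h
  obtain ⟨M, hM, hle⟩ := Ideal.exists_le_maximal I h
  have hM0 : M ≠ ⊥ := fun h0 => hI.1 (le_bot_iff.1 (h0 ▸ hle))
  exact absurd (hI.2 ⟨M, hM.isPrime, hM0⟩ (Ideal.dvd_iff_le.2 hle)) (by simp)

theorem pow_mul_mem_supp {Q : Finset (HeightOneSpectrum (𝓞 K))} [DecidableEq
    (HeightOneSpectrum (𝓞 K))] (p : HeightOneSpectrum (𝓞 K))
    (k : ℕ) {J : Ideal (𝓞 K)} (hJ : J ∈ Supp K Q) : p.asIdeal ^ k * J ∈ Supp K (insert p Q) := by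
  refine ⟨mul_ne_zero (pow_ne_zero _ p.ne_bot) hJ.1, fun q hq => ?_⟩
  have hq' : Prime q.asIdeal := q.prime
  rcases hq'.dvd_or_dvd hq with h | h
  · have h2 := hq'.dvd_of_dvd_pow h
    have hp' : Prime p.asIdeal := p.prime
    have : q.asIdeal = p.asIdeal := associated_iff_eq.1 ((hq'.dvd_prime_iff_associated hp').1 h2)
    rw [HeightOneSpectrum.ext this]
    exact Finset.mem_insert_self _ _
  · exact Finset.mem_insert_of_mem (hJ.2 q h)

theorem exists_of_mem_supp {Q : Finset (HeightOneSpectrum (𝓞 K))} [DecidableEq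
    (HeightOneSpectrum (𝓞 K))] (p : HeightOneSpectrum (𝓞 K))
    {I : Ideal (𝓞 K)} (hI : I ∈ Supp K (insert p Q)) :
    ∃ (k : ℕ) (J : Ideal (𝓞 K)), J ∈ Supp K Q ∧ p.asIdeal ^ k * J = I := by
  have hp' : Prime p.asIdeal := p.prime
  obtain ⟨k, J, hJ, rfl⟩ := WfDvdMonoid.max_power_factor (a₀ := I) hI.1 hp'.irreducible
  refine ⟨k, J, ⟨fun h => hI.1 (by rw [h]; simp), fun q hq => ?_⟩, rfl⟩
  have h1 := hI.2 q (hq.mul_left _)
  rcases Finset.mem_insert.1 h1 with h | h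
  · exact absurd (h ▸ hq) hJ
  · exact h

theorem euler_le (Q : Finset (HeightOneSpectrum (𝓞 K))) (s : ℝ) :
    ∑' I : Supp K Q, ENNReal.ofReal ((absNorm (I : Ideal (𝓞 K)) : ℝ) ^ (-s)) ≤
      ∏ p ∈ Q, ∑' k : ℕ, ENNReal.ofReal (nm K p s ^ k) := by
  classical
  induction Q using Finset.induction_on with
  | empty =>
    rw [Finset.prod_empty]
    have hsurj : Function.Surjective (fun _ : Unit => (⟨⊤, by
        refine ⟨?_, fun p hp => ?_⟩
        · exact top_ne_bot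
        · exact absurd (top_le_iff.1 (Ideal.dvd_iff_le.1 hp)) p.isPrime.ne_top⟩ :
          Supp K (∅ : Finset (HeightOneSpectrum (𝓞 K))))) := by
      rintro ⟨I, hI⟩
      exact ⟨(), Subtype.ext (eq_top_of_mem_supp_empty hI).symm⟩
    refine (ENNReal.tsum_le_tsum_comp_of_surjective hsurj _).trans ?_
    rw [tsum_fintype]
    simp
  | insert p Q hp ih =>
    rw [Finset.prod_insert hp]
    have hsurj : Function.Surjective (fun x : ℕ × Supp K Q =>
        (⟨p.asIdeal ^ x.1 * (x.2 : Ideal (𝓞 K)), pow_mul_mem_supp p x.1 x.2.2⟩ :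
          Supp K (insert p Q))) := by
      rintro ⟨I, hI⟩
      obtain ⟨k, J, hJ, rfl⟩ := exists_of_mem_supp p hI
      exact ⟨(k, ⟨J, hJ⟩), rfl⟩
    refine (ENNReal.tsum_le_tsum_comp_of_surjective hsurj _).trans ?_
    have h1 : ∀ x : ℕ × Supp K Q,
        ENNReal.ofReal ((absNorm (p.asIdeal ^ x.1 * (x.2 : Ideal (𝓞 K))) : ℝ) ^ (-s)) =
        ENNReal.ofReal (nm K p s ^ x.1) *
          ENNReal.ofReal ((absNorm (x.2 : Ideal (𝓞 K)) : ℝ) ^ (-s)) := by
      intro x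
      rw [← ENNReal.ofReal_mul (pow_nonneg (nm_nonneg p s) _)]
      congr 1
      unfold nm
      rw [map_mul, map_pow]
      push_cast
      rw [Real.mul_rpow (by positivity) (by positivity), ← Real.rpow_natCast, ← Real.rpow_natCast,
        ← Real.rpow_mul (by positivity), ← Real.rpow_mul (by positivity), mul_comm (x.1 : ℝ)]
    rw [tsum_congr h1, ENNReal.tsum_prod (f := fun (k : ℕ) (J : Supp K Q) =>
      ENNReal.ofReal (nm K p s ^ k) * ENNReal.ofReal ((absNorm (J : Ideal (𝓞 K)) : ℝ) ^ (-s)))]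
    simp_rw [ENNReal.tsum_mul_left]
    rw [ENNReal.tsum_mul_right]
    gcongr

theorem geom_le {x : ℝ} (h0 : 0 ≤ x) (h1 : x ≤ 1 / 2) :
    ∑' k : ℕ, ENNReal.ofReal (x ^ k) ≤ ENNReal.ofReal (Real.exp (x + 2 * x ^ 2)) := by
  rw [← ENNReal.ofReal_tsum_of_nonneg (fun k => pow_nonneg h0 k)
    (summable_geometric_of_lt_one h0 (by linarith)), tsum_geometric_of_lt_one h0 (by linarith)]
  apply ENNReal.ofReal_le_ofReal
  have h2 : (1 - x)⁻¹ ≤ 1 + (x + 2 * x ^ 2) := by
    rw [inv_le_iff_one_le_mul₀ (by linarith)]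
    nlinarith [mul_nonneg (mul_nonneg h0 h0) (by linarith : (0 : ℝ) ≤ 1 - 2 * x)]
  have h3 := Real.add_one_le_exp (x + 2 * x ^ 2)
  linarith

theorem euler_le' (Q : Finset (HeightOneSpectrum (𝓞 K))) {s : ℝ} (hs : 1 ≤ s) :
    ∑' I : Supp K Q, ENNReal.ofReal ((absNorm (I : Ideal (𝓞 K)) : ℝ) ^ (-s)) ≤
      ENNReal.ofReal (Real.exp (∑ p ∈ Q, nm K p s + 2 * (zetaE K 2).toReal)) := by
  refine (euler_le Q s).trans ?_
  calc ∏ p ∈ Q, ∑' k : ℕ, ENNReal.ofReal (nm K p s ^ k)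
      ≤ ∏ p ∈ Q, ENNReal.ofReal (Real.exp (nm K p s + 2 * nm K p s ^ 2)) :=
        Finset.prod_le_prod' fun p _ => geom_le (nm_nonneg p s) (nm_le_half p hs)
    _ = ENNReal.ofReal (∏ p ∈ Q, Real.exp (nm K p s + 2 * nm K p s ^ 2)) := by
        rw [ENNReal.ofReal_prod_of_nonneg (fun _ _ => (Real.exp_pos _).le)]
    _ ≤ _ := by
        apply ENNReal.ofReal_le_ofReal
        rw [← Real.exp_sum, Finset.sum_add_distrib, ← Finset.mul_sum]
        apply Real.exp_le_exp.2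
        have := sum_sq_le Q hs
        linarith

variable (K) in
theorem zetaE_le {s : ℝ} (hs : 1 < s) {T : ℝ}
    (hT : ∀ Q : Finset (HeightOneSpectrum (𝓞 K)), ∑ p ∈ Q, nm K p s ≤ T) :
    zetaE K s ≤ ENNReal.ofReal (Real.exp (T + 2 * (zetaE K 2).toReal)) := by
  classical
  rw [zetaE, ENNReal.tsum_eq_iSup_sum]
  refine iSup_le fun A => ?_
  -- the primes dividing an element of `A`
  let fac : Ideal (𝓞 K) → Finset (HeightOneSpectrum (𝓞 K)) := fun I =>
    if h : I ≠ 0 then (Ideal.finite_factors h).toFinset else ∅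
  let Q := A.biUnion fac
  have h1 : ∑ I ∈ A, ENNReal.ofReal ((absNorm I : ℝ) ^ (-s)) =
      ∑ I ∈ A with I ≠ ⊥, ENNReal.ofReal ((absNorm I : ℝ) ^ (-s)) := by
    symm
    apply Finset.sum_filter_of_ne
    intro I _ hI h0
    apply hI
    rw [h0]
    simp [Real.zero_rpow (neg_ne_zero.2 (by linarith : s ≠ 0))]
  rw [h1]
  have h2 : ∀ I ∈ A.filter (· ≠ ⊥), I ∈ Supp K Q := by
    intro I hI
    rw [Finset.mem_filter] at hI
    refine ⟨hI.2, fun p hp => ?_⟩
    refine Finset.mem_biUnion.2 ⟨I, hI.1, ?_⟩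
    have h0 : I ≠ 0 := hI.2
    simp only [fac, dif_pos h0]
    simpa using hp
  calc ∑ I ∈ A with I ≠ ⊥, ENNReal.ofReal ((absNorm I : ℝ) ^ (-s))
      = ∑ I ∈ (A.filter (· ≠ ⊥)).attach.image (fun I => (⟨I.1, h2 I.1 I.2⟩ : Supp K Q)),
          ENNReal.ofReal ((absNorm (I : Ideal (𝓞 K)) : ℝ) ^ (-s)) := by
        rw [Finset.sum_image (fun x _ y _ hxy => Subtype.ext (congrArg (fun z => z.1) hxy))]
        rw [Finset.sum_attach (A.filter (· ≠ ⊥))
          (fun I => ENNReal.ofReal ((absNorm I : ℝ) ^ (-s)))]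
    _ ≤ ∑' I : Supp K Q, ENNReal.ofReal ((absNorm (I : Ideal (𝓞 K)) : ℝ) ^ (-s)) :=
        ENNReal.sum_le_tsum _
    _ ≤ _ := euler_le' Q hs.le
    _ ≤ _ := by
        apply ENNReal.ofReal_le_ofReal
        apply Real.exp_le_exp.2
        linarith [hT Q]

/-! ### Primes of degree at least two -/

/-- the residue characteristic -/
noncomputable def resChar (p : HeightOneSpectrum (𝓞 K)) : ℕ := ringChar (𝓞 K ⧸ p.asIdeal)

theorem resChar_spec (p : HeightOneSpectrum (𝓞 K)) : (resChar p).Prime ∧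
    (resChar p : 𝓞 K) ∈ p.asIdeal ∧ ∃ n : ℕ, n ≠ 0 ∧ absNorm p.asIdeal = resChar p ^ n := by
  have : p.asIdeal.IsMaximal := p.isMaximal
  have : Finite (𝓞 K ⧸ p.asIdeal) := Ideal.finiteQuotientOfFreeOfNeBot _ p.ne_bot
  let _ : Field (𝓞 K ⧸ p.asIdeal) := Ideal.Quotient.field _
  let _ : Fintype (𝓞 K ⧸ p.asIdeal) := Fintype.ofFinite _
  obtain ⟨q, hq, n, hqp, hn⟩ := FiniteField.card' (𝓞 K ⧸ p.asIdeal)
  have h1 : resChar p = q := ringChar.eq _ q
  refine ⟨h1 ▸ hqp, ?_, n, n.2.ne', ?_⟩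
  · rw [← Ideal.Quotient.eq_zero_iff_mem]
    have : ((q : ℕ) : 𝓞 K ⧸ p.asIdeal) = 0 := CharP.cast_eq_zero _ q
    rw [h1]
    simp
  · rw [h1, ← hn, absNorm_apply, Submodule.cardQuot_apply, Nat.card_eq_fintype_card]

theorem card_le_finrank {q : ℕ} (hq : q.Prime) (A : Finset (HeightOneSpectrum (𝓞 K)))
    (hA : ∀ p ∈ A, resChar p = q) : A.card ≤ Module.finrank ℤ (𝓞 K) := by
  classical
  have hq1 : 1 < q := hq.one_lt
  have hinj : Set.InjOn (fun p : HeightOneSpectrum (𝓞 K) => p.asIdeal) (A : Set _) :=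
    fun p _ q _ h => HeightOneSpectrum.ext h
  have h1 : ∏ p ∈ A, p.asIdeal ∣ Ideal.span {(q : 𝓞 K)} := by
    have h2 := Finset.prod_primes_dvd (s := A.image (fun p => p.asIdeal))
      (Ideal.span {(q : 𝓞 K)}) (fun a ha => ?_) (fun a ha => ?_)
    · rwa [Finset.prod_image hinj] at h2
    · obtain ⟨p, -, rfl⟩ := Finset.mem_image.1 ha
      exact p.prime
    · obtain ⟨p, hp, rfl⟩ := Finset.mem_image.1 ha
      rw [Ideal.dvd_span_singleton, ← hA p hp]
      exact (resChar_spec p).2.1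
  have h3 : absNorm (∏ p ∈ A, p.asIdeal) ∣ absNorm (Ideal.span {(q : 𝓞 K)}) :=
    map_dvd absNorm h1
  rw [absNorm_span_natCast, map_prod] at h3
  have h4 := Nat.le_of_dvd (by positivity) h3
  have h5 : q ^ A.card ≤ ∏ p ∈ A, absNorm p.asIdeal := by
    apply Finset.pow_card_le_prod
    intro p hp
    obtain ⟨-, -, n, hn, hn'⟩ := resChar_spec p
    rw [hn', hA p hp]
    exact Nat.le_self_pow hn q
  exact (Nat.pow_le_pow_iff_right hq1).1 (h5.trans h4)

variable (K) in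
/-- the primes which are not of prime norm contribute a bounded amount -/
theorem nondeg_le {s : ℝ} (hs : 1 ≤ s) :
    ∑' p : {p : HeightOneSpectrum (𝓞 K) | ¬ (absNorm p.asIdeal).Prime},
      ENNReal.ofReal (nm K p s) ≤
      ENNReal.ofReal (Module.finrank ℤ (𝓞 K) * ∑' n : ℕ, (n : ℝ) ^ (-2 : ℝ)) := by
  have hsum : Summable fun n : ℕ => (n : ℝ) ^ (-2 : ℝ) := by
    rw [Real.summable_nat_rpow]
    norm_num
  rw [← tsum_mul_left, ENNReal.ofReal_tsum_of_nonneg (fun n => by positivity)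
    (hsum.mul_left _), ← ENNReal.tsum_fiberwise _ (fun p : {p : HeightOneSpectrum (𝓞 K) |
      ¬ (absNorm p.asIdeal).Prime} => resChar p.1)]
  refine ENNReal.tsum_le_tsum fun q => ?_
  rw [ENNReal.tsum_eq_iSup_sum]
  refine iSup_le fun A => ?_
  rcases A.eq_empty_or_nonempty with rfl | hne
  · simp
  have hq : q.Prime := by
    obtain ⟨⟨p, hp⟩, -⟩ := hne
    have : resChar p.1 = q := hp
    rw [← this]
    exact (resChar_spec p.1).1
  have h1 : ∀ p : ((fun p : {p : HeightOneSpectrum (𝓞 K) |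
      ¬ (absNorm p.asIdeal).Prime} => resChar p.1) ⁻¹' {q}), nm K p s ≤ (q : ℝ) ^ (-2 : ℝ) := by
    rintro ⟨⟨p, hp⟩, hpq⟩
    have hpq' : resChar p = q := hpq
    obtain ⟨-, -, n, hn, hn'⟩ := resChar_spec p
    have hn2 : 2 ≤ n := by
      rcases n with _ | _ | n
      · exact absurd rfl hn
      · exact absurd (by rw [hn', zero_add, pow_one]; exact (resChar_spec p).1) hp
      · omega
    change nm K p s ≤ _
    unfold nm
    rw [hn', hpq']
    have hq1 : (1 : ℝ) ≤ q := by exact_mod_cast hq.one_lt.le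
    push_cast
    rw [← Real.rpow_natCast, ← Real.rpow_mul (by positivity)]
    apply Real.rpow_le_rpow_of_exponent_le hq1
    have : (2 : ℝ) ≤ n := by exact_mod_cast hn2
    nlinarith
  calc ∑ p ∈ A, ENNReal.ofReal (nm K p s) ≤ ∑ p ∈ A, ENNReal.ofReal ((q : ℝ) ^ (-2 : ℝ)) :=
        Finset.sum_le_sum fun p _ => ENNReal.ofReal_le_ofReal (h1 p)
    _ = ENNReal.ofReal (A.card * (q : ℝ) ^ (-2 : ℝ)) := by
        rw [Finset.sum_const, nsmul_eq_mul, ENNReal.ofReal_mul (by positivity),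
          ENNReal.ofReal_natCast]
    _ ≤ _ := by
        apply ENNReal.ofReal_le_ofReal
        have hinj : Function.Injective (fun p : ((fun p : {p : HeightOneSpectrum (𝓞 K) |
            ¬ (absNorm p.asIdeal).Prime} => resChar p.1) ⁻¹' {q}) => p.1.1) :=
          Subtype.val_injective.comp Subtype.val_injective
        have h2 := card_le_finrank hq (A.map ⟨_, hinj⟩) (by
          intro p hp
          obtain ⟨x, -, rfl⟩ := Finset.mem_map.1 hp
          exact x.2)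
        rw [Finset.card_map] at h2
        have h3 : (A.card : ℝ) ≤ Module.finrank ℤ (𝓞 K) := by exact_mod_cast h2
        have h4 : (0 : ℝ) ≤ (q : ℝ) ^ (-2 : ℝ) := by positivity
        exact mul_le_mul_of_nonneg_right h3 h4

variable (K) in
/-- the sum over the primes of prime norm -/
noncomputable def degOneSum (s : ℝ) : ℝ≥0∞ :=
  ∑' p : {p : HeightOneSpectrum (𝓞 K) | (absNorm p.asIdeal).Prime}, ENNReal.ofReal (nm K p s)

variable (K) in
/-- **Lower bound** for the sum over primes of prime norm. -/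
theorem lower : ∃ C : ℝ, ∀ᶠ s : ℝ in 𝓝[>] 1,
    ENNReal.ofReal (Real.log (1 / (s - 1)) - C) ≤ degOneSum K s := by
  obtain ⟨C, hC⟩ := zetaE_bounds K
  obtain ⟨C', hC'⟩ := upper K
  set R : ℝ := Module.finrank ℤ (𝓞 K) * ∑' n : ℕ, (n : ℝ) ^ (-2 : ℝ) with hR
  have hR0 : 0 ≤ R := mul_nonneg (by positivity) (tsum_nonneg fun n => by positivity)
  refine ⟨C + R + 2 * (zetaE K 2).toReal, ?_⟩
  filter_upwards [hC, hC', self_mem_nhdsWithin] with s hs hs' hs1
  have hs1' : (1 : ℝ) < s := hs1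
  have htop : ∑' p : HeightOneSpectrum (𝓞 K), ENNReal.ofReal (nm K p s) ≠ ∞ :=
    ne_top_of_le_ne_top ENNReal.ofReal_ne_top hs'
  have hT : ∀ Q : Finset (HeightOneSpectrum (𝓞 K)), ∑ p ∈ Q, nm K p s ≤
      (∑' p : HeightOneSpectrum (𝓞 K), ENNReal.ofReal (nm K p s)).toReal := by
    intro Q
    rw [← ENNReal.ofReal_le_iff_le_toReal htop,
      ENNReal.ofReal_sum_of_nonneg (fun p _ => nm_nonneg p s)]
    exact ENNReal.sum_le_tsum _
  have h1 := zetaE_le K hs1' hT
  have h2 : Real.log (zetaE K s).toReal ≤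
      (∑' p : HeightOneSpectrum (𝓞 K), ENNReal.ofReal (nm K p s)).toReal +
        2 * (zetaE K 2).toReal := by
    rw [Real.log_le_iff_le_exp hs.2.2.2]
    exact ENNReal.toReal_le_of_le_ofReal (Real.exp_pos _).le h1
  have h3 : ∑' p : HeightOneSpectrum (𝓞 K), ENNReal.ofReal (nm K p s) ≤
      degOneSum K s + ENNReal.ofReal R := by
    rw [tsum_split _ {p : HeightOneSpectrum (𝓞 K) | (absNorm p.asIdeal).Prime}]
    exact add_le_add_right (nondeg_le K hs1'.le) _
  have h5 : degOneSum K s ≠ ∞ := by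
    refine ne_top_of_le_ne_top htop ?_
    exact ENNReal.tsum_comp_le_tsum_of_injective Subtype.val_injective
      (fun p : HeightOneSpectrum (𝓞 K) => ENNReal.ofReal (nm K p s))
  rw [ENNReal.ofReal_le_iff_le_toReal h5]
  have h6 := ENNReal.toReal_mono (ENNReal.add_ne_top.2 ⟨h5, ENNReal.ofReal_ne_top⟩) h3
  rw [ENNReal.toReal_add h5 ENNReal.ofReal_ne_top, ENNReal.toReal_ofReal hR0] at h6
  linarith [hs.2.2.1]

end Zeta

end Vale.Agent.P024
end
end

section

section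

/-!
P024: the covering inequality for primes of prime norm.
-/

open NumberField Ideal IsDedekindDomain Filter Topology
open scoped ENNReal

namespace Vale.Agent.P024

universe u

theorem tendsto_log_one_div : Tendsto (fun s : ℝ => Real.log (1 / (s - 1))) (𝓝[>] 1) atTop := by
  have h1 : Tendsto (fun s : ℝ => s - 1) (𝓝[>] 1) (𝓝[>] 0) := by
    refine tendsto_nhdsWithin_iff.2 ⟨?_, ?_⟩
    · have : Tendsto (fun s : ℝ => s - 1) (𝓝 1) (𝓝 (1 - 1)) :=
        (continuous_id.sub continuous_const).tendsto _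
      rw [sub_self] at this
      exact this.mono_left nhdsWithin_le_nhds
    · filter_upwards [self_mem_nhdsWithin] with s hs
      have hs' : (1 : ℝ) < s := hs
      exact sub_pos.2 hs'
  have h2 : Tendsto (fun s : ℝ => (s - 1)⁻¹) (𝓝[>] 1) atTop := tendsto_inv_nhdsGT_zero.comp h1
  have h3 := Real.tendsto_log_atTop.comp h2
  refine h3.congr fun s => ?_
  simp

/-- pointwise inequality -/
theorem point_le {Z M : Type*} [Field Z] [NumberField Z] [Field M] [NumberField M] [Algebra Z M]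
    {m : ℕ} (hm : 0 < m) (p : HeightOneSpectrum (𝓞 Z)) (A : Finset (HeightOneSpectrum (𝓞 M)))
    (hA : m ≤ A.card)
    (h : ∀ P ∈ A, P.asIdeal.comap (algebraMap (𝓞 Z) (𝓞 M)) = p.asIdeal ∧
      absNorm P.asIdeal = absNorm p.asIdeal) (s : ℝ) :
    ENNReal.ofReal (nm Z p s) ≤ (m : ℝ≥0∞)⁻¹ *
      ∑' P : ((fun P : HeightOneSpectrum (𝓞 M) => P.asIdeal.comap (algebraMap (𝓞 Z) (𝓞 M))) ⁻¹'
        {p.asIdeal}), ENNReal.ofReal (nm M P s) := by
  have hm0 : (m : ℝ≥0∞) ≠ 0 := by exact_mod_cast hm.ne'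
  have hmt : (m : ℝ≥0∞) ≠ ∞ := ENNReal.natCast_ne_top m
  rw [← ENNReal.mul_le_iff_le_inv hm0 hmt]
  have h1 : ∑ P ∈ A, ENNReal.ofReal (nm M P s) = A.card * ENNReal.ofReal (nm Z p s) := by
    rw [← nsmul_eq_mul, ← Finset.sum_const]
    refine Finset.sum_congr rfl fun P hP => ?_
    unfold nm
    rw [(h P hP).2]
  calc (m : ℝ≥0∞) * ENNReal.ofReal (nm Z p s) ≤ A.card * ENNReal.ofReal (nm Z p s) := by
        gcongr
    _ = ∑ P ∈ A, ENNReal.ofReal (nm M P s) := h1.symm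
    _ = ∑ P ∈ A.attach.map ⟨fun P => (⟨P.1, (h P.1 P.2).1⟩ :
          ((fun P : HeightOneSpectrum (𝓞 M) => P.asIdeal.comap (algebraMap (𝓞 Z) (𝓞 M))) ⁻¹'
            {p.asIdeal})), fun x y hxy => Subtype.ext (congrArg (fun z => z.1) hxy)⟩,
          ENNReal.ofReal (nm M P s) := by
        rw [Finset.sum_map]
        exact (Finset.sum_attach A (fun P => ENNReal.ofReal (nm M P s))).symm
    _ ≤ _ := ENNReal.sum_le_tsum _

/-- **Covering inequality.** -/
theorem one_le_sum_of_cover_aux (Z : Type*) [Field Z] [NumberField Z] {ι : Type*} [Fintype ι]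
    (M : ι → Type u) [∀ i, Field (M i)] [∀ i, NumberField (M i)] [∀ i, Algebra Z (M i)]
    (m : ι → ℕ) (hm : ∀ i, 0 < m i) (S : Set (HeightOneSpectrum (𝓞 Z))) (hS : S.Finite)
    (hcov : ∀ p ∉ S, (absNorm p.asIdeal).Prime → ∃ (i : ι)
      (A : Finset (HeightOneSpectrum (𝓞 (M i)))), m i ≤ A.card ∧
      ∀ P ∈ A, P.asIdeal.comap (algebraMap (𝓞 Z) (𝓞 (M i))) = p.asIdeal ∧
        absNorm P.asIdeal = absNorm p.asIdeal) :
    1 ≤ ∑ i, (1 : ℝ) / m i := by
  obtain ⟨C, hC⟩ := lower Z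
  choose C' hC' using fun i => upper (M i)
  have hC'' : ∀ᶠ s : ℝ in 𝓝[>] 1, ∀ i, ∑' p : HeightOneSpectrum (𝓞 (M i)),
      ENNReal.ofReal (nm (M i) p s) ≤ ENNReal.ofReal (Real.log (1 / (s - 1)) + C' i) :=
    eventually_all.2 hC'
  -- bound for the sum
  have key : ∀ s : ℝ, 1 < s → degOneSum Z s ≤ (hS.toFinset.card : ℝ≥0∞) +
      ∑ i, (m i : ℝ≥0∞)⁻¹ * ∑' P : HeightOneSpectrum (𝓞 (M i)),
        ENNReal.ofReal (nm (M i) P s) := by
    intro s hs
    let F : ι → Ideal (𝓞 Z) → ℝ≥0∞ := fun i J =>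
      ∑' P : ((fun P : HeightOneSpectrum (𝓞 (M i)) =>
        P.asIdeal.comap (algebraMap (𝓞 Z) (𝓞 (M i)))) ⁻¹' {J}), ENNReal.ofReal (nm (M i) P s)
    have h1 : ∀ p : {p : HeightOneSpectrum (𝓞 Z) | (absNorm p.asIdeal).Prime},
        ENNReal.ofReal (nm Z p s) ≤ (S.indicator (fun _ => (1 : ℝ≥0∞)) p.1) +
          ∑ i, (m i : ℝ≥0∞)⁻¹ * F i p.1.asIdeal := by
      rintro ⟨p, hp⟩
      by_cases hpS : p ∈ S
      · rw [Set.indicator_of_mem hpS]
        refine le_add_right ?_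
        rw [ENNReal.ofReal_le_one]
        exact (nm_le_half p hs.le).trans (by norm_num)
      · obtain ⟨i, A, hA, h⟩ := hcov p hpS hp
        refine le_add_left ?_
        refine (point_le (hm i) p A hA h s).trans ?_
        exact Finset.single_le_sum (f := fun i => (m i : ℝ≥0∞)⁻¹ * F i p.asIdeal)
          (fun _ _ => zero_le) (Finset.mem_univ i)
    calc degOneSum Z s ≤ ∑' p : {p : HeightOneSpectrum (𝓞 Z) | (absNorm p.asIdeal).Prime},
          ((S.indicator (fun _ => (1 : ℝ≥0∞)) p.1) + ∑ i, (m i : ℝ≥0∞)⁻¹ * F i p.1.asIdeal) :=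
          ENNReal.tsum_le_tsum h1
      _ ≤ ∑' p : HeightOneSpectrum (𝓞 Z),
          ((S.indicator (fun _ => (1 : ℝ≥0∞)) p) + ∑ i, (m i : ℝ≥0∞)⁻¹ * F i p.asIdeal) :=
          ENNReal.tsum_comp_le_tsum_of_injective Subtype.val_injective
            (fun p : HeightOneSpectrum (𝓞 Z) => (S.indicator (fun _ => (1 : ℝ≥0∞)) p) +
              ∑ i, (m i : ℝ≥0∞)⁻¹ * F i p.asIdeal)
      _ = ∑' p : HeightOneSpectrum (𝓞 Z), (S.indicator (fun _ => (1 : ℝ≥0∞)) p) +
          ∑ i, (m i : ℝ≥0∞)⁻¹ * ∑' p : HeightOneSpectrum (𝓞 Z), F i p.asIdeal := by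
          rw [ENNReal.tsum_add]
          congr 1
          rw [Summable.tsum_finsetSum (fun _ _ => ENNReal.summable)]
          refine Finset.sum_congr rfl fun i _ => ?_
          rw [ENNReal.tsum_mul_left]
      _ ≤ _ := by
          refine add_le_add ?_ (Finset.sum_le_sum fun i _ => ?_)
          · rw [← tsum_subtype, ENNReal.tsum_const, mul_one]
            have : ENat.card S = (hS.toFinset.card : ℕ∞) := by
              rw [← Set.encard, hS.encard_eq_coe_toFinset_card]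
            rw [this]
            exact le_of_eq rfl
          · gcongr
            calc ∑' p : HeightOneSpectrum (𝓞 Z), F i p.asIdeal
                ≤ ∑' J : Ideal (𝓞 Z), F i J :=
                  ENNReal.tsum_comp_le_tsum_of_injective
                    (fun p q h => HeightOneSpectrum.ext h) (F i)
              _ = _ := ENNReal.tsum_fiberwise
                  (fun P : HeightOneSpectrum (𝓞 (M i)) => ENNReal.ofReal (nm (M i) P s))
                  (fun P : HeightOneSpectrum (𝓞 (M i)) =>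
                    P.asIdeal.comap (algebraMap (𝓞 Z) (𝓞 (M i))))
  by_contra hcon
  rw [not_le] at hcon
  set θ : ℝ := ∑ i, (1 : ℝ) / m i with hθ
  -- the logarithm tends to infinity
  have hbig : ∀ᶠ s : ℝ in 𝓝[>] 1, ∀ i, 0 ≤ Real.log (1 / (s - 1)) + C' i := by
    rw [eventually_all]
    intro i
    filter_upwards [tendsto_log_one_div.eventually_ge_atTop (-C' i)] with s hs
    linarith
  have hbig2 := tendsto_log_one_div.eventually_gt_atTop
    ((hS.toFinset.card + ∑ i, C' i / m i + C) / (1 - θ))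
  obtain ⟨s, h1, h2, h3, h4, h5⟩ :=
    (hC.and (hC''.and (hbig.and (hbig2.and self_mem_nhdsWithin)))).exists
  set L : ℝ := Real.log (1 / (s - 1)) with hL
  have h6 : ENNReal.ofReal (L - C) ≤ ENNReal.ofReal (hS.toFinset.card +
      ∑ i, (L + C' i) / m i) := by
    refine h1.trans ((key s h5).trans ?_)
    rw [ENNReal.ofReal_add (by positivity) (Finset.sum_nonneg fun i _ =>
      div_nonneg (h3 i) (by positivity)), ENNReal.ofReal_natCast,
      ENNReal.ofReal_sum_of_nonneg (fun i _ => div_nonneg (h3 i) (by positivity))]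
    gcongr with i _
    rw [div_eq_inv_mul, ENNReal.ofReal_mul (by positivity), ENNReal.ofReal_inv_of_pos
      (by exact_mod_cast hm i), ENNReal.ofReal_natCast]
    gcongr
    exact h2 i
  have h7 : L - C ≤ hS.toFinset.card + ∑ i, (L + C' i) / m i := by
    rwa [ENNReal.ofReal_le_ofReal_iff] at h6
    exact add_nonneg (by positivity) (Finset.sum_nonneg fun i _ =>
      div_nonneg (h3 i) (by positivity))
  have h8 : ∑ i, (L + C' i) / m i = L * θ + ∑ i, C' i / m i := by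
    rw [hθ, Finset.mul_sum, ← Finset.sum_add_distrib]
    refine Finset.sum_congr rfl fun i _ => ?_
    ring
  rw [h8] at h7
  rw [div_lt_iff₀ (by linarith)] at h4
  linarith

end Vale.Agent.P024
end
end

section

section

namespace Vale.Agent.P024

open scoped NumberField
open IsDedekindDomain Polynomial

universe u

namespace Avoid

/-- the Kummer extension obtained by adjoining an `l`-th root -/
theorem kummer_ext (Z : Type u) [Field Z] [NumberField Z] {l : ℕ} (hl : l.Prime) {ζ : Z}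
    (hζ : IsPrimitiveRoot ζ l) (a : Z) (ha : ∀ b : Z, b ^ l ≠ a) :
    ∃ (M : Type u) (_ : Field M) (_ : NumberField M) (_ : Algebra Z M),
      Module.finrank Z M = l ∧ ∃ (α : M) (σ : M ≃ₐ[Z] M), α ^ l = algebraMap Z M a ∧
        σ α = algebraMap Z M ζ * α ∧ ∀ y : M, σ y = y → ∃ z : Z, algebraMap Z M z = y := by
  have hirr : Irreducible (X ^ l - C a : Z[X]) := X_pow_sub_C_irreducible_of_prime hl ha
  have hfact : Fact (Irreducible (X ^ l - C a : Z[X])) := ⟨hirr⟩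
  have hne : NeZero l := ⟨hl.ne_zero⟩
  have hprim : (primitiveRoots l Z).Nonempty := ⟨ζ, (mem_primitiveRoots hl.pos).2 hζ⟩
  have hsplit := isSplittingField_AdjoinRoot_X_pow_sub_C hprim hirr
  have hgal : IsGalois Z (AdjoinRoot (X ^ l - C a : Z[X])) :=
    isGalois_of_isSplittingField_X_pow_sub_C hprim hirr _
  have hfd : FiniteDimensional Z (AdjoinRoot (X ^ l - C a : Z[X])) :=
    Polynomial.IsSplittingField.finiteDimensional _ (X ^ l - C a)
  have hcz : CharZero (AdjoinRoot (X ^ l - C a : Z[X])) :=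
    charZero_of_injective_algebraMap (algebraMap Z (AdjoinRoot (X ^ l - C a : Z[X]))).injective
  have hnf : NumberField (AdjoinRoot (X ^ l - C a : Z[X])) :=
    { to_charZero := hcz
      to_finiteDimensional := FiniteDimensional.trans ℚ Z _ }
  refine ⟨AdjoinRoot (X ^ l - C a : Z[X]), inferInstance, hnf, inferInstance,
    finrank_of_isSplittingField_X_pow_sub_C hprim hirr _, AdjoinRoot.root _,
    autAdjoinRootXPowSubC l a (rootsOfUnity.mkOfPowEq ζ hζ.pow_eq_one), ?_, ?_, ?_⟩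
  · rw [root_X_pow_sub_C_pow, AdjoinRoot.algebraMap_eq]
  · rw [autAdjoinRootXPowSubC_root, Algebra.smul_def]
    rfl
  · intro y hy
    have h1 : (autAdjoinRootXPowSubC l a (rootsOfUnity.mkOfPowEq ζ hζ.pow_eq_one))
        (AdjoinRoot.root _) = algebraMap Z _ ζ * (AdjoinRoot.root (X ^ l - C a : Z[X])) := by
      rw [autAdjoinRootXPowSubC_root, Algebra.smul_def]
      rfl
    set σ := autAdjoinRootXPowSubC l a (rootsOfUnity.mkOfPowEq ζ hζ.pow_eq_one) with hσ
    have hpow : ∀ k : ℕ, (σ ^ k) (AdjoinRoot.root _) =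
        algebraMap Z _ ζ ^ k * (AdjoinRoot.root (X ^ l - C a : Z[X])) := by
      intro k
      induction k with
      | zero => simp
      | succ k ih =>
        rw [pow_succ, AlgEquiv.mul_apply, h1, map_mul, AlgEquiv.commutes, ih, pow_succ]
        ring
    have hpow2 : ∀ k : ℕ, (σ ^ k) y = y := by
      intro k
      induction k with
      | zero => simp
      | succ k ih => rw [pow_succ, AlgEquiv.mul_apply, hy, ih]
    have hζ' : IsPrimitiveRoot (algebraMap Z (AdjoinRoot (X ^ l - C a : Z[X])) ζ) l :=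
      hζ.map_of_injective (algebraMap Z _).injective
    have ha0 : a ≠ 0 := fun h => ha 0 (by rw [h, zero_pow hl.ne_zero])
    have hroot : (AdjoinRoot.root (X ^ l - C a : Z[X])) ≠ 0 := by
      intro h
      have := root_X_pow_sub_C_pow l a
      rw [h, zero_pow hl.ne_zero] at this
      exact ha0 ((AdjoinRoot.of (X ^ l - C a)).injective (by rw [← this, map_zero]))
    have hfix : ∀ τ : (AdjoinRoot (X ^ l - C a : Z[X])) ≃ₐ[Z] (AdjoinRoot (X ^ l - C a : Z[X])),
        τ y = y := by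
      intro τ
      have h2 : (τ (AdjoinRoot.root _) / (AdjoinRoot.root (X ^ l - C a : Z[X]))) ^ l = 1 := by
        rw [div_pow, ← map_pow, root_X_pow_sub_C_pow, ← AdjoinRoot.algebraMap_eq,
          AlgEquiv.commutes, AdjoinRoot.algebraMap_eq, ← root_X_pow_sub_C_pow l a, div_self]
        exact pow_ne_zero _ hroot
      obtain ⟨k, _, hk⟩ := hζ'.eq_pow_of_pow_eq_one h2
      have h3 : τ = σ ^ k := by
        apply AlgEquiv.coe_toAlgHom_injective
        apply AdjoinRoot.algHom_ext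
        change τ (AdjoinRoot.root _) = (σ ^ k) (AdjoinRoot.root _)
        rw [hpow k, hk, div_mul_cancel₀ _ hroot]
      rw [h3, hpow2]
    exact (IsGalois.mem_range_algebraMap_iff_fixed y).2 hfix

theorem absNorm_eq_of_card (Z M : Type*) [Field Z] [NumberField Z] [Field M] [NumberField M]
    [Algebra Z M] (v : HeightOneSpectrum (𝓞 Z)) (T : Finset (HeightOneSpectrum (𝓞 M)))
    (hT : ∀ w ∈ T, w.asIdeal.comap (algebraMap (𝓞 Z) (𝓞 M)) = v.asIdeal)
    (hcard : Module.finrank Z M ≤ T.card) :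
    ∀ w ∈ T, Ideal.absNorm w.asIdeal = Ideal.absNorm v.asIdeal := by
  classical
  intro w hw
  have hmax : v.asIdeal.IsMaximal := v.isMaximal
  have hp : v.asIdeal.IsPrime := v.isPrime
  have hsum := Ideal.sum_ramification_inertia (𝓞 M) Z M (p := v.asIdeal) v.ne_bot
  have hlies : ∀ w ∈ T, w.asIdeal.LiesOver v.asIdeal := fun w hw => ⟨(hT w hw).symm⟩
  have hsub : T.image HeightOneSpectrum.asIdeal ⊆
      IsDedekindDomain.primesOverFinset v.asIdeal (𝓞 M) := by
    intro I hI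
    obtain ⟨w, hw, rfl⟩ := Finset.mem_image.1 hI
    exact (IsDedekindDomain.mem_primesOverFinset_iff v.ne_bot _).2 ⟨w.isPrime, hlies w hw⟩
  have hinj : Function.Injective
      (HeightOneSpectrum.asIdeal : HeightOneSpectrum (𝓞 M) → Ideal (𝓞 M)) :=
    fun v w h => HeightOneSpectrum.ext h
  have hle := Finset.sum_le_sum_of_subset (f := fun P : Ideal (𝓞 M) =>
    Ideal.ramificationIdx' v.asIdeal P * Ideal.inertiaDeg' v.asIdeal P) hsub
  rw [hsum, Finset.sum_image (fun x _ y _ h => hinj h)] at hle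
  have hpos : ∀ w ∈ T, Ideal.ramificationIdx' v.asIdeal w.asIdeal ≠ 0 ∧
      Ideal.inertiaDeg' v.asIdeal w.asIdeal ≠ 0 := by
    intro w hw
    have h1 := hlies w hw
    have h2 : w.asIdeal.IsPrime := w.isPrime
    exact ⟨Ideal.IsDedekindDomain.ramificationIdx'_ne_zero_of_liesOver _ v.ne_bot,
      Ideal.inertiaDeg'_ne_zero _ _⟩
  have h3 : Ideal.inertiaDeg' v.asIdeal w.asIdeal = 1 := by
    rw [← Finset.add_sum_erase _ _ hw] at hle
    have h4 : (T.erase w).card • 1 ≤ ∑ w ∈ T.erase w,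
        Ideal.ramificationIdx' v.asIdeal w.asIdeal * Ideal.inertiaDeg' v.asIdeal w.asIdeal := by
      refine Finset.card_nsmul_le_sum _ _ _ (fun w' hw' => ?_)
      have := hpos w' (Finset.mem_of_mem_erase hw')
      exact Nat.one_le_iff_ne_zero.2 (Nat.mul_ne_zero this.1 this.2)
    rw [Finset.card_erase_of_mem hw, smul_eq_mul, mul_one] at h4
    have h5 := hpos w hw
    have a2 : Ideal.inertiaDeg' v.asIdeal w.asIdeal ≤ Ideal.ramificationIdx' v.asIdeal w.asIdeal *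
        Ideal.inertiaDeg' v.asIdeal w.asIdeal := Nat.le_mul_of_pos_left _ (Nat.pos_of_ne_zero h5.1)
    have h6 : 0 < T.card := Finset.card_pos.2 ⟨w, hw⟩
    have h7 := h5.2
    omega
  have h1 := hlies w hw
  rw [Ideal.absNorm_eq_pow_inertiaDeg'_of_liesOver w.asIdeal v.asIdeal hp v.ne_bot, h3, pow_one]

/-- a prime above -/
theorem exists_over (Z M : Type*) [Field Z] [NumberField Z] [Field M] [NumberField M]
    [Algebra Z M] (v : HeightOneSpectrum (𝓞 Z)) :
    ∃ w : HeightOneSpectrum (𝓞 M), w.asIdeal.comap (algebraMap (𝓞 Z) (𝓞 M)) = v.asIdeal := by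
  have hmax : v.asIdeal.IsMaximal := v.isMaximal
  obtain ⟨P, hP, hPv⟩ := Ideal.exists_maximal_ideal_liesOver_of_isIntegral (S := 𝓞 M) v.asIdeal
  have h1 : P.comap (algebraMap (𝓞 Z) (𝓞 M)) = v.asIdeal := hPv.over.symm
  refine ⟨⟨P, hP.isPrime, ?_⟩, h1⟩
  rintro rfl
  rw [Ideal.comap_bot_of_injective _ (FaithfulSMul.algebraMap_injective (𝓞 Z) (𝓞 M))] at h1
  exact v.ne_bot h1.symm

/-- if two powers of a primitive root are congruent then the prime divides `l` -/
theorem natCast_mem_of_root {R : Type*} [CommRing R] [IsDomain R] (P : Ideal R) [P.IsPrime] {l : ℕ}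
    (hl : l.Prime) {ζ : R} (hζ : IsPrimitiveRoot ζ l) (i j : ℕ) (hij : i < j) (hj : j < i + l)
    (h : ζ ^ j - ζ ^ i ∈ P) : (l : R) ∈ P := by
  have h1 : ζ ^ j - ζ ^ i = ζ ^ i * (ζ ^ (j - i) - 1) := by
    rw [mul_sub, ← pow_add, mul_one, Nat.add_sub_cancel' hij.le]
  rw [h1] at h
  have hunit : IsUnit (ζ ^ i) := (hζ.isUnit hl.ne_zero).pow i
  have h2 : ζ ^ (j - i) - 1 ∈ P := by
    rcases Ideal.IsPrime.mem_or_mem inferInstance h with h | h
    · exact absurd (Ideal.eq_top_of_isUnit_mem _ h hunit) (Ideal.IsPrime.ne_top inferInstance)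
    · exact h
  set η := ζ ^ (j - i) with hη
  have hη1 : IsPrimitiveRoot η l := by
    refine hζ.pow_of_coprime _ ?_
    rw [Nat.coprime_comm]
    refine (Nat.Prime.coprime_iff_not_dvd hl).2 (fun hd => ?_)
    have := Nat.le_of_dvd (by omega) hd
    omega
  have hsum : ∑ t ∈ Finset.range l, η ^ t = 0 := hη1.geom_sum_eq_zero hl.one_lt
  have h3 : (l : R) = ∑ t ∈ Finset.range l, (1 - η ^ t) := by
    rw [Finset.sum_sub_distrib, hsum]
    simp
  rw [h3]
  refine Ideal.sum_mem _ (fun t _ => ?_)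
  have h4 : 1 - η ^ t = -(η ^ t - 1 ^ t) := by rw [one_pow]; ring
  rw [h4]
  refine P.neg_mem ?_
  exact Ideal.mem_of_dvd _ (sub_dvd_pow_sub_pow η 1 t) h2

theorem split_step (Z M : Type*) [Field Z] [NumberField Z] [Field M] [NumberField M]
    [Algebra Z M] {l : ℕ} (hl : l.Prime) {ζ : 𝓞 Z} (hζ : IsPrimitiveRoot ζ l)
    (hfin : Module.finrank Z M = l) (a : 𝓞 Z) (α : M) (σ : M ≃ₐ[Z] M)
    (hα : α ^ l = algebraMap Z M (a : Z)) (hσ : σ α = algebraMap Z M (ζ : Z) * α)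
    (v : HeightOneSpectrum (𝓞 Z)) (hlv : (l : 𝓞 Z) ∉ v.asIdeal) (hav : a ∉ v.asIdeal)
    (b : 𝓞 Z) (hb : a - b ^ l ∈ v.asIdeal) :
    ∃ T : Finset (HeightOneSpectrum (𝓞 M)), l ≤ T.card ∧ ∀ w ∈ T,
      w.asIdeal.comap (algebraMap (𝓞 Z) (𝓞 M)) = v.asIdeal ∧
        Ideal.absNorm w.asIdeal = Ideal.absNorm v.asIdeal := by
  classical
  obtain ⟨w₀, hw₀⟩ := exists_over Z M v
  have hw₀p : w₀.asIdeal.IsPrime := w₀.isPrime
  have hvp : v.asIdeal.IsPrime := v.isPrime
  have hmemv : ∀ x : 𝓞 Z, algebraMap (𝓞 Z) (𝓞 M) x ∈ w₀.asIdeal ↔ x ∈ v.asIdeal := by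
    intro x
    rw [← hw₀, Ideal.mem_comap]
  have hαint : IsIntegral ℤ α := by
    refine IsIntegral.of_pow hl.pos ?_
    rw [hα]
    exact (a.2 : IsIntegral ℤ (a : Z)).algebraMap
  let αO : 𝓞 M := ⟨α, hαint⟩
  have hbv : b ∉ v.asIdeal := by
    intro h
    apply hav
    have h1 : b ^ l ∈ v.asIdeal := Ideal.pow_mem_of_mem _ h l hl.pos
    have := v.asIdeal.add_mem hb h1
    simpa using this
  -- powers of σ
  have hσk : ∀ k : ℕ, (σ ^ k) α = algebraMap Z M (ζ : Z) ^ k * α := by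
    intro k
    induction k with
    | zero => simp
    | succ k ih =>
      rw [pow_succ, AlgEquiv.mul_apply, hσ, map_mul, AlgEquiv.commutes, ih, pow_succ]
      ring
  let φ : ℕ → (𝓞 M →+* 𝓞 M) := fun k =>
    NumberField.RingOfIntegers.mapRingHom ((σ ^ k : M ≃ₐ[Z] M) : M →+* M)
  have hφ : ∀ k (x : 𝓞 Z), φ k (algebraMap (𝓞 Z) (𝓞 M) x) = algebraMap (𝓞 Z) (𝓞 M) x := by
    intro k x
    apply NumberField.RingOfIntegers.ext
    change (σ ^ k) (algebraMap Z M (x : Z)) = algebraMap Z M (x : Z)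
    exact AlgEquiv.commutes _ _
  have hφα : ∀ k, φ k αO = algebraMap (𝓞 Z) (𝓞 M) (ζ ^ k) * αO := by
    intro k
    apply NumberField.RingOfIntegers.ext
    change (σ ^ k) α = (algebraMap (𝓞 Z) (𝓞 M) (ζ ^ k) : 𝓞 M).1 * α
    rw [hσk k, map_pow]
    rfl
  have hcomap : ∀ k, ((w₀.asIdeal.comap (φ k)).comap (algebraMap (𝓞 Z) (𝓞 M))) = v.asIdeal := by
    intro k
    ext x
    rw [Ideal.mem_comap, Ideal.mem_comap, hφ k x, hmemv]
  have hne : ∀ k, w₀.asIdeal.comap (φ k) ≠ ⊥ := by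
    intro k h
    have h1 := hcomap k
    rw [h, Ideal.comap_bot_of_injective _ (FaithfulSMul.algebraMap_injective (𝓞 Z) (𝓞 M))] at h1
    exact v.ne_bot h1.symm
  let P : ℕ → HeightOneSpectrum (𝓞 M) := fun k =>
    ⟨w₀.asIdeal.comap (φ k), Ideal.comap_isPrime _ _, hne k⟩
  -- the root contained in `w₀`
  have hζM : IsPrimitiveRoot (algebraMap (𝓞 Z) (𝓞 M) ζ) l :=
    hζ.map_of_injective (FaithfulSMul.algebraMap_injective (𝓞 Z) (𝓞 M))
  have hαl : αO ^ l = algebraMap (𝓞 Z) (𝓞 M) a := by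
    apply NumberField.RingOfIntegers.ext
    change α ^ l = algebraMap Z M (a : Z)
    exact hα
  have hprod : αO ^ l - (algebraMap (𝓞 Z) (𝓞 M) b) ^ l ∈ w₀.asIdeal := by
    rw [hαl, ← map_pow, ← map_sub, hmemv]
    exact hb
  rw [hζM.pow_sub_pow_eq_prod_sub_mul _ _ hl.pos] at hprod
  rw [Ideal.IsPrime.prod_mem_iff] at hprod
  obtain ⟨η, hη, hmem⟩ := hprod
  rw [Polynomial.mem_nthRootsFinset hl.pos] at hη
  have hnz : NeZero l := ⟨hl.ne_zero⟩
  obtain ⟨m, _, hm⟩ := hζM.eq_pow_of_pow_eq_one hη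
  rw [← hm] at hmem
  have hx : ∀ k, αO - algebraMap (𝓞 Z) (𝓞 M) (ζ ^ (m + k) * b) ∈ (P k).asIdeal := by
    intro k
    change φ k _ ∈ w₀.asIdeal
    rw [map_sub, hφ k, hφα k]
    have : algebraMap (𝓞 Z) (𝓞 M) (ζ ^ k) * αO - algebraMap (𝓞 Z) (𝓞 M) (ζ ^ (m + k) * b) =
        algebraMap (𝓞 Z) (𝓞 M) (ζ ^ k) *
          (αO - algebraMap (𝓞 Z) (𝓞 M) ζ ^ m * algebraMap (𝓞 Z) (𝓞 M) b) := by
      rw [map_mul, map_pow, map_pow, pow_add]
      ring
    rw [this]
    exact Ideal.mul_mem_left _ _ hmem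
  have hinj : ∀ k j : ℕ, k < j → j < l → P k ≠ P j := by
    intro k j hkj hjl h
    have h1 := hx k
    have h2 := hx j
    rw [← h] at h2
    have h3 := (P k).asIdeal.sub_mem h1 h2
    have h4 : αO - algebraMap (𝓞 Z) (𝓞 M) (ζ ^ (m + k) * b) -
        (αO - algebraMap (𝓞 Z) (𝓞 M) (ζ ^ (m + j) * b)) =
        algebraMap (𝓞 Z) (𝓞 M) ((ζ ^ (m + j) - ζ ^ (m + k)) * b) := by
      rw [sub_mul, map_sub]; ring
    rw [h4] at h3
    have h5 : (ζ ^ (m + j) - ζ ^ (m + k)) * b ∈ v.asIdeal := by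
      rw [← hcomap k, Ideal.mem_comap]
      exact h3
    rcases hvp.mem_or_mem h5 with h6 | h6
    · exact hlv (natCast_mem_of_root v.asIdeal hl hζ (m + k) (m + j) (by omega) (by omega) h6)
    · exact hbv h6
  have hcard : ((Finset.range l).image P).card = l := by
    rw [Finset.card_image_of_injOn, Finset.card_range]
    intro k hk j hj hkj
    rw [Finset.coe_range, Set.mem_Iio] at hk hj
    rcases lt_trichotomy k j with h | h | h
    · exact absurd hkj (hinj k j h hj)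
    · exact h
    · exact absurd hkj.symm (hinj j k h hk)
  have hT : ∀ w ∈ (Finset.range l).image P,
      w.asIdeal.comap (algebraMap (𝓞 Z) (𝓞 M)) = v.asIdeal := by
    intro w hw
    obtain ⟨k, _, rfl⟩ := Finset.mem_image.1 hw
    exact hcomap k
  exact ⟨(Finset.range l).image P, hcard.ge, fun w hw => ⟨hT w hw,
    absNorm_eq_of_card Z M v _ hT (by rw [hfin, hcard]) w hw⟩⟩

theorem kummer_indep (Z M : Type*) [Field Z] [Field M] [Algebra Z M] {l : ℕ} (hl : l.Prime)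
    {ζ : Z} (hζ : IsPrimitiveRoot ζ l) (a : Z) (ha : a ≠ 0) (α : M) (σ : M ≃ₐ[Z] M)
    (hα : α ^ l = algebraMap Z M a) (hσ : σ α = algebraMap Z M ζ * α)
    (hfix : ∀ y : M, σ y = y → ∃ z : Z, algebraMap Z M z = y) (x : Z)
    (hx : ∃ y : M, y ^ l = algebraMap Z M x) : ∃ (k : ℕ) (z : Z), x = a ^ k * z ^ l := by
  obtain ⟨y, hy⟩ := hx
  have hα0 : α ≠ 0 := by
    rintro rfl
    rw [zero_pow hl.ne_zero] at hα
    exact ha ((algebraMap Z M).injective (by rw [← hα, map_zero]))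
  by_cases hy0 : y = 0
  · refine ⟨0, 0, ?_⟩
    rw [hy0, zero_pow hl.ne_zero] at hy
    rw [zero_pow hl.ne_zero, mul_zero]
    exact (algebraMap Z M).injective (by rw [← hy, map_zero])
  · have h1 : (σ y / y) ^ l = 1 := by
      rw [div_pow, ← map_pow, hy, AlgEquiv.commutes, ← hy, div_self (pow_ne_zero _ hy0)]
    have hnz : NeZero l := ⟨hl.ne_zero⟩
    obtain ⟨k, _, hk⟩ := (hζ.map_of_injective (algebraMap Z M).injective).eq_pow_of_pow_eq_one h1
    have h2 : σ y = algebraMap Z M ζ ^ k * y := by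
      rw [hk, div_mul_cancel₀ _ hy0]
    have hζ0 : algebraMap Z M ζ ≠ 0 := by
      rw [Ne, map_eq_zero_iff _ (algebraMap Z M).injective]
      exact hζ.ne_zero hl.ne_zero
    obtain ⟨z, hz⟩ := hfix (y / α ^ k) (by
      rw [map_div₀, map_pow, h2, hσ, mul_pow, mul_div_mul_left _ _ (pow_ne_zero _ hζ0)])
    refine ⟨k, z, (algebraMap Z M).injective ?_⟩
    rw [map_mul, map_pow, map_pow, hz, ← hy, ← hα, div_pow, ← pow_mul, ← pow_mul,
      mul_comm l k, mul_div_cancel₀]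
    exact pow_ne_zero _ hα0

theorem finite_bad (Z : Type*) [Field Z] [NumberField Z] (x : 𝓞 Z) (hx : x ≠ 0) :
    {v : HeightOneSpectrum (𝓞 Z) | x ∈ v.asIdeal}.Finite := by
  have h := Ideal.finite_factors (R := 𝓞 Z) (I := Ideal.span {x}) (by
    rw [Ne, Ideal.zero_eq_bot, Ideal.span_singleton_eq_bot]; exact hx)
  refine h.subset ?_
  intro v hv
  rw [Set.mem_ofPred_eq, Ideal.dvd_span_singleton]
  exact hv

theorem tower {l : ℕ} (hl : l.Prime) (d : ℕ) : ∀ (Z : Type u) [Field Z] [NumberField Z]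
    (ζ : 𝓞 Z) (_ : IsPrimitiveRoot ζ l) (a : Fin d → 𝓞 Z) (_ : ∀ j, a j ≠ 0)
    (_ : ∀ e : Fin d → ℕ, (∃ y : Z, y ^ l = ∏ j, (a j : Z) ^ e j) → ∀ j, l ∣ e j),
    ∃ (M : Type u) (_ : Field M) (_ : NumberField M) (_ : Algebra Z M),
      Module.finrank Z M = l ^ d ∧ ∃ S : Finset (HeightOneSpectrum (𝓞 Z)),
        ∀ v ∉ S, (∀ j, ∃ b : 𝓞 Z, a j - b ^ l ∈ v.asIdeal) →
          ∃ T : Finset (HeightOneSpectrum (𝓞 M)), l ^ d ≤ T.card ∧ ∀ w ∈ T,
            w.asIdeal.comap (algebraMap (𝓞 Z) (𝓞 M)) = v.asIdeal ∧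
              Ideal.absNorm w.asIdeal = Ideal.absNorm v.asIdeal := by
  classical
  induction d with
  | zero =>
    intro Z _ _ ζ hζ a ha hind
    refine ⟨Z, inferInstance, inferInstance, inferInstance, by simp, ∅, fun v _ _ =>
      ⟨{v}, by simp, fun w hw => ?_⟩⟩
    rw [Finset.mem_singleton.1 hw]
    refine ⟨?_, rfl⟩
    ext x
    rw [Ideal.mem_comap]
    refine iff_of_eq (congrArg (fun y => y ∈ v.asIdeal) ?_)
    exact NumberField.RingOfIntegers.ext rfl
  | succ d ih =>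
    intro Z _ _ ζ hζ a ha hind
    have hζZ : IsPrimitiveRoot (ζ : Z) l :=
      hζ.map_of_injective (FaithfulSMul.algebraMap_injective (𝓞 Z) Z)
    have ha0 : (a 0 : Z) ≠ 0 := by
      have := ha 0
      simpa using this
    have hnp : ∀ b : Z, b ^ l ≠ (a 0 : Z) := by
      intro b hb
      have := hind (Fin.cons 1 (fun _ => 0)) ⟨b, by
        rw [Fin.prod_univ_succ]
        simp [hb]⟩ 0
      simp only [Fin.cons_zero, Nat.dvd_one] at this
      exact hl.one_lt.ne' this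
    obtain ⟨M₁, _, _, _, hfin, α, σ, hα, hσ, hfix⟩ := kummer_ext Z hl hζZ (a 0 : Z) hnp
    have hζ1 : IsPrimitiveRoot (algebraMap (𝓞 Z) (𝓞 M₁) ζ) l :=
      hζ.map_of_injective (FaithfulSMul.algebraMap_injective (𝓞 Z) (𝓞 M₁))
    obtain ⟨M, _, _, _, hfin2, S₂, hS₂⟩ := ih M₁ (algebraMap (𝓞 Z) (𝓞 M₁) ζ) hζ1
      (fun j => algebraMap (𝓞 Z) (𝓞 M₁) (a j.succ)) (by
        intro j
        rw [Ne, map_eq_zero_iff _ (FaithfulSMul.algebraMap_injective (𝓞 Z) (𝓞 M₁))]
        exact ha _) (by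
        intro e he j
        have hprod : (∏ j : Fin d, ((algebraMap (𝓞 Z) (𝓞 M₁) (a j.succ) : 𝓞 M₁) : M₁) ^ e j) =
            algebraMap Z M₁ (∏ j : Fin d, (a j.succ : Z) ^ e j) := by
          rw [map_prod]
          refine Finset.prod_congr rfl (fun j _ => ?_)
          rw [map_pow]
          rfl
        rw [hprod] at he
        obtain ⟨k, z, hz⟩ := kummer_indep Z M₁ hl hζZ (a 0 : Z) ha0 α σ hα hσ hfix _ he
        have := hind (Fin.cons ((l - 1) * k) e) ⟨(a 0 : Z) ^ k * z, by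
          rw [Fin.prod_univ_succ]
          simp only [Fin.cons_zero, Fin.cons_succ]
          rw [hz, mul_pow, ← pow_mul, ← mul_assoc, ← pow_add]
          congr 2
          have := hl.one_lt
          obtain ⟨l', rfl⟩ := Nat.exists_eq_add_of_lt this
          rw [show 1 + l' + 1 - 1 = l' + 1 by omega]
          ring⟩ j.succ
        simpa using this)
    let _ : Algebra Z M := ((algebraMap M₁ M).comp (algebraMap Z M₁)).toAlgebra
    have htower : IsScalarTower Z M₁ M := IsScalarTower.of_algebraMap_eq (fun _ => rfl)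
    refine ⟨M, inferInstance, inferInstance, inferInstance, ?_, ?_⟩
    · rw [← Module.finrank_mul_finrank Z M₁ M, hfin, hfin2, pow_succ, mul_comm]
    · -- exceptional set
      have hbad := finite_bad Z ((l : 𝓞 Z) * a 0) (mul_ne_zero (by
        exact_mod_cast hl.ne_zero) (ha 0))
      have hcomapne : ∀ w : HeightOneSpectrum (𝓞 M₁),
          w.asIdeal.comap (algebraMap (𝓞 Z) (𝓞 M₁)) ≠ ⊥ := by
        intro w
        have hinst : w.asIdeal.IsPrime := w.isPrime
        exact Ideal.comap_ne_bot_of_integral_mem (I := w.asIdeal) (R := 𝓞 Z)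
          (x := (Submodule.exists_mem_ne_zero_of_ne_bot w.ne_bot).choose)
          (Submodule.exists_mem_ne_zero_of_ne_bot w.ne_bot).choose_spec.2
          (Submodule.exists_mem_ne_zero_of_ne_bot w.ne_bot).choose_spec.1
          (Algebra.IsIntegral.isIntegral _)
      let D : HeightOneSpectrum (𝓞 M₁) → HeightOneSpectrum (𝓞 Z) := fun w =>
        ⟨w.asIdeal.comap (algebraMap (𝓞 Z) (𝓞 M₁)), by
          have hinst : w.asIdeal.IsPrime := w.isPrime
          exact Ideal.comap_isPrime _ _, hcomapne w⟩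
      refine ⟨hbad.toFinset ∪ S₂.image D, ?_⟩
      intro v hv hpow
      rw [Finset.mem_union, not_or, Set.Finite.mem_toFinset, Set.mem_ofPred_eq] at hv
      have hlv : (l : 𝓞 Z) ∉ v.asIdeal := fun h => hv.1 (Ideal.mul_mem_right _ _ h)
      have hav : a 0 ∉ v.asIdeal := fun h => hv.1 (Ideal.mul_mem_left _ _ h)
      obtain ⟨b, hb⟩ := hpow 0
      obtain ⟨T₁, hT₁, hT₁'⟩ := split_step Z M₁ hl hζ hfin (a 0) α σ hα hσ v hlv hav b hb
      have hnotin : ∀ w ∈ T₁, w ∉ S₂ := by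
        intro w hw h
        apply hv.2
        rw [Finset.mem_image]
        exact ⟨w, h, HeightOneSpectrum.ext (hT₁' w hw).1⟩
      have hstep : ∀ w : T₁, ∃ T : Finset (HeightOneSpectrum (𝓞 M)), l ^ d ≤ T.card ∧ ∀ u ∈ T,
            u.asIdeal.comap (algebraMap (𝓞 M₁) (𝓞 M)) = w.1.asIdeal ∧
              Ideal.absNorm u.asIdeal = Ideal.absNorm w.1.asIdeal := by
        rintro ⟨w, hw⟩
        refine hS₂ w (hnotin w hw) (fun j => ?_)
        obtain ⟨b, hb⟩ := hpow j.succ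
        refine ⟨algebraMap (𝓞 Z) (𝓞 M₁) b, ?_⟩
        rw [← map_pow, ← map_sub, ← Ideal.mem_comap, (hT₁' w hw).1]
        exact hb
      choose T hT hT' using hstep
      refine ⟨T₁.attach.biUnion T, ?_, ?_⟩
      · rw [Finset.card_biUnion]
        · calc l ^ (d + 1) = l * l ^ d := by rw [pow_succ, mul_comm]
            _ ≤ T₁.card * l ^ d := Nat.mul_le_mul_right _ hT₁
            _ = ∑ w ∈ T₁.attach, l ^ d := by
              rw [Finset.sum_const, Finset.card_attach, smul_eq_mul]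
            _ ≤ _ := Finset.sum_le_sum (fun w _ => hT w)
        · intro w _ w' _ hww'
          change Disjoint (T w) (T w')
          rw [Finset.disjoint_left]
          intro u hu hu'
          apply hww'
          refine Subtype.ext (HeightOneSpectrum.ext ?_)
          rw [← (hT' w u hu).1, ← (hT' w' u hu').1]
      · intro u hu
        rw [Finset.mem_biUnion] at hu
        obtain ⟨w, _, hu⟩ := hu
        have h1 := hT' w u hu
        have h2 := hT₁' w.1 w.2
        refine ⟨?_, by rw [h1.2, h2.2]⟩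
        rw [← h2.1, ← h1.1, Ideal.comap_comap]
        rfl

theorem pow_mod_integral (Z : Type*) [Field Z] [NumberField Z] (v : HeightOneSpectrum (𝓞 Z))
    {l : ℕ} (hl : l.Prime) (a : Z) (x y : 𝓞 Z) (hx : (x : Z) = a * (y : Z) ^ l)
    (h : IsPowMod v l a) : ∃ b : 𝓞 Z, x - b ^ l ∈ v.asIdeal := by
  obtain ⟨t, ht⟩ := h
  have hy1 : v.valuation Z (y : Z) ≤ 1 := v.valuation_le_one y
  have hx1 : v.valuation Z (x : Z) ≤ 1 := v.valuation_le_one x
  have h1 : v.valuation Z ((x : Z) - (t * y) ^ l) < 1 := by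
    rw [hx, mul_pow, ← sub_mul, map_mul, map_pow]
    calc v.valuation Z (a - t ^ l) * v.valuation Z (y : Z) ^ l
        ≤ v.valuation Z (a - t ^ l) * 1 := by
          gcongr
          exact pow_le_one₀ zero_le hy1
      _ < 1 := by rw [mul_one]; exact ht
  have h2 : v.valuation Z (t * y) ≤ 1 := by
    have h3 : v.valuation Z ((t * y) ^ l) ≤ 1 := by
      have : (t * y) ^ l = (x : Z) - ((x : Z) - (t * y) ^ l) := by ring
      rw [this]
      exact (Valuation.map_sub _ _ _).trans (max_le hx1 h1.le)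
    rw [map_pow] at h3
    exact (pow_le_one_iff hl.ne_zero).1 h3
  obtain ⟨b, hb⟩ := v.exists_valuation_sub_lt_of_integer h2 1
  rw [Units.val_one] at hb
  refine ⟨b, ?_⟩
  rw [← v.valuation_lt_one_iff_mem (K := Z)]
  change v.valuation Z (algebraMap (𝓞 Z) Z (x - b ^ l)) < 1
  rw [map_sub, map_pow]
  have h4 : (algebraMap (𝓞 Z) Z x) - (algebraMap (𝓞 Z) Z b) ^ l =
      ((x : Z) - (t * y) ^ l) - ((algebraMap (𝓞 Z) Z b) ^ l - (t * y) ^ l) := by ring
  rw [h4]
  refine lt_of_le_of_lt (Valuation.map_sub _ _ _) (max_lt h1 ?_)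
  rw [← geom_sum₂_mul, map_mul]
  have h5 : v.valuation Z (∑ i ∈ Finset.range l, (algebraMap (𝓞 Z) Z b) ^ i *
      (t * (y : Z)) ^ (l - 1 - i)) ≤ 1 := by
    refine Valuation.map_sum_le _ (fun i _ => ?_)
    rw [map_mul, map_pow, map_pow]
    exact mul_le_one' (pow_le_one₀ zero_le (v.valuation_le_one b)) (pow_le_one₀ zero_le h2)
  calc _ ≤ 1 * v.valuation Z (algebraMap (𝓞 Z) Z b - t * (y : Z)) := by gcongr
    _ < 1 := by rw [one_mul]; exact hb

end Avoid

/-- (A2) Kummer form: for each `i` a `d`-tuple of elements independent modulo `l`-th powers. -/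
theorem exists_prime_avoiding (Z : Type) [Field Z] [NumberField Z] {l : ℕ} (hl : l.Prime)
    {ζ : Z} (hζ : IsPrimitiveRoot ζ l) {ι : Type} [Fintype ι] (d : ℕ) (a : ι → Fin d → Z)
    (ha0 : ∀ i j, a i j ≠ 0)
    (hind : ∀ i, ∀ e : Fin d → ℕ, (∃ y : Z, y ^ l = ∏ j, a i j ^ e j) → ∀ j, l ∣ e j)
    (hcard : Fintype.card ι < l ^ d) (S : Finset (HeightOneSpectrum (𝓞 Z))) :
    ∃ v : HeightOneSpectrum (𝓞 Z), v ∉ S ∧ (Ideal.absNorm v.asIdeal).Prime ∧
      ∀ i, ¬ ∀ j, IsPowMod v l (a i j) := by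
  classical
  have hnz : NeZero l := ⟨hl.ne_zero⟩
  -- integral representatives
  have hrep : ∀ i j, ∃ x y : 𝓞 Z, y ≠ 0 ∧ (x : Z) = a i j * (y : Z) ^ l := by
    intro i j
    obtain ⟨x, y, hy, hxy⟩ := IsFractionRing.div_surjective (A := 𝓞 Z) (a i j)
    have hy0 : y ≠ 0 := nonZeroDivisors.ne_zero hy
    have hy0' : (algebraMap (𝓞 Z) Z y) ≠ 0 := by
      rw [Ne, map_eq_zero_iff _ (FaithfulSMul.algebraMap_injective (𝓞 Z) Z)]
      exact hy0
    refine ⟨x * y ^ (l - 1), y, hy0, ?_⟩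
    change algebraMap (𝓞 Z) Z (x * y ^ (l - 1)) = a i j * (algebraMap (𝓞 Z) Z y) ^ l
    rw [map_mul, map_pow, ← hxy, div_mul_eq_mul_div, eq_div_iff hy0', mul_assoc, ← pow_succ,
      Nat.sub_add_cancel hl.one_le]
  choose A y hy0 hA using hrep
  have hyZ : ∀ i j, ((y i j : 𝓞 Z) : Z) ≠ 0 := by
    intro i j
    have := hy0 i j
    simpa using this
  have hA0 : ∀ i j, A i j ≠ 0 := by
    intro i j h
    have h1 := hA i j
    rw [h] at h1
    have h2 : a i j * ((y i j : 𝓞 Z) : Z) ^ l = 0 := by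
      rw [← h1]; rfl
    rcases mul_eq_zero.1 h2 with h3 | h3
    · exact ha0 i j h3
    · exact hyZ i j (pow_eq_zero_iff hl.ne_zero |>.1 h3)
  have hind' : ∀ i, ∀ e : Fin d → ℕ, (∃ t : Z, t ^ l = ∏ j, (A i j : Z) ^ e j) →
      ∀ j, l ∣ e j := by
    rintro i e ⟨t, ht⟩
    refine hind i e ⟨t / ∏ j, ((y i j : 𝓞 Z) : Z) ^ e j, ?_⟩
    have hne : (∏ j, ((y i j : 𝓞 Z) : Z) ^ e j) ≠ 0 :=
      Finset.prod_ne_zero_iff.2 (fun j _ => pow_ne_zero _ (hyZ i j))
    rw [div_pow, ht, div_eq_iff (pow_ne_zero _ hne), ← Finset.prod_pow, ← Finset.prod_mul_distrib]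
    refine Finset.prod_congr rfl (fun j _ => ?_)
    rw [hA i j, mul_pow]
    ring
  have hζO : IsPrimitiveRoot hζ.toInteger l := hζ.toInteger_isPrimitiveRoot
  have htower := fun i => Avoid.tower hl d Z hζ.toInteger hζO (A i) (hA0 i) (hind' i)
  choose M f1 f2 f3 hfin S' hS' using htower
  by_contra hcon
  push Not at hcon
  have hcov := one_le_sum_of_cover_aux Z M (fun _ => l ^ d) (fun _ => pow_pos hl.pos d)
    ((S ∪ Finset.univ.biUnion S' : Finset (HeightOneSpectrum (𝓞 Z))) :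
      Set (HeightOneSpectrum (𝓞 Z))) (Finset.finite_toSet _) (by
    intro p hp hpp
    rw [Finset.mem_coe, Finset.mem_union, not_or] at hp
    obtain ⟨i, hi⟩ := hcon p hp.1 hpp
    have hpS : p ∉ S' i := fun h => hp.2 (Finset.mem_biUnion.2 ⟨i, Finset.mem_univ _, h⟩)
    exact ⟨i, hS' i p hpS (fun j => Avoid.pow_mod_integral Z p hl (a i j) (A i j) (y i j)
      (hA i j) (hi j))⟩)
  rw [Finset.sum_const, Finset.card_univ, nsmul_eq_mul] at hcov
  have h1 : (0 : ℝ) < ((l ^ d : ℕ) : ℝ) := by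
    have := pow_pos hl.pos d
    exact_mod_cast this
  rw [mul_one_div, le_div_iff₀ h1, one_mul] at hcov
  have h2 : l ^ d ≤ Fintype.card ι := by exact_mod_cast hcov
  omega

end Vale.Agent.P024
end
end

section

section

/-!
The matching property used in the gluing argument.
-/

namespace Vale.Agent.P024

/-- `x` and `y` generate, via `l`-th roots, corresponding Kummer extensions over `K₁`. -/
def KMatch {F₁ E₁ F₂ E₂ : Type*} [Field F₁] [Field E₁] [Algebra F₁ E₁] [Field F₂] [Field E₂]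
    [Algebra F₂ E₂] (α : (E₁ ≃ₐ[F₁] E₁) →* (E₂ ≃ₐ[F₂] E₂)) (l : ℕ) (K₁ : IntermediateField F₁ E₁)
    (x : E₂) (y : E₁) : Prop :=
  ∀ X : E₂, X ^ l = x → ∀ Y : E₁, Y ^ l = y → ∀ g : E₁ ≃ₐ[F₁] E₁, (∀ z ∈ K₁, g z = z) →
    ((α g) X = X ↔ g Y = Y)

end Vale.Agent.P024
end
end

section

section

/-!
The Kummer transfer map `κ : K₂ → K₁` along a continuous homomorphism with open image.
-/

namespace Vale.Agent.P024

open scoped NumberField

section OpenMap

/-- a continuous homomorphism with open image between profinite groups is open on subgroups. -/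
lemma isOpen_map_of_isOpen_range {G₁ G₂ : Type*} [Group G₁] [TopologicalSpace G₁]
    [IsTopologicalGroup G₁] [CompactSpace G₁] [Group G₂] [TopologicalSpace G₂]
    [IsTopologicalGroup G₂] [CompactSpace G₂] [T2Space G₂]
    (α : G₁ →* G₂) (hα : Continuous α) (hopen : IsOpen (Set.range α))
    (U : Subgroup G₁) (hU : IsOpen (U : Set G₁)) : IsOpen (U.map α : Set G₂) := by
  have hclosed : IsClosed (U.map α : Set G₂) := by
    have h1 : IsCompact (U : Set G₁) := (Subgroup.isClosed_of_isOpen U hU).isCompact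
    have h2 : (U.map α : Set G₂) = α '' (U : Set G₁) := rfl
    rw [h2]
    exact (h1.image hα).isClosed
  have hUfin : Finite (G₁ ⧸ U) := Subgroup.quotient_finite_of_isOpen U hU
  have hUidx : U.index ≠ 0 := by
    have : U.FiniteIndex := Subgroup.finiteIndex_of_finite_quotient
    exact this.index_ne_zero
  have hrange : IsOpen (α.range : Set G₂) := by
    rw [MonoidHom.coe_range]; exact hopen
  have hRfin : Finite (G₂ ⧸ α.range) := Subgroup.quotient_finite_of_isOpen α.range hrange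
  have hRidx : α.range.index ≠ 0 := by
    have : α.range.FiniteIndex := Subgroup.finiteIndex_of_finite_quotient
    exact this.index_ne_zero
  have hidx : (U.map α).index ≠ 0 := by
    rw [Subgroup.index_map]
    refine mul_ne_zero ?_ hRidx
    intro h0
    have h1 := Subgroup.index_dvd_of_le (le_sup_left : U ≤ U ⊔ α.ker)
    rw [h0, zero_dvd_iff] at h1
    exact hUidx h1
  have : (U.map α).FiniteIndex := ⟨hidx⟩
  exact Subgroup.isOpen_of_isClosed_of_finiteIndex _ hclosed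

end OpenMap

section Kappa

variable {F₁ E₁ F₂ E₂ : Type*} [Field F₁] [Field E₁] [Algebra F₁ E₁] [IsGalois F₁ E₁]
    [Field F₂] [Field E₂] [Algebra F₂ E₂] [IsGalois F₂ E₂]

/-- elements whose radicals are fixed by an open subgroup `W` lie in finitely many classes. -/
lemma finite_radical_classes (K₂ : IntermediateField F₂ E₂)
    (W : Subgroup (E₂ ≃ₐ[F₂] E₂)) (hW : IsOpen (W : Set (E₂ ≃ₐ[F₂] E₂))) {l : ℕ} (hl : l ≠ 0)
    (_hWK : ∀ h ∈ W, ∀ x ∈ K₂, h x = x) :
    ∃ S : Finset K₂, ∀ x : K₂, x ≠ 0 → (∃ X : E₂, X ^ l = x ∧ ∀ h ∈ W, h X = X) →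
      ∃ s ∈ S, s ≠ 0 ∧ ∃ z : K₂, x = s * z ^ l := by
  classical
  have hfin : Finite ((E₂ ≃ₐ[F₂] E₂) ⧸ W) := Subgroup.quotient_finite_of_isOpen W hW
  let A := {x : K₂ // x ≠ 0 ∧ ∃ X : E₂, X ^ l = x ∧ ∀ h ∈ W, h X = X}
  let rt : A → E₂ := fun x => x.2.2.choose
  have hrt : ∀ x : A, (rt x) ^ l = (x.1 : E₂) ∧ ∀ h ∈ W, h (rt x) = rt x :=
    fun x => x.2.2.choose_spec
  have hrt0 : ∀ x : A, rt x ≠ 0 := by
    intro x h0
    have h1 := (hrt x).1
    rw [h0, zero_pow hl] at h1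
    apply x.2.1
    exact_mod_cast h1.symm
  let T := {q : (E₂ ≃ₐ[F₂] E₂) ⧸ W // ∀ x ∈ K₂, (q.out : E₂ ≃ₐ[F₂] E₂) x = x}
  let R := {z : E₂ // z ^ l = 1}
  have hRfin : Finite R := by
    have h1 : ((Polynomial.nthRoots l (1 : E₂)).toFinset : Set E₂).Finite :=
      Finset.finite_toSet _
    refine Set.Finite.subset h1 ?_
    intro z hz
    rw [Finset.mem_coe, Multiset.mem_toFinset, Polynomial.mem_nthRoots (Nat.pos_of_ne_zero hl)]
    exact hz
  have hTfin : Finite T := Subtype.finite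
  let Φ : A → (T → R) := fun x q => ⟨(q.1.out : E₂ ≃ₐ[F₂] E₂) (rt x) / rt x, by
    rw [div_pow, ← map_pow, (hrt x).1, q.2 _ x.1.2, div_self]
    rw [← (hrt x).1]
    exact pow_ne_zero _ (hrt0 x)⟩
  have hBfin : Finite (T → R) := inferInstance
  have : Fintype (T → R) := Fintype.ofFinite _
  let pick : (T → R) → K₂ := fun f => if h : ∃ x : A, Φ x = f then (h.choose).1 else 1
  refine ⟨Finset.univ.image pick, ?_⟩
  intro x hx0 hx
  let x' : A := ⟨x, hx0, hx⟩
  refine ⟨pick (Φ x'), Finset.mem_image_of_mem _ (Finset.mem_univ _), ?_⟩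
  have hex : ∃ y : A, Φ y = Φ x' := ⟨x', rfl⟩
  have hpick : pick (Φ x') = (hex.choose).1 := by
    change (if h : ∃ x : A, Φ x = Φ x' then (h.choose).1 else 1) = _
    rw [dif_pos hex]
  rw [hpick]
  have hy := hex.choose_spec
  generalize hex.choose = y at hy
  refine ⟨y.2.1, ?_⟩
  -- `rt x' / rt y` is fixed by everything fixing `K₂`
  set Z : E₂ := rt x' / rt y with hZ
  have hZfix : ∀ g : E₂ ≃ₐ[F₂] E₂, (∀ z ∈ K₂, g z = z) → g Z = Z := by
    intro g hg
    set q : (E₂ ≃ₐ[F₂] E₂) ⧸ W := QuotientGroup.mk g with hq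
    have h1 : (q.out)⁻¹ * g ∈ W := by
      rw [← QuotientGroup.eq]
      rw [QuotientGroup.out_eq']
    set h := (q.out)⁻¹ * g with hh
    have hgq : g = q.out * h := by rw [hh, mul_inv_cancel_left]
    have hqK : ∀ z ∈ K₂, (q.out : E₂ ≃ₐ[F₂] E₂) z = z := by
      intro z hz
      have h2 : g z = z := hg z hz
      rw [hgq, AlgEquiv.mul_apply, _hWK h h1 z hz] at h2
      exact h2
    have h3 := congrFun hy ⟨q, hqK⟩
    have h4 : (q.out : E₂ ≃ₐ[F₂] E₂) (rt y) / rt y = (q.out : E₂ ≃ₐ[F₂] E₂) (rt x') / rt x' :=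
      congrArg Subtype.val h3
    have hgy : g (rt y) = (q.out : E₂ ≃ₐ[F₂] E₂) (rt y) := by
      conv_lhs => rw [hgq]
      rw [AlgEquiv.mul_apply, (hrt y).2 h h1]
    have hgx : g (rt x') = (q.out : E₂ ≃ₐ[F₂] E₂) (rt x') := by
      conv_lhs => rw [hgq]
      rw [AlgEquiv.mul_apply, (hrt x').2 h h1]
    rw [hZ, map_div₀, hgx, hgy]
    have hy0 := hrt0 y
    have hx0' := hrt0 x'
    have h5 : (q.out : E₂ ≃ₐ[F₂] E₂) (rt y) ≠ 0 := by simpa using hy0
    rw [div_eq_div_iff hy0 hx0'] at h4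
    rw [div_eq_div_iff h5 hy0]
    rw [← h4, mul_comm]
  have hZK : Z ∈ K₂ := by
    have h1 : Z ∈ IntermediateField.fixedField K₂.fixingSubgroup := by
      rw [IntermediateField.mem_fixedField_iff]
      intro g hg
      rw [IntermediateField.mem_fixingSubgroup_iff] at hg
      exact hZfix g hg
    rwa [InfiniteGalois.fixedField_fixingSubgroup] at h1
  refine ⟨⟨Z, hZK⟩, ?_⟩
  apply Subtype.ext
  have h1 := (hrt x').1
  have h2 := (hrt y).1
  have hy0 := hrt0 y
  change (x : E₂) = (y.1 : E₂) * Z ^ l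
  rw [← h2, hZ, div_pow, mul_div_cancel₀ _ (pow_ne_zero l hy0), h1]

theorem exists_kappa
    (α : (E₁ ≃ₐ[F₁] E₁) →* (E₂ ≃ₐ[F₂] E₂)) (hα : Continuous α)
    (hopen : IsOpen (Set.range α))
    (K₁ : IntermediateField F₁ E₁) [FiniteDimensional F₁ K₁] (K₂ : IntermediateField F₂ E₂)
    {l : ℕ} (hl : l.Prime) (hpow₂ : ∀ x : E₂, ∃ y : E₂, y ^ l = x)
    {ζ₁ : E₁} (hζ₁ : IsPrimitiveRoot ζ₁ l) (hζ₁K : ζ₁ ∈ K₁)
    {ζ₂ : E₂} (hζ₂ : IsPrimitiveRoot ζ₂ l)
    (hαζ : ∀ g : E₁ ≃ₐ[F₁] E₁, (∀ x ∈ K₁, g x = x) → (α g) ζ₂ = ζ₂)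
    (hK : ∀ g : E₁ ≃ₐ[F₁] E₁, (∀ x ∈ K₁, g x = x) → ∀ x ∈ K₂, (α g) x = x) :
    ∃ κ : K₂ → K₁,
      (∀ x, x ≠ 0 → κ x ≠ 0) ∧
      (∀ x : K₂, x ≠ 0 → ∃ b : E₁, b ^ l = κ x) ∧
      (∀ x : K₂, x ≠ 0 → ∀ b : E₁, b ^ l = κ x → ∀ X : E₂, X ^ l = x →
        ∀ g : E₁ ≃ₐ[F₁] E₁, (∀ z ∈ K₁, g z = z) → ∀ e : ℕ,
          (α g) X = ζ₂ ^ e * X → g b = ζ₁ ^ e * b) ∧
      (∀ x y : K₂, x ≠ 0 → y ≠ 0 → ∃ z : K₁, κ (x * y) * z ^ l = κ x * κ y) ∧
      (∃ S : Finset K₂, ∀ x : K₂, x ≠ 0 → (∃ z : K₁, κ x = z ^ l) →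
        ∃ s ∈ S, s ≠ 0 ∧ ∃ z : K₂, x = s * z ^ l) := by
  classical
  have hl0 : l ≠ 0 := hl.ne_zero
  have : NeZero l := ⟨hl0⟩
  -- choice of roots
  let X : K₂ → E₂ := fun x => (hpow₂ x).choose
  have hX : ∀ x : K₂, X x ^ l = x := fun x => (hpow₂ x).choose_spec
  have hX0 : ∀ x : K₂, x ≠ 0 → X x ≠ 0 := by
    intro x hx h0
    have h1 := hX x
    rw [h0, zero_pow hl0] at h1
    apply hx
    exact_mod_cast h1.symm
  have hker : ∀ x : K₂, x ≠ 0 → ∃ b : E₁, b ≠ 0 ∧ b ^ l ∈ K₁ ∧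
      ∀ g : E₁ ≃ₐ[F₁] E₁, (∀ x ∈ K₁, g x = x) →
      ∀ e : ℕ, (α g) (X x) = ζ₂ ^ e * X x → g b = ζ₁ ^ e * b := by
    intro x hx
    refine kummer_transfer α hα K₁ hl hζ₁ hζ₁K hζ₂ (X x) (hX0 x hx) ?_ hαζ
    intro g hg
    rw [hX]
    exact hK g hg _ x.2
  let B : K₂ → E₁ := fun x => if hx : x ≠ 0 then (hker x hx).choose else 1
  have hB : ∀ x : K₂, x ≠ 0 → B x ≠ 0 ∧ B x ^ l ∈ K₁ ∧
      ∀ g : E₁ ≃ₐ[F₁] E₁, (∀ x ∈ K₁, g x = x) →
      ∀ e : ℕ, (α g) (X x) = ζ₂ ^ e * X x → g (B x) = ζ₁ ^ e * B x := by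
    intro x hx
    have h1 : B x = (hker x hx).choose := by
      change (if hx : x ≠ 0 then (hker x hx).choose else 1) = _
      rw [dif_pos hx]
    rw [h1]
    exact (hker x hx).choose_spec
  let κ : K₂ → K₁ := fun x => if h : B x ^ l ∈ K₁ then ⟨B x ^ l, h⟩ else 1
  have hκ : ∀ x : K₂, x ≠ 0 → (κ x : E₁) = B x ^ l := by
    intro x hx
    have h1 := (hB x hx).2.1
    change ((if h : B x ^ l ∈ K₁ then (⟨B x ^ l, h⟩ : K₁) else 1 : K₁) : E₁) = _
    rw [dif_pos h1]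
  -- exponents
  have hexpo : ∀ x : K₂, x ≠ 0 → ∀ X' : E₂, X' ^ l = x → ∀ g : E₁ ≃ₐ[F₁] E₁,
      (∀ x ∈ K₁, g x = x) → ∃ e : ℕ, (α g) X' = ζ₂ ^ e * X' := by
    intro x hx X' hX' g hg
    have hxE : (x : E₂) ≠ 0 := by exact_mod_cast hx
    have hX'0 : X' ≠ 0 := by
      rintro rfl
      rw [zero_pow hl0] at hX'
      exact hxE hX'.symm
    have h1 : ((α g) X' / X') ^ l = 1 := by
      rw [div_pow, ← map_pow, hX', hK g hg _ x.2, div_self hxE]
    obtain ⟨i, -, hi⟩ := hζ₂.eq_pow_of_pow_eq_one h1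
    exact ⟨i, by rw [hi]; field_simp⟩
  have hmain : ∀ x : K₂, x ≠ 0 → ∀ b : E₁, b ^ l = κ x → ∀ X' : E₂, X' ^ l = x →
        ∀ g : E₁ ≃ₐ[F₁] E₁, (∀ z ∈ K₁, g z = z) → ∀ e : ℕ,
          (α g) X' = ζ₂ ^ e * X' → g b = ζ₁ ^ e * b := by
    intro x hx b hb X' hX' g hg e he
    have hb0 := (hB x hx).1
    -- `b = ζ₁^i * B x`
    have h1 : (b / B x) ^ l = 1 := by
      rw [div_pow, hb, hκ x hx, div_self (pow_ne_zero l hb0)]
    obtain ⟨i, -, hi⟩ := hζ₁.eq_pow_of_pow_eq_one h1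
    have hbi : b = ζ₁ ^ i * B x := by rw [hi]; field_simp
    -- `X' = ζ₂^j * X x`
    have hXx0 := hX0 x hx
    have h2 : (X' / X x) ^ l = 1 := by
      rw [div_pow, hX', hX, div_self]
      exact_mod_cast hx
    obtain ⟨j, -, hj⟩ := hζ₂.eq_pow_of_pow_eq_one h2
    have hXj : X' = ζ₂ ^ j * X x := by rw [hj]; field_simp
    have h3 : (α g) (X x) = ζ₂ ^ e * X x := by
      have h4 := he
      rw [hXj, map_mul, map_pow, hαζ g hg] at h4
      have hz : ζ₂ ^ j ≠ 0 := pow_ne_zero _ (hζ₂.ne_zero hl0)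
      apply mul_left_cancel₀ hz
      rw [h4]; ring
    rw [hbi, map_mul, map_pow, hg ζ₁ hζ₁K, (hB x hx).2.2 g hg e h3]
    ring
  refine ⟨κ, ?_, ?_, hmain, ?_, ?_⟩
  · intro x hx h0
    have h1 := hκ x hx
    rw [h0] at h1
    exact pow_ne_zero l (hB x hx).1 (by exact_mod_cast h1.symm)
  · intro x hx
    exact ⟨B x, (hκ x hx).symm⟩
  · intro x y hx hy
    have hxy : x * y ≠ 0 := mul_ne_zero hx hy
    set z : E₁ := B x * B y / B (x * y) with hz
    have hBxy := (hB (x * y) hxy).1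
    have hzfix : ∀ g : E₁ ≃ₐ[F₁] E₁, (∀ z ∈ K₁, g z = z) → g z = z := by
      intro g hg
      obtain ⟨e, he⟩ := hexpo x hx (X x) (hX x) g hg
      obtain ⟨f, hf⟩ := hexpo y hy (X y) (hX y) g hg
      have h1 : (α g) (X x * X y) = ζ₂ ^ (e + f) * (X x * X y) := by
        rw [map_mul, he, hf, pow_add]; ring
      have h2 : g (B (x * y)) = ζ₁ ^ (e + f) * B (x * y) :=
        hmain (x * y) hxy (B (x * y)) (hκ _ hxy).symm (X x * X y) (by
          rw [mul_pow, hX, hX]; rfl) g hg (e + f) h1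
      rw [hz, map_div₀, map_mul, (hB x hx).2.2 g hg e he, (hB y hy).2.2 g hg f hf, h2, pow_add]
      have hz1 : ζ₁ ≠ 0 := hζ₁.ne_zero hl0
      field_simp
    have hzK : z ∈ K₁ := by
      have h1 : z ∈ IntermediateField.fixedField K₁.fixingSubgroup := by
        rw [IntermediateField.mem_fixedField_iff]
        intro g hg
        rw [IntermediateField.mem_fixingSubgroup_iff] at hg
        exact hzfix g hg
      rwa [InfiniteGalois.fixedField_fixingSubgroup] at h1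
    refine ⟨⟨z, hzK⟩, ?_⟩
    apply Subtype.ext
    change (κ (x * y) : E₁) * z ^ l = (κ x : E₁) * (κ y : E₁)
    rw [hκ _ hxy, hκ x hx, hκ y hy, hz, div_pow, mul_pow,
      mul_div_cancel₀ _ (pow_ne_zero l hBxy)]
  · -- finiteness of the kernel
    let W : Subgroup (E₂ ≃ₐ[F₂] E₂) := K₁.fixingSubgroup.map α
    have hW : IsOpen (W : Set (E₂ ≃ₐ[F₂] E₂)) :=
      isOpen_map_of_isOpen_range α hα hopen _ K₁.fixingSubgroup_isOpen
    have hWK : ∀ h ∈ W, ∀ x ∈ K₂, h x = x := by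
      rintro h ⟨g, hg, rfl⟩ x hx
      exact hK g ((IntermediateField.mem_fixingSubgroup_iff _ _).mp hg) x hx
    obtain ⟨S, hS⟩ := finite_radical_classes K₂ W hW hl0 hWK
    refine ⟨S, fun x hx hxz => hS x hx ⟨X x, hX x, ?_⟩⟩
    rintro h ⟨g, hg, rfl⟩
    have hg' := (IntermediateField.mem_fixingSubgroup_iff _ _).mp hg
    obtain ⟨z, hz⟩ := hxz
    obtain ⟨e, he⟩ := hexpo x hx (X x) (hX x) g hg'
    have h1 := hmain x hx (z : E₁) (by rw [hz]; rfl) (X x) (hX x) g hg' e he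
    have hz0 : (z : E₁) ≠ 0 := by
      intro h0
      have h2 := hκ x hx
      rw [hz] at h2
      have h3 : ((z ^ l : K₁) : E₁) = (z : E₁) ^ l := rfl
      rw [h3, h0, zero_pow hl0] at h2
      exact pow_ne_zero l (hB x hx).1 h2.symm
    rw [hg' _ z.2] at h1
    have h2 : ζ₁ ^ e = 1 := by
      have h3 : (ζ₁ ^ e - 1) * (z : E₁) = 0 := by rw [sub_mul, one_mul, ← h1, sub_self]
      exact sub_eq_zero.mp ((mul_eq_zero.mp h3).resolve_right hz0)
    have h4 : ζ₂ ^ e = 1 := (hζ₂.pow_eq_one_iff_dvd e).mpr ((hζ₁.pow_eq_one_iff_dvd e).mp h2)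
    rw [he, h4, one_mul]

end Kappa

end Vale.Agent.P024
end
end

section

section

/-!
Solvably closed fields of characteristic zero contain all roots of unity and all roots.
-/

namespace Vale.Agent.P024

open IntermediateField

theorem SolvablyClosed.mem_of_conj {E : Type*} [Field E] [CharZero E] (hE : SolvablyClosed E)
    (α : AlgebraicClosure E)
    (hconj : ∀ σ : AlgebraicClosure E →ₐ[E] AlgebraicClosure E, σ α ∈ E⟮α⟯)
    (hcomm : ∀ σ τ : E⟮α⟯ ≃ₐ[E] E⟮α⟯, σ (τ (AdjoinSimple.gen E α)) =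
      τ (σ (AdjoinSimple.gen E α))) : ∃ z : E, algebraMap E (AlgebraicClosure E) z = α := by
  have hnormal : Normal E E⟮α⟯ := by
    rw [normal_iff_forall_map_le]
    intro σ
    rw [adjoin_map, adjoin_le_iff, Set.image_singleton, Set.singleton_subset_iff]
    exact hconj σ
  have hsep : Algebra.IsSeparable E E⟮α⟯ := inferInstance
  have hgal : IsGalois E E⟮α⟯ := { to_normal := hnormal, to_isSeparable := hsep }
  have hbot : E⟮α⟯ = ⊥ := by
    refine hE _ hgal (fun σ τ => ?_)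
    apply AlgEquiv.coe_toAlgHom_injective
    refine adjoin_algHom_ext E ?_
    intro x hx
    rw [Set.mem_singleton_iff] at hx
    subst hx
    exact hcomm σ τ
  have h : α ∈ E⟮α⟯ := mem_adjoin_simple_self E α
  rw [hbot, mem_bot] at h
  exact h

/-- (SC1) -/
theorem SolvablyClosed.exists_primitiveRoot {E : Type*} [Field E] [CharZero E]
    (hE : SolvablyClosed E) (n : ℕ) (hn : 0 < n) : ∃ z : E, IsPrimitiveRoot z n := by
  have hnz : NeZero n := ⟨hn.ne'⟩
  have hcz : CharZero (AlgebraicClosure E) :=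
    charZero_of_injective_algebraMap (algebraMap E (AlgebraicClosure E)).injective
  have hne : NeZero (n : AlgebraicClosure E) := ⟨by exact_mod_cast hn.ne'⟩
  obtain ⟨ζ, hζ⟩ := HasEnoughRootsOfUnity.exists_primitiveRoot (AlgebraicClosure E) n
  obtain ⟨z, hz⟩ := hE.mem_of_conj ζ (by
    intro σ
    have h1 : (σ ζ) ^ n = 1 := by rw [← map_pow, hζ.pow_eq_one, map_one]
    obtain ⟨k, _, hk⟩ := hζ.eq_pow_of_pow_eq_one h1
    rw [← hk]
    exact pow_mem (mem_adjoin_simple_self E ζ) k) (by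
    have hgen : IsPrimitiveRoot (AdjoinSimple.gen E ζ) n := by
      refine IsPrimitiveRoot.of_map_of_injective (f := algebraMap E⟮ζ⟯ (AlgebraicClosure E)) ?_
        (algebraMap E⟮ζ⟯ (AlgebraicClosure E)).injective
      rw [AdjoinSimple.algebraMap_gen]
      exact hζ
    have hpow : ∀ σ : E⟮ζ⟯ ≃ₐ[E] E⟮ζ⟯, ∃ k : ℕ, σ (AdjoinSimple.gen E ζ) =
        (AdjoinSimple.gen E ζ) ^ k := by
      intro σ
      have h1 : (σ (AdjoinSimple.gen E ζ)) ^ n = 1 := by
        rw [← map_pow, hgen.pow_eq_one, map_one]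
      obtain ⟨k, _, hk⟩ := hgen.eq_pow_of_pow_eq_one h1
      exact ⟨k, hk.symm⟩
    intro σ τ
    obtain ⟨k, hk⟩ := hpow σ
    obtain ⟨j, hj⟩ := hpow τ
    rw [hj, map_pow, hk, map_pow, hj, ← pow_mul, ← pow_mul, mul_comm])
  refine ⟨z, ?_⟩
  refine IsPrimitiveRoot.of_map_of_injective (f := algebraMap E (AlgebraicClosure E)) ?_
    (algebraMap E (AlgebraicClosure E)).injective
  rw [hz]
  exact hζ

/-- (SC2) -/
theorem SolvablyClosed.exists_root {E : Type*} [Field E] [CharZero E]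
    (hE : SolvablyClosed E) (n : ℕ) (hn : 0 < n) (x : E) : ∃ y : E, y ^ n = x := by
  have hnz : NeZero n := ⟨hn.ne'⟩
  by_cases hx : x = 0
  · exact ⟨0, by rw [hx, zero_pow hn.ne']⟩
  obtain ⟨ζ, hζ⟩ := hE.exists_primitiveRoot n hn
  obtain ⟨α, hα⟩ := IsAlgClosed.exists_pow_nat_eq (algebraMap E (AlgebraicClosure E) x) hn
  have hα0 : α ≠ 0 := by
    rintro rfl
    rw [zero_pow hn.ne'] at hα
    exact hx ((algebraMap E (AlgebraicClosure E)).injective (by rw [← hα, map_zero]))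
  have hζΩ := hζ.map_of_injective (algebraMap E (AlgebraicClosure E)).injective
  obtain ⟨y, hy⟩ := hE.mem_of_conj α (by
    intro σ
    have h1 : (σ α / α) ^ n = 1 := by
      rw [div_pow, ← map_pow, hα, AlgHom.commutes, ← hα, div_self (pow_ne_zero _ hα0)]
    obtain ⟨k, _, hk⟩ := hζΩ.eq_pow_of_pow_eq_one h1
    have h2 : σ α = algebraMap E _ ζ ^ k * α := by rw [hk, div_mul_cancel₀ _ hα0]
    rw [h2, ← map_pow]
    exact mul_mem (E⟮α⟯.algebraMap_mem _) (mem_adjoin_simple_self E α)) (by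
    have hgenn : (AdjoinSimple.gen E α) ^ n = algebraMap E E⟮α⟯ x := by
      apply (algebraMap E⟮α⟯ (AlgebraicClosure E)).injective
      rw [map_pow, AdjoinSimple.algebraMap_gen, hα, ← IsScalarTower.algebraMap_apply]
    have hgen0 : (AdjoinSimple.gen E α) ≠ 0 := by
      intro h
      apply hα0
      rw [← AdjoinSimple.algebraMap_gen E α, h, map_zero]
    have hζM := hζ.map_of_injective (algebraMap E E⟮α⟯).injective
    have hpow : ∀ σ : E⟮α⟯ ≃ₐ[E] E⟮α⟯, ∃ k : ℕ, σ (AdjoinSimple.gen E α) =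
        algebraMap E E⟮α⟯ (ζ ^ k) * (AdjoinSimple.gen E α) := by
      intro σ
      have h1 : (σ (AdjoinSimple.gen E α) / (AdjoinSimple.gen E α)) ^ n = 1 := by
        rw [div_pow, ← map_pow, hgenn, AlgEquiv.commutes, ← hgenn,
          div_self (pow_ne_zero _ hgen0)]
      obtain ⟨k, _, hk⟩ := hζM.eq_pow_of_pow_eq_one h1
      refine ⟨k, ?_⟩
      rw [map_pow, hk, div_mul_cancel₀ _ hgen0]
    intro σ τ
    obtain ⟨k, hk⟩ := hpow σ
    obtain ⟨j, hj⟩ := hpow τ
    rw [hj, map_mul, AlgEquiv.commutes, hk, map_mul, AlgEquiv.commutes, hj]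
    ring)
  refine ⟨y, (algebraMap E (AlgebraicClosure E)).injective ?_⟩
  rw [map_pow, hy, hα]

end Vale.Agent.P024
end
end

section

section

/-!
A homomorphism of Galois groups induced by a field embedding has open image.
-/

namespace Vale.Agent.P024

theorem isOpen_range_of_induces {F₁ E₁ F₂ E₂ : Type*} [Field F₁] [NumberField F₁] [Field E₁]
    [Algebra F₁ E₁] [IsGalois F₁ E₁] [Field F₂] [NumberField F₂] [Field E₂] [Algebra F₂ E₂]
    [IsGalois F₂ E₂] (α : (E₁ ≃ₐ[F₁] E₁) →* (E₂ ≃ₐ[F₂] E₂)) (hα : Continuous α)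
    (j : E₂ →+* E₁) (hj : ∀ (g : E₁ ≃ₐ[F₁] E₁) (x : E₂), g (j x) = j ((α g) x)) :
    IsOpen (Set.range α) := by
  have hclosed : IsClosed (α.range : Set (E₂ ≃ₐ[F₂] E₂)) := by
    rw [MonoidHom.coe_range]
    exact (isCompact_range hα).isClosed
  let H : ClosedSubgroup (E₂ ≃ₐ[F₂] E₂) := ⟨α.range, hclosed⟩
  let L : IntermediateField F₂ E₂ := IntermediateField.fixedField (H : Subgroup (E₂ ≃ₐ[F₂] E₂))
  have hLF : ∀ x ∈ L, ∃ y : F₁, algebraMap F₁ E₁ y = j x := by
    intro x hx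
    have h1 : ∀ g : E₁ ≃ₐ[F₁] E₁, g (j x) = j x := by
      intro g
      rw [hj g x]
      congr 1
      rw [IntermediateField.mem_fixedField_iff] at hx
      exact hx (α g) ⟨g, rfl⟩
    exact (InfiniteGalois.mem_range_algebraMap_iff_fixed (j x)).2 h1
  have hfin : FiniteDimensional F₂ L := by
    have : CharZero E₂ := charZero_of_injective_algebraMap (algebraMap F₂ E₂).injective
    have : CharZero L := charZero_of_injective_algebraMap (algebraMap F₂ L).injective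
    let φ : L →+* F₁ := ((algebraMap F₁ E₁).rangeRestrictFieldEquiv.symm :
      (algebraMap F₁ E₁).fieldRange →+* F₁).comp
      ((j.comp (algebraMap L E₂)).codRestrict (algebraMap F₁ E₁).fieldRange
        (fun x => hLF x x.2))
    let ψ : L →ₐ[ℚ] F₁ := φ.toRatAlgHom
    have hfinQ : FiniteDimensional ℚ L :=
      FiniteDimensional.of_injective ψ.toLinearMap φ.injective
    exact Module.Finite.of_restrictScalars_finite ℚ F₂ L
  have hL : L.fixingSubgroup = (H : Subgroup (E₂ ≃ₐ[F₂] E₂)) :=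
    InfiniteGalois.fixingSubgroup_fixedField H
  have hopen : IsOpen (L.fixingSubgroup : Set (E₂ ≃ₐ[F₂] E₂)) := L.fixingSubgroup_isOpen
  rw [hL] at hopen
  exact hopen

end Vale.Agent.P024
end
end

section

section

/-!
P024: the covering inequality for a set of primes of positive upper density.
-/

open NumberField Ideal IsDedekindDomain Filter Topology
open scoped ENNReal

namespace Vale.Agent.P024

universe u

/-- **Covering inequality**, for a set `G` of primes of upper Dirichlet density at least `δ`. -/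
theorem le_sum_of_cover_dens (Z : Type*) [Field Z] [NumberField Z] {ι : Type*} [Fintype ι]
    (M : ι → Type u) [∀ i, Field (M i)] [∀ i, NumberField (M i)] [∀ i, Algebra Z (M i)]
    (m : ι → ℕ) (hm : ∀ i, 0 < m i) (G : Set (HeightOneSpectrum (𝓞 Z))) (δ : ℝ)
    (hG : ∃ᶠ s : ℝ in 𝓝[>] 1, ENNReal.ofReal (δ * Real.log (1 / (s - 1))) ≤
      ∑' p : G, ENNReal.ofReal (nm Z p.1 s))
    (S : Set (HeightOneSpectrum (𝓞 Z))) (hS : S.Finite)
    (hcov : ∀ p ∈ G, p ∉ S → ∃ (i : ι)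
      (A : Finset (HeightOneSpectrum (𝓞 (M i)))), m i ≤ A.card ∧
      ∀ P ∈ A, P.asIdeal.comap (algebraMap (𝓞 Z) (𝓞 (M i))) = p.asIdeal ∧
        absNorm P.asIdeal = absNorm p.asIdeal) :
    δ ≤ ∑ i, (1 : ℝ) / m i := by
  choose C' hC' using fun i => upper (M i)
  have hC'' : ∀ᶠ s : ℝ in 𝓝[>] 1, ∀ i, ∑' p : HeightOneSpectrum (𝓞 (M i)),
      ENNReal.ofReal (nm (M i) p s) ≤ ENNReal.ofReal (Real.log (1 / (s - 1)) + C' i) :=
    eventually_all.2 hC'
  -- bound for the sum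
  have key : ∀ s : ℝ, 1 < s → ∑' p : G, ENNReal.ofReal (nm Z p.1 s) ≤
      (hS.toFinset.card : ℝ≥0∞) +
      ∑ i, (m i : ℝ≥0∞)⁻¹ * ∑' P : HeightOneSpectrum (𝓞 (M i)),
        ENNReal.ofReal (nm (M i) P s) := by
    intro s hs
    let F : ι → Ideal (𝓞 Z) → ℝ≥0∞ := fun i J =>
      ∑' P : ((fun P : HeightOneSpectrum (𝓞 (M i)) =>
        P.asIdeal.comap (algebraMap (𝓞 Z) (𝓞 (M i)))) ⁻¹' {J}), ENNReal.ofReal (nm (M i) P s)
    have h1 : ∀ p : G,
        ENNReal.ofReal (nm Z p s) ≤ (S.indicator (fun _ => (1 : ℝ≥0∞)) p.1) +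
          ∑ i, (m i : ℝ≥0∞)⁻¹ * F i p.1.asIdeal := by
      rintro ⟨p, hp⟩
      by_cases hpS : p ∈ S
      · rw [Set.indicator_of_mem hpS]
        refine le_add_right ?_
        rw [ENNReal.ofReal_le_one]
        exact (nm_le_half p hs.le).trans (by norm_num)
      · obtain ⟨i, A, hA, h⟩ := hcov p hp hpS
        refine le_add_left ?_
        refine (point_le (hm i) p A hA h s).trans ?_
        exact Finset.single_le_sum (f := fun i => (m i : ℝ≥0∞)⁻¹ * F i p.asIdeal)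
          (fun _ _ => zero_le) (Finset.mem_univ i)
    calc ∑' p : G, ENNReal.ofReal (nm Z p.1 s) ≤ ∑' p : G,
          ((S.indicator (fun _ => (1 : ℝ≥0∞)) p.1) + ∑ i, (m i : ℝ≥0∞)⁻¹ * F i p.1.asIdeal) :=
          ENNReal.tsum_le_tsum h1
      _ ≤ ∑' p : HeightOneSpectrum (𝓞 Z),
          ((S.indicator (fun _ => (1 : ℝ≥0∞)) p) + ∑ i, (m i : ℝ≥0∞)⁻¹ * F i p.asIdeal) :=
          ENNReal.tsum_comp_le_tsum_of_injective Subtype.val_injective
            (fun p : HeightOneSpectrum (𝓞 Z) => (S.indicator (fun _ => (1 : ℝ≥0∞)) p) +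
              ∑ i, (m i : ℝ≥0∞)⁻¹ * F i p.asIdeal)
      _ = ∑' p : HeightOneSpectrum (𝓞 Z), (S.indicator (fun _ => (1 : ℝ≥0∞)) p) +
          ∑ i, (m i : ℝ≥0∞)⁻¹ * ∑' p : HeightOneSpectrum (𝓞 Z), F i p.asIdeal := by
          rw [ENNReal.tsum_add]
          congr 1
          rw [Summable.tsum_finsetSum (fun _ _ => ENNReal.summable)]
          refine Finset.sum_congr rfl fun i _ => ?_
          rw [ENNReal.tsum_mul_left]
      _ ≤ _ := by
          refine add_le_add ?_ (Finset.sum_le_sum fun i _ => ?_)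
          · rw [← tsum_subtype, ENNReal.tsum_const, mul_one]
            have : ENat.card S = (hS.toFinset.card : ℕ∞) := by
              rw [← Set.encard, hS.encard_eq_coe_toFinset_card]
            rw [this]
            exact le_of_eq rfl
          · gcongr
            calc ∑' p : HeightOneSpectrum (𝓞 Z), F i p.asIdeal
                ≤ ∑' J : Ideal (𝓞 Z), F i J :=
                  ENNReal.tsum_comp_le_tsum_of_injective
                    (fun p q h => HeightOneSpectrum.ext h) (F i)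
              _ = _ := ENNReal.tsum_fiberwise
                  (fun P : HeightOneSpectrum (𝓞 (M i)) => ENNReal.ofReal (nm (M i) P s))
                  (fun P : HeightOneSpectrum (𝓞 (M i)) =>
                    P.asIdeal.comap (algebraMap (𝓞 Z) (𝓞 (M i))))
  by_contra hcon
  rw [not_le] at hcon
  set θ : ℝ := ∑ i, (1 : ℝ) / m i with hθ
  -- the logarithm tends to infinity
  have hbig : ∀ᶠ s : ℝ in 𝓝[>] 1, ∀ i, 0 ≤ Real.log (1 / (s - 1)) + C' i := by
    rw [eventually_all]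
    intro i
    filter_upwards [tendsto_log_one_div.eventually_ge_atTop (-C' i)] with s hs
    linarith
  have hbig2 := tendsto_log_one_div.eventually_gt_atTop
    ((hS.toFinset.card + ∑ i, C' i / m i) / (δ - θ))
  obtain ⟨s, h1, h2, h3, h4, h5⟩ :=
    (hG.and_eventually (hC''.and (hbig.and (hbig2.and self_mem_nhdsWithin)))).exists
  set L : ℝ := Real.log (1 / (s - 1)) with hL
  have h6 : ENNReal.ofReal (δ * L) ≤ ENNReal.ofReal (hS.toFinset.card +
      ∑ i, (L + C' i) / m i) := by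
    refine h1.trans ((key s h5).trans ?_)
    rw [ENNReal.ofReal_add (by positivity) (Finset.sum_nonneg fun i _ =>
      div_nonneg (h3 i) (by positivity)), ENNReal.ofReal_natCast,
      ENNReal.ofReal_sum_of_nonneg (fun i _ => div_nonneg (h3 i) (by positivity))]
    gcongr with i _
    rw [div_eq_inv_mul, ENNReal.ofReal_mul (by positivity), ENNReal.ofReal_inv_of_pos
      (by exact_mod_cast hm i), ENNReal.ofReal_natCast]
    gcongr
    exact h2 i
  have h7 : δ * L ≤ hS.toFinset.card + ∑ i, (L + C' i) / m i := by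
    rwa [ENNReal.ofReal_le_ofReal_iff] at h6
    exact add_nonneg (by positivity) (Finset.sum_nonneg fun i _ =>
      div_nonneg (h3 i) (by positivity))
  have h8 : ∑ i, (L + C' i) / m i = L * θ + ∑ i, C' i / m i := by
    rw [hθ, Finset.mul_sum, ← Finset.sum_add_distrib]
    refine Finset.sum_congr rfl fun i _ => ?_
    ring
  rw [h8] at h7
  rw [div_lt_iff₀ (by linarith)] at h4
  linarith

end Vale.Agent.P024
end
end

section

section

/-!
The inertia group of a valuation subring.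
-/

namespace Vale.Agent.P024

open scoped NumberField
open IsDedekindDomain

section Top

variable {F E : Type*} [Field F] [Field E] [Algebra F E] [Algebra.IsAlgebraic F E]

theorem isOpen_apply (x : E) (P : E → Prop) : IsOpen {g : E ≃ₐ[F] E | P (g x)} := by
  rw [isOpen_iff_mem_nhds]
  intro g₀ hg₀
  have : Algebra.IsIntegral F E := Algebra.IsAlgebraic.isIntegral
  have h1 : IsOpen ((MulAction.stabilizer (E ≃ₐ[F] E) x : Subgroup (E ≃ₐ[F] E)) :
    Set (E ≃ₐ[F] E)) := stabilizer_isOpen_of_isIntegral (K := F) (L := E) x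
  have h2 : IsOpen ((fun g : E ≃ₐ[F] E => g₀⁻¹ * g) ⁻¹'
      ((MulAction.stabilizer (E ≃ₐ[F] E) x : Subgroup (E ≃ₐ[F] E)) : Set (E ≃ₐ[F] E))) :=
    h1.preimage (continuous_const_mul g₀⁻¹)
  refine Filter.mem_of_superset (h2.mem_nhds ?_) ?_
  · show g₀⁻¹ * g₀ ∈ MulAction.stabilizer (E ≃ₐ[F] E) x
    rw [inv_mul_cancel]
    exact one_mem _
  · intro g hg
    have h3 : (g₀⁻¹ * g) x = x := hg
    have h4 : g x = g₀ x := by
      have h5 := congrArg g₀ h3
      rwa [← AlgEquiv.mul_apply, mul_inv_cancel_left] at h5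
    show P (g x)
    rw [h4]
    exact hg₀

theorem isClosed_apply (x : E) (P : E → Prop) : IsClosed {g : E ≃ₐ[F] E | P (g x)} := by
  rw [← isOpen_compl_iff]
  exact isOpen_apply x (fun y => ¬ P y)

end Top

section Stab

variable {F E : Type*} [Field F] [Field E] [Algebra F E]

theorem Stab.one (O : ValuationSubring E) : Stab O (1 : E ≃ₐ[F] E) := fun _ => Iff.rfl

theorem Stab.mul {O : ValuationSubring E} {g h : E ≃ₐ[F] E} (hg : Stab O g) (hh : Stab O h) :
    Stab O (g * h) := fun x => by rw [AlgEquiv.mul_apply, hg, hh]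

theorem Stab.inv {O : ValuationSubring E} {g : E ≃ₐ[F] E} (hg : Stab O g) : Stab O g⁻¹ := by
  intro x
  rw [← hg (g⁻¹ x), ← AlgEquiv.mul_apply, mul_inv_cancel, AlgEquiv.one_apply]

theorem Stab.pow {O : ValuationSubring E} {g : E ≃ₐ[F] E} (hg : Stab O g) (n : ℕ) :
    Stab O (g ^ n) := by
  induction n with
  | zero => exact Stab.one O
  | succ n ih => rw [pow_succ]; exact ih.mul hg

variable [IsGalois F E] [CharZero E] [Algebra.IsAlgebraic ℚ E]

omit [IsGalois F E] [CharZero E] in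
theorem ActsPow.mul {O : ValuationSubring E} {g h : E ≃ₐ[F] E} {a b : ℕ} (_hg : Stab O g)
    (hh : Stab O h) (hga : ActsPow O g a) (hhb : ActsPow O h b) : ActsPow O (g * h) (b * a) := by
  intro x hx
  have hhx : h x ∈ O := (hh x).2 hx
  have h1 := hga (h x) hhx
  have h2 := hhb x hx
  have hxb : x ^ b ∈ O := O.pow_mem hx b
  have h3 : (h x) ^ a - (x ^ b) ^ a ∈ O.nonunits := by
    obtain ⟨c, hc⟩ := sub_dvd_pow_sub_pow (⟨h x, hhx⟩ : O) (⟨x ^ b, hxb⟩ : O) a
    have hc' : (h x) ^ a - (x ^ b) ^ a = (c : E) * (h x - x ^ b) := by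
      have := congrArg Subtype.val hc
      push_cast at this
      rw [this]
      ring
    rw [hc']
    exact Near.mul_mem_nonunits ((O.valuation_le_one_iff _).2 c.2) h2
  have h4 : (g * h) x - x ^ (b * a) = (g (h x) - (h x) ^ a) + ((h x) ^ a - (x ^ b) ^ a) := by
    rw [AlgEquiv.mul_apply, pow_mul]
    ring
  rw [h4]
  exact O.nonunits.add_mem h1 h3

omit [IsGalois F E] [CharZero E] in
theorem ActsPow.pow {O : ValuationSubring E} {g : E ≃ₐ[F] E} {a : ℕ} (hg : Stab O g)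
    (hga : ActsPow O g a) (n : ℕ) : ActsPow O (g ^ n) (a ^ n) := by
  induction n with
  | zero =>
    intro x hx
    rw [pow_zero, pow_zero, pow_one, AlgEquiv.one_apply, sub_self]
    exact O.nonunits.zero_mem
  | succ n ih =>
    rw [pow_succ' g]
    have h := ActsPow.mul hg (hg.pow n) hga ih
    rwa [← pow_succ] at h

theorem ActsPow.one_inv {O : ValuationSubring E} {g : E ≃ₐ[F] E} (hg : Stab O g)
    (hg1 : ActsPow O g 1) : ActsPow O g⁻¹ 1 := by
  intro x hx
  have h1 : g⁻¹ x ∈ O := (hg.inv x).2 hx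
  have h2 := hg1 (g⁻¹ x) h1
  rw [pow_one, ← AlgEquiv.mul_apply, mul_inv_cancel, AlgEquiv.one_apply] at h2
  rw [pow_one, ← neg_sub]
  exact O.nonunits.neg_mem h2

theorem ActsPow.conj {O : ValuationSubring E} {g s : E ≃ₐ[F] E} (hs : Stab O s)
    (hg1 : ActsPow O g 1) : ActsPow O (s * g * s⁻¹) 1 := by
  intro x hx
  have h1 : s⁻¹ x ∈ O := (hs.inv x).2 hx
  have h2 := nonunits_map O s hs (hg1 (s⁻¹ x) h1)
  rw [pow_one, map_sub, ← AlgEquiv.mul_apply s s⁻¹, mul_inv_cancel, AlgEquiv.one_apply] at h2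
  rwa [pow_one, AlgEquiv.mul_apply, AlgEquiv.mul_apply]

end Stab

section Inertia

variable {F₁ E₁ F₂ E₂ : Type*} [Field F₁] [Field E₁] [Algebra F₁ E₁] [IsGalois F₁ E₁]
    [CharZero E₁] [Algebra.IsAlgebraic ℚ E₁]
    [Field F₂] [Field E₂] [Algebra F₂ E₂] [IsGalois F₂ E₂]

/-- The elements of the inertia group of `O` whose images fix the `l`-th roots of unity. -/
def inertia (O : ValuationSubring E₁) (α : (E₁ ≃ₐ[F₁] E₁) →* (E₂ ≃ₐ[F₂] E₂)) (l : ℕ) :
    Subgroup (E₁ ≃ₐ[F₁] E₁) where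
  carrier := {g | Stab O g ∧ ActsPow O g 1 ∧ ∀ z : E₂, z ^ l = 1 → α g z = z}
  one_mem' := ⟨Stab.one O, by
    intro x _
    rw [pow_one, AlgEquiv.one_apply, sub_self]
    exact O.nonunits.zero_mem, by
    intro z _
    rw [map_one, AlgEquiv.one_apply]⟩
  mul_mem' := by
    rintro g h ⟨hg1, hg2, hg3⟩ ⟨hh1, hh2, hh3⟩
    refine ⟨hg1.mul hh1, by simpa using ActsPow.mul hg1 hh1 hg2 hh2, ?_⟩
    intro z hz
    rw [map_mul, AlgEquiv.mul_apply, hh3 z hz, hg3 z hz]
  inv_mem' := by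
    rintro g ⟨hg1, hg2, hg3⟩
    refine ⟨hg1.inv, ActsPow.one_inv hg1 hg2, ?_⟩
    intro z hz
    conv_lhs => rw [← hg3 z hz]
    rw [map_inv, ← AlgEquiv.mul_apply, inv_mul_cancel, AlgEquiv.one_apply]

variable {O : ValuationSubring E₁} {α : (E₁ ≃ₐ[F₁] E₁) →* (E₂ ≃ₐ[F₂] E₂)} {l : ℕ}

theorem isClosed_inertia (hα : Continuous α) :
    IsClosed ((inertia O α l : Subgroup (E₁ ≃ₐ[F₁] E₁)) : Set (E₁ ≃ₐ[F₁] E₁)) := by
  have h1 : ((inertia O α l : Subgroup (E₁ ≃ₐ[F₁] E₁)) : Set (E₁ ≃ₐ[F₁] E₁)) =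
      (⋂ x : E₁, {g : E₁ ≃ₐ[F₁] E₁ | g x ∈ O ↔ x ∈ O}) ∩
      ((⋂ x : O, {g : E₁ ≃ₐ[F₁] E₁ | g x.1 - x.1 ^ 1 ∈ O.nonunits}) ∩
      (⋂ z : {z : E₂ // z ^ l = 1}, {g : E₁ ≃ₐ[F₁] E₁ | α g z.1 = z.1})) := by
    ext g
    simp only [Set.mem_inter_iff, Set.mem_iInter, Set.mem_ofPred_eq, Subtype.forall]
    exact Iff.rfl
  rw [h1]
  refine IsClosed.inter (isClosed_iInter fun x => ?_) (IsClosed.inter (isClosed_iInter fun x => ?_)
    (isClosed_iInter fun z => ?_))
  · exact isClosed_apply x (fun y => y ∈ O ↔ x ∈ O)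
  · exact isClosed_apply x.1 (fun y => y - x.1 ^ 1 ∈ O.nonunits)
  · exact (isClosed_apply (F := F₂) z.1 (fun y => y = z.1)).preimage hα

theorem conj_mem_inertia {s g : E₁ ≃ₐ[F₁] E₁} (hs : Stab O s) (hg : g ∈ inertia O α l) :
    s * g * s⁻¹ ∈ inertia O α l := by
  obtain ⟨hg1, hg2, hg3⟩ := hg
  refine ⟨(hs.mul hg1).mul hs.inv, ActsPow.conj hs hg2, ?_⟩
  intro z hz
  have h1 : ((α s)⁻¹ z) ^ l = 1 := by rw [← map_pow, hz, map_one]
  rw [map_mul, map_mul, map_inv, AlgEquiv.mul_apply, AlgEquiv.mul_apply, hg3 _ h1,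
    ← AlgEquiv.mul_apply, mul_inv_cancel, AlgEquiv.one_apply]

theorem conj_mem_inertia' {s g : E₁ ≃ₐ[F₁] E₁} (hs : Stab O s) (hg : g ∈ inertia O α l) :
    s⁻¹ * g * s ∈ inertia O α l := by
  have h := conj_mem_inertia hs.inv hg
  rwa [inv_inv] at h

/-- images of wild elements have no torsion prime to the residue characteristic -/
theorem wild_image (hα : Continuous α) (hlO : ∀ n : ℕ, ((l ^ n : ℕ) : E₁) ∉ O.nonunits)
    (δ : E₁ ≃ₐ[F₁] E₁) (hδ : ∀ x : E₁, x ≠ 0 → δ x / x - 1 ∈ O.nonunits) (b : E₂) (n : ℕ)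
    (hb : ((α δ) ^ (l ^ n)) b = b) : (α δ) b = b := by
  let V : Subgroup (E₁ ≃ₐ[F₁] E₁) := (MulAction.stabilizer (E₂ ≃ₐ[F₂] E₂) b).comap α
  have hV : IsOpen (V : Set (E₁ ≃ₐ[F₁] E₁)) := by
    have h1 : IsOpen ((MulAction.stabilizer (E₂ ≃ₐ[F₂] E₂) b : Subgroup (E₂ ≃ₐ[F₂] E₂)) :
      Set (E₂ ≃ₐ[F₂] E₂)) := stabilizer_isOpen_of_isIntegral (K := F₂) (L := E₂) b
    exact h1.preimage hα
  have h2 := wild_mem O δ hδ (l ^ n) (hlO n) V hV (by
    change α (δ ^ (l ^ n)) b = b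
    rw [map_pow]; exact hb)
  exact h2

end Inertia

end Vale.Agent.P024
end
end

section

section

/-!
The tame relation forces an element fixing the `l`-th roots of unity to fix all roots of unity of
`l`-power order.
-/

namespace Vale.Agent.P024

section FixRoots

variable {F E : Type*} [Field F] [Field E] [Algebra F E] {l : ℕ}

theorem modEq_one_of_fix_l (hl : l.Prime) (g : E ≃ₐ[F] E) (hg : ∀ ξ : E, ξ ^ l = 1 → g ξ = ξ)
    (N : ℕ) (hN : 1 ≤ N) {ξ : E} (hξ : IsPrimitiveRoot ξ (l ^ N)) {a : ℕ} (ha : g ξ = ξ ^ a) :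
    a ≡ 1 [MOD l] := by
  have hpos : ∀ n : ℕ, 0 < l ^ n := fun n => pow_pos hl.pos n
  have h1 : IsPrimitiveRoot (ξ ^ (l ^ (N - 1))) l := by
    apply hξ.pow (hpos N)
    rw [← pow_succ]
    congr 1
    omega
  have h2 : g (ξ ^ (l ^ (N - 1))) = ξ ^ (l ^ (N - 1)) := hg _ h1.pow_eq_one
  have h3 : (ξ ^ (l ^ (N - 1))) ^ a = (ξ ^ (l ^ (N - 1))) ^ 1 := by
    rw [pow_one]
    conv_rhs => rw [← h2]
    rw [map_pow, ha, ← pow_mul, ← pow_mul, mul_comm]
  exact (rootPow_eq_iff_modEq h1 a 1 hl.pos).1 h3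

theorem coprime_of_modEq_one (hl : l.Prime) {a : ℕ} (h : a ≡ 1 [MOD l]) (N : ℕ) :
    Nat.Coprime (l ^ N) a := by
  apply Nat.Coprime.pow_left
  rw [Nat.Prime.coprime_iff_not_dvd hl]
  intro hdvd
  have h4 : a ≡ 0 [MOD l] := (Nat.modEq_zero_iff_dvd).2 hdvd
  have h5 := (h4.symm.trans h)
  rw [Nat.ModEq, Nat.zero_mod, Nat.mod_eq_of_lt hl.one_lt] at h5
  exact zero_ne_one h5

theorem fix_roots (hl : l.Prime) (hl2 : l ≠ 2)
    (hroot : ∀ n : ℕ, ∃ ξ : E, IsPrimitiveRoot ξ (l ^ n)) (s t δ : E ≃ₐ[F] E) (q : ℕ)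
    (hrel : s * t = δ * t ^ q * s) (hq1 : 1 < q)
    (hδ : ∀ b : E, ∀ n : ℕ, (δ ^ (l ^ n)) b = b → δ b = b)
    (ht1 : ∀ ξ : E, ξ ^ l = 1 → t ξ = ξ) :
    (∀ n : ℕ, ∀ ξ : E, ξ ^ (l ^ n) = 1 → t ξ = ξ) ∧
      (∀ n : ℕ, ∀ ξ : E, ξ ^ (l ^ n) = 1 → δ ξ = ξ) := by
  have hpos : ∀ n : ℕ, 0 < l ^ n := fun n => pow_pos hl.pos n
  have hrel' : ∀ x, s (t x) = δ ((t ^ q) (s x)) := by
    intro x
    have := congrArg (fun g : E ≃ₐ[F] E => g x) hrel
    simpa [AlgEquiv.mul_apply] using this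
  have htpow : ∀ (n : ℕ) (x : E), t x = x → (t ^ n) x = x := by
    intro n x hx
    induction n with
    | zero => rfl
    | succ n ih => rw [pow_succ', AlgEquiv.mul_apply, ih, hx]
  -- `δ` fixes the `l`-th roots of unity
  have hδ1 : ∀ ξ : E, ξ ^ l = 1 → δ ξ = ξ := by
    obtain ⟨ζ, hζ⟩ := hroot 1
    rw [pow_one] at hζ
    have hsζ : IsPrimitiveRoot (s ζ) l := hζ.map_of_injective s.injective
    have h1 := hrel' ζ
    rw [ht1 ζ hζ.pow_eq_one, htpow q _ (ht1 _ hsζ.pow_eq_one)] at h1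
    intro ξ hξ
    have : NeZero l := ⟨hl.ne_zero⟩
    obtain ⟨i, -, rfl⟩ := hsζ.eq_pow_of_pow_eq_one hξ
    rw [map_pow, ← h1]
  have hδξ : ∀ N : ℕ, 1 ≤ N → ∀ ξ : E, IsPrimitiveRoot ξ (l ^ N) → δ ξ = ξ := by
    intro N hN ξ hξ
    obtain ⟨d, hd⟩ := exists_exp_root δ (hpos N) hξ
    have hd1 := modEq_one_of_fix_l hl δ hδ1 N hN hξ hd
    apply hδ ξ N
    rw [pow_apply_root δ hd]
    conv_rhs => rw [← pow_one ξ]
    rw [rootPow_eq_iff_modEq hξ _ _ (hpos N)]
    have h1 : ((l : ℕ) : ℤ) ∣ (d : ℤ) - (1 : ℤ) := by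
      have h3 := (Nat.modEq_iff_dvd.1 hd1.symm)
      push_cast at h3
      exact h3
    have h4 := dvd_sub_pow_of_dvd_sub h1 N
    rw [one_pow] at h4
    apply Nat.ModEq.symm
    rw [Nat.modEq_iff_dvd]
    push_cast
    exact dvd_trans (pow_dvd_pow _ (Nat.le_succ N)) h4
  have hδall : ∀ n : ℕ, ∀ ξ : E, ξ ^ (l ^ n) = 1 → δ ξ = ξ := by
    intro n ξ hξ
    obtain ⟨η, hη⟩ := hroot (n + 1)
    have : NeZero (l ^ (n + 1)) := ⟨(hpos _).ne'⟩
    obtain ⟨i, -, rfl⟩ := hη.eq_pow_of_pow_eq_one (ξ := ξ) (by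
      rw [pow_succ, pow_mul, hξ, one_pow])
    rw [map_pow, hδξ (n + 1) (by omega) η hη]
  refine ⟨?_, hδall⟩
  intro n ξ' hξ'
  obtain ⟨k, h, hh, hkh⟩ := Nat.exists_eq_pow_mul_and_not_dvd (n := q - 1) (by omega) l
    hl.one_lt.ne'
  set N := n + k + 1 with hNdef
  obtain ⟨ξ, hξ⟩ := hroot N
  obtain ⟨a, ha⟩ := exists_exp_root t (hpos N) hξ
  obtain ⟨u, hu⟩ := exists_exp_root s (hpos N) hξ
  have ha1 := modEq_one_of_fix_l hl t ht1 N (by omega) hξ ha
  have h1 : ξ ^ (u * a) = ξ ^ (u * a ^ q) := by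
    have h2 := hrel' ξ
    have h3 : s (t ξ) = ξ ^ (u * a) := by rw [ha, map_pow, hu, ← pow_mul]
    have h4 : δ ((t ^ q) (s ξ)) = ξ ^ (u * a ^ q) := by
      rw [hu, map_pow, pow_apply_root t ha, map_pow, map_pow, hδξ N (by omega) ξ hξ, ← pow_mul,
        mul_comm]
    rw [h3, h4] at h2
    exact h2
  rw [rootPow_eq_iff_modEq hξ _ _ (hpos N)] at h1
  have hcopu : Nat.Coprime (l ^ N) u := by
    have h2 : IsPrimitiveRoot (s ξ) (l ^ N) := hξ.map_of_injective s.injective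
    rw [hu] at h2
    exact ((hξ.pow_iff_coprime (hpos N) u).1 h2).symm
  have hcopa : Nat.Coprime (l ^ N) a := coprime_of_modEq_one hl ha1 N
  have hna : ¬ l ∣ a := by
    intro hdvd
    have h3 := coprime_of_modEq_one hl ha1 1
    rw [pow_one, Nat.Prime.coprime_iff_not_dvd hl] at h3
    exact h3 hdvd
  have h2 : a ≡ a ^ q [MOD l ^ N] := Nat.ModEq.cancel_left_of_coprime hcopu h1
  have h3 : 1 ≡ a ^ (q - 1) [MOD l ^ N] := by
    apply Nat.ModEq.cancel_left_of_coprime hcopa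
    rw [mul_one, ← pow_succ', show q - 1 + 1 = q by omega]
    exact h2
  -- lifting the exponent
  have hdiv : ((l : ℕ) : ℤ) ∣ (a : ℤ) - 1 := by
    have h5 := (Nat.modEq_iff_dvd.1 ha1.symm)
    push_cast at h5
    exact h5
  have hnd : ¬ ((l : ℕ) : ℤ) ∣ (a : ℤ) := by
    exact_mod_cast hna
  have hlte := Int.emultiplicity_pow_sub_pow hl (hl.odd_of_ne_two hl2) hdiv hnd (q - 1)
  rw [one_pow] at hlte
  have h6 : (N : ℕ∞) ≤ emultiplicity ((l : ℕ) : ℤ) ((a : ℤ) ^ (q - 1) - 1) := by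
    rw [← pow_dvd_iff_le_emultiplicity]
    have h7 := Nat.modEq_iff_dvd.1 h3
    push_cast at h7
    exact h7
  have h8 : emultiplicity l (q - 1) = k := by
    rw [hkh]
    have hl' : Prime l := hl.prime
    rw [emultiplicity_mul hl', emultiplicity_pow_self_of_prime hl',
      emultiplicity_eq_zero.2 hh, add_zero]
  rw [hlte, h8] at h6
  have h9 : (n : ℕ∞) ≤ emultiplicity ((l : ℕ) : ℤ) ((a : ℤ) - 1) := by
    have h10 : ((n + 1 : ℕ) : ℕ∞) + (k : ℕ∞) ≤
        emultiplicity ((l : ℕ) : ℤ) ((a : ℤ) - 1) + (k : ℕ∞) := by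
      refine le_trans ?_ h6
      rw [hNdef]
      push_cast
      rw [add_right_comm]
    have h11 := (ENat.add_le_add_iff_right (ENat.natCast_ne_top k)).1 h10
    refine le_trans ?_ h11
    exact_mod_cast Nat.le_add_right n 1
  rw [← pow_dvd_iff_le_emultiplicity] at h9
  -- conclude
  have : NeZero (l ^ n) := ⟨(hpos n).ne'⟩
  have hξn : IsPrimitiveRoot (ξ ^ (l ^ (k + 1))) (l ^ n) := by
    apply hξ.pow (hpos N)
    rw [← pow_add]
    congr 1
    omega
  obtain ⟨i, -, hi⟩ := hξn.eq_pow_of_pow_eq_one hξ'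
  have h12 : a ≡ 1 [MOD l ^ n] := by
    apply Nat.ModEq.symm
    rw [Nat.modEq_iff_dvd]
    push_cast
    exact h9
  have h13 : t (ξ ^ (l ^ (k + 1))) = ξ ^ (l ^ (k + 1)) := by
    rw [map_pow, ha, ← pow_mul, mul_comm, pow_mul]
    conv_rhs => rw [← pow_one (ξ ^ (l ^ (k + 1)))]
    rw [rootPow_eq_iff_modEq hξn _ _ (hpos n)]
    exact h12
  rw [← hi, map_pow, h13]

end FixRoots

end Vale.Agent.P024
end
end

section

section

/-!
P024, Route 2, part [G], A2: splitting of primes in Kummer extensions.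
-/

open NumberField Ideal IsDedekindDomain Filter Topology Polynomial

namespace Vale.Agent.P024

section Card

variable {Z M : Type*} [Field Z] [NumberField Z] [Field M] [NumberField M] [Algebra Z M]

/-- for a root of unity `μ ≠ 1` of order `l`, `1 - μ` is a unit away from `l`. -/
theorem val_one_sub {K : Type*} [Field K] [NumberField K] {l : ℕ} (hl : l ≠ 0)
    (v : HeightOneSpectrum (𝓞 K))
    (hvl : v.valuation K (l : K) = 1) {μ : K} (hμ : μ ^ l = 1) (hμ1 : μ ≠ 1) :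
    ¬ v.valuation K (1 - μ) < 1 := by
  intro hlt
  have hμv : v.valuation K μ = 1 := by
    have : v.valuation K μ ^ l = 1 := by rw [← map_pow, hμ, map_one]
    exact (pow_eq_one_iff_of_nonneg zero_le hl).1 this
  have h1 : ∀ i : ℕ, v.valuation K (1 - μ ^ i) < 1 := by
    intro i
    have : 1 - μ ^ i = (1 - μ) * ∑ j ∈ Finset.range i, μ ^ j := by
      have := mul_geom_sum μ i
      linear_combination this
    rw [this, map_mul]
    have h2 : v.valuation K (∑ j ∈ Finset.range i, μ ^ j) ≤ 1 :=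
      Valuation.map_sum_le _ fun j _ => by rw [map_pow, hμv, one_pow]
    exact mul_lt_one_of_lt_of_le hlt h2
  have h3 : (l : K) = ∑ i ∈ Finset.range l, (1 - μ ^ i) := by
    have h4 : ∑ i ∈ Finset.range l, μ ^ i = 0 := by
      have := mul_geom_sum μ l
      rw [hμ, sub_self, mul_eq_zero] at this
      exact this.resolve_left (sub_ne_zero.2 hμ1)
    rw [Finset.sum_sub_distrib, h4]
    simp
  have h5 : v.valuation K (∑ i ∈ Finset.range l, (1 - μ ^ i)) < 1 :=
    Valuation.map_sum_lt _ one_ne_zero fun i _ => h1 i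
  rw [← h3, hvl] at h5
  exact lt_irrefl _ h5

omit [NumberField Z] in
/-- transport of valuations along an automorphism -/
theorem val_comap_lt {w w' : HeightOneSpectrum (𝓞 M)} (σ : M ≃ₐ[Z] M)
    (hw : ∀ x : 𝓞 M, x ∈ w'.asIdeal ↔
      RingOfIntegers.mapRingEquiv σ.toRingEquiv x ∈ w.asIdeal) {x : M}
    (hx : w'.valuation M x < 1) : w.valuation M (σ x) < 1 := by
  obtain ⟨n, ⟨d, hd⟩, hnd⟩ := w'.exists_primeCompl_mul_eq_of_integer x hx.le
  have hd1 : w'.valuation M (algebraMap (𝓞 M) M d) = 1 := by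
    rw [HeightOneSpectrum.valuation_eq_one_iff_notMem]
    exact hd
  have hn : n ∈ w'.asIdeal := by
    rw [← HeightOneSpectrum.valuation_lt_one_iff_mem (K := M)]
    have e := congrArg (w'.valuation M) hnd
    rw [map_mul] at e
    simp only at e
    rw [hd1, mul_one] at e
    change w'.valuation M (algebraMap (𝓞 M) M n) < 1
    rw [← e]
    exact hx
  have hn' := (hw n).1 hn
  have hd' : RingOfIntegers.mapRingEquiv σ.toRingEquiv d ∉ w.asIdeal := fun h => hd ((hw d).2 h)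
  rw [← HeightOneSpectrum.valuation_lt_one_iff_mem (K := M)] at hn'
  rw [← HeightOneSpectrum.valuation_eq_one_iff_notMem (K := M)] at hd'
  have e := congrArg σ hnd
  rw [map_mul] at e
  have e2 := congrArg (w.valuation M) e
  rw [map_mul] at e2
  have e3 : w.valuation M (σ ((algebraMap (𝓞 M) M) d)) = 1 := hd'
  have e4 : w.valuation M (σ ((algebraMap (𝓞 M) M) n)) < 1 := hn'
  simp only at e2
  rw [e3, mul_one] at e2
  rw [e2]
  exact e4

/-- the pull-back of a prime along an automorphism -/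
noncomputable def pull (σ : M ≃ₐ[Z] M) (w : HeightOneSpectrum (𝓞 M)) :
    HeightOneSpectrum (𝓞 M) :=
  HeightOneSpectrum.comap (RingOfIntegers.mapRingEquiv σ.toRingEquiv : 𝓞 M →+* 𝓞 M)
    (RingOfIntegers.mapRingEquiv σ.toRingEquiv).surjective w

end Card

end Vale.Agent.P024
end
end

section

section

/-!
The local principle: if the tame `l`-part of the inertia group survives under `α`, then `α` is
compatible with the action of Frobenius elements on the `l`-th roots of unity.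
-/

namespace Vale.Agent.P024

open scoped NumberField
open IsDedekindDomain NumberField

section Fix

variable {F E : Type*} [Field F] [Field E] [Algebra F E]

theorem fix_adjoin (g : E ≃ₐ[F] E) (S : Set E) (h : ∀ y ∈ S, g y = y) :
    ∀ y ∈ IntermediateField.adjoin F S, g y = y := by
  have h1 : IntermediateField.adjoin F S ≤
      IntermediateField.fixedField (Subgroup.zpowers g) := by
    rw [IntermediateField.adjoin_le_iff]
    intro y hy
    rw [SetLike.mem_coe, IntermediateField.mem_fixedField_iff]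
    rintro f ⟨n, rfl⟩
    have h2 : g ∈ MulAction.stabilizer (E ≃ₐ[F] E) y := h y hy
    exact Subgroup.zpow_mem _ h2 n
  intro y hy
  have h2 := h1 hy
  rw [IntermediateField.mem_fixedField_iff] at h2
  exact h2 g (Subgroup.mem_zpowers g)

theorem fix_pow_apply {g : E ≃ₐ[F] E} {n : ℕ} {y : E} (h : (g ^ n) y = y) (m i : ℕ) :
    (g ^ (n * m)) ((g ^ i) y) = (g ^ i) y := by
  rw [← AlgEquiv.mul_apply, ← pow_add, add_comm, pow_add, AlgEquiv.mul_apply]
  congr 1
  rw [pow_mul]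
  induction m with
  | zero => rfl
  | succ m ih => rw [pow_succ, AlgEquiv.mul_apply, h, ih]

end Fix

section StableField

variable {F E : Type*} [Field F] [NumberField F] [Field E] [Algebra F E] [IsGalois F E]
    [CharZero E] [Algebra.IsAlgebraic ℚ E]

/-- the number field generated by the orbits of `x` and `ξ` under `A` -/
theorem exists_stable_field (A : E ≃ₐ[F] E) (x ξ : E) :
    ∃ (K : IntermediateField F E) (m : ℕ), NumberField K ∧ x ∈ K ∧ ξ ∈ K ∧
      (∀ y ∈ K, A y ∈ K) ∧ 0 < m ∧ (∀ y ∈ K, (A ^ m) y = y) ∧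
      ∀ g : E ≃ₐ[F] E, (∀ i : ℕ, g ((A ^ i) x) = (A ^ i) x) →
        (∀ i : ℕ, g ((A ^ i) ξ) = (A ^ i) ξ) → ∀ y ∈ K, g y = y := by
  obtain ⟨n₁, hn₁, h₁⟩ := exists_pow_apply_eq A x
  obtain ⟨n₂, hn₂, h₂⟩ := exists_pow_apply_eq A ξ
  set S : Set E := (Set.range fun i : ℕ => (A ^ i) x) ∪ (Set.range fun i : ℕ => (A ^ i) ξ)
    with hS
  have hmod : ∀ (y : E) (n : ℕ), 0 < n → (A ^ n) y = y →
      (Set.range fun i : ℕ => (A ^ i) y).Finite := by
    intro y n hn hy
    refine ((Finset.range n).finite_toSet.image (fun i : ℕ => (A ^ i) y)).subset ?_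
    rintro _ ⟨i, rfl⟩
    refine ⟨i % n, by simpa using Nat.mod_lt i hn, ?_⟩
    simp only
    have h3 := fix_pow_apply hy (i / n) (i % n)
    rw [← AlgEquiv.mul_apply, ← pow_add, Nat.div_add_mod] at h3
    exact h3.symm
  have hSfin : S.Finite := (hmod x n₁ hn₁ h₁).union (hmod ξ n₂ hn₂ h₂)
  have : Finite S := hSfin
  have hint : ∀ y ∈ S, IsIntegral F y := fun y _ => Algebra.IsIntegral.isIntegral y
  have hfd : FiniteDimensional F (IntermediateField.adjoin F S) :=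
    IntermediateField.finiteDimensional_adjoin hint
  have hsub := IntermediateField.subset_adjoin F S
  refine ⟨IntermediateField.adjoin F S, n₁ * n₂, NumberField.of_module_finite F _, ?_, ?_, ?_,
    Nat.mul_pos hn₁ hn₂, ?_, ?_⟩
  · exact hsub (Or.inl ⟨0, rfl⟩)
  · exact hsub (Or.inr ⟨0, rfl⟩)
  · have h3 : IntermediateField.adjoin F S ≤
        (IntermediateField.adjoin F S).comap (A : E →ₐ[F] E) := by
      rw [IntermediateField.adjoin_le_iff]
      rintro y (⟨i, rfl⟩ | ⟨i, rfl⟩)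
      · refine hsub (Or.inl ⟨i + 1, ?_⟩)
        simp only
        rw [pow_succ', AlgEquiv.mul_apply]
        rfl
      · refine hsub (Or.inr ⟨i + 1, ?_⟩)
        simp only
        rw [pow_succ', AlgEquiv.mul_apply]
        rfl
    intro y hy
    exact h3 hy
  · refine fix_adjoin _ S ?_
    rintro y (⟨i, rfl⟩ | ⟨i, rfl⟩)
    · exact fix_pow_apply h₁ n₂ i
    · rw [mul_comm]
      exact fix_pow_apply h₂ n₁ i
  · intro g hg1 hg2
    refine fix_adjoin _ S ?_
    rintro y (⟨i, rfl⟩ | ⟨i, rfl⟩)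
    · exact hg1 i
    · exact hg2 i

/-- the automorphism of a stable field -/
theorem exists_restrict {F E : Type*} [Field F] [Field E] [Algebra F E] (A : E ≃ₐ[F] E)
    (K : IntermediateField F E) (hA : ∀ y ∈ K, A y ∈ K)
    {m : ℕ} (hm : 0 < m) (hAm : ∀ y ∈ K, (A ^ m) y = y) :
    ∃ σ : K ≃ₐ[F] K, ∀ y : K, ((σ y : K) : E) = A y := by
  have hApow : ∀ n : ℕ, ∀ y ∈ K, (A ^ n) y ∈ K := by
    intro n
    induction n with
    | zero => intro y hy; exact hy
    | succ n ih =>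
      intro y hy
      rw [pow_succ', AlgEquiv.mul_apply]
      exact hA _ (ih y hy)
  let f : ∀ (B : E ≃ₐ[F] E), (∀ y ∈ K, B y ∈ K) → K →ₐ[F] K := fun B hB =>
    { toFun := fun y => ⟨B y, hB y y.2⟩
      map_one' := Subtype.ext (map_one B)
      map_mul' := fun x y => Subtype.ext (map_mul B _ _)
      map_zero' := Subtype.ext (map_zero B)
      map_add' := fun x y => Subtype.ext (map_add B _ _)
      commutes' := fun r => Subtype.ext (B.commutes r) }
  refine ⟨AlgEquiv.ofAlgHom (f A hA) (f (A ^ (m - 1)) (hApow (m - 1))) ?_ ?_, fun y => rfl⟩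
  · ext y
    show A ((A ^ (m - 1)) (y : E)) = y
    rw [← AlgEquiv.mul_apply, ← pow_succ', Nat.sub_add_cancel hm]
    exact hAm y y.2
  · ext y
    show (A ^ (m - 1)) (A (y : E)) = y
    rw [← AlgEquiv.mul_apply, ← pow_succ, Nat.sub_add_cancel hm]
    exact hAm y y.2

/-- an automorphism preserving the elements with divisible valuation preserves the valuation -/
theorem val_div_apply {Z M : Type*} [Field Z] [Field M] [NumberField M] [Algebra Z M]
    (σ : M ≃ₐ[Z] M) (w : HeightOneSpectrum (𝓞 M)) {l : ℕ} (hl : l.Prime)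
    (h : ∀ x : M, x ≠ 0 → DvdVal w l x → DvdVal w l (σ x)) :
    ∃ x : M, x ≠ 0 ∧ ¬ DvdVal w l x ∧ w.valuation M (x / σ x) = 1 := by
  have hp : ∀ x : 𝓞 M, x ∈ (pull σ w).asIdeal ↔
      RingOfIntegers.mapRingEquiv σ.toRingEquiv x ∈ w.asIdeal := fun x => Iff.rfl
  have h1 : ∀ x : M, (pull σ w).valuation M x < 1 → w.valuation M (σ x) < 1 := fun x hx =>
    val_comap_lt σ hp hx
  have h2 : ∀ x : M, w.valuation M x < 1 → (pull σ w).valuation M (σ.symm x) < 1 := by
    intro x hx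
    refine val_comap_lt (w := pull σ w) (w' := w) σ.symm ?_ hx
    intro y
    rw [hp]
    have : RingOfIntegers.mapRingEquiv σ.toRingEquiv
        (RingOfIntegers.mapRingEquiv σ.symm.toRingEquiv y) = y := by
      apply RingOfIntegers.ext
      exact σ.apply_symm_apply (y : M)
    rw [this]
  have hlt : ∀ x : M, (pull σ w).valuation M x < 1 ↔ w.valuation M (σ x) < 1 := by
    intro x
    refine ⟨h1 x, fun hx => ?_⟩
    have := h2 _ hx
    rwa [σ.symm_apply_apply] at this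
  have hgt : ∀ x : M, 1 < (pull σ w).valuation M x ↔ 1 < w.valuation M (σ x) := by
    intro x
    by_cases hx : x = 0
    · subst hx
      simp
    · have hσx : σ x ≠ 0 := by simpa using hx
      have h3 := hlt x⁻¹
      rw [map_inv₀, map_inv₀, map_inv₀,
        inv_lt_one₀ (zero_lt_iff.2 ((Valuation.ne_zero_iff _).2 hx)),
        inv_lt_one₀ (zero_lt_iff.2 ((Valuation.ne_zero_iff _).2 hσx))] at h3
      exact h3
  have heq : ∀ x : M, (pull σ w).valuation M x = 1 ↔ w.valuation M (σ x) = 1 := by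
    intro x
    constructor
    · intro hx
      refine le_antisymm (not_lt.1 fun h3 => ?_) (not_lt.1 fun h3 => ?_)
      · rw [← hgt, hx] at h3; exact lt_irrefl _ h3
      · rw [← hlt, hx] at h3; exact lt_irrefl _ h3
    · intro hx
      refine le_antisymm (not_lt.1 fun h3 => ?_) (not_lt.1 fun h3 => ?_)
      · rw [hgt, hx] at h3; exact lt_irrefl _ h3
      · rw [hlt, hx] at h3; exact lt_irrefl _ h3
  have hww : w = pull σ w := by
    refine eq_of_dvdVal_imp hl w (pull σ w) fun x hx hd => ?_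
    obtain ⟨z, hz⟩ := h x hx hd
    refine ⟨σ.symm z, ?_⟩
    rw [heq, map_mul, map_pow, σ.apply_symm_apply, hz]
  rw [← hww] at hlt hgt heq
  obtain ⟨x, hx⟩ := w.valuation_exists_uniformizer M
  have hx0 : x ≠ 0 := by
    rintro rfl
    rw [map_zero] at hx
    exact WithZero.exp_ne_zero hx.symm
  have hσx0 : σ x ≠ 0 := by simpa using hx0
  have hle : ∀ y : M, w.valuation M y < 1 → w.valuation M y ≤ w.valuation M x := by
    intro y hy
    rw [hx]
    by_cases hy0 : y = 0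
    · subst hy0; simp
    · have h3 : w.valuation M y ≠ 0 := (Valuation.ne_zero_iff _).2 hy0
      rw [← WithZero.exp_log h3, ← WithZero.exp_zero, WithZero.exp_lt_exp] at hy
      rw [← WithZero.exp_log h3, WithZero.exp_le_exp]
      omega
  have hx1 : w.valuation M x < 1 := by
    rw [hx, ← WithZero.exp_zero, WithZero.exp_lt_exp]
    norm_num
  have h5 : w.valuation M (σ x) ≤ w.valuation M x := hle _ ((hlt x).1 hx1)
  have h6 : w.valuation M x ≤ w.valuation M (σ x) := by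
    have h7 : w.valuation M (σ.symm x) < 1 := by
      rw [hlt, σ.apply_symm_apply]; exact hx1
    have h8 := hle _ h7
    have h9 : w.valuation M (σ.symm x / x) ≤ 1 := by
      rw [map_div₀]
      exact (div_le_one₀ (zero_lt_iff.2 ((Valuation.ne_zero_iff _).2 hx0))).2 h8
    have h10 : w.valuation M (σ (σ.symm x / x)) ≤ 1 := by
      rw [← not_lt, ← hgt, not_lt]; exact h9
    rw [map_div₀, σ.apply_symm_apply, map_div₀] at h10
    exact (div_le_one₀ (zero_lt_iff.2 ((Valuation.ne_zero_iff _).2 hσx0))).1 h10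
  refine ⟨x, hx0, ?_, ?_⟩
  · intro hd
    have h11 := ((dvdVal_iff w hl.ne_zero x).1 hd).2
    rw [hx, WithZero.log_exp] at h11
    have h12 : (l : ℤ) ∣ 1 := by
      rw [← dvd_neg]; exact h11
    have h13 : l ∣ 1 := by exact_mod_cast h12
    exact hl.one_lt.ne' (Nat.dvd_one.1 h13)
  · rw [map_div₀, le_antisymm h5 h6, div_self]
    exact (Valuation.ne_zero_iff _).2 hx0

end StableField

end Vale.Agent.P024
end
end

section

section

/-!
Elements of pro-`p` order, and inertia elements that are trivial in the `p`-part of the tame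
quotient.
-/

namespace Vale.Agent.P024

open scoped NumberField ENNReal Topology
open IsDedekindDomain NumberField Filter

/-- `g` is a pro-`p` element: every orbit of `g` has `p`-power length. -/
def ProP {F E : Type*} [Field F] [Field E] [Algebra F E] (p : ℕ) (g : E ≃ₐ[F] E) : Prop :=
  ∀ x : E, ∃ n : ℕ, (g ^ (p ^ n)) x = x

/-- The image in the `p`-part of the tame quotient is trivial. -/
def TameTriv {F E : Type*} [Field F] [Field E] [Algebra F E] (O : ValuationSubring E) (p : ℕ)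
    (g : E ≃ₐ[F] E) : Prop :=
  ∀ x : E, x ≠ 0 → (g x / x) ^ p - 1 ∈ O.nonunits → g x / x - 1 ∈ O.nonunits

section

variable {F E : Type*} [Field F] [Field E] [Algebra F E] [IsGalois F E]

omit [IsGalois F E] in
theorem pow_conj (g t : E ≃ₐ[F] E) (n : ℕ) : (g * t * g⁻¹) ^ n = g * t ^ n * g⁻¹ := by
  exact conj_pow

omit [IsGalois F E] in
theorem ProP.conj {p : ℕ} {t : E ≃ₐ[F] E} (ht : ProP p t) (g : E ≃ₐ[F] E) :
    ProP p (g * t * g⁻¹) := by
  intro x
  obtain ⟨n, hn⟩ := ht (g⁻¹ x)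
  refine ⟨n, ?_⟩
  rw [pow_conj, AlgEquiv.mul_apply, AlgEquiv.mul_apply, hn, ← AlgEquiv.mul_apply, mul_inv_cancel,
    AlgEquiv.one_apply]

omit [IsGalois F E] in
theorem TameTriv.pow {O : ValuationSubring E} {p : ℕ} {g : E ≃ₐ[F] E} (h : TameTriv O p g) {x : E}
    (hx : x ≠ 0) (n : ℕ) (hn : (g x / x) ^ (p ^ n) - 1 ∈ O.nonunits) :
    g x / x - 1 ∈ O.nonunits := by
  induction n with
  | zero => simpa using hn
  | succ n ih =>
    apply ih
    have h1 := h (x ^ (p ^ n)) (pow_ne_zero _ hx) (by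
      rw [map_pow, ← div_pow, ← pow_mul, ← pow_succ]
      exact hn)
    rwa [map_pow, ← div_pow] at h1

theorem tameTriv_fix [CharZero E] [Algebra.IsAlgebraic ℚ E] (O : ValuationSubring E) (δ : E ≃ₐ[F] E) (hδs : Stab O δ)
    (hδ1 : ActsPow O δ 1) {p : ℕ} (hp : TameTriv O p δ) (n : ℕ)
    (hn : ((p ^ n : ℕ) : E) ∉ O.nonunits) (b : E) (hb : (δ ^ (p ^ n)) b = b) : δ b = b := by
  by_contra hne
  set N := p ^ n with hN
  set c : E := b - δ b with hc
  have hc0 : c ≠ 0 := sub_ne_zero.2 (Ne.symm hne)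
  set ω : E := δ c / c with hω
  have hωv : O.valuation ω = 1 := by
    rw [hω, map_div₀, valuation_map_eq O δ hδs, div_self ((O.valuation.ne_zero_iff).2 hc0)]
  have hsub : ∀ {a d : E}, Near O a d → O.valuation d = 1 → a - d ∈ O.nonunits := by
    intro a d h hd
    have e : a - d = d * (a / d - 1) := by
      have := h.2.1
      field_simp
    rw [e]
    exact Near.mul_mem_nonunits hd.le h.2.2
  have hnear : ∀ i : ℕ, (δ ^ i) c / c - ω ^ i ∈ O.nonunits := fun i =>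
    hsub (theta_pow hδs hδ1 hc0 i) (by rw [map_pow, hωv, one_pow])
  have hsum : ∑ i ∈ Finset.range N, (δ ^ i) c = 0 := by
    have h1 : ∀ i, (δ ^ i) c = (δ ^ i) b - (δ ^ (i + 1)) b := by
      intro i
      rw [hc, map_sub, pow_succ, AlgEquiv.mul_apply]
    simp only [h1]
    rw [Finset.sum_range_sub', pow_zero, AlgEquiv.one_apply, hb, sub_self]
  have hgeom : ∑ i ∈ Finset.range N, ω ^ i ∈ O.nonunits := by
    have h2 : ∑ i ∈ Finset.range N, ω ^ i =
        -∑ i ∈ Finset.range N, ((δ ^ i) c / c - ω ^ i) := by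
      rw [Finset.sum_sub_distrib, ← Finset.sum_div, hsum, zero_div, zero_sub, neg_neg]
    rw [h2]
    exact O.nonunits.neg_mem (O.nonunits.sum_mem fun i _ => hnear i)
  have hωO : O.valuation (ω - 1) ≤ 1 := by
    apply O.valuation.map_sub_le
    · rw [hωv]
    · rw [map_one]
  have h3 : ω ^ N - 1 ∈ O.nonunits := by
    rw [← geom_sum_mul, mul_comm]
    exact Near.mul_mem_nonunits hωO hgeom
  have h4 : ω - 1 ∈ O.nonunits := hp.pow hc0 n h3
  have h5 : ∀ i : ℕ, ω ^ i - 1 ∈ O.nonunits := by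
    intro i
    have h6 : Near O ω 1 := ⟨by rintro h; rw [h, map_zero] at hωv; exact zero_ne_one hωv,
      one_ne_zero, by rwa [div_one]⟩
    have h7 := (h6.pow i).2.2
    rwa [one_pow, div_one] at h7
  apply hn
  have h8 : (N : E) = ∑ i ∈ Finset.range N, ω ^ i - ∑ i ∈ Finset.range N, (ω ^ i - 1) := by
    rw [Finset.sum_sub_distrib]
    simp
  rw [h8]
  exact O.nonunits.sub_mem hgeom (O.nonunits.sum_mem fun i _ => h5 i)

/-- the same for open subgroups -/
theorem tameTriv_mem [CharZero E] [Algebra.IsAlgebraic ℚ E] (O : ValuationSubring E) (δ : E ≃ₐ[F] E) (hδs : Stab O δ)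
    (hδ1 : ActsPow O δ 1) {p : ℕ} (hp : TameTriv O p δ) (n : ℕ)
    (hn : ((p ^ n : ℕ) : E) ∉ O.nonunits)
    (V : Subgroup (E ≃ₐ[F] E)) (hV : IsOpen (V : Set (E ≃ₐ[F] E))) (hn' : δ ^ (p ^ n) ∈ V) :
    δ ∈ V := by
  have hVc : IsClosed (V : Set (E ≃ₐ[F] E)) := V.isClosed_of_isOpen hV
  have h1 := InfiniteGalois.fixingSubgroup_fixedField (⟨V, hVc⟩ : ClosedSubgroup (E ≃ₐ[F] E))
  have h2 : δ ∈ (IntermediateField.fixedField V).fixingSubgroup := by
    rw [IntermediateField.mem_fixingSubgroup_iff]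
    intro b hb
    refine tameTriv_fix O δ hδs hδ1 hp n hn b ?_
    rw [IntermediateField.mem_fixedField_iff] at hb
    exact hb _ hn'
  have h3 : (IntermediateField.fixedField V).fixingSubgroup = V := h1
  rwa [h3] at h2

/-- the pro-`p` part of an automorphism -/
theorem exists_proP_part (g : E ≃ₐ[F] E) {p : ℕ} (hp : p.Prime) :
    ∃ t : E ≃ₐ[F] E, ProP p t ∧
      (∀ C : Set (E ≃ₐ[F] E), IsClosed C → (∀ n : ℕ, g ^ n ∈ C) → t ∈ C) ∧
      ∀ (x : E) (k : ℕ), (g ^ (p ^ k)) x = x → t x = g x := by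
  -- the exponents
  set f : ℕ → ℕ := fun n => (n.factorial) / p ^ (n.factorial.factorization p) with hf
  set u : ℕ → ℕ := fun n => f n ^ (Nat.totient (p ^ n)) with hu
  have hcop : ∀ n, (f n).Coprime p := fun n =>
    (Nat.coprime_ordCompl hp (Nat.factorial_ne_zero n)).symm
  have hu1 : ∀ k n, k ≤ n → u n ≡ 1 [MOD p ^ k] := by
    intro k n hkn
    have h1 : u n ≡ 1 [MOD p ^ n] := Nat.ModEq.pow_totient ((hcop n).pow_right n)
    exact h1.of_dvd (pow_dvd_pow p hkn)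
  have hu0 : ∀ m n, 0 < m → m ≤ n → m.Coprime p → m ∣ u n := by
    intro m n hm hmn hmp
    have h1 : m ∣ n.factorial := Nat.dvd_factorial hm hmn
    have h2 : p ^ (n.factorial.factorization p) * f n = n.factorial :=
      Nat.ordProj_mul_ordCompl_eq_self _ _
    have h3 : m ∣ f n := by
      rw [← h2] at h1
      exact (Nat.Coprime.pow_right _ hmp).dvd_of_dvd_mul_left h1
    exact h3.trans (dvd_pow_self _ (Nat.totient_pos.2 (pow_pos hp.pos n)).ne')
  obtain ⟨t, ht⟩ := exists_clusterPt_of_compactSpace (Filter.map (fun n => g ^ (u n)) atTop)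
  have hmem : ∀ C : Set (E ≃ₐ[F] E), IsClosed C → (∀ᶠ n in atTop, g ^ (u n) ∈ C) → t ∈ C := by
    intro C hC hev
    refine (isClosed_iff_clusterPt.1 hC) t (ht.mono ?_)
    rw [le_principal_iff, mem_map]
    exact hev
  have hfix : ∀ (x : E) (m : ℕ), (g ^ m) x = x → ∀ i, (g ^ (m * i)) x = x := by
    intro x m hm i
    induction i with
    | zero => simp
    | succ i ih => rw [Nat.mul_succ, pow_add, AlgEquiv.mul_apply, hm, ih]
  refine ⟨t, ?_, ?_, ?_⟩
  · intro x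
    obtain ⟨m, hm0, hm⟩ := exists_pow_apply_eq g x
    obtain ⟨k, m', hm', rfl⟩ := Nat.exists_eq_pow_mul_and_not_dvd hm0.ne' p hp.ne_one
    have hm'0 : 0 < m' := Nat.pos_of_ne_zero (by rintro rfl; simp at hm')
    refine ⟨k, ?_⟩
    have hC : IsClosed {h : E ≃ₐ[F] E | (h ^ (p ^ k)) x = x} :=
      (isClosed_apply x (fun y => y = x)).preimage (continuous_pow (p ^ k))
    refine hmem _ hC ?_
    filter_upwards [eventually_ge_atTop m'] with n hn
    obtain ⟨c, hc⟩ := hu0 m' n hm'0 hn ((Nat.Prime.coprime_iff_not_dvd hp).2 hm').symm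
    show ((g ^ (u n)) ^ (p ^ k)) x = x
    rw [← pow_mul, hc, show m' * c * p ^ k = p ^ k * m' * c by ring]
    exact hfix x _ hm c
  · intro C hC h
    exact hmem C hC (Eventually.of_forall fun n => h _)
  · intro x k hk
    have hC : IsClosed {h : E ≃ₐ[F] E | h x = g x} := isClosed_apply x (fun y => y = g x)
    refine hmem _ hC ?_
    filter_upwards [eventually_ge_atTop k] with n hn
    show (g ^ (u n)) x = g x
    have h1 := hu1 k n hn
    rcases Nat.eq_zero_or_pos (u n) with h0 | h0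
    · rw [h0] at h1
      have h2 : p ^ k ∣ 1 := (Nat.modEq_zero_iff_dvd.1 h1.symm)
      rw [Nat.dvd_one] at h2
      rw [h2, pow_one] at hk
      rw [h0, pow_zero, AlgEquiv.one_apply, hk]
    · obtain ⟨c, hc⟩ := (Nat.modEq_iff_dvd' h0).1 h1.symm
      have h3 : u n = 1 + p ^ k * c := by omega
      rw [h3, pow_add, AlgEquiv.mul_apply, hfix x _ hk c, pow_one]

end

section

variable {F E : Type*} [Field F] [Field E] [Algebra F E] [IsGalois F E] [CharZero F]

theorem ProP.mem_open {p : ℕ} {t : E ≃ₐ[F] E} (ht : ProP p t) (V : Subgroup (E ≃ₐ[F] E))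
    (hV : IsOpen (V : Set (E ≃ₐ[F] E))) : ∃ n : ℕ, t ^ (p ^ n) ∈ V := by
  have hVc : IsClosed (V : Set (E ≃ₐ[F] E)) := V.isClosed_of_isOpen hV
  have h1 : (IntermediateField.fixedField V).fixingSubgroup = V :=
    InfiniteGalois.fixingSubgroup_fixedField (⟨V, hVc⟩ : ClosedSubgroup (E ≃ₐ[F] E))
  set N := IntermediateField.fixedField V with hN
  have hfd : FiniteDimensional F N := by
    rw [← InfiniteGalois.isOpen_iff_finite, h1]
    exact hV
  obtain ⟨y, hy⟩ := Field.exists_primitive_element F N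
  obtain ⟨n, hn⟩ := ht (y : E)
  refine ⟨n, ?_⟩
  rw [← h1, IntermediateField.mem_fixingSubgroup_iff]
  have h3 : N = IntermediateField.adjoin F {(y : E)} := by
    have h4 := congrArg (IntermediateField.map N.val) hy
    rw [IntermediateField.adjoin_map, Set.image_singleton, ← AlgHom.fieldRange_eq_map,
      IntermediateField.fieldRange_val] at h4
    exact h4.symm
  rw [h3]
  refine fix_adjoin _ _ ?_
  rintro _ rfl
  exact hn

end

section

variable {F₁ E₁ F₂ E₂ : Type*} [Field F₁] [Field E₁] [Algebra F₁ E₁] [IsGalois F₁ E₁]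
    [Field F₂] [Field E₂] [Algebra F₂ E₂] [IsGalois F₂ E₂]

theorem ProP.image [CharZero F₁] {α : (E₁ ≃ₐ[F₁] E₁) →* (E₂ ≃ₐ[F₂] E₂)} (hα : Continuous α)
    {p : ℕ} {t : E₁ ≃ₐ[F₁] E₁} (ht : ProP p t) : ProP p (α t) := by
  intro b
  let V : Subgroup (E₁ ≃ₐ[F₁] E₁) := (MulAction.stabilizer (E₂ ≃ₐ[F₂] E₂) b).comap α
  have hV : IsOpen (V : Set (E₁ ≃ₐ[F₁] E₁)) := by
    have h1 : IsOpen ((MulAction.stabilizer (E₂ ≃ₐ[F₂] E₂) b : Subgroup (E₂ ≃ₐ[F₂] E₂)) :
      Set (E₂ ≃ₐ[F₂] E₂)) := stabilizer_isOpen_of_isIntegral (K := F₂) (L := E₂) b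
    exact h1.preimage hα
  obtain ⟨n, hn⟩ := ht.mem_open V hV
  refine ⟨n, ?_⟩
  have h2 : α (t ^ (p ^ n)) b = b := hn
  rwa [map_pow] at h2

theorem tameTriv_image [CharZero E₁] [Algebra.IsAlgebraic ℚ E₁] {α : (E₁ ≃ₐ[F₁] E₁) →* (E₂ ≃ₐ[F₂] E₂)} (hα : Continuous α)
    {O : ValuationSubring E₁} (δ : E₁ ≃ₐ[F₁] E₁) (hδs : Stab O δ) (hδ1 : ActsPow O δ 1) {p : ℕ}
    (hp : TameTriv O p δ) (n : ℕ) (hn : ((p ^ n : ℕ) : E₁) ∉ O.nonunits) (b : E₂)
    (hb : ((α δ) ^ (p ^ n)) b = b) : (α δ) b = b := by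
  let V : Subgroup (E₁ ≃ₐ[F₁] E₁) := (MulAction.stabilizer (E₂ ≃ₐ[F₂] E₂) b).comap α
  have hV : IsOpen (V : Set (E₁ ≃ₐ[F₁] E₁)) := by
    have h1 : IsOpen ((MulAction.stabilizer (E₂ ≃ₐ[F₂] E₂) b : Subgroup (E₂ ≃ₐ[F₂] E₂)) :
      Set (E₂ ≃ₐ[F₂] E₂)) := stabilizer_isOpen_of_isIntegral (K := F₂) (L := E₂) b
    exact h1.preimage hα
  have h2 := tameTriv_mem O δ hδs hδ1 hp n hn V hV (by
    change α (δ ^ (p ^ n)) b = b
    rw [map_pow]; exact hb)
  exact h2

/-- a pro-`p` element fixes the `p`-th roots of unity -/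
theorem ProP.root {F E : Type*} [Field F] [Field E] [Algebra F E] {p : ℕ} (hp : p.Prime)
    {t : E ≃ₐ[F] E} (ht : ProP p t) {ζ : E} (hζ : IsPrimitiveRoot ζ p) : t ζ = ζ := by
  have hfp : Fact p.Prime := ⟨hp⟩
  have hnz : NeZero p := ⟨hp.ne_zero⟩
  obtain ⟨n, hn⟩ := ht ζ
  obtain ⟨a, -, ha⟩ := hζ.eq_pow_of_pow_eq_one (ξ := t ζ)
    (by rw [← map_pow, hζ.pow_eq_one, map_one])
  have h1 : ∀ k : ℕ, (t ^ k) ζ = ζ ^ (a ^ k) := by
    intro k
    induction k with
    | zero => simp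
    | succ k ih => rw [pow_succ', AlgEquiv.mul_apply, ih, map_pow, ← ha, ← pow_mul, pow_succ']
  rw [h1] at hn
  have h2 : a ^ (p ^ n) ≡ a [MOD p] := by
    rw [← ZMod.natCast_eq_natCast_iff]
    push_cast
    exact ZMod.pow_card_pow _
  have h3 : ζ ^ (a ^ (p ^ n)) = ζ ^ a := (rootPow_eq_iff_modEq hζ _ _ hp.pos).2 h2
  rw [← ha, ← h3, hn]

end

end Vale.Agent.P024
end
end

section

section

/-!
P024: primes avoiding power residue conditions, in a set of primes of positive upper density.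
-/

namespace Vale.Agent.P024

open scoped NumberField ENNReal Topology
open IsDedekindDomain Polynomial Filter

theorem exists_prime_avoiding_dens (Z : Type) [Field Z] [NumberField Z] {l : ℕ} (hl : l.Prime)
    {ζ : Z} (hζ : IsPrimitiveRoot ζ l) {ι : Type} [Fintype ι] (d : ℕ) (a : ι → Fin d → Z)
    (ha0 : ∀ i j, a i j ≠ 0)
    (hind : ∀ i, ∀ e : Fin d → ℕ, (∃ y : Z, y ^ l = ∏ j, a i j ^ e j) → ∀ j, l ∣ e j)
    (G : Set (HeightOneSpectrum (𝓞 Z))) (δ : ℝ)
    (hG : ∃ᶠ s : ℝ in 𝓝[>] 1, ENNReal.ofReal (δ * Real.log (1 / (s - 1))) ≤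
      ∑' p : G, ENNReal.ofReal (nm Z p.1 s))
    (hcard : (Fintype.card ι : ℝ) < δ * l ^ d) (S : Finset (HeightOneSpectrum (𝓞 Z))) :
    ∃ v : HeightOneSpectrum (𝓞 Z), v ∈ G ∧ v ∉ S ∧
      ∀ i, ¬ ∀ j, IsPowMod v l (a i j) := by
  classical
  have hnz : NeZero l := ⟨hl.ne_zero⟩
  -- integral representatives
  have hrep : ∀ i j, ∃ x y : 𝓞 Z, y ≠ 0 ∧ (x : Z) = a i j * (y : Z) ^ l := by
    intro i j
    obtain ⟨x, y, hy, hxy⟩ := IsFractionRing.div_surjective (A := 𝓞 Z) (a i j)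
    have hy0 : y ≠ 0 := nonZeroDivisors.ne_zero hy
    have hy0' : (algebraMap (𝓞 Z) Z y) ≠ 0 := by
      rw [Ne, map_eq_zero_iff _ (FaithfulSMul.algebraMap_injective (𝓞 Z) Z)]
      exact hy0
    refine ⟨x * y ^ (l - 1), y, hy0, ?_⟩
    change algebraMap (𝓞 Z) Z (x * y ^ (l - 1)) = a i j * (algebraMap (𝓞 Z) Z y) ^ l
    rw [map_mul, map_pow, ← hxy, div_mul_eq_mul_div, eq_div_iff hy0', mul_assoc, ← pow_succ,
      Nat.sub_add_cancel hl.one_le]
  choose A y hy0 hA using hrep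
  have hyZ : ∀ i j, ((y i j : 𝓞 Z) : Z) ≠ 0 := by
    intro i j
    have := hy0 i j
    simpa using this
  have hA0 : ∀ i j, A i j ≠ 0 := by
    intro i j h
    have h1 := hA i j
    rw [h] at h1
    have h2 : a i j * ((y i j : 𝓞 Z) : Z) ^ l = 0 := by
      rw [← h1]; rfl
    rcases mul_eq_zero.1 h2 with h3 | h3
    · exact ha0 i j h3
    · exact hyZ i j (pow_eq_zero_iff hl.ne_zero |>.1 h3)
  have hind' : ∀ i, ∀ e : Fin d → ℕ, (∃ t : Z, t ^ l = ∏ j, (A i j : Z) ^ e j) →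
      ∀ j, l ∣ e j := by
    rintro i e ⟨t, ht⟩
    refine hind i e ⟨t / ∏ j, ((y i j : 𝓞 Z) : Z) ^ e j, ?_⟩
    have hne : (∏ j, ((y i j : 𝓞 Z) : Z) ^ e j) ≠ 0 :=
      Finset.prod_ne_zero_iff.2 (fun j _ => pow_ne_zero _ (hyZ i j))
    rw [div_pow, ht, div_eq_iff (pow_ne_zero _ hne), ← Finset.prod_pow, ← Finset.prod_mul_distrib]
    refine Finset.prod_congr rfl (fun j _ => ?_)
    rw [hA i j, mul_pow]
    ring
  have hζO : IsPrimitiveRoot hζ.toInteger l := hζ.toInteger_isPrimitiveRoot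
  have htower := fun i => Avoid.tower hl d Z hζ.toInteger hζO (A i) (hA0 i) (hind' i)
  choose M f1 f2 f3 hfin S' hS' using htower
  by_contra hcon
  push Not at hcon
  have hcov := le_sum_of_cover_dens Z M (fun _ => l ^ d) (fun _ => pow_pos hl.pos d) G δ hG
    ((S ∪ Finset.univ.biUnion S' : Finset (HeightOneSpectrum (𝓞 Z))) :
      Set (HeightOneSpectrum (𝓞 Z))) (Finset.finite_toSet _) (by
    intro p hpG hp
    rw [Finset.mem_coe, Finset.mem_union, not_or] at hp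
    obtain ⟨i, hi⟩ := hcon p hpG hp.1
    have hpS : p ∉ S' i := fun h => hp.2 (Finset.mem_biUnion.2 ⟨i, Finset.mem_univ _, h⟩)
    exact ⟨i, hS' i p hpS (fun j => Avoid.pow_mod_integral Z p hl (a i j) (A i j) (y i j)
      (hA i j) (hi j))⟩)
  rw [Finset.sum_const, Finset.card_univ, nsmul_eq_mul] at hcov
  have h1 : (0 : ℝ) < ((l ^ d : ℕ) : ℝ) := by
    have := pow_pos hl.pos d
    exact_mod_cast this
  rw [mul_one_div, le_div_iff₀ h1] at hcov
  rw [Nat.cast_pow] at hcov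
  linarith

end Vale.Agent.P024
end
end

section

section

/-!
Local theory, part 3: existence of test elements for arbitrarily large stable fields.
-/

namespace Vale.Agent.P024

open scoped NumberField
open IsDedekindDomain NumberField

section General

variable {F E : Type*} [Field F] [Field E] [Algebra F E]

/-- eigenvectors of an automorphism of order `l` -/
theorem exists_eigen [CharZero E] {l : ℕ} (hl : l.Prime) {ζ : E} (hζ : IsPrimitiveRoot ζ l)
    (B : E ≃ₐ[F] E) (hBζ : B ζ = ζ) (z : E) (hz : (B ^ l) z = z) (hz' : B z ≠ z)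
    (L : IntermediateField F E) (hL : ∀ i : ℕ, (B ^ i) z ∈ L) (hζL : ζ ∈ L) :
    ∃ b ∈ L, ∃ i : ℕ, b ≠ 0 ∧ ¬ l ∣ i ∧ B b = ζ ^ i * b := by
  let R : ℕ → E := fun i => ∑ j ∈ Finset.range l, ζ ^ (i * j) * (B ^ j) z
  have hRL : ∀ i, R i ∈ L := fun i =>
    sum_mem fun j _ => mul_mem (pow_mem hζL _) (hL j)
  have hζ0 : ζ ≠ 0 := hζ.ne_zero hl.ne_zero
  have hBR : ∀ i, ζ ^ i * B (R i) = R i := by
    intro i
    have h1 : ζ ^ i * B (R i) = ∑ j ∈ Finset.range l, ζ ^ (i * (j + 1)) * (B ^ (j + 1)) z := by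
      show ζ ^ i * B (∑ j ∈ Finset.range l, ζ ^ (i * j) * (B ^ j) z) = _
      rw [map_sum, Finset.mul_sum]
      refine Finset.sum_congr rfl fun j _ => ?_
      rw [map_mul, map_pow, hBζ, pow_succ' B, AlgEquiv.mul_apply]
      ring
    rw [h1]
    have h2 := Finset.sum_range_succ' (fun j => ζ ^ (i * j) * (B ^ j) z) l
    have h3 := Finset.sum_range_succ (fun j => ζ ^ (i * j) * (B ^ j) z) l
    rw [h3] at h2
    have h4 : ζ ^ (i * l) * (B ^ l) z = ζ ^ (i * 0) * (B ^ 0) z := by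
      rw [hz, mul_comm i l, pow_mul, hζ.pow_eq_one, one_pow]
      simp
    rw [h4] at h2
    exact (add_right_cancel h2).symm
  have hsum : ∑ i ∈ Finset.range l, R i = l * z := by
    show ∑ i ∈ Finset.range l, ∑ j ∈ Finset.range l, ζ ^ (i * j) * (B ^ j) z = _
    rw [Finset.sum_comm]
    have h1 : ∀ j ∈ Finset.range l, ∑ i ∈ Finset.range l, ζ ^ (i * j) * (B ^ j) z =
        if j = 0 then l * z else 0 := by
      intro j hj
      rw [← Finset.sum_mul]
      split_ifs with h0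
      · subst h0
        simp
      · have hjl : j < l := Finset.mem_range.1 hj
        have hcop : Nat.Coprime j l := Nat.Coprime.symm
          ((Nat.Prime.coprime_iff_not_dvd hl).2 fun h =>
            absurd (Nat.le_of_dvd (Nat.pos_of_ne_zero h0) h) (not_le.2 hjl))
        have h2 := (hζ.pow_of_coprime j hcop).geom_sum_eq_zero hl.one_lt
        have h3 : ∑ i ∈ Finset.range l, ζ ^ (i * j) = 0 := by
          rw [← h2]
          exact Finset.sum_congr rfl fun i _ => by rw [mul_comm, pow_mul]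
        rw [h3, zero_mul]
    rw [Finset.sum_congr rfl h1, Finset.sum_ite_eq' (Finset.range l) 0]
    rw [if_pos (Finset.mem_range.2 hl.pos)]
  by_contra hcon
  push Not at hcon
  have hR0 : ∀ i ∈ Finset.range l, i ≠ 0 → R i = 0 := by
    intro i hi hi0
    by_contra hRi
    refine hcon (R i) (hRL i) ((l - 1) * i) hRi ?_ ?_
    · intro hd
      rcases hl.dvd_mul.1 hd with h | h
      · have := Nat.le_of_dvd (Nat.sub_pos_of_lt hl.one_lt) h
        have := hl.two_le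
        omega
      · exact absurd (Nat.le_of_dvd (Nat.pos_of_ne_zero hi0) h) (not_le.2 (Finset.mem_range.1 hi))
    · have h1 := hBR i
      have h2 : ζ ^ ((l - 1) * i) * ζ ^ i = 1 := by
        rw [← pow_add]
        have : (l - 1) * i + i = l * i := by
          obtain ⟨k, rfl⟩ : ∃ k, l = k + 1 := ⟨l - 1, by have := hl.pos; omega⟩
          simp only [Nat.add_sub_cancel]
          ring
        rw [this, pow_mul, hζ.pow_eq_one, one_pow]
      calc B (R i) = (ζ ^ ((l - 1) * i) * ζ ^ i) * B (R i) := by rw [h2, one_mul]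
        _ = ζ ^ ((l - 1) * i) * R i := by rw [mul_assoc, h1]
  rw [Finset.sum_eq_single_of_mem 0 (Finset.mem_range.2 hl.pos) hR0] at hsum
  have h1 := hBR 0
  rw [hsum, pow_zero, one_mul, map_mul, map_natCast] at h1
  exact hz' (mul_left_cancel₀ (Nat.cast_ne_zero.2 hl.ne_zero) h1)

theorem pow_fix_of_proP {l : ℕ} (hl : l.Prime) {B : E ≃ₐ[F] E} (hB : ProP l B) {N : ℕ}
    (hN : 0 < N) :
    ∃ a : ℕ, ∀ y : E, (B ^ N) y = y → (B ^ (l ^ a)) y = y := by
  obtain ⟨a, M, hM, hNM⟩ := Nat.exists_eq_pow_mul_and_not_dvd hN.ne' l hl.ne_one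
  refine ⟨a, fun y hy => ?_⟩
  obtain ⟨k, hk⟩ := hB y
  let S := MulAction.stabilizer (E ≃ₐ[F] E) y
  have h1 : B ^ N ∈ S := hy
  have h2 : B ^ (l ^ (k + a)) ∈ S := by
    rw [pow_add, pow_mul]
    exact S.pow_mem hk _
  have h3 : Nat.gcd (l ^ (k + a)) N = l ^ a := by
    rw [hNM, pow_add, mul_comm (l ^ k), Nat.gcd_mul_left]
    have h4 : Nat.gcd (l ^ k) M = 1 :=
      Nat.Coprime.pow_left k ((Nat.Prime.coprime_iff_not_dvd hl).2 hM)
    rw [h4, mul_one]
  have h5 : B ^ (Nat.gcd (l ^ (k + a)) N) ∈ S := by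
    rw [← zpow_natCast, Nat.gcd_eq_gcd_ab, zpow_add, zpow_mul, zpow_mul, zpow_natCast,
      zpow_natCast]
    exact S.mul_mem (S.zpow_mem h2 _) (S.zpow_mem h1 _)
  rw [h3] at h5
  exact h5

/-- `K` is stable under all automorphisms. -/
def StableK (K : IntermediateField F E) : Prop := ∀ (σ : E ≃ₐ[F] E), ∀ y ∈ K, σ y ∈ K

theorem finite_orbit [IsGalois F E] (y : E) :
    (Set.range fun σ : E ≃ₐ[F] E => σ y).Finite := by
  have hx : IsIntegral F y := Algebra.IsIntegral.isIntegral y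
  refine Set.Finite.subset ((minpoly F y).rootSet_finite E) ?_
  rintro _ ⟨σ, rfl⟩
  rw [Polynomial.mem_rootSet]
  refine ⟨minpoly.ne_zero hx, ?_⟩
  have := Polynomial.aeval_algHom_apply (σ : E →ₐ[F] E) y (minpoly F y)
  simp only [minpoly.aeval, map_zero] at this
  exact this

/-- adding the conjugates of an element -/
theorem exists_stable_sup [IsGalois F E] [NumberField F] (K : IntermediateField F E)
    [NumberField K] (hK : StableK K) (c : E) :
    ∃ (K' : IntermediateField F E), NumberField K' ∧ K ≤ K' ∧ StableK K' ∧ c ∈ K' ∧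
      ∀ B : E ≃ₐ[F] E, (∀ y ∈ K, B y = y) → (∀ σ : E ≃ₐ[F] E, B (σ c) = σ c) →
        ∀ y ∈ K', B y = y := by
  set S : Set E := Set.range fun σ : E ≃ₐ[F] E => σ c with hS
  have hSfin : S.Finite := finite_orbit c
  have hfdS : FiniteDimensional F (IntermediateField.adjoin F S) := by
    have : Finite S := hSfin
    exact IntermediateField.finiteDimensional_adjoin fun y _ => Algebra.IsIntegral.isIntegral y
  have hfdK : FiniteDimensional F K := Module.Finite.of_restrictScalars_finite ℚ F K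
  have hfd : FiniteDimensional F (K ⊔ IntermediateField.adjoin F S : IntermediateField F E) :=
    IntermediateField.finiteDimensional_sup _ _
  refine ⟨K ⊔ IntermediateField.adjoin F S, NumberField.of_module_finite F _, le_sup_left, ?_, ?_,
    ?_⟩
  · intro σ
    have h1 : K ⊔ IntermediateField.adjoin F S ≤
        (K ⊔ IntermediateField.adjoin F S).comap (σ : E →ₐ[F] E) := by
      refine sup_le (fun y hy => ?_) ?_
      · exact (le_sup_left : K ≤ K ⊔ IntermediateField.adjoin F S) (hK σ y hy)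
      · rw [IntermediateField.adjoin_le_iff]
        rintro _ ⟨τ, rfl⟩
        refine (le_sup_right : _ ≤ K ⊔ IntermediateField.adjoin F S)
          (IntermediateField.subset_adjoin F S ⟨σ * τ, rfl⟩)
    exact fun y hy => h1 hy
  · exact (le_sup_right : _ ≤ K ⊔ IntermediateField.adjoin F S)
      (IntermediateField.subset_adjoin F S ⟨1, rfl⟩)
  · intro B hB1 hB2
    have h3 : K ⊔ IntermediateField.adjoin F S ≤
        IntermediateField.fixedField (Subgroup.zpowers B) := by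
      refine sup_le ?_ ?_
      · intro y hy
        rw [IntermediateField.mem_fixedField_iff]
        intro f hf
        have h5 : ∀ f ∈ Subgroup.zpowers B, f ∈ MulAction.stabilizer (E ≃ₐ[F] E) y :=
          Subgroup.zpowers_le.2 (hB1 y hy)
        exact h5 f hf
      · rw [IntermediateField.adjoin_le_iff]
        rintro _ ⟨σ, rfl⟩
        show σ c ∈ IntermediateField.fixedField (Subgroup.zpowers B)
        rw [IntermediateField.mem_fixedField_iff]
        intro f hf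
        have h5 : ∀ f ∈ Subgroup.zpowers B, f ∈ MulAction.stabilizer (E ≃ₐ[F] E) (σ c) :=
          Subgroup.zpowers_le.2 (hB2 σ)
        exact h5 f hf
    intro y hy
    exact (IntermediateField.mem_fixedField_iff _ _).1 (h3 hy) _ (Subgroup.mem_zpowers _)

end General

end Vale.Agent.P024
end
end

section

section

/-!
Auxiliary results on `l`-adic units and on finite fields.
-/

namespace Vale.Agent.P024

section Padic

variable {l : ℕ} [hl : Fact l.Prime]

/-- reduction modulo `l ^ k` -/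
noncomputable def redu (k : ℕ) : ℤ_[l]ˣ →* (ZMod (l ^ k))ˣ :=
  Units.map (PadicInt.toZModPow k : ℤ_[l] →+* ZMod (l ^ k)).toMonoidHom

theorem redu_ext {x y : ℤ_[l]ˣ} (h : ∀ k, redu k x = redu k y) : x = y := by
  apply Units.ext
  rw [← PadicInt.ext_of_toZModPow]
  intro k
  exact congrArg Units.val (h k)

theorem redu_eq_one_iff (x : ℤ_[l]ˣ) {j k : ℕ} (hkj : k ≤ j) {X : ℤ}
    (hX : ((redu j x : (ZMod (l ^ j))ˣ) : ZMod (l ^ j)) = (X : ZMod (l ^ j))) :
    redu k x = 1 ↔ ((l : ℤ) ^ k) ∣ X - 1 := by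
  have h1 : ((redu k x : (ZMod (l ^ k))ˣ) : ZMod (l ^ k)) = (X : ZMod (l ^ k)) := by
    have h2 : ((redu k x : (ZMod (l ^ k))ˣ) : ZMod (l ^ k)) =
        ZMod.castHom (pow_dvd_pow l hkj) (ZMod (l ^ k))
          ((redu j x : (ZMod (l ^ j))ˣ) : ZMod (l ^ j)) := by
      show PadicInt.toZModPow k (x : ℤ_[l]) =
        ZMod.castHom (pow_dvd_pow l hkj) (ZMod (l ^ k)) (PadicInt.toZModPow j (x : ℤ_[l]))
      rw [← PadicInt.zmod_cast_comp_toZModPow k j hkj]
      rfl
    rw [h2, hX, map_intCast]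
  rw [← Units.val_inj, h1, Units.val_one]
  have h3 : ((X : ZMod (l ^ k)) = 1) ↔ ((X : ZMod (l ^ k)) = ((1 : ℤ) : ZMod (l ^ k))) := by
    rw [Int.cast_one]
  rw [h3, ZMod.intCast_eq_intCast_iff_dvd_sub]
  push_cast
  constructor
  · intro h
    rw [← neg_sub]
    exact (dvd_neg).2 h
  · intro h
    rw [← neg_sub]
    exact (dvd_neg).2 h

theorem exists_int_rep (x : ℤ_[l]ˣ) (j : ℕ) :
    ∃ X : ℤ, ((redu j x : (ZMod (l ^ j))ˣ) : ZMod (l ^ j)) = (X : ZMod (l ^ j)) := by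
  obtain ⟨X, hX⟩ := ZMod.intCast_surjective ((redu j x : (ZMod (l ^ j))ˣ) : ZMod (l ^ j))
  exact ⟨X, hX.symm⟩

/-- (F3) -/
theorem dvd_of_redu_pow (hl2 : l ≠ 2) {x : ℤ_[l]ˣ} (h1 : redu 1 x = 1) {n : ℕ}
    (hn : redu n x ≠ 1) {j a : ℕ} (hj : n ≤ j) (ha : redu j (x ^ a) = 1) :
    l ^ (j - n + 1) ∣ a := by
  have hp := hl.out
  have hn1 : 1 ≤ n := by
    by_contra h0
    apply hn
    obtain rfl : n = 0 := by omega
    apply Units.ext
    exact Subsingleton.elim (α := ZMod (l ^ 0)) (h := by rw [pow_zero]; infer_instance) _ _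
  obtain ⟨X, hX⟩ := exists_int_rep x j
  have hX1 := (redu_eq_one_iff x (hn1.trans hj) hX).1 h1
  have hXn : ¬ (l : ℤ) ^ n ∣ X - 1 := fun h => hn ((redu_eq_one_iff x hj hX).2 h)
  have hXa : (l : ℤ) ^ j ∣ X ^ a - 1 := by
    refine (redu_eq_one_iff (x ^ a) le_rfl (X := X ^ a) ?_).1 ha
    rw [map_pow, Units.val_pow_eq_pow_val, hX, Int.cast_pow]
  rw [pow_one] at hX1
  have hXl : ¬ (l : ℤ) ∣ X := by
    intro h
    have h2 : (l : ℤ) ∣ 1 := by
      have := dvd_sub h hX1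
      simpa using this
    have h3 : l ∣ 1 := by exact_mod_cast h2
    exact hp.one_lt.ne' (Nat.dvd_one.1 h3)
  have h3 := Int.emultiplicity_pow_sub_pow hp (hp.odd_of_ne_two hl2) hX1 hXl a
  rw [one_pow] at h3
  rw [pow_dvd_iff_le_emultiplicity] at hXa ⊢
  rw [← emultiplicity_lt_iff_not_dvd] at hXn
  rw [h3] at hXa
  by_contra hcon
  rw [not_le] at hcon
  have h4 : emultiplicity (l : ℤ) (X - 1) ≤ ((n - 1 : ℕ) : ℕ∞) := by
    have h5 : ((n : ℕ) : ℕ∞) = ((n - 1 : ℕ) : ℕ∞) + 1 := by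
      rw [← Nat.cast_succ]
      congr 1
      omega
    rw [h5] at hXn
    exact Order.le_of_lt_add_one hXn
  have h6 : emultiplicity l a ≤ ((j - n : ℕ) : ℕ∞) := by
    rw [Nat.cast_add, Nat.cast_one] at hcon
    exact Order.le_of_lt_add_one hcon
  have h7 := hXa.trans (add_le_add h4 h6)
  rw [← Nat.cast_add, Nat.cast_le] at h7
  omega

/-- principal units are torsion free -/
theorem eq_one_of_pow_eq_one (hl2 : l ≠ 2) {x : ℤ_[l]ˣ} (h1 : redu 1 x = 1) {m : ℕ} (hm : 0 < m)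
    (hx : x ^ m = 1) : x = 1 := by
  by_contra hne
  obtain ⟨n, hn⟩ : ∃ n, redu n x ≠ 1 := by
    by_contra hcon
    push Not at hcon
    exact hne (redu_ext fun k => by rw [hcon k, map_one])
  have h2 := dvd_of_redu_pow hl2 h1 hn (j := n + m) (Nat.le_add_right n m) (a := m)
    (by rw [hx, map_one])
  have h3 := Nat.le_of_dvd hm h2
  have h4 : n + m - n + 1 = m + 1 := by omega
  rw [h4] at h3
  have h5 : m + 1 < l ^ (m + 1) := Nat.lt_pow_self hl.out.one_lt
  omega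

theorem redu_pow_eq_one {x : ℤ_[l]ˣ} (h1 : redu 1 x = 1) (k : ℕ) :
    redu k (x ^ (l ^ k)) = 1 := by
  obtain ⟨X, hX⟩ := exists_int_rep x (k + 1)
  have hX1 := (redu_eq_one_iff x (Nat.succ_le_succ (Nat.zero_le k)) hX).1 h1
  have h2 : ((redu (k + 1) (x ^ (l ^ k)) : (ZMod (l ^ (k + 1)))ˣ) : ZMod (l ^ (k + 1))) =
      ((X ^ (l ^ k) : ℤ) : ZMod (l ^ (k + 1))) := by
    rw [map_pow, Units.val_pow_eq_pow_val, hX, Int.cast_pow]
  rw [redu_eq_one_iff _ (Nat.le_succ k) h2]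
  rw [Nat.succ_eq_add_one, zero_add, pow_one] at hX1
  have h3 := dvd_sub_pow_of_dvd_sub (R := ℤ) (p := l) (a := X) (b := 1) (by simpa using hX1) k
  rw [one_pow] at h3
  exact (pow_dvd_pow _ (Nat.le_succ k)).trans h3

theorem card_ker_unitsMap (c j : ℕ) (hc : 1 ≤ c) (hj : c ≤ j) :
    Nat.card (ZMod.unitsMap (pow_dvd_pow l hj)).ker = l ^ (j - c) := by
  have hp := hl.out
  have : NeZero (l ^ j) := ⟨(pow_pos hp.pos j).ne'⟩
  have : NeZero (l ^ c) := ⟨(pow_pos hp.pos c).ne'⟩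
  have h1 := Subgroup.card_mul_index (ZMod.unitsMap (pow_dvd_pow l hj)).ker
  rw [Subgroup.index_ker, MonoidHom.range_eq_top.2 (ZMod.unitsMap_surjective _)] at h1
  have h2 : Nat.card (⊤ : Subgroup (ZMod (l ^ c))ˣ) = l ^ (c - 1) * (l - 1) := by
    rw [Subgroup.card_top, Nat.card_eq_fintype_card, ZMod.card_units_eq_totient,
      Nat.totient_prime_pow hp (by omega)]
  have h3 : Nat.card (ZMod (l ^ j))ˣ = l ^ (j - 1) * (l - 1) := by
    rw [Nat.card_eq_fintype_card, ZMod.card_units_eq_totient, Nat.totient_prime_pow hp (by omega)]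
  rw [h2, h3] at h1
  have h4 : l ^ (j - 1) = l ^ (j - c) * l ^ (c - 1) := by
    rw [← pow_add]
    congr 1
    omega
  rw [h4, mul_assoc] at h1
  have h5 : 0 < l ^ (c - 1) * (l - 1) :=
    Nat.mul_pos (pow_pos hp.pos _) (Nat.sub_pos_of_lt hp.one_lt)
  exact Nat.eq_of_mul_eq_mul_right h5 h1

/-- (F4) a nontrivial principal unit generates an open subgroup -/
theorem exists_redu_pow (hl2 : l ≠ 2) {x : ℤ_[l]ˣ} (h1 : redu 1 x = 1) (hx : x ≠ 1) :
    ∃ c : ℕ, ∀ y : ℤ_[l]ˣ, redu c y = 1 → ∀ j, ∃ a : ℕ, redu j (x ^ a) = redu j y := by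
  classical
  have hp := hl.out
  obtain ⟨n, hn⟩ : ∃ n, redu n x ≠ 1 := by
    by_contra hcon
    push Not at hcon
    exact hx (redu_ext fun k => by rw [hcon k, map_one])
  have hex : ∃ n, redu n x ≠ 1 := ⟨n, hn⟩
  have hlt : ∀ i j : ℕ, i ≤ j → ∀ z : ℤ_[l]ˣ, redu j z = 1 → redu i z = 1 := by
    intro i j hij z hz
    obtain ⟨Z, hZ⟩ := exists_int_rep z j
    rw [redu_eq_one_iff z le_rfl hZ] at hz
    rw [redu_eq_one_iff z hij hZ]
    exact (pow_dvd_pow _ hij).trans hz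
  set N := Nat.find hex with hN
  have hN1 : redu N x ≠ 1 := Nat.find_spec hex
  have hN2 : 2 ≤ N := by
    by_contra hcon
    exact hN1 (hlt N 1 (by omega) x h1)
  set c := N - 1 with hc
  have hc1 : redu c x = 1 := by
    by_contra hcon
    have h2 := Nat.find_min' hex hcon
    omega
  refine ⟨c, fun y hy j => ?_⟩
  rcases le_total j c with hj | hj
  · exact ⟨0, by rw [pow_zero, map_one, hlt j c hj y hy]⟩
  · rcases hj.eq_or_lt with hj' | hj'
    · exact ⟨0, by rw [pow_zero, map_one, ← hj', hy]⟩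
    have : NeZero (l ^ j) := ⟨(pow_pos hp.pos j).ne'⟩
    have hker : ∀ z : ℤ_[l]ˣ, redu c z = 1 → redu j z ∈ (ZMod.unitsMap (pow_dvd_pow l hj)).ker := by
      intro z hz
      rw [MonoidHom.mem_ker, ← hz]
      apply Units.ext
      show ZMod.castHom (pow_dvd_pow l hj) (ZMod (l ^ c)) (PadicInt.toZModPow j (z : ℤ_[l])) =
        PadicInt.toZModPow c (z : ℤ_[l])
      rw [← PadicInt.zmod_cast_comp_toZModPow c j hj]
      rfl
    have hle : Subgroup.zpowers (redu j x) ≤ (ZMod.unitsMap (pow_dvd_pow l hj)).ker :=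
      Subgroup.zpowers_le.2 (hker x hc1)
    have hcard : Nat.card (ZMod.unitsMap (pow_dvd_pow l hj)).ker ≤
        Nat.card (Subgroup.zpowers (redu j x)) := by
      rw [card_ker_unitsMap c j (by omega) hj, Nat.card_zpowers]
      have h2 := dvd_of_redu_pow hl2 h1 hN1 (j := j) (a := orderOf (redu j x)) (by omega)
        (by rw [map_pow, pow_orderOf_eq_one])
      have h3 := Nat.le_of_dvd (orderOf_pos _) h2
      have h4 : j - N + 1 = j - c := by omega
      rwa [h4] at h3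
    have heq := Subgroup.eq_of_le_of_card_ge hle hcard
    have hmem : redu j y ∈ Subgroup.zpowers (redu j x) := by
      rw [heq]
      exact hker y hy
    obtain ⟨a, ha⟩ := (Submonoid.mem_powers_iff _ _).1 (mem_powers_iff_mem_zpowers.2 hmem)
    exact ⟨a, by rw [map_pow, ha]⟩

end Padic

section FiniteFields

/-- automorphisms of finite fields are powers of Frobenius -/
theorem exists_frob_pow {k₀ k : Type*} [Field k₀] [Finite k₀] [Field k] [Finite k] (f : k₀ →+* k)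
    (τ : k →+* k) (hτ : ∀ x, τ (f x) = f x) : ∃ a : ℕ, ∀ x, τ x = x ^ ((Nat.card k₀) ^ a) := by
  let _ : Algebra k₀ k := f.toAlgebra
  let _ : Fintype k₀ := Fintype.ofFinite k₀
  let _ : Fintype k := Fintype.ofFinite k
  let τ' : k →ₐ[k₀] k := { τ with commutes' := hτ }
  obtain ⟨n, hn⟩ := (FiniteField.bijective_frobeniusAlgHom_pow k₀ k).2 τ'
  refine ⟨n, fun x => ?_⟩
  have h1 : τ x = τ' x := rfl
  rw [h1, ← hn]
  simp only [AlgHom.coe_pow, FiniteField.coe_frobeniusAlgHom, pow_iterate,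
    Nat.card_eq_fintype_card]

end FiniteFields

end Vale.Agent.P024
end
end

section

section

/-!
The Kummer transfer `κ : K₂ → K₁`.
-/

namespace Vale.Agent.P024

open scoped NumberField
open IsDedekindDomain

section Kappa

lemma mem_of_forall_fixed {F E : Type*} [Field F] [Field E] [Algebra F E] [IsGalois F E]
    (K : IntermediateField F E) (x : E) (h : ∀ g : E ≃ₐ[F] E, (∀ y ∈ K, g y = y) → g x = x) :
    x ∈ K := by
  have h1 := InfiniteGalois.fixedField_fixingSubgroup K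
  rw [← h1, IntermediateField.mem_fixedField_iff]
  intro g hg
  apply h g
  intro y hy
  rw [IntermediateField.mem_fixingSubgroup_iff] at hg
  exact hg y hy

variable {F₁ E₁ F₂ E₂ : Type*} [Field F₁] [Field E₁] [Algebra F₁ E₁] [IsGalois F₁ E₁]
    [Field F₂] [Field E₂] [Algebra F₂ E₂] [IsGalois F₂ E₂]

/-- `κ : K₂ → K₁` is a Kummer transfer along `α`. -/
structure IsTransfer (α : (E₁ ≃ₐ[F₁] E₁) →* (E₂ ≃ₐ[F₂] E₂)) (K₁ : IntermediateField F₁ E₁)
    (K₂ : IntermediateField F₂ E₂) (l : ℕ) (ζ₁ : E₁) (ζ₂ : E₂) (κ : K₂ → K₁) : Prop where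
  ne_zero : ∀ x, x ≠ 0 → κ x ≠ 0
  spec : ∀ x : K₂, x ≠ 0 → ∀ (X : E₂) (b : E₁), X ^ l = x → b ^ l = κ x →
    ∀ g : E₁ ≃ₐ[F₁] E₁, (∀ y ∈ K₁, g y = y) → ∀ e : ℕ, (α g) X = ζ₂ ^ e * X → g b = ζ₁ ^ e * b

theorem exists_transfer
    (α : (E₁ ≃ₐ[F₁] E₁) →* (E₂ ≃ₐ[F₂] E₂)) (hα : Continuous α)
    (K₁ : IntermediateField F₁ E₁) [FiniteDimensional F₁ K₁] (K₂ : IntermediateField F₂ E₂)
    (hαK : ∀ g : E₁ ≃ₐ[F₁] E₁, (∀ x ∈ K₁, g x = x) → ∀ y ∈ K₂, α g y = y)
    {l : ℕ} (hl : l.Prime)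
    {ζ₁ : E₁} (hζ₁ : IsPrimitiveRoot ζ₁ l) (hζ₁K : ζ₁ ∈ K₁)
    {ζ₂ : E₂} (hζ₂ : IsPrimitiveRoot ζ₂ l) (hζ₂K : ζ₂ ∈ K₂)
    (hpow₂ : ∀ x : E₂, ∃ y : E₂, y ^ l = x) :
    ∃ κ : K₂ → K₁, IsTransfer α K₁ K₂ l ζ₁ ζ₂ κ := by
  have hl0 := hl.pos
  have key : ∀ x : K₂, ∃ y : K₁, x ≠ 0 → (y ≠ 0 ∧ ∀ (X : E₂) (b : E₁), X ^ l = x → b ^ l = y →
      ∀ g : E₁ ≃ₐ[F₁] E₁, (∀ y ∈ K₁, g y = y) → ∀ e : ℕ, (α g) X = ζ₂ ^ e * X →
        g b = ζ₁ ^ e * b) := by
    intro x
    by_cases hx : x = 0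
    · exact ⟨0, fun h => absurd hx h⟩
    obtain ⟨a, ha⟩ := hpow₂ (x : E₂)
    have hxE : (x : E₂) ≠ 0 := by simpa using hx
    have ha0 : a ≠ 0 := by
      rintro rfl; rw [zero_pow hl0.ne'] at ha; exact hxE ha.symm
    obtain ⟨b, hb0, hbK, hb⟩ := kummer_transfer α hα K₁ hl hζ₁ hζ₁K hζ₂ a ha0
      (fun g hg => by rw [ha]; exact hαK g hg x x.2) (fun g hg => hαK g hg ζ₂ hζ₂K)
    refine ⟨⟨b ^ l, hbK⟩, fun _ => ⟨?_, ?_⟩⟩
    · intro h0
      exact pow_ne_zero l hb0 (congrArg Subtype.val h0)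
    · intro X b' hX hb' g hg e he
      obtain ⟨i, hi⟩ := exists_exp hl0 hζ₂ ha0 (hX.trans ha.symm)
      obtain ⟨j, hj⟩ := exists_exp hl0 hζ₁ hb0 (b := b') hb'
      have hζ0 : ζ₂ ≠ 0 := hζ₂.ne_zero hl0.ne'
      have h1 : α g a = ζ₂ ^ e * a := by
        rw [hi, map_mul, map_pow, hαK g hg ζ₂ hζ₂K] at he
        apply mul_left_cancel₀ (pow_ne_zero i hζ0)
        rw [he]; ring
      rw [hj, map_mul, map_pow, hg ζ₁ hζ₁K, hb g hg e h1]
      ring
  choose κ hκ using key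
  exact ⟨κ, fun x hx => (hκ x hx).1, fun x hx => (hκ x hx).2⟩

variable {α : (E₁ ≃ₐ[F₁] E₁) →* (E₂ ≃ₐ[F₂] E₂)} {K₁ : IntermediateField F₁ E₁}
  {K₂ : IntermediateField F₂ E₂} {l : ℕ} {ζ₁ : E₁} {ζ₂ : E₂} {κ : K₂ → K₁}

lemma exists_exp_of_fix {F E : Type*} [Field F] [Field E] [Algebra F E] {l : ℕ} (hl0 : 0 < l)
    {ζ : E} (hζ : IsPrimitiveRoot ζ l) {x X : E} (hX : X ^ l = x) (hx : x ≠ 0)
    (g : E ≃ₐ[F] E) (hg : g x = x) : ∃ e : ℕ, g X = ζ ^ e * X := by
  have hX0 : X ≠ 0 := by rintro rfl; rw [zero_pow hl0.ne'] at hX; exact hx hX.symm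
  exact exists_exp hl0 hζ hX0 (by rw [← map_pow, hX, hg])

omit [IsGalois F₂ E₂] in
lemma IsTransfer.mul (h : IsTransfer α K₁ K₂ l ζ₁ ζ₂ κ) (hl0 : 0 < l)
    (hαK : ∀ g : E₁ ≃ₐ[F₁] E₁, (∀ x ∈ K₁, g x = x) → ∀ y ∈ K₂, α g y = y)
    (hζ₁ : IsPrimitiveRoot ζ₁ l) (hζ₂ : IsPrimitiveRoot ζ₂ l)
    (hpow₁ : ∀ x : E₁, ∃ y : E₁, y ^ l = x) (hpow₂ : ∀ x : E₂, ∃ y : E₂, y ^ l = x)
    (x y : K₂) (hx : x ≠ 0) (hy : y ≠ 0) : ∃ z : K₁, κ (x * y) * z ^ l = κ x * κ y := by
  obtain ⟨X, hX⟩ := hpow₂ (x : E₂)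
  obtain ⟨Y, hY⟩ := hpow₂ (y : E₂)
  obtain ⟨a, ha⟩ := hpow₁ (κ x : E₁)
  obtain ⟨b, hb⟩ := hpow₁ (κ y : E₁)
  obtain ⟨c, hc⟩ := hpow₁ (κ (x * y) : E₁)
  have hxE : (x : E₂) ≠ 0 := by simpa using hx
  have hyE : (y : E₂) ≠ 0 := by simpa using hy
  have hxy : x * y ≠ 0 := mul_ne_zero hx hy
  have hκxy : (κ (x * y) : E₁) ≠ 0 := by simpa using h.ne_zero _ hxy
  have hc0 : c ≠ 0 := by rintro rfl; rw [zero_pow hl0.ne'] at hc; exact hκxy hc.symm
  have hz : a * b / c ∈ K₁ := by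
    apply mem_of_forall_fixed
    intro g hg
    obtain ⟨e, he⟩ := exists_exp_of_fix hl0 hζ₂ hX hxE (α g) (hαK g hg x x.2)
    obtain ⟨f, hf⟩ := exists_exp_of_fix hl0 hζ₂ hY hyE (α g) (hαK g hg y y.2)
    have h1 := h.spec x hx X a hX ha g hg e he
    have h2 := h.spec y hy Y b hY hb g hg f hf
    have h3 := h.spec (x * y) hxy (X * Y) c (by push_cast; rw [mul_pow, hX, hY]) hc g hg (e + f)
      (by rw [map_mul, he, hf, pow_add]; ring)
    have hζ0 : ζ₁ ≠ 0 := hζ₁.ne_zero hl0.ne'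
    rw [map_div₀, map_mul, h1, h2, h3, pow_add]
    field_simp
  refine ⟨⟨a * b / c, hz⟩, ?_⟩
  apply Subtype.ext
  push_cast
  rw [← ha, ← hb, ← hc, div_pow, mul_pow]
  field_simp

omit [IsGalois F₁ E₁] in
/-- finite kernel -/
lemma IsTransfer.ker (h : IsTransfer α K₁ K₂ l ζ₁ ζ₂ κ) (hl : l.Prime)
    (hαo : ∀ V : Subgroup (E₁ ≃ₐ[F₁] E₁), IsOpen (V : Set (E₁ ≃ₐ[F₁] E₁)) →
      IsOpen ((V.map α : Subgroup (E₂ ≃ₐ[F₂] E₂)) : Set (E₂ ≃ₐ[F₂] E₂)))
    [FiniteDimensional F₁ K₁]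
    (hαK : ∀ g : E₁ ≃ₐ[F₁] E₁, (∀ x ∈ K₁, g x = x) → ∀ y ∈ K₂, α g y = y)
    (hζ₁ : IsPrimitiveRoot ζ₁ l) (hζ₂ : IsPrimitiveRoot ζ₂ l) (hζ₂K : ζ₂ ∈ K₂)
    (hpow₂ : ∀ x : E₂, ∃ y : E₂, y ^ l = x) :
    ∃ S : Finset K₂, ∀ x : K₂, x ≠ 0 → (∃ z : K₁, κ x = z ^ l) →
      ∃ s ∈ S, s ≠ 0 ∧ ∃ z : K₂, x = s * z ^ l := by
  classical
  have hl0 := hl.pos
  have : NeZero l := ⟨hl0.ne'⟩
  set U : Subgroup (E₁ ≃ₐ[F₁] E₁) := K₁.fixingSubgroup with hU
  have hUo : IsOpen (U : Set (E₁ ≃ₐ[F₁] E₁)) := K₁.fixingSubgroup_isOpen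
  set H : Subgroup (E₂ ≃ₐ[F₂] E₂) := U.map α with hH
  have hHo : IsOpen (H : Set (E₂ ≃ₐ[F₂] E₂)) := hαo U hUo
  have hQ : Finite ((E₂ ≃ₐ[F₂] E₂) ⧸ H) := Subgroup.quotient_finite_of_isOpen H hHo
  -- elements of the kernel
  have hker : ∀ x : K₂, x ≠ 0 → (∃ z : K₁, κ x = z ^ l) → ∀ X : E₂, X ^ l = x →
      ∀ g ∈ H, g X = X := by
    rintro x hx ⟨z, hz⟩ X hX g hg
    obtain ⟨g', hg', rfl⟩ := Subgroup.mem_map.mp hg
    have hg'' : ∀ y ∈ K₁, g' y = y := by
      rw [hU, IntermediateField.mem_fixingSubgroup_iff] at hg'; exact hg'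
    have hxE : (x : E₂) ≠ 0 := by simpa using hx
    obtain ⟨e, he⟩ := exists_exp_of_fix hl0 hζ₂ hX hxE (α g') (hαK g' hg'' x x.2)
    have h1 := h.spec x hx X (z : E₁) hX (by rw [hz]; rfl) g' hg'' e he
    have hz0 : (z : E₁) ≠ 0 := by
      intro h0
      have : z = 0 := by simpa using h0
      rw [this, zero_pow hl0.ne'] at hz
      exact h.ne_zero x hx hz
    rw [hg'' z z.2] at h1
    have h2 : ζ₁ ^ e = 1 := by
      apply mul_right_cancel₀ hz0
      rw [← h1, one_mul]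
    have h3 : ζ₂ ^ e = 1 := (hζ₂.pow_eq_one_iff_dvd e).mpr ((hζ₁.pow_eq_one_iff_dvd e).mp h2)
    rw [he, h3, one_mul]
  let Φ : K₂ → ((E₂ ≃ₐ[F₂] E₂) ⧸ H) → ZMod l := fun x c =>
    kum hpow₂ ζ₂ (Quotient.out c : E₂ ≃ₐ[F₂] E₂).toRingEquiv (x : E₂)
  let A : K₂ → Prop := fun x => x ≠ 0 ∧ ∃ z : K₁, κ x = z ^ l
  have : Finite (((E₂ ≃ₐ[F₂] E₂) ⧸ H) → ZMod l) := inferInstance
  let := Fintype.ofFinite (((E₂ ≃ₐ[F₂] E₂) ⧸ H) → ZMod l)
  let ch : (((E₂ ≃ₐ[F₂] E₂) ⧸ H) → ZMod l) → K₂ := fun φ =>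
    if h : ∃ x, A x ∧ Φ x = φ then h.choose else 0
  refine ⟨Finset.univ.image ch, ?_⟩
  intro x hx hz
  have hex : ∃ x', A x' ∧ Φ x' = Φ x := ⟨x, ⟨hx, hz⟩, rfl⟩
  have hch : ch (Φ x) = hex.choose := dif_pos hex
  obtain ⟨⟨hs0, hsz⟩, hsΦ⟩ := hex.choose_spec
  refine ⟨ch (Φ x), Finset.mem_image_of_mem _ (Finset.mem_univ _), ?_, ?_⟩
  · rw [hch]; exact hs0
  rw [hch]
  generalize hex.choose = s at hs0 hsz hsΦ
  obtain ⟨X, hX⟩ := hpow₂ (x : E₂)
  obtain ⟨S, hS⟩ := hpow₂ (s : E₂)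
  have hxE : (x : E₂) ≠ 0 := by simpa using hx
  have hsE : (s : E₂) ≠ 0 := by simpa using hs0
  have hS0 : S ≠ 0 := by rintro rfl; rw [zero_pow hl0.ne'] at hS; exact hsE hS.symm
  have hXS : X / S ∈ K₂ := by
    apply mem_of_forall_fixed
    intro g hg
    -- decompose `g = out * h`
    set c : (E₂ ≃ₐ[F₂] E₂) ⧸ H := (g : (E₂ ≃ₐ[F₂] E₂) ⧸ H) with hc
    set g₀ : E₂ ≃ₐ[F₂] E₂ := Quotient.out c with hg₀
    have h1 : g₀⁻¹ * g ∈ H := by
      rw [← QuotientGroup.eq, hg₀, hc]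
      exact Quotient.out_eq' _
    have hHK : ∀ k ∈ H, ∀ y ∈ K₂, k y = y := by
      intro k hk
      obtain ⟨k', hk', rfl⟩ := Subgroup.mem_map.mp hk
      exact hαK k' (by rw [hU, IntermediateField.mem_fixingSubgroup_iff] at hk'; exact hk')
    have hgg : g = g₀ * (g₀⁻¹ * g) := by group
    have hg₀K : ∀ y ∈ K₂, g₀ y = y := by
      intro y hy
      have h2 := hg y hy
      rw [hgg, AlgEquiv.mul_apply, hHK _ h1 y hy] at h2
      exact h2
    have hgX : g X = g₀ X := by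
      conv_lhs => rw [hgg]
      rw [AlgEquiv.mul_apply, hker x hx hz X hX _ h1]
    have hgS : g S = g₀ S := by
      conv_lhs => rw [hgg]
      rw [AlgEquiv.mul_apply, hker s hs0 hsz S hS _ h1]
    obtain ⟨e, he, he'⟩ := exists_kum hpow₂ hl0 hζ₂ (g := g₀.toRingEquiv) (hg₀K ζ₂ hζ₂K) hxE
      (hg₀K x x.2) hX
    have h3 : (e : ZMod l) = kum hpow₂ ζ₂ g₀.toRingEquiv (s : E₂) := by
      rw [he']
      exact (congrFun hsΦ c).symm
    have h4 := (kum_spec hpow₂ hl0 hζ₂ (g := g₀.toRingEquiv) (hg₀K ζ₂ hζ₂K) hsE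
      (hg₀K s s.2) hS e).mpr h3
    have he2 : g₀ X = ζ₂ ^ e * X := he
    have h5 : g₀ S = ζ₂ ^ e * S := h4
    have hζ0 : ζ₂ ≠ 0 := hζ₂.ne_zero hl0.ne'
    rw [map_div₀, hgX, hgS, he2, h5]
    field_simp
  refine ⟨⟨X / S, hXS⟩, ?_⟩
  apply Subtype.ext
  push_cast
  rw [← hX, ← hS, div_pow]
  field_simp

/-! ### Characters detecting divisibility -/

lemma dvdVal_of_char {K : Type*} [Field K] [NumberField K] (v : HeightOneSpectrum (𝓞 K))
    {l : ℕ} (hl : l.Prime) (f : K → ZMod l) (hmul : ∀ x y, x ≠ 0 → y ≠ 0 → f (x * y) = f x + f y)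
    (hf : ∀ x, DvdVal v l x → f x = 0) {x₀ : K} (hx₀ : x₀ ≠ 0) (hfx₀ : f x₀ ≠ 0)
    {x : K} (hx : x ≠ 0) (hfx : f x = 0) : DvdVal v l x := by
  have : Fact l.Prime := ⟨hl⟩
  have hl0 := hl.pos
  have f1 : f 1 = 0 := by
    have := hmul 1 1 one_ne_zero one_ne_zero
    rw [mul_one] at this
    exact left_eq_add.mp this
  have hpow : ∀ n : ℕ, f (x ^ n) = n * f x := by
    intro n
    induction n with
    | zero => simp [f1]
    | succ n ih => rw [pow_succ, hmul _ _ (pow_ne_zero _ hx) hx, ih]; push_cast; ring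
  rw [dvdVal_iff v hl0.ne']
  refine ⟨hx, ?_⟩
  by_contra hnd
  set n := WithZero.log (v.valuation K x) with hn
  set n0 := WithZero.log (v.valuation K x₀) with hn0
  have hnz : (n : ZMod l) ≠ 0 := by rwa [Ne, ZMod.intCast_zmod_eq_zero_iff_dvd]
  obtain ⟨a, ha⟩ : ∃ a : ℕ, (n0 : ZMod l) + a * n = 0 := by
    refine ⟨((-(n0 : ZMod l)) * (n : ZMod l)⁻¹).val, ?_⟩
    rw [ZMod.natCast_zmod_val, mul_assoc, inv_mul_cancel₀ hnz]
    ring
  have hd : DvdVal v l (x₀ * x ^ a) := by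
    rw [dvdVal_iff v hl0.ne']
    refine ⟨mul_ne_zero hx₀ (pow_ne_zero _ hx), ?_⟩
    rw [map_mul, map_pow, WithZero.log_mul ((Valuation.ne_zero_iff _).mpr hx₀)
      (pow_ne_zero _ ((Valuation.ne_zero_iff _).mpr hx)), WithZero.log_pow, nsmul_eq_mul,
      ← ZMod.intCast_zmod_eq_zero_iff_dvd]
    push_cast
    exact ha
  have h1 := hf _ hd
  rw [hmul _ _ hx₀ (pow_ne_zero _ hx), hpow, hfx, mul_zero, add_zero] at h1
  exact hfx₀ h1

end Kappa

end Vale.Agent.P024
end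
end

section

section

/-!
(C5) tame inertia elements.
-/

namespace Vale.Agent.P024

open scoped NumberField
open IsDedekindDomain

/-- In a sum with pairwise distinct valuations every term is bounded by the sum. -/
lemma valuation_le_sum_of_distinct {R Γ : Type*} [Ring R]
    [LinearOrderedCommGroupWithZero Γ] (v : Valuation R Γ) {ι : Type*} [DecidableEq ι]
    (s : Finset ι) (f : ι → R)
    (hd : ∀ i ∈ s, ∀ j ∈ s, i ≠ j → v (f i) ≠ 0 → v (f j) ≠ 0 → v (f i) ≠ v (f j)) :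
    ∀ i ∈ s, v (f i) ≤ v (∑ j ∈ s, f j) := by
  intro i hi
  obtain ⟨j, hj, hmax⟩ := Finset.exists_max_image s (fun k => v (f k)) ⟨i, hi⟩
  by_cases h0 : v (f j) = 0
  · have h1 := hmax i hi
    rw [h0] at h1
    have h2 : v (f i) = 0 := le_antisymm h1 zero_le
    rw [h2]
    exact zero_le
  · have h1 : ∀ k ∈ s \ {j}, v (f k) < v (f j) := by
      intro k hk
      rw [Finset.mem_sdiff, Finset.mem_singleton] at hk
      refine lt_of_le_of_ne (hmax k hk.1) ?_
      by_cases h2 : v (f k) = 0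
      · rw [h2]; exact Ne.symm h0
      · exact hd k hk.1 j hj hk.2 h2 h0
    rw [v.map_sum_eq_of_lt hj h1]
    exact hmax i hi

section Tame5

variable {E : Type*} [Field E] [CharZero E] [Algebra.IsAlgebraic ℚ E]

omit [CharZero E] [Algebra.IsAlgebraic ℚ E] in
/-- the valuation of a radical `b` is not in the value group of `K` up to exponent `l`. -/
lemma radical_valuation_ne_one {K : Type*} [Field K] [NumberField K] [Algebra K E]
    (O : ValuationSubring E) (hO : O ≠ ⊤) (v : HeightOneSpectrum (𝓞 K))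
    (hv : ∀ x : 𝓞 K, x ∈ v.asIdeal ↔ algebraMap K E x ∈ O.nonunits)
    {l : ℕ} (hl : l.Prime) (y : K) (hy : ¬ DvdVal v l y) (b : E)
    (hb : b ^ l = algebraMap K E y) (c : K) (i : ℕ) (hi0 : 0 < i) (hil : i < l) :
    O.valuation (algebraMap K E c * b ^ i) ≠ 1 := by
  intro h
  apply hy
  have h1 : O.valuation (algebraMap K E (c ^ l * y ^ i)) = 1 := by
    have e : algebraMap K E (c ^ l * y ^ i) = (algebraMap K E c * b ^ i) ^ l := by
      rw [map_mul, map_pow, map_pow, ← hb]; ring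
    rw [e, map_pow, h, one_pow]
  have h2 : v.valuation K (c ^ l * y ^ i) = 1 := by
    have h3 := mem_iff_of_center O hO v hv (c ^ l * y ^ i)
    rw [← ValuationSubring.valuation_le_one_iff, ValuationSubring.mem_nonunits_iff, h1] at h3
    refine le_antisymm (h3.1.mp le_rfl) ?_
    rw [← not_lt]
    intro h4
    exact lt_irrefl _ (h3.2.mpr h4)
  have hcop : Nat.Coprime i l := (Nat.coprime_of_lt_prime hi0.ne' hil hl).symm
  obtain ⟨m, hm⟩ := Nat.exists_mul_mod_eq_one_of_coprime hcop hl.one_lt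
  set k := i * m / l with hk
  have hk' : i * m = l * k + 1 := by
    rw [hk]
    have := Nat.div_add_mod (i * m) l
    omega
  refine ⟨c ^ m * y ^ k, ?_⟩
  have e : y * (c ^ m * y ^ k) ^ l = (c ^ l * y ^ i) ^ m := by
    calc y * (c ^ m * y ^ k) ^ l = c ^ (l * m) * y ^ (l * k + 1) := by ring
      _ = c ^ (l * m) * y ^ (i * m) := by rw [hk']
      _ = (c ^ l * y ^ i) ^ m := by ring
  rw [e, map_pow, h2, one_pow]

end Tame5

section Tame6

variable {F E : Type*} [Field F] [Field E] [Algebra F E] [IsGalois F E] [CharZero E]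
  [Algebra.IsAlgebraic ℚ E]

/-- (C5) tame inertia elements. -/
theorem exists_tame (K : IntermediateField F E) [NumberField K]
    {l : ℕ} (hl : l.Prime) {ζ : E} (_hζ : IsPrimitiveRoot ζ l) (_hζK : ζ ∈ K)
    (v : HeightOneSpectrum (𝓞 K)) (_hvl : (l : 𝓞 K) ∉ v.asIdeal)
    (y : K) (hy0 : y ≠ 0) (hy : ¬ DvdVal v l y) (b : E) (hb : b ^ l = (y : E)) :
    ∃ (O : ValuationSubring E) (s t : E ≃ₐ[F] E), O ≠ ⊤ ∧ IsCenter O v ∧
      (∀ x ∈ K, s x = x) ∧ (∀ x ∈ K, t x = x) ∧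
      Stab O s ∧ ActsPow O s (Ideal.absNorm v.asIdeal) ∧
      Stab O t ∧ ActsPow O t 1 ∧ t b ≠ b := by
  classical
  obtain ⟨O, hO, hv⟩ := exists_valuationSubring_over (E := E) v
  obtain ⟨s, hs, hs'⟩ := exists_frob O hO v hv
  have hcard : Nat.card (𝓞 K ⧸ v.asIdeal) = Ideal.absNorm v.asIdeal := by
    rw [Ideal.absNorm_apply]; rfl
  rw [hcard] at hs'
  have hb' : b ^ l = algebraMap K E y := hb
  have hyE : algebraMap K E y ≠ 0 := by simpa using hy0
  have hb0 : b ≠ 0 := by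
    rintro rfl
    rw [zero_pow hl.ne_zero] at hb'
    exact hyE hb'.symm
  -- `b` is not in `K`
  have hbK : b ∉ (⊥ : IntermediateField K E) := by
    intro h
    rw [IntermediateField.mem_bot] at h
    obtain ⟨c, hc⟩ := h
    apply hy
    have hyc : y = c ^ l := by
      apply (algebraMap K E).injective
      rw [map_pow, hc, hb']
    refine ⟨c⁻¹, ?_⟩
    have hc0 : c ≠ 0 := by
      rintro rfl
      rw [map_zero] at hc
      exact hb0 hc.symm
    rw [hyc, ← mul_pow, mul_inv_cancel₀ hc0, one_pow, map_one]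
  obtain ⟨τ, hτ⟩ : ∃ τ : E ≃ₐ[K] E, τ b ≠ b := by
    by_contra hcon
    push Not at hcon
    exact hbK ((InfiniteGalois.mem_bot_iff_fixed b).mpr hcon)
  set ω : E := τ b / b with hω
  have hτb : τ b = ω * b := by rw [hω]; field_simp
  have hωl : ω ^ l = 1 := by
    rw [hω, div_pow, ← map_pow, hb', τ.commutes, div_self hyE]
  have hωv : O.valuation ω = 1 := by
    have h1 : O.valuation ω ^ l = 1 := by rw [← map_pow, hωl, map_one]
    exact (pow_eq_one_iff_of_nonneg zero_le hl.ne_zero).1 h1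
  -- representation of elements of `K(b)`
  have hint : IsIntegral K b := Algebra.IsIntegral.isIntegral b
  have hrep : ∀ x ∈ IntermediateField.adjoin K {b}, ∃ c : ℕ → K,
      x = ∑ i ∈ Finset.range l, algebraMap K E (c i) * b ^ i := by
    intro x hx
    have hx' : x ∈ (IntermediateField.adjoin K {b}).toSubalgebra := hx
    rw [IntermediateField.adjoin_simple_toSubalgebra_of_isAlgebraic hint.isAlgebraic,
      Algebra.adjoin_singleton_eq_range_aeval] at hx'
    obtain ⟨p, hp⟩ := hx'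
    set q : Polynomial K := Polynomial.X ^ l - Polynomial.C y with hq
    have hqm : q.Monic := Polynomial.monic_X_pow_sub_C y hl.ne_zero
    have hqd : q.natDegree = l := Polynomial.natDegree_X_pow_sub_C
    have hq0 : Polynomial.aeval b q = 0 := by
      rw [hq]; simp [hb']
    have h1 : Polynomial.aeval b (p %ₘ q) = x := by
      rw [Polynomial.aeval_modByMonic_eq_self_of_root hq0]
      exact hp
    have h2 : (p %ₘ q).natDegree < l := by
      have := Polynomial.natDegree_modByMonic_lt p hqm (by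
        intro h
        rw [h, Polynomial.natDegree_one] at hqd
        exact hl.ne_zero hqd.symm)
      rwa [hqd] at this
    refine ⟨(p %ₘ q).coeff, ?_⟩
    rw [← h1, Polynomial.aeval_eq_sum_range' h2]
    refine Finset.sum_congr rfl fun i _ => ?_
    rw [Algebra.smul_def]
  -- valuations of the terms are distinct
  have hne1 : ∀ (c : K) (i : ℕ), 0 < i → i < l → O.valuation (algebraMap K E c * b ^ i) ≠ 1 :=
    fun c i hi0 hil => radical_valuation_ne_one O hO v hv hl y hy b hb' c i hi0 hil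
  have hdist : ∀ c : ℕ → K, ∀ i ∈ Finset.range l, ∀ j ∈ Finset.range l, i ≠ j →
      O.valuation (algebraMap K E (c i) * b ^ i) ≠ 0 →
      O.valuation (algebraMap K E (c j) * b ^ j) ≠ 0 →
      O.valuation (algebraMap K E (c i) * b ^ i) ≠ O.valuation (algebraMap K E (c j) * b ^ j) := by
    intro c
    have key : ∀ i ∈ Finset.range l, ∀ j ∈ Finset.range l, j < i →
        O.valuation (algebraMap K E (c i) * b ^ i) ≠ 0 →
        O.valuation (algebraMap K E (c j) * b ^ j) ≠ 0 →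
        O.valuation (algebraMap K E (c i) * b ^ i) ≠
          O.valuation (algebraMap K E (c j) * b ^ j) := by
      intro i hi j hj hji h1 h2 h3
      rw [Finset.mem_range] at hi hj
      have hcj : algebraMap K E (c j) ≠ 0 := by
        intro h0
        apply h2
        rw [h0, zero_mul, map_zero]
      apply hne1 (c i / c j) (i - j) (by omega) (by omega)
      have e : algebraMap K E (c i / c j) * b ^ (i - j) =
          (algebraMap K E (c i) * b ^ i) / (algebraMap K E (c j) * b ^ j) := by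
        rw [map_div₀]
        have : b ^ i = b ^ (i - j) * b ^ j := by rw [← pow_add]; congr 1; omega
        rw [this]
        field_simp
      rw [e, map_div₀, h3, div_self h2]
    intro i hi j hj hij h1 h2
    rcases lt_or_gt_of_ne hij with h | h
    · exact (key j hj i hi h h2 h1).symm
    · exact key i hi j hj h h1 h2
  have hval_term : ∀ (c : ℕ → K) (i : ℕ),
      O.valuation (algebraMap K E (c i) * b ^ i * ω ^ i) =
        O.valuation (algebraMap K E (c i) * b ^ i) := by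
    intro c i
    rw [map_mul, map_pow, hωv, one_pow, mul_one]
  have hτrep : ∀ (c : ℕ → K),
      τ (∑ i ∈ Finset.range l, algebraMap K E (c i) * b ^ i) =
        ∑ i ∈ Finset.range l, algebraMap K E (c i) * b ^ i * ω ^ i := by
    intro c
    rw [map_sum]
    refine Finset.sum_congr rfl fun i _ => ?_
    rw [map_mul, map_pow, τ.commutes, hτb]
    ring
  have hGle : ∀ x ∈ IntermediateField.adjoin K {b}, O.valuation (τ x) = O.valuation x := by
    intro x hx
    obtain ⟨c, rfl⟩ := hrep x hx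
    rw [hτrep]
    apply le_antisymm
    · apply O.valuation.map_sum_le
      intro i hi
      rw [hval_term]
      exact valuation_le_sum_of_distinct O.valuation (Finset.range l)
        (fun i => algebraMap K E (c i) * b ^ i) (hdist c) i hi
    · apply O.valuation.map_sum_le
      intro i hi
      rw [← hval_term]
      refine valuation_le_sum_of_distinct O.valuation (Finset.range l)
        (fun i => algebraMap K E (c i) * b ^ i * ω ^ i) ?_ i hi
      intro i hi j hj hij h1 h2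
      simp only [hval_term] at h1 h2 ⊢
      exact hdist c i hi j hj hij h1 h2
  have hHlt : ∀ x ∈ IntermediateField.adjoin K {b}, x ∈ O → τ x - x ∈ O.nonunits := by
    intro x hx hxO
    obtain ⟨c, rfl⟩ := hrep x hx
    rw [hτrep, ← Finset.sum_sub_distrib, ValuationSubring.mem_nonunits_iff]
    rw [← ValuationSubring.valuation_le_one_iff] at hxO
    apply O.valuation.map_sum_lt one_ne_zero
    intro i hi
    have e : algebraMap K E (c i) * b ^ i * ω ^ i - algebraMap K E (c i) * b ^ i =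
        (algebraMap K E (c i) * b ^ i) * (ω ^ i - 1) := by ring
    rw [e, map_mul]
    by_cases hi0 : i = 0
    · subst hi0
      simp
    · have h1 : O.valuation (algebraMap K E (c i) * b ^ i) ≤ 1 :=
        (valuation_le_sum_of_distinct O.valuation (Finset.range l)
          (fun i => algebraMap K E (c i) * b ^ i) (hdist c) i hi).trans hxO
      have h2 : O.valuation (algebraMap K E (c i) * b ^ i) < 1 :=
        lt_of_le_of_ne h1 (hne1 (c i) i (by omega) (Finset.mem_range.mp hi))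
      have h3 : O.valuation (ω ^ i - 1) ≤ 1 := by
        apply O.valuation.map_sub_le
        · rw [map_pow, hωv, one_pow]
        · rw [map_one]
      exact lt_of_le_of_lt (mul_le_of_le_one_right' h3) h2
  -- transport `O` by `τ`
  let O1 : ValuationSubring E := O.comap (τ : E →+* E)
  have hO1mem : ∀ x, x ∈ O1 ↔ τ x ∈ O := fun x => Iff.rfl
  have hO1 : O1 ≠ ⊤ := by
    intro htop
    apply hO
    rw [eq_top_iff]
    intro x _
    have h1 : τ.symm x ∈ O1 := by rw [htop]; trivial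
    rw [hO1mem, AlgEquiv.apply_symm_apply] at h1
    exact h1
  obtain ⟨g, hg⟩ := exists_conj (M := IntermediateField.adjoin K {b}) O O1 hO hO1 (by
    intro x
    rw [hO1mem, ← ValuationSubring.valuation_le_one_iff, ← ValuationSubring.valuation_le_one_iff]
    have h1 := hGle (algebraMap (IntermediateField.adjoin K {b}) E x) x.2
    rw [h1])
  let σ : E ≃+* E := (g : E ≃+* E).trans (τ : E ≃+* E)
  have hσapp : ∀ x, σ x = τ (g x) := fun x => rfl
  have hσ : ∀ x, σ x ∈ O ↔ x ∈ O := by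
    intro x
    rw [hσapp, ← hO1mem, hg]
  obtain ⟨h, hh, hh'⟩ := exists_stab_lift (M := IntermediateField.adjoin K {b}) O hO σ hσ (by
    intro x hx
    rw [hσapp, g.commutes]
    exact hHlt _ x.2 hx)
  let sF : E ≃ₐ[F] E := s.restrictScalars F
  let τF : E ≃ₐ[F] E := τ.restrictScalars F
  let gF : E ≃ₐ[F] E := (g.restrictScalars K).restrictScalars F
  let hF : E ≃ₐ[F] E := (h.restrictScalars K).restrictScalars F
  have hhF : Stab O hF := hh
  have hhFi : Stab O hF⁻¹ := by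
    intro x
    have h1 := hhF (hF⁻¹ x)
    rw [← AlgEquiv.mul_apply, mul_inv_cancel, AlgEquiv.one_apply] at h1
    exact h1.symm
  have hKadj : ∀ x ∈ K, x ∈ IntermediateField.adjoin K {b} := by
    intro x hx
    exact (IntermediateField.adjoin K {b}).algebraMap_mem ⟨x, hx⟩
  have hfixK' : ∀ x ∈ IntermediateField.adjoin K {b}, hF⁻¹ x = x := by
    intro x hx
    have h1 : hF x = x := h.commutes ⟨x, hx⟩
    have h2 := congrArg (hF⁻¹ : E ≃ₐ[F] E) h1
    rw [← AlgEquiv.mul_apply, inv_mul_cancel, AlgEquiv.one_apply] at h2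
    exact h2.symm
  refine ⟨O, sF, hF⁻¹ * (τF * gF), hO, hv, ?_, ?_, hs, hs', ?_, ?_, ?_⟩
  · intro x hx
    exact s.commutes ⟨x, hx⟩
  · intro x hx
    rw [AlgEquiv.mul_apply, AlgEquiv.mul_apply]
    have h1 : gF x = x := g.commutes ⟨x, hKadj x hx⟩
    have h2 : τF x = x := τ.commutes ⟨x, hx⟩
    rw [h1, h2]
    exact hfixK' x (hKadj x hx)
  · intro x
    rw [AlgEquiv.mul_apply, hhFi]
    exact hσ x
  · intro x hx
    have h1 := hh' x hx
    have h2 : (hF⁻¹ * (τF * gF)) x - x ^ 1 = -(hF⁻¹ (hF x - σ x)) := by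
      rw [map_sub, ← AlgEquiv.mul_apply hF⁻¹ hF, inv_mul_cancel, AlgEquiv.one_apply, pow_one,
        AlgEquiv.mul_apply]
      have : (τF * gF) x = σ x := rfl
      rw [this]
      ring
    rw [h2, ValuationSubring.mem_nonunits_iff, Valuation.map_neg,
      valuation_map_eq O hF⁻¹ hhFi]
    exact h1
  · rw [AlgEquiv.mul_apply]
    have h1 : (τF * gF) b = τ b := by
      rw [AlgEquiv.mul_apply]
      have h2 : gF b = b := g.commutes ⟨b, IntermediateField.mem_adjoin_simple_self K b⟩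
      rw [h2]
      rfl
    rw [h1]
    intro h3
    apply hτ
    have h4 := congrArg hF h3
    rw [← AlgEquiv.mul_apply, mul_inv_cancel, AlgEquiv.one_apply] at h4
    have h5 : hF b = b := h.commutes ⟨b, IntermediateField.mem_adjoin_simple_self K b⟩
    rw [h4, h5]

end Tame6

end Vale.Agent.P024
end
end

section

section

/-!
Total ramification of the `p`-th roots of unity, and the resulting Kummer generator.
-/

namespace Vale.Agent.P024

open scoped NumberField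
open IsDedekindDomain Polynomial

section CycloVal

variable {E : Type*} [Field E]

theorem val_one_sub_pow_le (O : ValuationSubring E) {η : E} (hη : O.valuation η ≤ 1) (a : ℕ) :
    O.valuation (1 - η ^ a) ≤ O.valuation (1 - η) := by
  have h1 : 1 - η ^ a = (∑ j ∈ Finset.range a, η ^ j) * (1 - η) := (geom_sum_mul_neg η a).symm
  rw [h1, map_mul]
  refine mul_le_of_le_one_left' ?_
  rw [O.valuation_le_one_iff]
  exact O.toSubring.sum_mem fun j _ =>
    O.toSubring.pow_mem ((O.valuation_le_one_iff η).1 hη) j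

theorem val_root_eq_one (O : ValuationSubring E) {ζ : E} {n : ℕ} (hn : n ≠ 0) (h : ζ ^ n = 1) :
    O.valuation ζ = 1 := by
  have h1 : O.valuation ζ ^ n = 1 := by rw [← map_pow, h, map_one]
  exact (pow_eq_one_iff_of_nonneg zero_le hn).1 h1

theorem val_one_sub_pow (O : ValuationSubring E) {p : ℕ} (hp : p.Prime) {ξ : E}
    (hξ : IsPrimitiveRoot ξ p) {a : ℕ} (ha : a.Coprime p) :
    O.valuation (1 - ξ ^ a) = O.valuation (1 - ξ) := by
  have hv : O.valuation ξ = 1 := val_root_eq_one O hp.ne_zero hξ.pow_eq_one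
  refine le_antisymm (val_one_sub_pow_le O hv.le a) ?_
  obtain ⟨b, hb⟩ := Nat.exists_mul_mod_eq_one_of_coprime ha hp.one_lt
  have h1 : (ξ ^ a) ^ b = ξ := by
    rw [← pow_mul]
    have h2 : a * b = p * (a * b / p) + 1 := by
      have := Nat.div_add_mod (a * b) p
      omega
    rw [h2, pow_succ, pow_mul, hξ.pow_eq_one, one_pow, one_mul]
  have h3 := val_one_sub_pow_le O (η := ξ ^ a) (by rw [map_pow, hv, one_pow]) b
  rwa [h1] at h3

theorem val_pow_sub_one_eq (O : ValuationSubring E) {p : ℕ} (hp : p.Prime) {ξ : E}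
    (hξ : IsPrimitiveRoot ξ p) :
    O.valuation (1 - ξ) ^ (p - 1) = O.valuation (p : E) := by
  obtain ⟨n, rfl⟩ : ∃ n, p = n + 1 := ⟨p - 1, by have := hp.pos; omega⟩
  have h1 := hξ.prod_one_sub_pow_eq_order
  have h2 : (((n + 1 : ℕ) : ℕ) : E) = ∏ k ∈ Finset.range n, (1 - ξ ^ (k + 1)) := by
    rw [h1]; push_cast; ring
  rw [h2, map_prod, Nat.add_sub_cancel]
  have h3 : ∀ k ∈ Finset.range n, O.valuation (1 - ξ ^ (k + 1)) = O.valuation (1 - ξ) := by
    intro k hk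
    rw [Finset.mem_range] at hk
    refine val_one_sub_pow O hp hξ ?_
    refine Nat.Coprime.symm ((Nat.Prime.coprime_iff_not_dvd hp).2 fun hd => ?_)
    have := Nat.le_of_dvd (Nat.succ_pos k) hd
    omega
  rw [Finset.prod_congr rfl h3, Finset.prod_const, Finset.card_range]

variable {K : Type*} [Field K] [Algebra K E]

/-- The terms of a polynomial of small degree in a uniformizer-like element have different
valuations. -/
theorem val_terms (O : ValuationSubring E) {N : ℕ} {π : E} (hπ0 : π ≠ 0)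
    (hπ1 : O.valuation π < 1) {P : E} (hP : O.valuation π ^ N = O.valuation P)
    (hK : ∀ c : K, c ≠ 0 → ∃ k : ℤ, O.valuation (algebraMap K E c) = O.valuation P ^ k)
    {c d : K} (hc : c ≠ 0) (hd : d ≠ 0) {i j : ℕ} (hi : i < N) (hj : j < N)
    (h : O.valuation (algebraMap K E c * π ^ i) = O.valuation (algebraMap K E d * π ^ j)) :
    i = j := by
  obtain ⟨k, hk⟩ := hK c hc
  obtain ⟨k', hk'⟩ := hK d hd
  have hv0 : O.valuation π ≠ 0 := (O.valuation.ne_zero_iff).2 hπ0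
  have hvpos : 0 < O.valuation π := zero_lt_iff.2 hv0
  have e : ∀ (k : ℤ) (i : ℕ), O.valuation P ^ k * O.valuation π ^ i =
      O.valuation π ^ ((N : ℤ) * k + i) := by
    intro k i
    rw [← hP, zpow_add₀ hv0, zpow_mul, zpow_natCast, zpow_natCast]
  rw [map_mul, map_mul, map_pow, map_pow, hk, hk', e, e] at h
  have h2 : (N : ℤ) * k + i = (N : ℤ) * k' + j :=
    zpow_right_injective₀ hvpos hπ1.ne h
  have h3 : ((N : ℤ) * k + i) % N = ((N : ℤ) * k' + j) % N := by rw [h2]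
  rw [Int.mul_add_emod_self_left, Int.mul_add_emod_self_left, Int.emod_eq_of_lt (by omega)
    (by omega), Int.emod_eq_of_lt (by omega) (by omega)] at h3
  exact_mod_cast h3

/-- The valuation of a polynomial expression is the maximum of the valuations of its terms. -/
theorem val_aeval (O : ValuationSubring E) {N : ℕ} {π : E} (hπ0 : π ≠ 0)
    (hπ1 : O.valuation π < 1) {P : E} (hP : O.valuation π ^ N = O.valuation P)
    (hK : ∀ c : K, c ≠ 0 → ∃ k : ℤ, O.valuation (algebraMap K E c) = O.valuation P ^ k)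
    {f : K[X]} (hf0 : f ≠ 0) (hf : f.natDegree < N) :
    O.valuation (aeval π f) ≠ 0 ∧
      ∀ i, O.valuation (algebraMap K E (f.coeff i) * π ^ i) ≤ O.valuation (aeval π f) := by
  classical
  set T : ℕ → E := fun i => algebraMap K E (f.coeff i) * π ^ i with hT
  have hsum : aeval π f = ∑ i ∈ f.support, T i := by
    rw [aeval_def, eval₂_eq_sum, Polynomial.sum_def]
  obtain ⟨j, hj, hmax⟩ := f.support.exists_max_image (fun i => O.valuation (T i))
    (Polynomial.nonempty_support_iff.2 hf0)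
  have hlt : ∀ i ∈ f.support, i < N := fun i hi =>
    lt_of_le_of_lt (le_natDegree_of_mem_supp i hi) hf
  have hTj : O.valuation (T j) ≠ 0 := by
    refine (O.valuation.ne_zero_iff).2 (mul_ne_zero ?_ (pow_ne_zero _ hπ0))
    exact (_root_.map_ne_zero _).2 (mem_support_iff.1 hj)
  have hval : O.valuation (aeval π f) = O.valuation (T j) := by
    rw [hsum]
    refine O.valuation.map_sum_eq_of_lt hj fun i hi => ?_
    rw [Finset.mem_sdiff, Finset.mem_singleton] at hi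
    refine lt_of_le_of_ne (hmax i hi.1) fun heq => hi.2 ?_
    exact val_terms O hπ0 hπ1 hP hK (mem_support_iff.1 hi.1) (mem_support_iff.1 hj)
      (hlt i hi.1) (hlt j hj) heq
  refine ⟨by rw [hval]; exact hTj, fun i => ?_⟩
  rw [hval]
  by_cases hi : i ∈ f.support
  · exact hmax i hi
  · rw [notMem_support_iff.1 hi, map_zero, zero_mul, map_zero]
    exact zero_le

end CycloVal

section CycloGal

variable {K E : Type*} [Field K] [Field E] [Algebra K E]

/-- irreducibility of the cyclotomic polynomial from total ramification -/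
theorem minpoly_eq_cyclotomic (O : ValuationSubring E) {p : ℕ} (hp : p.Prime) {ξ : E}
    (hξ : IsPrimitiveRoot ξ p) (hpO : O.valuation (p : E) < 1) (hp0 : (p : E) ≠ 0)
    (hK : ∀ c : K, c ≠ 0 → ∃ k : ℤ, O.valuation (algebraMap K E c) = O.valuation (p : E) ^ k) :
    minpoly K ξ = cyclotomic p K := by
  have hξint : IsIntegral K ξ := by
    refine ⟨X ^ p - 1, monic_X_pow_sub_C 1 hp.ne_zero, ?_⟩
    simp [hξ.pow_eq_one]
  have hdvd : minpoly K ξ ∣ cyclotomic p K := by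
    apply minpoly.dvd
    rw [aeval_def, ← eval_map, map_cyclotomic]
    have : NeZero (p : E) := ⟨hp0⟩
    exact (isRoot_cyclotomic_iff.2 hξ)
  have hone : (1 : E) - ξ ≠ 0 := sub_ne_zero.2 fun h => hp.ne_one (by
    have := hξ.eq_orderOf
    rw [← h, orderOf_one] at this
    exact this)
  have hval := val_pow_sub_one_eq O hp hξ
  have hp1 : p - 1 ≠ 0 := by have := hp.two_le; omega
  have hlt : O.valuation (1 - ξ) < 1 := by
    by_contra hcon
    push Not at hcon
    have := one_le_pow₀ (n := p - 1) hcon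
    rw [hval] at this
    exact absurd hpO (not_lt.2 this)
  have hpi : O.valuation (ξ - 1) = O.valuation (1 - ξ) := Valuation.map_sub_swap _ _ _
  refine (eq_of_monic_of_dvd_of_natDegree_le (minpoly.monic hξint) (cyclotomic.monic p K) hdvd
    ?_).symm
  rw [natDegree_cyclotomic, Nat.totient_prime hp]
  by_contra hcon
  push Not at hcon
  set f : K[X] := (minpoly K ξ).comp (X + C 1) with hf
  have hfdeg : f.natDegree < p - 1 := by
    rw [hf, natDegree_comp, natDegree_X_add_C, mul_one]; exact hcon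
  have hf0 : f ≠ 0 := by
    intro h0
    have h1 := congrArg (fun g : K[X] => g.comp (X - C 1)) h0
    simp only [hf, comp_assoc, add_comp, X_comp, C_comp, sub_add_cancel, comp_X, zero_comp] at h1
    exact minpoly.ne_zero hξint h1
  have h2 := (val_aeval (K := K) O (π := ξ - 1) (by
      intro h; apply hone; rw [← neg_sub, h, neg_zero]) (by rw [hpi]; exact hlt)
    (N := p - 1) (P := (p : E)) (by rw [hpi]; exact hval) hK hf0 hfdeg).1
  apply h2
  rw [hf, aeval_comp]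
  simp [minpoly.aeval]

/-- polynomial expressions with unit value are congruent to their constant term -/
theorem aeval_sub_coeff_mem (O : ValuationSubring E) {N : ℕ} {π : E} (hπ0 : π ≠ 0)
    (hπ1 : O.valuation π < 1) {P : E} (hP : O.valuation π ^ N = O.valuation P)
    (hK : ∀ c : K, c ≠ 0 → ∃ k : ℤ, O.valuation (algebraMap K E c) = O.valuation P ^ k)
    {f : K[X]} (hf : f.natDegree < N) (hN : 0 < N) (hv : O.valuation (aeval π f) = 1)
    {π' : E} (hπ' : O.valuation π' = O.valuation π) :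
    aeval π' f - algebraMap K E (f.coeff 0) ∈ O.nonunits := by
  have hf0 : f ≠ 0 := by
    rintro rfl
    simp at hv
  have hle := (val_aeval O hπ0 hπ1 hP hK hf0 hf).2
  have hterm : ∀ i, 0 < i → O.valuation (algebraMap K E (f.coeff i) * π' ^ i) < 1 := by
    intro i hi
    have e : O.valuation (algebraMap K E (f.coeff i) * π' ^ i) =
        O.valuation (algebraMap K E (f.coeff i) * π ^ i) := by
      rw [map_mul, map_mul, map_pow, map_pow, hπ']
    rw [e]
    refine lt_of_le_of_ne ((hle i).trans hv.le) fun heq => ?_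
    have hi0 : f.coeff i ≠ 0 := by
      intro h0
      rw [h0, map_zero, zero_mul, map_zero] at heq
      exact zero_ne_one heq
    have hiN : i < N := lt_of_le_of_lt (le_natDegree_of_ne_zero hi0) hf
    have := val_terms (K := K) O hπ0 hπ1 hP hK hi0 one_ne_zero hiN hN (j := 0) (by
      rw [heq]; simp)
    omega
  rw [aeval_eq_sum_range, Finset.sum_range_succ', pow_zero]
  have e : ∑ i ∈ Finset.range f.natDegree, f.coeff (i + 1) • π' ^ (i + 1) +
      f.coeff 0 • (1 : E) - algebraMap K E (f.coeff 0) =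
      ∑ i ∈ Finset.range f.natDegree, algebraMap K E (f.coeff (i + 1)) * π' ^ (i + 1) := by
    simp only [Algebra.smul_def, mul_one]
    ring
  rw [e]
  exact O.nonunits.sum_mem fun i _ => hterm (i + 1) (Nat.succ_pos i)

/-- a nonzero value of the discrete valuation is an integral power of the value of an element of
value `exp (-1)`. -/
theorem exists_zpow_of_center [NumberField K] (O : ValuationSubring E)
    (w : HeightOneSpectrum (𝓞 K))
    (hmem : ∀ x : K, (algebraMap K E x ∈ O ↔ w.valuation K x ≤ 1) ∧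
      (algebraMap K E x ∈ O.nonunits ↔ w.valuation K x < 1))
    (p : K) (hw : w.valuation K p = WithZero.exp (-1 : ℤ)) (c : K) (hc : c ≠ 0) :
    ∃ k : ℤ, O.valuation (algebraMap K E c) = O.valuation (algebraMap K E p) ^ k := by
  have hc0 : w.valuation K c ≠ 0 := ((w.valuation K).ne_zero_iff).2 hc
  have hp0 : p ≠ 0 := by
    rintro rfl
    rw [map_zero] at hw
    exact WithZero.exp_ne_zero hw.symm
  set n : ℤ := WithZero.log (w.valuation K c) with hn
  have h1 : w.valuation K (c * p ^ n) = 1 := by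
    rw [map_mul, map_zpow₀, hw, ← WithZero.exp_log hc0, ← hn, ← WithZero.exp_zsmul,
      ← WithZero.exp_add]
    simp
  have h2 : O.valuation (algebraMap K E (c * p ^ n)) = 1 := by
    refine val_eq_one_of_notMem O ((hmem _).1.2 h1.le) fun h => ?_
    have := (hmem _).2.1 h
    rw [h1] at this
    exact lt_irrefl _ this
  refine ⟨-n, ?_⟩
  rw [map_mul, map_zpow₀, map_mul, map_zpow₀] at h2
  rw [zpow_neg]
  have h3 : O.valuation (algebraMap K E p) ^ n ≠ 0 :=
    zpow_ne_zero _ ((O.valuation.ne_zero_iff).2 ((_root_.map_ne_zero _).2 hp0))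
  exact eq_inv_of_mul_eq_one_left h2

end CycloGal

/-- [E] cyclotomic inertia -/
theorem exists_cyclotomic_kummer {F E : Type*} [Field F] [Field E] [Algebra F E]
    [IsGalois F E] [CharZero E] (K : IntermediateField F E) [NumberField K]
    {l p : ℕ} (hl : l.Prime) (hp : p.Prime) (hlp : l ∣ p - 1)
    {ζ : E} (hζ : IsPrimitiveRoot ζ l) (hζK : ζ ∈ K) {ξ : E} (hξ : IsPrimitiveRoot ξ p)
    (w : HeightOneSpectrum (𝓞 K))
    (hw : w.valuation K (p : K) = WithZero.exp (-1 : ℤ)) :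
    ∃ (b : E) (x : K), b ≠ 0 ∧ b ^ l = (x : E) ∧ ¬ DvdVal w l x ∧
      ∀ g : E ≃ₐ[F] E, (∀ y ∈ K, g y = y) → g ξ = ξ → g b = b := by
  have hfp : Fact p.Prime := ⟨hp⟩
  have : NeZero p := ⟨hp.ne_zero⟩
  have hnzl : NeZero l := ⟨hl.ne_zero⟩
  have halgK : Algebra.IsAlgebraic K E := Algebra.IsAlgebraic.tower_top (K := F) K
  have halg : Algebra.IsAlgebraic ℚ E := Algebra.IsAlgebraic.trans ℚ K E
  obtain ⟨O, hO, hOw⟩ := exists_valuationSubring_over (E := E) w
  have hmem := fun x : K => mem_iff_of_center O hO w hOw x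
  have hp0 : (p : E) ≠ 0 := Nat.cast_ne_zero.2 hp.ne_zero
  have halgp : algebraMap K E (p : K) = (p : E) := map_natCast _ _
  have hK : ∀ c : K, c ≠ 0 → ∃ k : ℤ, O.valuation (algebraMap K E c) =
      O.valuation (p : E) ^ k := by
    intro c hc
    have := exists_zpow_of_center O w hmem (p : K) hw c hc
    rwa [halgp] at this
  have hpO : O.valuation (p : E) < 1 := by
    have h1 : algebraMap K E (p : K) ∈ O.nonunits := by
      rw [(hmem _).2, hw, ← WithZero.exp_zero, WithZero.exp_lt_exp]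
      norm_num
    rwa [halgp] at h1
  have hlp' : l < p := by
    have h1 := Nat.le_of_dvd (by have := hp.two_le; omega) hlp
    have := hp.two_le
    omega
  have hlO : (l : E) ∉ O.nonunits := fun h =>
    hlp'.ne (prime_unique O hl hp h hpO)
  -- the uniformizer
  have hπval : O.valuation (ξ - 1) = O.valuation (1 - ξ) := Valuation.map_sub_swap _ _ _
  have hP : O.valuation (ξ - 1) ^ (p - 1) = O.valuation (p : E) := by
    rw [hπval]; exact val_pow_sub_one_eq O hp hξ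
  have hπ0 : ξ - 1 ≠ 0 := sub_ne_zero.2 fun h => hp.ne_one (by
    have := hξ.eq_orderOf
    rw [h, orderOf_one] at this
    exact this)
  have hπ1 : O.valuation (ξ - 1) < 1 := by
    by_contra hcon
    push Not at hcon
    have := one_le_pow₀ (n := p - 1) hcon
    rw [hP] at this
    exact absurd hpO (not_lt.2 this)
  have hN : 0 < p - 1 := by have := hp.two_le; omega
  -- the characters
  obtain ⟨χ, hχ⟩ := MulChar.exists_mulChar_orderOf (ZMod p) (n := l) (R := E)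
    (by rw [ZMod.card]; exact hlp) hζ
  have hχ1 : χ ≠ 1 := by
    rintro rfl
    rw [orderOf_one] at hχ
    exact hl.ne_one hχ.symm
  have hχl : ∀ a : (ZMod p)ˣ, χ a ^ l = 1 := by
    intro a
    rw [← MulChar.pow_apply' χ hl.ne_zero, ← hχ, pow_orderOf_eq_one, MulChar.one_apply_coe]
  set ψ : AddChar (ZMod p) E := AddChar.zmodChar p hξ.pow_eq_one with hψ
  have hψprim : ψ.IsPrimitive := AddChar.zmodChar_primitive_of_primitive_root p hξ
  set b : E := gaussSum χ ψ with hb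
  have hb0 : b ≠ 0 := by
    refine gaussSum_ne_zero_of_nontrivial ?_ hχ1 hψprim
    rw [ZMod.card]; exact hp0
  -- values of `χ` are in `K`
  have hχK : ∀ a : ZMod p, χ a ∈ K := by
    intro a
    by_cases ha : IsUnit a
    · obtain ⟨i, _, hi⟩ := hζ.eq_pow_of_pow_eq_one (hχl ha.unit)
      rw [IsUnit.unit_spec] at hi
      rw [← hi]
      exact pow_mem hζK i
    · rw [MulChar.map_nonunit χ ha]
      exact zero_mem _
  -- action of automorphisms on `b`
  have hact : ∀ g : E ≃ₐ[F] E, (∀ y ∈ K, g y = y) → ∀ a : (ZMod p)ˣ,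
      g ξ = ξ ^ (a : ZMod p).val → g b = χ⁻¹ a * b := by
    intro g hg a ha
    rw [hb, ← gaussSum_mulShift_eq, gaussSum, gaussSum, map_sum]
    refine Finset.sum_congr rfl fun x _ => ?_
    rw [map_mul, hg _ (hχK x), AddChar.mulShift_apply, hψ, AddChar.zmodChar_apply,
      AddChar.zmodChar_apply, map_pow, ha, ← pow_mul, ZMod.val_mul]
    congr 1
    exact pow_eq_pow_mod _ hξ.pow_eq_one
  have hexa : ∀ g : E ≃ₐ[F] E, ∃ a : (ZMod p)ˣ, g ξ = ξ ^ (a : ZMod p).val := by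
    intro g
    have hgξ : IsPrimitiveRoot (g ξ) p := hξ.map_of_injective g.injective
    obtain ⟨i, hi, hic⟩ := hξ.eq_pow_of_pow_eq_one (hgξ.pow_eq_one)
    have hico : i.Coprime p := by
      rw [← hic] at hgξ
      exact (hξ.pow_iff_coprime hp.pos i).1 hgξ
    refine ⟨ZMod.unitOfCoprime i hico, ?_⟩
    rw [ZMod.coe_unitOfCoprime, ZMod.val_natCast_of_lt hi, hic]
  have hinvl : ∀ a : (ZMod p)ˣ, (χ⁻¹ a) ^ l = 1 := by
    intro a
    rw [MulChar.inv_apply_eq_inv', inv_pow, hχl, inv_one]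
  -- `b ^ l` is in `K`
  have hblK : b ^ l ∈ K := by
    have h1 : b ^ l ∈ IntermediateField.fixedField K.fixingSubgroup := by
      rw [IntermediateField.mem_fixedField_iff]
      intro g hg
      rw [IntermediateField.mem_fixingSubgroup_iff] at hg
      obtain ⟨a, ha⟩ := hexa g
      rw [map_pow, hact g hg a ha, mul_pow, hinvl, one_mul]
    rwa [InfiniteGalois.fixedField_fixingSubgroup] at h1
  refine ⟨b, ⟨b ^ l, hblK⟩, hb0, rfl, ?_, ?_⟩
  · rintro ⟨z, hz⟩
    -- the unit `b * z`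
    set y : E := b * algebraMap K E z with hy
    have hyl : O.valuation (y ^ l) = 1 := by
      have h1 : y ^ l = algebraMap K E (⟨b ^ l, hblK⟩ * z ^ l) := by
        rw [hy, mul_pow, map_mul, map_pow]
        rfl
      rw [h1]
      refine val_eq_one_of_notMem O ((hmem _).1.2 hz.le) fun h => ?_
      have := (hmem _).2.1 h
      rw [hz] at this
      exact lt_irrefl _ this
    have hyv : O.valuation y = 1 := by
      rw [map_pow] at hyl
      exact (pow_eq_one_iff_of_nonneg zero_le hl.ne_zero).1 hyl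
    -- `y` is a polynomial in `ξ`
    obtain ⟨f, hf⟩ : ∃ f : K[X], aeval ξ f = y := by
      refine ⟨(∑ x : ZMod p, C (⟨χ x, hχK x⟩ : K) * X ^ x.val) * C z, ?_⟩
      rw [map_mul, map_sum, aeval_C, hy, hb, gaussSum]
      congr 1
      refine Finset.sum_congr rfl fun x _ => ?_
      rw [map_mul, aeval_C, map_pow, aeval_X, hψ, AddChar.zmodChar_apply]
      rfl
    have hcyc := minpoly_eq_cyclotomic O hp hξ hpO hp0 hK
    have hdegm : (minpoly K ξ).natDegree = p - 1 := by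
      rw [hcyc, natDegree_cyclotomic, Nat.totient_prime hp]
    have hξint : IsIntegral K ξ := (Algebra.IsAlgebraic.isAlgebraic ξ).isIntegral
    set r : K[X] := (f %ₘ minpoly K ξ).comp (X + C 1) with hr
    have hrdeg : r.natDegree < p - 1 := by
      rw [hr, natDegree_comp, natDegree_X_add_C, mul_one, ← hdegm]
      refine natDegree_modByMonic_lt f (minpoly.monic hξint) fun h1 => ?_
      rw [h1, natDegree_one] at hdegm
      omega
    have hre : ∀ t : E, aeval (t - 1) r = aeval t (f %ₘ minpoly K ξ) := by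
      intro t
      rw [hr, aeval_comp]
      simp
    have hry : aeval (ξ - 1) r = y := by
      rw [hre, ← hf]
      conv_rhs => rw [← modByMonic_add_div f (minpoly K ξ)]
      simp [minpoly.aeval]
    have hrv : O.valuation (aeval (ξ - 1) r) = 1 := by rw [hry]; exact hyv
    -- an automorphism moving `y`
    obtain ⟨a, ha⟩ := MulChar.ne_one_iff.1 hχ1
    have haco : (a : ZMod p).val.Coprime p := ZMod.val_coe_unit_coprime a
    have hξa : IsPrimitiveRoot (ξ ^ (a : ZMod p).val) p := hξ.pow_of_coprime _ haco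
    have hconj : IsConjRoot K (ξ ^ (a : ZMod p).val) ξ := by
      rw [IsConjRoot, hcyc, minpoly_eq_cyclotomic O hp hξa hpO hp0 hK]
    obtain ⟨g, hg⟩ := isConjRoot_iff_exists_algEquiv.1 hconj
    have hgy : g y = χ⁻¹ a * y := by
      have h1 := hact (g.restrictScalars F) (fun y hy => g.commutes ⟨y, hy⟩) a hg
      have h2 : g b = χ⁻¹ a * b := h1
      rw [hy, map_mul, h2, g.commutes, mul_assoc]
    have hgr : g y = aeval (ξ ^ (a : ZMod p).val - 1) r := by
      rw [← hry, ← hg]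
      have h1 := Polynomial.aeval_algHom_apply (g : E →ₐ[K] E) (ξ - 1) r
      simp only [map_sub, map_one] at h1
      exact h1.symm
    have hva : O.valuation (ξ ^ (a : ZMod p).val - 1) = O.valuation (ξ - 1) := by
      rw [Valuation.map_sub_swap, Valuation.map_sub_swap _ ξ 1]
      exact val_one_sub_pow O hp hξ haco
    have h1 := aeval_sub_coeff_mem O hπ0 hπ1 hP hK hrdeg hN hrv hva
    have h2 := aeval_sub_coeff_mem O hπ0 hπ1 hP hK hrdeg hN hrv rfl
    have h3 : g y - y ∈ O.nonunits := by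
      have h4 := O.nonunits.sub_mem h1 h2
      rw [← hgr, hry] at h4
      have e : g y - algebraMap K E (r.coeff 0) - (y - algebraMap K E (r.coeff 0)) = g y - y := by
        ring
      rwa [e] at h4
    have h5 : χ⁻¹ a - 1 ∈ O.nonunits := by
      have e : g y - y = y * (χ⁻¹ a - 1) := by rw [hgy]; ring
      rw [e, ValuationSubring.mem_nonunits_iff, map_mul, hyv, one_mul] at h3
      exact h3
    have h6 := root_eq_one O l hlO _ (hinvl a) h5
    rw [MulChar.inv_apply_eq_inv', inv_eq_one] at h6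
    exact ha h6
  · intro g hg hgξ
    have h1 := hact g hg 1 (by
      rw [Units.val_one, ZMod.val_one'', pow_one, hgξ]
      exact hp.ne_one)
    rw [h1, Units.val_one, map_one, one_mul]

end Vale.Agent.P024
end
end

section

section

/-!
The local assembly.
-/

namespace Vale.Agent.P024

open scoped NumberField
open IsDedekindDomain

section TameFix

variable {F E : Type*} [Field F] [Field E] [Algebra F E] [IsGalois F E] [CharZero E]
  [Algebra.IsAlgebraic ℚ E]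

omit [CharZero E] [Algebra.IsAlgebraic ℚ E] in
lemma val_one_of_center {K : Type*} [Field K] [NumberField K] [Algebra K E]
    (O : ValuationSubring E) (hO : O ≠ ⊤) (v : HeightOneSpectrum (𝓞 K)) (hv : IsCenter O v)
    {x : K} (hx : v.valuation K x = 1) : O.valuation (algebraMap K E x) = 1 := by
  have hmem := mem_iff_of_center O hO v hv x
  refine le_antisymm ?_ ?_
  · rw [ValuationSubring.valuation_le_one_iff, hmem.1, hx]
  · rw [← not_lt, ← ValuationSubring.mem_nonunits_iff, hmem.2, hx]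
    exact lt_irrefl _

omit [CharZero E] [Algebra.IsAlgebraic ℚ E] in
lemma natCast_notMem {K : Type*} [Field K] [NumberField K] [Algebra K E]
    (O : ValuationSubring E) (v : HeightOneSpectrum (𝓞 K)) (hv : IsCenter O v)
    {n : ℕ} (hn : (n : 𝓞 K) ∉ v.asIdeal) : (n : E) ∉ O.nonunits := by
  rw [hv] at hn
  simpa using hn

/-- inertia fixes the roots of elements with divisible valuation -/
lemma tame_fix (K : IntermediateField F E) [NumberField K] {l : ℕ} (hl0 : l ≠ 0)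
    (O : ValuationSubring E) (hO : O ≠ ⊤) (v : HeightOneSpectrum (𝓞 K)) (hv : IsCenter O v)
    (hvl : (l : 𝓞 K) ∉ v.asIdeal) (t : E ≃ₐ[F] E) (htK : ∀ x ∈ K, t x = x)
    (ht' : ActsPow O t 1) (y : K) (b : E) (hb : b ^ l = (y : E)) (hy : DvdVal v l y) :
    t b = b := by
  obtain ⟨z, hz⟩ := hy
  have hyz : y * z ^ l ≠ 0 := by
    intro h0; rw [h0, map_zero] at hz; exact zero_ne_one hz
  have hz0 : z ≠ 0 := by rintro rfl; exact hyz (by rw [zero_pow hl0, mul_zero])
  have hzE : (z : E) ≠ 0 := by simpa using hz0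
  have h1 := val_one_of_center O hO v hv hz
  have h2 : (b * z) ^ l = algebraMap K E (y * z ^ l) := by
    rw [map_mul, map_pow, mul_pow, hb]; rfl
  have h3 : O.valuation (b * z) = 1 := by
    rw [← h2, map_pow] at h1
    exact (pow_eq_one_iff_of_nonneg zero_le hl0).mp h1
  have hbz0 : b * z ≠ 0 := by
    intro h0; rw [h0, map_zero] at h3; exact zero_ne_one h3
  have h4 := (near_of_actsPow ht' h3).2.2
  rw [pow_one] at h4
  have h5 : (t (b * z) / (b * z)) ^ l = 1 := by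
    rw [div_pow, ← map_pow, h2]
    have : t (algebraMap K E (y * z ^ l)) = algebraMap K E (y * z ^ l) := htK _ (y * z ^ l).2
    rw [this, div_self]
    simpa using hyz
  have h6 := root_eq_one O l (natCast_notMem O v hv hvl) _ h5 h4
  rw [map_mul, htK z z.2, mul_div_mul_right _ _ hzE, div_eq_one_iff_eq (left_ne_zero_of_mul hbz0)]
    at h6
  exact h6

end TameFix

section Asm

variable {F₁ E₁ F₂ E₂ : Type*} [Field F₁] [Field E₁] [Algebra F₁ E₁] [IsGalois F₁ E₁]
    [CharZero E₁] [Algebra.IsAlgebraic ℚ E₁]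
    [Field F₂] [Field E₂] [Algebra F₂ E₂] [IsGalois F₂ E₂]
    [CharZero E₂] [Algebra.IsAlgebraic ℚ E₂]

lemma one_lt_absNorm {K : Type*} [Field K] [NumberField K] (v : HeightOneSpectrum (𝓞 K)) :
    1 < Ideal.absNorm v.asIdeal := by
  have h0 : Ideal.absNorm v.asIdeal ≠ 0 := by
    rw [Ne, Ideal.absNorm_eq_zero_iff]; exact v.ne_bot
  have h1 : Ideal.absNorm v.asIdeal ≠ 1 := by
    rw [Ne, Ideal.absNorm_eq_one_iff]; exact v.isPrime.ne_top
  omega

end Asm

end Vale.Agent.P024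
end
end

section

section

/-!
The local assembly, starting from primes of degree one of `K₁` (no openness needed).
-/

namespace Vale.Agent.P024

open scoped NumberField
open IsDedekindDomain

section AsmRev

variable {F₁ E₁ F₂ E₂ : Type*} [Field F₁] [Field E₁] [Algebra F₁ E₁] [IsGalois F₁ E₁]
    [CharZero E₁] [Algebra.IsAlgebraic ℚ E₁]
    [Field F₂] [Field E₂] [Algebra F₂ E₂] [IsGalois F₂ E₂]
    [CharZero E₂] [Algebra.IsAlgebraic ℚ E₂]

theorem finite_above (K : Type*) [Field K] [NumberField K] {l : ℕ} (hl : l ≠ 0) :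
    {v : HeightOneSpectrum (𝓞 K) | (l : 𝓞 K) ∈ v.asIdeal}.Finite := by
  have h0 : Ideal.span {(l : 𝓞 K)} ≠ 0 := by
    rw [Ne, Ideal.zero_eq_bot, Ideal.span_singleton_eq_bot]
    exact_mod_cast hl
  refine (Ideal.finite_factors h0).subset ?_
  intro v hv
  change v.asIdeal ∣ _
  rw [Ideal.dvd_span_singleton]
  exact hv

/-- statement of `gauss_kummer` -/
def GaussKummer {F E : Type*} [Field F] [Field E] [Algebra F E] (K : IntermediateField F E)
    [NumberField K] (l : ℕ) : Prop :=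
  ∀ p : ℕ, p.Prime → l ∣ p - 1 → ∀ ξ : E, IsPrimitiveRoot ξ p →
    ∃ (β : E) (x : K), β ≠ 0 ∧ β ^ l = (x : E) ∧
      (∀ g : E ≃ₐ[F] E, (∀ y ∈ K, g y = y) → ∀ a : ℕ, g ξ = ξ ^ a →
        (g β = β ↔ a ^ ((p - 1) / l) ≡ 1 [MOD p])) ∧
      (∀ w : HeightOneSpectrum (𝓞 K), w.valuation K (p : K) = WithZero.exp (-1 : ℤ) →
        ¬ DvdVal w l x) ∧
      (∀ w : HeightOneSpectrum (𝓞 K), (p : 𝓞 K) ∉ w.asIdeal → DvdVal w l x)

end AsmRev

end Vale.Agent.P024
end
end

section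

section

/-!
The local assembly, starting from primes of degree one of `K₁`; the cyclotomic hypothesis is only
used for roots of unity of prime order.
-/

namespace Vale.Agent.P024

open scoped NumberField
open IsDedekindDomain

section AsmRev

variable {F₁ E₁ F₂ E₂ : Type*} [Field F₁] [Field E₁] [Algebra F₁ E₁] [IsGalois F₁ E₁]
    [CharZero E₁] [Algebra.IsAlgebraic ℚ E₁]
    [Field F₂] [Field E₂] [Algebra F₂ E₂] [IsGalois F₂ E₂]
    [CharZero E₂] [Algebra.IsAlgebraic ℚ E₂]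

theorem local_match₁ (α : (E₁ ≃ₐ[F₁] E₁) →* (E₂ ≃ₐ[F₂] E₂)) (hα : Continuous α)
    (K₁ : IntermediateField F₁ E₁) [NumberField K₁] (K₂ : IntermediateField F₂ E₂) [NumberField K₂]
    (hαK : ∀ g : E₁ ≃ₐ[F₁] E₁, (∀ x ∈ K₁, g x = x) → ∀ y ∈ K₂, α g y = y)
    {l : ℕ} (hl : l.Prime) (hl2 : l ≠ 2)
    (hpow₁ : ∀ x : E₁, ∃ y : E₁, y ^ l = x) (hpow₂ : ∀ x : E₂, ∃ y : E₂, y ^ l = x)
    (hroot₁ : ∀ n : ℕ, 0 < n → ∃ ξ : E₁, IsPrimitiveRoot ξ n)
    (hroot₂ : ∀ n : ℕ, 0 < n → ∃ ξ : E₂, IsPrimitiveRoot ξ n)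
    (z₁ : K₁) (hz₁ : IsPrimitiveRoot z₁ l) (z₂ : K₂) (hz₂ : IsPrimitiveRoot z₂ l)
    (hμ : ∃ ξ ∈ K₁, IsPrimitiveRoot ξ (l ^ 2))
    (hμ₂ : ∃ ξ ∈ K₂, IsPrimitiveRoot ξ (l ^ 2))
    (κ : K₂ → K₁) (hκ : IsTransfer α K₁ K₂ l (z₁ : E₁) (z₂ : E₂) κ)
    (v : HeightOneSpectrum (𝓞 K₁)) (hvl : (l : 𝓞 K₁) ∉ v.asIdeal) (x₀ : K₂) (hx₀ : x₀ ≠ 0)
    (hx₀v : ¬ DvdVal v l (κ x₀)) :
    ∃ w : HeightOneSpectrum (𝓞 K₂), (l : 𝓞 K₂) ∉ w.asIdeal ∧
      (∀ x, x ≠ 0 → (DvdVal w l x ↔ DvdVal v l (κ x))) ∧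
      (∀ x : K₂, w.valuation K₂ x = 1 →
        w.valuation K₂ (x ^ (Ideal.absNorm v.asIdeal - 1) - 1) < 1 →
        ∃ z : K₁, v.valuation K₁ (κ x * z ^ l) = 1 ∧ ∃ e : ℕ,
          v.valuation K₁ ((κ x * z ^ l) ^ ((Ideal.absNorm v.asIdeal - 1) / l) - z₁ ^ e) < 1 ∧
          w.valuation K₂ (x ^ ((Ideal.absNorm v.asIdeal - 1) / l) - z₂ ^ e) < 1) := by
  have hl0 := hl.pos
  have : NeZero l := ⟨hl0.ne'⟩
  have hζ₁ : IsPrimitiveRoot (z₁ : E₁) l :=
    hz₁.map_of_injective (f := algebraMap K₁ E₁) (algebraMap K₁ E₁).injective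
  have hζ₂ : IsPrimitiveRoot (z₂ : E₂) l :=
    hz₂.map_of_injective (f := algebraMap K₂ E₂) (algebraMap K₂ E₂).injective
  obtain ⟨b₀, hb₀⟩ := hpow₁ (κ x₀ : E₁)
  obtain ⟨O, s, t, hO, hOv, hsK, htK, hs, hs', ht, ht', htb⟩ :=
    exists_tame K₁ hl hζ₁ z₁.2 v hvl (κ x₀) (hκ.ne_zero x₀ hx₀) hx₀v b₀ hb₀
  set q := Ideal.absNorm v.asIdeal with hq
  have hlO : ∀ n : ℕ, ((l ^ n : ℕ) : E₁) ∉ O.nonunits := by
    intro n
    apply natCast_notMem O v hOv
    rw [Nat.cast_pow]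
    intro h
    exact hvl (v.isPrime.mem_of_pow_mem _ h)
  have hlO1 : (l : E₁) ∉ O.nonunits := by simpa using hlO 1
  -- the tame relation
  set δ₁ := s * t * s⁻¹ * (t ^ q)⁻¹ with hδ₁
  have hδ₁' := theta_rel O s t q hs hs' ht ht'
  rw [← hδ₁] at hδ₁'
  have hrel : α s * α t = α δ₁ * α t ^ q * α s := by
    rw [← map_pow, ← map_mul, ← map_mul, ← map_mul, hδ₁]
    congr 1
    group
  have hδ : ∀ b : E₂, ∀ n : ℕ, ((α δ₁) ^ (l ^ n)) b = b → (α δ₁) b = b := by
    intro b n hb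
    let V : Subgroup (E₁ ≃ₐ[F₁] E₁) := (MulAction.stabilizer (E₂ ≃ₐ[F₂] E₂) b).comap α
    have hV : IsOpen (V : Set (E₁ ≃ₐ[F₁] E₁)) := by
      have h1 : IsOpen ((MulAction.stabilizer (E₂ ≃ₐ[F₂] E₂) b : Subgroup (E₂ ≃ₐ[F₂] E₂)) :
        Set (E₂ ≃ₐ[F₂] E₂)) := stabilizer_isOpen_of_isIntegral (K := F₂) (L := E₂) b
      exact h1.preimage hα
    have h2 := wild_mem O δ₁ hδ₁' (l ^ n) (hlO n) V hV (by
      change α (δ₁ ^ (l ^ n)) b = b
      rw [map_pow]; exact hb)
    exact h2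
  have hpowpos : ∀ n : ℕ, 0 < l ^ n := fun n => pow_pos hl0 n
  have hq1 : 1 < q := one_lt_absNorm v
  have hq2 : l ^ 2 ∣ q - 1 := by
    obtain ⟨ξ, hξK, hξ⟩ := hμ
    have h1 := acts_on_root O s q hs' (l ^ 2) (hlO 2) ξ hξ.pow_eq_one
    rw [hsK ξ hξK] at h1
    have hξ0 : ξ ≠ 0 := hξ.ne_zero (hpowpos 2).ne'
    rw [← hξ.pow_eq_one_iff_dvd]
    have h2 : ξ ^ (q - 1) * ξ = 1 * ξ := by
      rw [← pow_succ, show q - 1 + 1 = q by omega, one_mul, ← h1]
    exact mul_right_cancel₀ hξ0 h2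
  have hsK2 : ∀ x ∈ K₂, (α s) x = x := hαK s hsK
  have htK2 : ∀ x ∈ K₂, (α t) x = x := hαK t htK
  -- transfer of fixedness
  have htr : ∀ x : K₂, x ≠ 0 → ∀ (X : E₂) (b : E₁), X ^ l = x → b ^ l = κ x →
      ((α t) X = X ↔ t b = b) := by
    intro x hx X b hX hb
    have hxE : (x : E₂) ≠ 0 := by simpa using hx
    obtain ⟨e, he⟩ := exists_exp_of_fix hl0 hζ₂ hX hxE (α t) (htK2 x x.2)
    have h1 := hκ.spec x hx X b hX hb t htK e he
    have hX0 : X ≠ 0 := by rintro rfl; rw [zero_pow hl0.ne'] at hX; exact hxE hX.symm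
    have hκE : (κ x : E₁) ≠ 0 := by simpa using hκ.ne_zero x hx
    have hb0 : b ≠ 0 := by rintro rfl; rw [zero_pow hl0.ne'] at hb; exact hκE hb.symm
    rw [he, h1, mul_eq_right₀ hX0, mul_eq_right₀ hb0, hζ₂.pow_eq_one_iff_dvd,
      hζ₁.pow_eq_one_iff_dvd]
  obtain ⟨X₀, hX₀⟩ := hpow₂ (x₀ : E₂)
  have hne : ∃ b : E₂, b ^ l ∈ K₂ ∧ (α t) b ≠ b :=
    ⟨X₀, by rw [hX₀]; exact x₀.2, by rw [Ne, htr x₀ hx₀ X₀ b₀ hX₀ hb₀]; exact htb⟩
  obtain ⟨hact₁, hact₂⟩ := auto_cyc K₂ hl hl2 hpow₂ (fun n => hroot₂ (l ^ n) (hpowpos n)) (α s) (α t)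
    (α δ₁) q hsK2 htK2 hrel hq1 hδ hμ₂ hne
  obtain ⟨w, hwl, hw1, hw2, hw3⟩ := local_lemma K₂ hl hl2 hpow₂ hζ₂ (α s) (α t) (α δ₁) q hsK2 htK2
    hrel hq1 hq2 hδ hact₁ hact₂ hne
  -- (b)
  have hdvd : ∀ x, x ≠ 0 → (DvdVal w l x ↔ DvdVal v l (κ x)) := by
    intro x hx
    obtain ⟨X, hX⟩ := hpow₂ (x : E₂)
    obtain ⟨b, hb⟩ := hpow₁ (κ x : E₁)
    have h1 : DvdVal w l x ↔ (α t) X = X := ⟨hw1 X x hX, hw2 X x hx hX⟩
    rw [h1, htr x hx X b hX hb]
    constructor
    · intro htb'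
      have hK0 : ∀ y : K₁, y ≠ 0 → (y : E₁) ≠ 0 := fun y hy => by simpa using hy
      have htz : t.toRingEquiv (z₁ : E₁) = z₁ := htK z₁ z₁.2
      refine dvdVal_of_char v hl (fun y => kum hpow₁ (z₁ : E₁) t.toRingEquiv (y : E₁)) ?_ ?_
        (hκ.ne_zero x₀ hx₀) ?_ (hκ.ne_zero x hx) ?_
      · intro y y' hy hy'
        exact kum_mul hpow₁ hl0 hζ₁ htz (hK0 y hy) (hK0 y' hy') (htK y y.2) (htK y' y'.2)
      · intro y hy
        have hy0 := ((dvdVal_iff v hl0.ne' y).mp hy).1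
        obtain ⟨c, hc⟩ := hpow₁ (y : E₁)
        exact (kum_eq_zero_iff hpow₁ hl0 hζ₁ htz (hK0 y hy0) (htK y y.2) hc).mpr
          (tame_fix K₁ hl0.ne' O hO v hOv hvl t htK ht' y c hc hy)
      · rw [Ne, kum_eq_zero_iff hpow₁ hl0 hζ₁ htz (hK0 _ (hκ.ne_zero x₀ hx₀))
          (htK _ (κ x₀).2) hb₀]
        exact htb
      · exact (kum_eq_zero_iff hpow₁ hl0 hζ₁ htz (hK0 _ (hκ.ne_zero x hx))
          (htK _ (κ x).2) hb).mpr htb'
    · exact tame_fix K₁ hl0.ne' O hO v hOv hvl t htK ht' (κ x) b hb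
  refine ⟨w, hwl, hdvd, ?_⟩
  · intro x hx hxq
    have hx0 : x ≠ 0 := by
      rintro rfl; rw [map_zero] at hx; exact zero_ne_one hx
    have hxE : (x : E₂) ≠ 0 := by simpa using hx0
    obtain ⟨X, hX⟩ := hpow₂ (x : E₂)
    obtain ⟨b, hb⟩ := hpow₁ (κ x : E₁)
    obtain ⟨e, he⟩ := exists_exp_of_fix hl0 hζ₂ hX hxE (α s) (hsK2 x x.2)
    have hse := hκ.spec x hx0 X b hX hb s hsK e he
    obtain ⟨z, hz⟩ := (hdvd x hx0).mp (dvdVal_of_valuation_eq_one hx)
    refine ⟨z, hz, e, ?_, hw3 X x hX hx hxq e he (z₂ ^ e) (by push_cast; rfl)⟩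
    have h1 := val_one_of_center O hO v hOv hz
    have h2 : (b * z) ^ l = algebraMap K₁ E₁ (κ x * z ^ l) := by
      rw [map_mul, map_pow, mul_pow, hb]; rfl
    have h3 : O.valuation (b * z) = 1 := by
      rw [← h2, map_pow] at h1
      exact (pow_eq_one_iff_of_nonneg zero_le hl0.ne').mp h1
    have hbz0 : b * z ≠ 0 := by
      intro h0; rw [h0, map_zero] at h3; exact zero_ne_one h3
    have h4 := (near_of_actsPow hs' h3).symm.2.2
    have h5 : s (b * z) = (z₁ : E₁) ^ e * (b * z) := by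
      rw [map_mul, hse, hsK z z.2]; ring
    have hz10 : (z₁ : E₁) ^ e ≠ 0 := pow_ne_zero _ (hζ₁.ne_zero hl0.ne')
    -- `(b z)^(q-1) ≡ z₁^e`
    have h6 : (b * z) ^ (q - 1) - (z₁ : E₁) ^ e ∈ O.nonunits := by
      have h7 : (b * z) ^ (q - 1) - (z₁ : E₁) ^ e =
          (z₁ : E₁) ^ e * ((b * z) ^ q / s (b * z) - 1) := by
        rw [h5]
        have : (b * z) ^ q = (b * z) ^ (q - 1) * (b * z) := by
          rw [← pow_succ, show q - 1 + 1 = q by omega]
        rw [this, mul_div_mul_right _ _ hbz0, mul_sub, mul_one, mul_div_cancel₀ _ hz10]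
      rw [h7]
      refine Near.mul_mem_nonunits ?_ h4
      have : O.valuation ((z₁ : E₁) ^ e) = 1 := by
        rw [map_pow, val_root_eq_one O hl0.ne' hζ₁.pow_eq_one, one_pow]
      exact this.le
    rw [← (mem_iff_of_center O hO v hOv _).2, map_sub, map_pow, ← h2, map_pow, ← pow_mul,
      Nat.mul_div_cancel' (dvd_trans (dvd_pow_self l two_ne_zero) hq2)]
    exact h6

end AsmRev

end Vale.Agent.P024
end
end

section

section

namespace Vale.Agent.P024

open scoped NumberField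
open IsDedekindDomain

section
variable {N : Type*} [Field N] [NumberField N]

theorem int_dvd_of_mem {v : HeightOneSpectrum (𝓞 N)} {p : ℕ} (hp : p.Prime)
    (hpv : (p : 𝓞 N) ∈ v.asIdeal) {m : ℤ} (hm : (m : 𝓞 N) ∈ v.asIdeal) : (p : ℤ) ∣ m := by
  by_contra h
  have hcop : IsCoprime (p : ℤ) m := by
    rw [Int.isCoprime_iff_gcd_eq_one]
    have := (Nat.Prime.coprime_iff_not_dvd hp).2 (fun h' => h (Int.natCast_dvd.2 h'))
    simpa [Int.gcd, Nat.Coprime] using this
  obtain ⟨a, b, hab⟩ := hcop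
  apply v.isPrime.ne_top
  rw [Ideal.eq_top_iff_one]
  have : (1 : 𝓞 N) = (a : 𝓞 N) * (p : 𝓞 N) + (b : 𝓞 N) * (m : 𝓞 N) := by
    have := congrArg (fun z : ℤ => (z : 𝓞 N)) hab
    push_cast at this
    exact this.symm
  rw [this]
  exact Ideal.add_mem _ (Ideal.mul_mem_left _ _ hpv) (Ideal.mul_mem_left _ _ hm)

theorem natCast_notMem_sq (v : HeightOneSpectrum (𝓞 N)) {p : ℕ} (hp : p.Prime)
    (hpv : (p : 𝓞 N) ∈ v.asIdeal) (hd : ¬ (p : ℤ) ∣ NumberField.discr N) :
    (p : 𝓞 N) ∉ v.asIdeal ^ 2 := by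
  intro h
  have hmax : (Ideal.span {(p : ℤ)}).IsMaximal :=
    Ideal.IsPrime.isMaximal (by
      rw [Ideal.span_singleton_prime (by exact_mod_cast hp.ne_zero)]
      exact Nat.prime_iff_prime_int.1 hp)
      (by simpa using hp.ne_zero)
  have hle : v.asIdeal ^ 2 ∣ (Ideal.span {(p : ℤ)}).map (algebraMap ℤ (𝓞 N)) := by
    rw [Ideal.dvd_iff_le, Ideal.map_span, Set.image_singleton, Ideal.span_singleton_le_iff_mem]
    simpa using h
  have := pow_sub_one_dvd_differentIdeal ℤ (p := Ideal.span {(p : ℤ)}) v.asIdeal 2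
    (by simpa using hp.ne_zero) hle
  rw [show 2 - 1 = 1 from rfl, pow_one, Ideal.dvd_iff_le] at this
  exact hd (int_dvd_of_mem hp hpv (this (NumberField.discr_mem_differentIdeal N (𝓞 N))))

/-- existence of a rational integer `n` with `v(c + n) = exp (-1)`, for `v` of degree one and
`p` a uniformizer -/
theorem exists_int_add_uniformizer (v : HeightOneSpectrum (𝓞 N)) {p : ℕ} (hp : p.Prime)
    (hcard : Nat.card (𝓞 N ⧸ v.asIdeal) = p) (hd : ¬ (p : ℤ) ∣ NumberField.discr N)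
    (c : 𝓞 N) :
    ∃ n : ℤ, v.intValuation (c + n) = WithZero.exp (-1 : ℤ) := by
  have hfin : Finite (𝓞 N ⧸ v.asIdeal) := Nat.finite_of_card_ne_zero (by
    rw [hcard]; exact hp.ne_zero)
  have hpv : (p : 𝓞 N) ∈ v.asIdeal := by
    have h1 : ((p : ℕ) : 𝓞 N ⧸ v.asIdeal) = 0 := by
      let _ := Fintype.ofFinite (𝓞 N ⧸ v.asIdeal)
      rw [← hcard, Nat.card_eq_fintype_card]
      exact Nat.cast_card_eq_zero _
    rw [← Ideal.Quotient.eq_zero_iff_mem]
    simpa using h1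
  -- every element of the residue field is an integer
  obtain ⟨n₀, hn₀⟩ : ∃ n₀ : ℤ, c + (n₀ : 𝓞 N) ∈ v.asIdeal := by
    have hinj : Function.Injective (fun a : Fin p => ((a : ℕ) : 𝓞 N ⧸ v.asIdeal)) := by
      intro a b hab
      have h1 : (((a : ℤ) - (b : ℤ) : ℤ) : 𝓞 N) ∈ v.asIdeal := by
        rw [← Ideal.Quotient.eq_zero_iff_mem]
        push_cast
        simp only [map_sub, map_natCast]
        exact sub_eq_zero.2 hab
      have h2 := int_dvd_of_mem hp hpv h1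
      have h3 : ((a : ℤ) - (b : ℤ)) = 0 := by
        apply Int.eq_zero_of_abs_lt_dvd h2
        have ha := a.2
        have hb := b.2
        rw [abs_lt]
        constructor <;> omega
      ext
      omega
    have hsurj : Function.Surjective (fun a : Fin p => ((a : ℕ) : 𝓞 N ⧸ v.asIdeal)) := by
      let _ := Fintype.ofFinite (𝓞 N ⧸ v.asIdeal)
      apply ((Fintype.bijective_iff_injective_and_card _).2 ⟨hinj, ?_⟩).2
      rw [Fintype.card_fin, ← Nat.card_eq_fintype_card, hcard]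
    obtain ⟨a, ha⟩ := hsurj (Ideal.Quotient.mk _ (-c))
    refine ⟨((a : ℕ) : ℤ), ?_⟩
    rw [← Ideal.Quotient.eq_zero_iff_mem]
    simp only at ha
    push_cast
    rw [map_add, map_natCast, ha]
    simp
  have key : ∀ x : 𝓞 N, x ∈ v.asIdeal → x ∉ v.asIdeal ^ 2 →
      v.intValuation x = WithZero.exp (-1 : ℤ) := by
    intro x hx hx2
    have h1 : v.intValuation x ≤ WithZero.exp (-1 : ℤ) := by
      have := (v.intValuation_le_pow_iff_mem x 1).2 (by simpa using hx)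
      simpa using this
    have h2 : ¬ v.intValuation x ≤ WithZero.exp (-2 : ℤ) := by
      intro h
      apply hx2
      exact (v.intValuation_le_pow_iff_mem x 2).1 (by simpa using h)
    have hx0 : x ≠ 0 := by
      rintro rfl
      exact hx2 (Ideal.zero_mem _)
    have h0 : v.intValuation x ≠ 0 := v.intValuation_ne_zero x hx0
    obtain ⟨m, hm⟩ : ∃ m : ℤ, v.intValuation x = WithZero.exp m := by
      refine ⟨WithZero.log (v.intValuation x), ?_⟩
      rw [WithZero.exp_log h0]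
    rw [hm] at h1 h2 ⊢
    rw [WithZero.exp_le_exp] at h1 h2
    congr 1
    omega
  by_cases h : c + (n₀ : 𝓞 N) ∈ v.asIdeal ^ 2
  · refine ⟨n₀ + p, ?_⟩
    have h1 : c + ((n₀ + p : ℤ) : 𝓞 N) ∈ v.asIdeal := by
      push_cast
      rw [← add_assoc]
      exact Ideal.add_mem _ hn₀ hpv
    have h2 : c + ((n₀ + p : ℤ) : 𝓞 N) ∉ v.asIdeal ^ 2 := by
      intro h'
      apply natCast_notMem_sq v hp hpv hd
      have := Ideal.sub_mem _ h' h
      push_cast at this
      convert this using 1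
      ring
    exact key _ h1 h2
  · exact ⟨n₀, key _ hn₀ h⟩


theorem finite_valuation_ne_one {x : N} (hx : x ≠ 0) :
    {v : HeightOneSpectrum (𝓞 N) | v.valuation N x ≠ 1}.Finite := by
  have h1 := HeightOneSpectrum.Support.finite (𝓞 N) x
  have h2 := HeightOneSpectrum.Support.finite (𝓞 N) x⁻¹
  refine (h1.union h2).subset ?_
  intro v hv
  rcases lt_or_gt_of_ne hv with h | h
  · right
    show 1 < v.valuation N x⁻¹
    rw [map_inv₀]
    exact (one_lt_inv₀ (by
      rw [zero_lt_iff, Ne, Valuation.zero_iff]; exact hx)).2 h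
  · left
    exact h

/-- Two embeddings of number fields whose quotient takes values in finitely many classes
modulo `l`-th powers agree (general exponents).
`hdeg` : existence of infinitely many primes of degree one. -/
theorem eq_of_forall_pow_fin {F : Type*} [Field F] [NumberField F]
    (hdeg : ∀ S : Finset (HeightOneSpectrum (𝓞 N)),
      ∃ v : HeightOneSpectrum (𝓞 N), v ∉ S ∧ (Ideal.absNorm v.asIdeal).Prime)
    {l : ℕ} (J J' : F →+* N) (T : Finset N)
    (h : ∀ a : F, a ≠ 0 → ∃ m n : ℕ, ¬ l ∣ m ∧ ∃ t ∈ T, t ≠ 0 ∧ ∃ b : N,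
      J a ^ m = J' a ^ n * t * b ^ l) : J = J' := by
  classical
  by_contra hne
  -- an integral element on which they differ
  obtain ⟨b, hb⟩ : ∃ b : 𝓞 F, J b ≠ J' b := by
    by_contra hcon
    push Not at hcon
    apply hne
    ext x
    obtain ⟨a, s, hs, rfl⟩ := IsFractionRing.div_surjective (A := 𝓞 F) x
    rw [map_div₀, map_div₀]
    exact congrArg₂ (· / ·) (hcon a) (hcon s)
  obtain ⟨c, hc⟩ : ∃ c : 𝓞 N, (c : N) = J b :=
    ⟨⟨J b, map_isIntegral_int J (NumberField.RingOfIntegers.isIntegral_coe b)⟩, rfl⟩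
  obtain ⟨c', hc'⟩ : ∃ c' : 𝓞 N, (c' : N) = J' b :=
    ⟨⟨J' b, map_isIntegral_int J' (NumberField.RingOfIntegers.isIntegral_coe b)⟩, rfl⟩
  have hcc : c - c' ≠ 0 := by
    intro h0
    apply hb
    rw [← hc, ← hc', sub_eq_zero.1 h0]
  have hd0 : ((NumberField.discr N : ℤ) : 𝓞 N) ≠ 0 := by
    exact_mod_cast NumberField.discr_ne_zero N
  have hI : (Ideal.span {((NumberField.discr N : ℤ) : 𝓞 N) * (c - c')}) ≠ ⊥ := by
    rw [Ne, Ideal.span_singleton_eq_bot]
    exact mul_ne_zero hd0 hcc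
  have hfin := Ideal.finite_factors hI
  have hfinT : (⋃ t ∈ T.filter (fun t => t ≠ 0),
      {v : HeightOneSpectrum (𝓞 N) | v.valuation N t ≠ 1}).Finite := by
    apply Set.Finite.biUnion (Finset.finite_toSet _)
    intro t ht
    exact finite_valuation_ne_one (Finset.mem_filter.1 ht).2
  obtain ⟨v, hv, hvp⟩ := hdeg (hfin.union hfinT).toFinset
  rw [Set.Finite.mem_toFinset, Set.mem_union, not_or] at hv
  have hv' : ((NumberField.discr N : ℤ) : 𝓞 N) * (c - c') ∉ v.asIdeal := by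
    intro h'
    apply hv.1
    show v.asIdeal ∣ _
    rw [Ideal.dvd_iff_le, Ideal.span_singleton_le_iff_mem]
    exact h'
  have hvT : ∀ t ∈ T, t ≠ 0 → v.valuation N t = 1 := by
    intro t ht ht0
    by_contra hcon
    apply hv.2
    simp only [Set.mem_iUnion]
    exact ⟨t, Finset.mem_filter.2 ⟨ht, ht0⟩, hcon⟩
  set p := Ideal.absNorm v.asIdeal with hp
  have hpv : (p : 𝓞 N) ∈ v.asIdeal := Ideal.absNorm_mem v.asIdeal
  have hd : ¬ (p : ℤ) ∣ NumberField.discr N := by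
    rintro ⟨k, hk⟩
    apply hv'
    rw [hk]
    push_cast
    rw [mul_assoc]
    exact Ideal.mul_mem_right _ _ hpv
  obtain ⟨n₀, hn₀⟩ := exists_int_add_uniformizer v hvp (by
    rw [hp, Ideal.absNorm_apply, Submodule.cardQuot_apply]) hd c
  have hcv : c + n₀ ∈ v.asIdeal := by
    have h1 : v.intValuation (c + n₀) < 1 := by
      rw [hn₀, ← WithZero.exp_zero, WithZero.exp_lt_exp]
      norm_num
    exact (v.intValuation_lt_one_iff_mem _).1 h1
  have hcv' : c' + n₀ ∉ v.asIdeal := by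
    intro h'
    apply hv'
    apply Ideal.mul_mem_left
    have := Ideal.sub_mem _ hcv h'
    convert this using 1
    ring
  have hval' : v.intValuation (c' + n₀) = 1 := by
    rcases lt_or_eq_of_le (v.intValuation_le_one (c' + n₀)) with h1 | h1
    · exact absurd ((v.intValuation_lt_one_iff_mem _).1 h1) hcv'
    · exact h1
  have hJ : v.valuation N (J ((b : F) + n₀)) = WithZero.exp (-1 : ℤ) := by
    have : J ((b : F) + n₀) = algebraMap (𝓞 N) N (c + n₀) := by
      rw [map_add, map_intCast, map_add, map_intCast, ← hc]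
    rw [this, v.valuation_of_algebraMap, hn₀]
  have hJ' : v.valuation N (J' ((b : F) + n₀)) = 1 := by
    have : J' ((b : F) + n₀) = algebraMap (𝓞 N) N (c' + n₀) := by
      rw [map_add, map_intCast, map_add, map_intCast, ← hc']
    rw [this, v.valuation_of_algebraMap, hval']
  have ha0 : (b : F) + n₀ ≠ 0 := by
    intro h0
    rw [h0, map_zero, map_zero] at hJ
    exact WithZero.exp_ne_zero hJ.symm
  obtain ⟨m, n, hm, t, htT, ht0, y, hy⟩ := h _ ha0
  have h1 := congrArg (v.valuation N) hy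
  rw [map_mul, map_mul, map_pow, map_pow, map_pow, hJ, hJ', one_pow, one_mul, hvT t htT ht0,
    one_mul] at h1
  have hy0 : v.valuation N y ≠ 0 := by
    intro h0
    rw [h0] at h1
    rcases Nat.eq_zero_or_pos l with hl | hl
    · subst hl
      rw [pow_zero, ← WithZero.exp_nsmul, ← WithZero.exp_zero, WithZero.exp_inj] at h1
      apply hm
      simp at h1
      simp [h1]
    · rw [zero_pow hl.ne', ← WithZero.exp_nsmul] at h1
      exact WithZero.exp_ne_zero h1
  apply hm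
  rw [← WithZero.exp_log hy0, ← WithZero.exp_nsmul, ← WithZero.exp_nsmul, WithZero.exp_inj] at h1
  have h2 : (m : ℤ) = (l : ℤ) * (-(WithZero.log (v.valuation N y))) := by
    simp only [nsmul_eq_mul] at h1
    linarith
  exact_mod_cast Dvd.intro _ h2.symm

end

end Vale.Agent.P024
end
end

section

section

/-!
P024, Route 2, part [G]: density statements A1 and A3.
-/

open NumberField Ideal IsDedekindDomain Filter Topology

namespace Vale.Agent.P024

/-- (A3) -/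
theorem exists_prime_deg_one_aux (Z : Type*) [Field Z] [NumberField Z]
    (S : Set (HeightOneSpectrum (𝓞 Z))) (hS : S.Finite) :
    ∃ v : HeightOneSpectrum (𝓞 Z), v ∉ S ∧ (Ideal.absNorm v.asIdeal).Prime := by
  by_contra hcon
  push Not at hcon
  have := one_le_sum_of_cover_aux Z (ι := Empty) (fun _ => Z) (fun _ => 1) (by simp) S hS
    (fun p hp hp' => absurd hp' (hcon p hp))
  simp at this
  linarith

end Vale.Agent.P024
end
end

section

section

/-!
[H]: two embeddings of number fields which agree modulo `l`-th powers are equal.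
-/

namespace Vale.Agent.P024

open scoped NumberField
open IsDedekindDomain

theorem exists_prime_deg_one_fin (Z : Type*) [Field Z] [NumberField Z]
    (S : Finset (HeightOneSpectrum (𝓞 Z))) :
    ∃ v : HeightOneSpectrum (𝓞 Z), v ∉ S ∧ (Ideal.absNorm v.asIdeal).Prime := by
  obtain ⟨v, hv, hv'⟩ := exists_prime_deg_one_aux Z (S : Set _) S.finite_toSet
  exact ⟨v, by simpa using hv, hv'⟩

/-- general form: exponents may depend on the element, and a finite set of classes is allowed. -/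
theorem eq_of_forall_pow_gen {F N : Type*} [Field F] [NumberField F] [Field N] [NumberField N]
    {l : ℕ} (J J' : F →+* N) (T : Finset N)
    (h : ∀ a : F, a ≠ 0 → ∃ m n : ℕ, ¬ l ∣ m ∧ ∃ t ∈ T, t ≠ 0 ∧ ∃ b : N,
      J a ^ m = J' a ^ n * t * b ^ l) : J = J' :=
  eq_of_forall_pow_fin (exists_prime_deg_one_fin N) J J' T h

end Vale.Agent.P024
end
end

section

section

/-!
The global step.
-/

namespace Vale.Agent.P024

open scoped NumberField
open IsDedekindDomain NumberField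

/-- two number fields embed into a common number field, Galois over the rationals -/
theorem exists_common_galois (K₁ K₂ : Type*) [Field K₁] [NumberField K₁] [Field K₂]
    [NumberField K₂] :
    ∃ (Z : Type) (_ : Field Z) (_ : NumberField Z), IsGalois ℚ Z ∧ Nonempty (K₁ →+* Z) ∧
      Nonempty (K₂ →+* Z) := by
  let φ₁ : K₁ →ₐ[ℚ] AlgebraicClosure ℚ := IsAlgClosed.lift
  let φ₂ : K₂ →ₐ[ℚ] AlgebraicClosure ℚ := IsAlgClosed.lift
  let L : IntermediateField ℚ (AlgebraicClosure ℚ) := φ₁.fieldRange ⊔ φ₂.fieldRange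
  have h1 : FiniteDimensional ℚ φ₁.fieldRange :=
    Module.Finite.of_surjective φ₁.rangeRestrict.toLinearMap φ₁.rangeRestrict_surjective
  have h2 : FiniteDimensional ℚ φ₂.fieldRange :=
    Module.Finite.of_surjective φ₂.rangeRestrict.toLinearMap φ₂.rangeRestrict_surjective
  have hL : FiniteDimensional ℚ L := IntermediateField.finiteDimensional_sup _ _
  let Z := IntermediateField.normalClosure ℚ L (AlgebraicClosure ℚ)
  have hZ : FiniteDimensional ℚ Z := normalClosure.is_finiteDimensional ℚ L (AlgebraicClosure ℚ)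
  have h : Algebra.IsAlgebraic ℚ (AlgebraicClosure ℚ) := by
    have h0 := AlgebraicClosure.isAlgebraic ℚ
    have h1 : AlgebraicClosure.instAlgebra ℚ =
        (DivisionRing.toRatAlgebra : Algebra ℚ (AlgebraicClosure ℚ)) := Subsingleton.elim _ _
    rw [← h1]
    exact h0
  have : IsAlgClosure ℚ (AlgebraicClosure ℚ) := ⟨inferInstance, h⟩
  have : Normal ℚ (AlgebraicClosure ℚ) := IsAlgClosure.normal ℚ (AlgebraicClosure ℚ)
  have hZn : Normal ℚ Z := normalClosure.normal ℚ L (AlgebraicClosure ℚ)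
  have hLZ : L ≤ Z := IntermediateField.le_normalClosure L
  refine ⟨Z, inferInstance, { to_charZero := inferInstance, to_finiteDimensional := hZ },
    { }, ⟨?_⟩, ⟨?_⟩⟩
  · exact (IntermediateField.inclusion ((le_sup_left : φ₁.fieldRange ≤ L).trans hLZ)).toRingHom.comp
      φ₁.rangeRestrict.toRingHom
  · exact (IntermediateField.inclusion ((le_sup_right : φ₂.fieldRange ≤ L).trans hLZ)).toRingHom.comp
      φ₂.rangeRestrict.toRingHom

theorem valuation_eq_one_of_pull {K Z : Type*} [Field K] [NumberField K] [Field Z] [NumberField Z]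
    (f : K →+* Z) (P : HeightOneSpectrum (𝓞 Z)) {x : K} (h : P.valuation Z (f x) = 1) :
    (pullPrime f P).valuation K x = 1 := by
  rcases lt_trichotomy ((pullPrime f P).valuation K x) 1 with h1 | h1 | h1
  · exact absurd h (valuation_pull_lt_one f P h1).ne
  · exact h1
  · have hx : x ≠ 0 := by
      rintro rfl
      rw [map_zero] at h1
      exact absurd h1 (by simp)
    have h2 : (pullPrime f P).valuation K x⁻¹ < 1 := by
      rw [map_inv₀]
      exact (inv_lt_one₀ (zero_lt_one.trans h1)).2 h1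
    have h3 := valuation_pull_lt_one f P h2
    rw [map_inv₀, map_inv₀, h, inv_one] at h3
    exact absurd h3 (lt_irrefl _)

theorem pullPrime_comp {K L Z : Type*} [Field K] [NumberField K] [Field L] [NumberField L]
    [Field Z] [NumberField Z] (f : K →+* L) (g : L →+* Z) (P : HeightOneSpectrum (𝓞 Z)) :
    pullPrime (g.comp f) P = pullPrime f (pullPrime g P) :=
  HeightOneSpectrum.ext rfl

theorem eq_of_mem_of_mem {K : Type*} [Field K] [NumberField K] (v : HeightOneSpectrum (𝓞 K))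
    {p q : ℕ} (hp : p.Prime) (hq : q.Prime) (h1 : (p : 𝓞 K) ∈ v.asIdeal)
    (h2 : (q : 𝓞 K) ∈ v.asIdeal) : p = q := by
  have h3 := int_dvd_of_mem hp h1 (m := (q : ℤ)) (by simpa using h2)
  have h4 : p ∣ q := by exact_mod_cast h3
  exact (Nat.prime_dvd_prime_iff_eq hp hq).1 h4

theorem dvd_absNorm_sub_one {Z : Type*} [Field Z] [NumberField Z] {l : ℕ} (hl : l.Prime) {ζ : Z}
    (hζ : IsPrimitiveRoot ζ l) (P : HeightOneSpectrum (𝓞 Z)) (hlP : (l : 𝓞 Z) ∉ P.asIdeal) :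
    l ∣ Ideal.absNorm P.asIdeal - 1 := by
  have hnz : NeZero l := ⟨hl.ne_zero⟩
  have hcardP : Nat.card (𝓞 Z ⧸ P.asIdeal) = Ideal.absNorm P.asIdeal := by
    rw [Ideal.absNorm_apply, Submodule.cardQuot_apply]
  have hfinP : Finite (𝓞 Z ⧸ P.asIdeal) := Nat.finite_of_card_ne_zero (by
    rw [hcardP, Ne, Ideal.absNorm_eq_zero_iff]; exact P.ne_bot)
  have hmax : P.asIdeal.IsMaximal := P.isMaximal
  let _ : Field (𝓞 Z ⧸ P.asIdeal) := Ideal.Quotient.field P.asIdeal
  have hζ' : IsPrimitiveRoot hζ.toInteger l := hζ.toInteger_isPrimitiveRoot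
  set η : 𝓞 Z ⧸ P.asIdeal := Ideal.Quotient.mk P.asIdeal hζ.toInteger with hη
  have hη1 : η ^ l = 1 := by
    rw [hη, ← map_pow, hζ'.pow_eq_one, map_one]
  have hη2 : η ≠ 1 := by
    intro h
    apply hlP
    refine Avoid.natCast_mem_of_root P.asIdeal hl hζ' 0 1 one_pos (by have := hl.one_lt; omega) ?_
    rw [← Ideal.Quotient.eq_zero_iff_mem, map_sub, map_pow, map_pow, pow_one, pow_zero, ← hη, h,
      sub_self]
  have hord : orderOf η = l := by
    have : Fact l.Prime := ⟨hl⟩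
    exact orderOf_eq_prime hη1 hη2
  have hη0 : η ≠ 0 := by
    intro h
    rw [h, zero_pow hl.ne_zero] at hη1
    exact zero_ne_one hη1
  have hord' : orderOf (Units.mk0 η hη0) = l := by
    rw [← orderOf_units, Units.val_mk0, hord]
  have h1 : l ∣ Nat.card (𝓞 Z ⧸ P.asIdeal)ˣ := by
    rw [← hord']
    exact orderOf_dvd_natCard _
  rw [Nat.card_units, hcardP] at h1
  exact h1

end Vale.Agent.P024
end
end

section

section

/-!
From the Kummer map to the matching property.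
-/

namespace Vale.Agent.P024

open scoped NumberField
open IsDedekindDomain

/-- two `l`-th roots of the same nonzero element differ by a root of unity -/
theorem exists_root_pow_mul {E : Type*} [Field E] {l : ℕ} (hl : l.Prime) {ζ : E}
    (hζ : IsPrimitiveRoot ζ l) {a b : E} (hb : b ≠ 0) (h : a ^ l = b ^ l) :
    ∃ e : ℕ, a = ζ ^ e * b := by
  have hnz : NeZero l := ⟨hl.ne_zero⟩
  have h1 : (a / b) ^ l = 1 := by rw [div_pow, h, div_self (pow_ne_zero _ hb)]
  obtain ⟨e, _, he⟩ := hζ.eq_pow_of_pow_eq_one h1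
  exact ⟨e, by rw [he, div_mul_cancel₀ _ hb]⟩

/-- (G2) -/
theorem match_of_kappa {F₁ E₁ F₂ E₂ : Type*} [Field F₁] [NumberField F₁] [Field E₁]
    [Algebra F₁ E₁] [IsGalois F₁ E₁] [Field F₂] [NumberField F₂] [Field E₂] [Algebra F₂ E₂]
    [IsGalois F₂ E₂] (α : (E₁ ≃ₐ[F₁] E₁) →* (E₂ ≃ₐ[F₂] E₂)) {l : ℕ} (hl : l.Prime)
    (hpow₁ : ∀ x : E₁, ∃ y : E₁, y ^ l = x)
    (K₁ : IntermediateField F₁ E₁) [FiniteDimensional F₁ K₁] (K₂ : IntermediateField F₂ E₂)
    {ζ₁ : E₁} (hζ₁ : IsPrimitiveRoot ζ₁ l) (hζ₁K : ζ₁ ∈ K₁)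
    {ζ₂ : E₂} (hζ₂ : IsPrimitiveRoot ζ₂ l)
    (hα : ∀ g : E₁ ≃ₐ[F₁] E₁, (∀ z ∈ K₁, g z = z) → ∀ x ∈ K₂, (α g) x = x)
    (κ : K₂ → K₁)
    (htr : ∀ x : K₂, x ≠ 0 → ∀ X : E₂, X ^ l = (x : E₂) → ∀ b : E₁, b ^ l = (κ x : E₁) →
      ∀ g : E₁ ≃ₐ[F₁] E₁, (∀ z ∈ K₁, g z = z) → ∀ e : ℕ, (α g) X = ζ₂ ^ e * X →
        g b = ζ₁ ^ e * b)
    (j : K₂ →+* K₁) (c : ℕ) (hc : ¬ l ∣ c) (T : Finset K₁)
    (hT : ∀ x : K₂, x ≠ 0 → ∃ t ∈ T, t ≠ 0 ∧ ∃ z : K₁, z ≠ 0 ∧ κ x = j x ^ c * t * z ^ l) :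
    ∃ N₁ : IntermediateField F₁ E₁, FiniteDimensional F₁ N₁ ∧
      ∀ x : K₂, KMatch α l N₁ (x : E₂) ((j x : K₁) : E₁) := by
  classical
  choose r hr using hpow₁
  set A : IntermediateField F₁ E₁ :=
    IntermediateField.adjoin F₁ (↑(T.image fun t : K₁ => r (t : E₁)) : Set E₁) with hA
  have hfinA : FiniteDimensional F₁ A := by
    refine IntermediateField.finiteDimensional_adjoin fun x _ => ?_
    exact (Algebra.IsAlgebraic.isAlgebraic x).isIntegral
  refine ⟨K₁ ⊔ A, inferInstance, ?_⟩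
  intro x X hX Y hY g hg
  have hgK : ∀ z ∈ K₁, g z = z := fun z hz => hg z ((le_sup_left : K₁ ≤ K₁ ⊔ A) hz)
  have hgT : ∀ t ∈ T, g (r (t : E₁)) = r (t : E₁) := by
    intro t ht
    refine hg _ ((le_sup_right : A ≤ K₁ ⊔ A) ?_)
    refine IntermediateField.subset_adjoin F₁ _ ?_
    rw [Finset.coe_image]
    exact ⟨t, ht, rfl⟩
  by_cases hx : x = 0
  · subst hx
    have hX0 : X = 0 := by
      rw [ZeroMemClass.coe_zero] at hX
      exact (pow_eq_zero_iff hl.ne_zero).1 hX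
    have hY0 : Y = 0 := by
      rw [map_zero, ZeroMemClass.coe_zero] at hY
      exact (pow_eq_zero_iff hl.ne_zero).1 hY
    rw [hX0, hY0]
    simp
  · obtain ⟨t, htT, ht0, z, hz0, hκ⟩ := hT x hx
    have hxE : (x : E₂) ≠ 0 := fun h => hx (Subtype.ext h)
    have hX0 : X ≠ 0 := by
      rintro rfl
      rw [zero_pow hl.ne_zero] at hX
      exact hxE hX.symm
    have hjx : j x ≠ 0 := (map_ne_zero j).2 hx
    have hjxE : ((j x : K₁) : E₁) ≠ 0 := fun h => hjx (Subtype.ext h)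
    have hY0 : Y ≠ 0 := by
      rintro rfl
      rw [zero_pow hl.ne_zero] at hY
      exact hjxE hY.symm
    have htE : (t : E₁) ≠ 0 := fun h => ht0 (Subtype.ext h)
    have hzE : (z : E₁) ≠ 0 := fun h => hz0 (Subtype.ext h)
    have hrt : r (t : E₁) ≠ 0 := by
      intro h0
      have := hr (t : E₁)
      rw [h0, zero_pow hl.ne_zero] at this
      exact htE this.symm
    set b : E₁ := Y ^ c * r (t : E₁) * z with hb
    have hb0 : b ≠ 0 := mul_ne_zero (mul_ne_zero (pow_ne_zero _ hY0) hrt) hzE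
    have hbl : b ^ l = (κ x : E₁) := by
      rw [hκ, hb, mul_pow, mul_pow, ← pow_mul, mul_comm c l, pow_mul, hY, hr]
      push_cast
      rfl
    -- the actions
    have h1 : ((α g) X) ^ l = X ^ l := by
      rw [← map_pow, hX, hα g hgK _ x.2]
    obtain ⟨e, he⟩ := exists_root_pow_mul hl hζ₂ hX0 h1
    have h2 : (g Y) ^ l = Y ^ l := by
      rw [← map_pow, hY, hgK _ (j x).2]
    obtain ⟨i, hi⟩ := exists_root_pow_mul hl hζ₁ hY0 h2
    have h3 := htr x hx X hX b hbl g hgK e he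
    have h4 : g b = ζ₁ ^ (i * c) * b := by
      rw [hb, map_mul, map_mul, map_pow, hi, hgT t htT, hgK _ z.2]
      ring
    have h5 : ζ₁ ^ e = ζ₁ ^ (i * c) := mul_right_cancel₀ hb0 (h3.symm.trans h4)
    rw [he, hi, mul_eq_right₀ hX0, mul_eq_right₀ hY0, hζ₂.pow_eq_one_iff_dvd,
      ← hζ₁.pow_eq_one_iff_dvd, h5, hζ₁.pow_eq_one_iff_dvd, hζ₁.pow_eq_one_iff_dvd,
      hl.dvd_mul]
    constructor
    · rintro (h | h)
      · exact h
      · exact absurd h hc
    · exact Or.inl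

end Vale.Agent.P024
end
end

section

section

/-!
(G3) Choice of the levels `K₁, K₂` and reduction of the cyclotomic hypothesis.
-/

namespace Vale.Agent.P024

open IntermediateField

theorem pow_eq_pow_iff_modEq' {E : Type*} [Field E] {ξ : E} {n : ℕ} (hξ : IsPrimitiveRoot ξ n)
    (hn : 0 < n) {a b : ℕ} : ξ ^ a = ξ ^ b ↔ a ≡ b [MOD n] := by
  have hu := hξ.isUnit_unit' hn.ne'
  have h := pow_eq_pow_iff_modEq (x := (hξ.isUnit hn.ne').unit') (n := a) (m := b)
  rw [← hu.eq_orderOf] at h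
  rw [← h, Units.ext_iff]
  simp

end Vale.Agent.P024
end
end

section

section

/-!
Gluing.
-/

namespace Vale.Agent.P024

section KummerExp

/-- two radicals with the same stabilizers are related by exponents. -/
lemma exponent_relation {F E : Type*} [Field F] [Field E] [Algebra F E] [IsGalois F E]
    (N : IntermediateField F E) {l : ℕ} (hl : l.Prime) {ζ : E} (hζ : IsPrimitiveRoot ζ l)
    (hζN : ζ ∈ N) {Y Y' : E} (hY0 : Y ≠ 0) (hY0' : Y' ≠ 0) (hYN : Y ^ l ∈ N) (hYN' : Y' ^ l ∈ N)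
    (h : ∀ g : E ≃ₐ[F] E, (∀ z ∈ N, g z = z) → (g Y = Y ↔ g Y' = Y')) :
    ∃ m n : ℕ, ¬ l ∣ m ∧ ∃ b ∈ N, (Y ^ l) ^ m = (Y' ^ l) ^ n * b ^ l := by
  have : Fact l.Prime := ⟨hl⟩
  have hl0 := hl.pos
  have hζ0 : ζ ≠ 0 := hζ.ne_zero hl0.ne'
  by_cases hall : ∀ g : E ≃ₐ[F] E, (∀ z ∈ N, g z = z) → g Y = Y
  · refine ⟨1, 0, ?_, Y, mem_of_forall_fixed N Y hall, by ring⟩
    rw [Nat.dvd_one]; exact hl.ne_one
  push Not at hall
  obtain ⟨g₀, hg₀, hg₀Y⟩ := hall
  have hex : ∀ g : E ≃ₐ[F] E, (∀ z ∈ N, g z = z) → ∀ W : E, W ≠ 0 → W ^ l ∈ N →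
      ∃ e : ℕ, g W = ζ ^ e * W := by
    intro g hg W hW hWN
    exact exists_exp hl0 hζ hW (by rw [← map_pow, hg _ hWN])
  obtain ⟨e, he⟩ := hex g₀ hg₀ Y hY0 hYN
  obtain ⟨e', he'⟩ := hex g₀ hg₀ Y' hY0' hYN'
  have hle : ¬ l ∣ e := by
    intro hd
    apply hg₀Y
    rw [he, (hζ.pow_eq_one_iff_dvd e).mpr hd, one_mul]
  have hle' : ¬ l ∣ e' := by
    intro hd
    apply hg₀Y
    rw [h g₀ hg₀, he', (hζ.pow_eq_one_iff_dvd e').mpr hd, one_mul]
  have hez : (e : ZMod l) ≠ 0 := by rwa [Ne, ZMod.natCast_eq_zero_iff]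
  refine ⟨e', e, hle', Y ^ e' / Y' ^ e, ?_, ?_⟩
  · apply mem_of_forall_fixed
    intro g hg
    obtain ⟨a, ha⟩ := hex g hg Y hY0 hYN
    obtain ⟨a', ha'⟩ := hex g hg Y' hY0' hYN'
    -- choose r with a + r e = 0
    obtain ⟨r, hr⟩ : ∃ r : ℕ, (a : ZMod l) + r * e = 0 := by
      refine ⟨((-(a : ZMod l)) * (e : ZMod l)⁻¹).val, ?_⟩
      rw [ZMod.natCast_zmod_val, mul_assoc, inv_mul_cancel₀ hez]
      ring
    have hpow : ∀ (n : ℕ) (W : E) (c : ℕ), g₀ W = ζ ^ c * W → (g₀ ^ n) W = ζ ^ (n * c) * W := by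
      intro n W c hW
      induction n with
      | zero => simp
      | succ n ih =>
        rw [pow_succ', AlgEquiv.mul_apply, ih, map_mul, map_pow, hg₀ ζ hζN, hW, Nat.succ_mul,
          pow_add]
        ring
    have hfixN : ∀ (n : ℕ), ∀ z ∈ N, (g₀ ^ n) z = z := by
      intro n z hz
      induction n with
      | zero => rfl
      | succ n ih => rw [pow_succ', AlgEquiv.mul_apply, ih, hg₀ z hz]
    have hgr : ∀ z ∈ N, (g * g₀ ^ r) z = z := by
      intro z hz
      rw [AlgEquiv.mul_apply, hfixN r z hz, hg z hz]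
    have h1 : (g * g₀ ^ r) Y = Y := by
      rw [AlgEquiv.mul_apply, hpow r Y e he, map_mul, map_pow, hg ζ hζN, ha, ← mul_assoc, ← pow_add]
      have : l ∣ r * e + a := by
        rw [← ZMod.natCast_eq_zero_iff]; push_cast; rw [add_comm]; exact hr
      rw [(hζ.pow_eq_one_iff_dvd _).mpr this, one_mul]
    have h2 := (h _ hgr).mp h1
    rw [AlgEquiv.mul_apply, hpow r Y' e' he', map_mul, map_pow, hg ζ hζN, ha', ← mul_assoc,
      ← pow_add, mul_eq_right₀ hY0', hζ.pow_eq_one_iff_dvd, ← ZMod.natCast_eq_zero_iff] at h2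
    push_cast at h2
    have h3 : ζ ^ (a * e') = ζ ^ (a' * e) := by
      rw [pow_eq_pow_iff' hl0 hζ]
      push_cast
      linear_combination (e' : ZMod l) * hr - (e : ZMod l) * h2
    rw [map_div₀, map_pow, map_pow, ha, ha', mul_pow, mul_pow, ← pow_mul, ← pow_mul, h3]
    field_simp
  · have hY'e : Y' ^ e ≠ 0 := pow_ne_zero _ hY0'
    rw [div_pow, ← pow_mul, ← pow_mul, ← pow_mul, ← pow_mul, mul_comm l e', mul_comm l e,
      mul_div_cancel₀ _ (pow_ne_zero _ hY0')]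

end KummerExp

section Glue

variable {F₁ E₁ F₂ E₂ : Type*} [Field F₁] [NumberField F₁] [Field E₁] [Algebra F₁ E₁]
    [IsGalois F₁ E₁] [Field F₂] [NumberField F₂] [Field E₂] [Algebra F₂ E₂] [IsGalois F₂ E₂]
    {α : (E₁ ≃ₐ[F₁] E₁) →* (E₂ ≃ₐ[F₂] E₂)} {l : ℕ}

/-- finite-dimensional field containing the image of a number field. -/
lemma exists_finite_contains (L : Type*) [Field L] [NumberField L] (j : L →+* E₁) :
    ∃ N : IntermediateField F₁ E₁, FiniteDimensional F₁ N ∧ ∀ x, j x ∈ N := by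
  classical
  have : CharZero E₁ := charZero_of_injective_algebraMap (algebraMap F₁ E₁).injective
  have : Algebra.IsAlgebraic F₁ E₁ := inferInstance
  let B := Module.finBasis ℚ L
  refine ⟨IntermediateField.adjoin F₁ (Set.range fun i => j (B i)), ?_, ?_⟩
  · have hfin : (Set.range fun i => j (B i)).Finite := Set.finite_range _
    exact IntermediateField.finiteDimensional_adjoin
      (fun x _ => (Algebra.IsAlgebraic.isAlgebraic x).isIntegral)
  · intro x
    rw [← B.sum_repr x, map_sum]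
    refine sum_mem fun i _ => ?_
    rw [Algebra.smul_def, map_mul]
    refine mul_mem ?_ (IntermediateField.subset_adjoin _ _ ⟨i, rfl⟩)
    have h1 : j (algebraMap ℚ L (B.repr x i)) = algebraMap F₁ E₁ (algebraMap ℚ F₁ (B.repr x i)) := by
      rw [eq_ratCast, map_ratCast, eq_ratCast, map_ratCast]
    rw [h1]
    exact IntermediateField.algebraMap_mem _ _

omit [IsGalois F₂ E₂] in
/-- uniqueness -/
lemma kmatch_unique (hl : l.Prime) (hpow₁ : ∀ x : E₁, ∃ y : E₁, y ^ l = x)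
    (hpow₂ : ∀ x : E₂, ∃ y : E₂, y ^ l = x) {ζ₁ : E₁} (hζ₁ : IsPrimitiveRoot ζ₁ l)
    (L : IntermediateField F₂ E₂) [FiniteDimensional F₂ L] (j j' : L →+* E₁)
    (K K' : IntermediateField F₁ E₁) [FiniteDimensional F₁ K] [FiniteDimensional F₁ K']
    (h : ∀ x : L, KMatch α l K (x : E₂) (j x)) (h' : ∀ x : L, KMatch α l K' (x : E₂) (j' x)) :
    j = j' := by
  have : NumberField L := NumberField.of_module_finite F₂ L
  obtain ⟨A, hA, hAj⟩ := exists_finite_contains (F₁ := F₁) L j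
  obtain ⟨A', hA', hAj'⟩ := exists_finite_contains (F₁ := F₁) L j'
  have hζfin : FiniteDimensional F₁ (IntermediateField.adjoin F₁ {ζ₁}) :=
    IntermediateField.adjoin.finiteDimensional (Algebra.IsIntegral.isIntegral ζ₁)
  let N : IntermediateField F₁ E₁ := K ⊔ K' ⊔ A ⊔ A' ⊔ IntermediateField.adjoin F₁ {ζ₁}
  have hK : K ≤ N := le_sup_left.trans (le_sup_left.trans (le_sup_left.trans le_sup_left))
  have hK' : K' ≤ N := le_sup_right.trans (le_sup_left.trans (le_sup_left.trans le_sup_left))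
  have hAN : A ≤ N := le_sup_right.trans (le_sup_left.trans le_sup_left)
  have hAN' : A' ≤ N := le_sup_right.trans le_sup_left
  have hζN : ζ₁ ∈ N := (le_sup_right : _ ≤ N) (IntermediateField.mem_adjoin_simple_self F₁ ζ₁)
  have hNfin : FiniteDimensional F₁ N := by
    have h1 : FiniteDimensional F₁ (K ⊔ K' : IntermediateField F₁ E₁) := inferInstance
    have h2 : FiniteDimensional F₁ (K ⊔ K' ⊔ A : IntermediateField F₁ E₁) := inferInstance
    have h3 : FiniteDimensional F₁ (K ⊔ K' ⊔ A ⊔ A' : IntermediateField F₁ E₁) := inferInstance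
    exact inferInstance
  have : NumberField N := NumberField.of_module_finite F₁ N
  let J : L →+* N := j.codRestrict N.toSubfield (fun x => hAN (hAj x))
  let J' : L →+* N := j'.codRestrict N.toSubfield (fun x => hAN' (hAj' x))
  have hJJ : J = J' := by
    refine eq_of_forall_pow_gen (l := l) J J' {1} ?_
    intro a ha
    obtain ⟨Y, hY⟩ := hpow₁ (j a)
    obtain ⟨Y', hY'⟩ := hpow₁ (j' a)
    obtain ⟨X, hX⟩ := hpow₂ (a : E₂)
    have hja : j a ≠ 0 := (map_ne_zero j).mpr ha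
    have hja' : j' a ≠ 0 := (map_ne_zero j').mpr ha
    have hY0 : Y ≠ 0 := by rintro rfl; rw [zero_pow hl.ne_zero] at hY; exact hja hY.symm
    have hY0' : Y' ≠ 0 := by rintro rfl; rw [zero_pow hl.ne_zero] at hY'; exact hja' hY'.symm
    obtain ⟨m, n, hm, b, hb, hmn⟩ := exponent_relation N hl hζ₁ hζN hY0 hY0'
      (by rw [hY]; exact hAN (hAj a)) (by rw [hY']; exact hAN' (hAj' a)) (by
        intro g hg
        rw [← h a X hX Y hY g (fun z hz => hg z (hK hz)),
          ← h' a X hX Y' hY' g (fun z hz => hg z (hK' hz))])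
    refine ⟨m, n, hm, 1, Finset.mem_singleton_self _, one_ne_zero, ⟨b, hb⟩, ?_⟩
    apply Subtype.ext
    push_cast
    rw [hY, hY'] at hmn
    rw [mul_one]
    exact hmn
  ext x
  have := congrArg (fun f : L →+* N => ((f x : N) : E₁)) hJJ
  exact this

variable (α l) in
/-- a finite subfield together with a matching embedding. -/
def MatchDatum (L : IntermediateField F₂ E₂) (j : L →+* E₁) : Prop :=
  FiniteDimensional F₂ L ∧ ∃ K : IntermediateField F₁ E₁, FiniteDimensional F₁ K ∧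
    ∀ x : L, KMatch α l K (x : E₂) (j x)

omit [NumberField F₁] [IsGalois F₁ E₁] [NumberField F₂] [IsGalois F₂ E₂] in
lemma MatchDatum.restrict {L L' : IntermediateField F₂ E₂} (hLL : L ≤ L') {j' : L' →+* E₁}
    (h : MatchDatum α l L' j') :
    MatchDatum α l L (j'.comp (IntermediateField.inclusion hLL).toRingHom) := by
  obtain ⟨hL', K, hK, hKM⟩ := h
  refine ⟨?_, K, hK, fun x => hKM (IntermediateField.inclusion hLL x)⟩
  exact FiniteDimensional.of_injective (IntermediateField.inclusion hLL).toLinearMap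
    (IntermediateField.inclusion_injective hLL)

omit [IsGalois F₂ E₂] in
lemma MatchDatum.apply_eq (hl : l.Prime) (hpow₁ : ∀ x : E₁, ∃ y : E₁, y ^ l = x)
    (hpow₂ : ∀ x : E₂, ∃ y : E₂, y ^ l = x) {ζ₁ : E₁} (hζ₁ : IsPrimitiveRoot ζ₁ l)
    {L L' : IntermediateField F₂ E₂} {j : L →+* E₁} {j' : L' →+* E₁}
    (h : MatchDatum α l L j) (h' : MatchDatum α l L' j') (x : E₂) (hx : x ∈ L) (hx' : x ∈ L') :
    j ⟨x, hx⟩ = j' ⟨x, hx'⟩ := by
  have hle : IntermediateField.adjoin F₂ {x} ≤ L := by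
    rw [IntermediateField.adjoin_simple_le_iff]; exact hx
  have hle' : IntermediateField.adjoin F₂ {x} ≤ L' := by
    rw [IntermediateField.adjoin_simple_le_iff]; exact hx'
  obtain ⟨hM, K, hK, hKM⟩ := h.restrict hle
  obtain ⟨-, K', hK', hKM'⟩ := h'.restrict hle'
  have := kmatch_unique hl hpow₁ hpow₂ hζ₁ (IntermediateField.adjoin F₂ {x}) _ _ K K' hKM hKM'
  exact congrArg (fun f : IntermediateField.adjoin F₂ {x} →+* E₁ =>
    f ⟨x, IntermediateField.mem_adjoin_simple_self F₂ x⟩) this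

omit [NumberField F₁] [IsGalois F₁ E₁] [NumberField F₂] [IsGalois F₂ E₂] in
/-- transport of a datum by an element of the group -/
lemma MatchDatum.conj {L : IntermediateField F₂ E₂} {j : L →+* E₁}
    (h : MatchDatum α l L j) (g : E₁ ≃ₐ[F₁] E₁) :
    ∃ (L' : IntermediateField F₂ E₂) (j' : L' →+* E₁), MatchDatum α l L' j' ∧
      ∀ (x : E₂) (hx : x ∈ L), ∃ hx' : (α g) x ∈ L', j' ⟨(α g) x, hx'⟩ = g (j ⟨x, hx⟩) := by
  obtain ⟨hL, K, hK, hKM⟩ := h
  set a : E₂ ≃ₐ[F₂] E₂ := α g with ha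
  let L' : IntermediateField F₂ E₂ := L.map (a : E₂ →ₐ[F₂] E₂)
  have hL'mem : ∀ y : L', a⁻¹ (y : E₂) ∈ L := by
    rintro ⟨y, hy⟩
    obtain ⟨x, hx, rfl⟩ := hy
    change a⁻¹ (a x) ∈ L
    rw [← AlgEquiv.mul_apply, inv_mul_cancel, AlgEquiv.one_apply]
    exact hx
  let e : L' →+* L := (((a⁻¹ : E₂ ≃ₐ[F₂] E₂) : E₂ →+* E₂).comp
    (algebraMap L' E₂)).codRestrict L.toSubfield hL'mem
  let j' : L' →+* E₁ := ((g : E₁ ≃ₐ[F₁] E₁) : E₁ →+* E₁).comp (j.comp e)
  let K' : IntermediateField F₁ E₁ := K.map (g : E₁ →ₐ[F₁] E₁)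
  refine ⟨L', j', ⟨?_, K', ?_, ?_⟩, ?_⟩
  · exact (L.equivMap (a : E₂ →ₐ[F₂] E₂)).toLinearEquiv.finiteDimensional
  · exact (K.equivMap (g : E₁ →ₐ[F₁] E₁)).toLinearEquiv.finiteDimensional
  · intro y X hX Y hY h hh
    have hX₀ : (a⁻¹ X) ^ l = ((e y : L) : E₂) := by
      rw [← map_pow, hX]; rfl
    have hY₀ : (g⁻¹ Y) ^ l = j (e y) := by
      rw [← map_pow, hY]
      change g⁻¹ (g (j (e y))) = _
      rw [← AlgEquiv.mul_apply, inv_mul_cancel, AlgEquiv.one_apply]
    have hfix : ∀ z ∈ K, (g⁻¹ * h * g) z = z := by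
      intro z hz
      have h1 : h (g z) = g z := hh (g z) ⟨z, hz, rfl⟩
      rw [AlgEquiv.mul_apply, AlgEquiv.mul_apply, h1, ← AlgEquiv.mul_apply, inv_mul_cancel,
        AlgEquiv.one_apply]
    have h2 := hKM (e y) (a⁻¹ X) hX₀ (g⁻¹ Y) hY₀ (g⁻¹ * h * g) hfix
    have h3 : (α (g⁻¹ * h * g)) (a⁻¹ X) = a⁻¹ ((α h) X) := by
      rw [map_mul, map_mul, map_inv, ← ha, AlgEquiv.mul_apply, AlgEquiv.mul_apply,
        ← AlgEquiv.mul_apply a, mul_inv_cancel, AlgEquiv.one_apply]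
    have h4 : (g⁻¹ * h * g) (g⁻¹ Y) = g⁻¹ (h Y) := by
      rw [AlgEquiv.mul_apply, AlgEquiv.mul_apply, ← AlgEquiv.mul_apply g, mul_inv_cancel,
        AlgEquiv.one_apply]
    rw [h3, h4, (a⁻¹).injective.eq_iff, (g⁻¹).injective.eq_iff] at h2
    exact h2
  · intro x hx
    refine ⟨⟨x, hx, rfl⟩, ?_⟩
    change g (j (e _)) = _
    congr 2
    apply Subtype.ext
    change a⁻¹ (a x) = x
    rw [← AlgEquiv.mul_apply, inv_mul_cancel, AlgEquiv.one_apply]

theorem glue396 (hl : l.Prime)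
    (hpow₁ : ∀ x : E₁, ∃ y : E₁, y ^ l = x) (hpow₂ : ∀ x : E₂, ∃ y : E₂, y ^ l = x)
    {ζ₁ : E₁} (hζ₁ : IsPrimitiveRoot ζ₁ l)
    (hcore : ∀ K₂ : IntermediateField F₂ E₂, FiniteDimensional F₂ K₂ →
      ∃ (K₁ : IntermediateField F₁ E₁) (j : K₂ →+* E₁), FiniteDimensional F₁ K₁ ∧
        ∀ x : K₂, KMatch α l K₁ (x : E₂) (j x)) :
    ∃ j : E₂ →+* E₁, ∀ (g : E₁ ≃ₐ[F₁] E₁) (x : E₂), g (j x) = j ((α g) x) := by
  have hex : ∀ L : IntermediateField F₂ E₂, FiniteDimensional F₂ L →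
      ∃ j : L →+* E₁, MatchDatum α l L j := by
    intro L hL
    obtain ⟨K, j, hK, hj⟩ := hcore L hL
    exact ⟨j, hL, K, hK, hj⟩
  have hpair : ∀ x y : E₂, ∃ (L : IntermediateField F₂ E₂) (j : L →+* E₁), MatchDatum α l L j ∧
      x ∈ L ∧ y ∈ L := by
    intro x y
    have hfin : FiniteDimensional F₂ (IntermediateField.adjoin F₂ {x, y}) := by
      have : ({x, y} : Set E₂).Finite := Set.toFinite _
      exact IntermediateField.finiteDimensional_adjoin
        (fun z _ => (Algebra.IsAlgebraic.isAlgebraic z).isIntegral)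
    obtain ⟨j, hj⟩ := hex _ hfin
    exact ⟨_, j, hj, IntermediateField.subset_adjoin _ _ (by simp),
      IntermediateField.subset_adjoin _ _ (by simp)⟩
  have hone : ∀ x : E₂, ∃ y : E₁, ∀ (L : IntermediateField F₂ E₂) (j : L →+* E₁),
      MatchDatum α l L j → ∀ hx : x ∈ L, j ⟨x, hx⟩ = y := by
    intro x
    obtain ⟨L, j, hj, hx, -⟩ := hpair x x
    exact ⟨j ⟨x, hx⟩, fun L' j' hj' hx' => hj'.apply_eq hl hpow₁ hpow₂ hζ₁ hj x hx' hx⟩
  choose f hf using hone
  let J : E₂ →+* E₁ :=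
    { toFun := f
      map_one' := by
        obtain ⟨L, j, hj, hx, -⟩ := hpair 1 1
        rw [← hf 1 L j hj hx]
        exact map_one j
      map_mul' := by
        intro x y
        obtain ⟨L, j, hj, hx, hy⟩ := hpair x y
        rw [← hf x L j hj hx, ← hf y L j hj hy, ← hf (x * y) L j hj (mul_mem hx hy), ← map_mul]
        rfl
      map_zero' := by
        obtain ⟨L, j, hj, hx, -⟩ := hpair 0 0
        rw [← hf 0 L j hj hx]
        exact map_zero j
      map_add' := by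
        intro x y
        obtain ⟨L, j, hj, hx, hy⟩ := hpair x y
        rw [← hf x L j hj hx, ← hf y L j hj hy, ← hf (x + y) L j hj (add_mem hx hy), ← map_add]
        rfl }
  refine ⟨J, ?_⟩
  intro g x
  obtain ⟨L, j, hj, hx, -⟩ := hpair x x
  obtain ⟨L', j', hj', hconj⟩ := hj.conj g
  obtain ⟨hx', he⟩ := hconj x hx
  change g (f x) = f ((α g) x)
  rw [← hf x L j hj hx, ← hf _ L' j' hj' hx', he]

end Glue

end Vale.Agent.P024
end
end

section

section

/-!
The Gauss sum as a Kummer generator of the degree `l` subextension of the `p`-th roots of unity.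
-/

namespace Vale.Agent.P024

open scoped NumberField
open IsDedekindDomain Polynomial

/-- For a character of prime order `l` of a cyclic group of order `p - 1`, the kernel is the
kernel of the `(p - 1) / l`-th power map. -/
theorem mulChar_eq_one_iff {E : Type*} [Field E] {l p : ℕ} (hl : l.Prime) (hp : p.Prime)
    [Fact p.Prime] (hlp : l ∣ p - 1) (χ : MulChar (ZMod p) E) (hχ : orderOf χ = l)
    (a : (ZMod p)ˣ) : χ a = 1 ↔ a ^ ((p - 1) / l) = 1 := by
  have hχ1 : χ ≠ 1 := by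
    rintro rfl
    rw [orderOf_one] at hχ
    exact hl.ne_one hχ.symm
  obtain ⟨u, hu⟩ := IsCyclic.exists_generator (α := (ZMod p)ˣ)
  have hord : orderOf u = p - 1 := by
    rw [orderOf_eq_card_of_forall_mem_zpowers hu, Nat.card_eq_fintype_card, ZMod.card_units]
  obtain ⟨k, rfl⟩ : ∃ k : ℕ, u ^ k = a := by
    have h1 := hu a
    rw [← mem_powers_iff_mem_zpowers] at h1
    exact h1
  have hp1 : 0 < p - 1 := by have := hp.two_le; omega
  have hχl : χ u ^ l = 1 := by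
    rw [← MulChar.pow_apply' χ hl.ne_zero, ← hχ, pow_orderOf_eq_one, MulChar.one_apply_coe]
  have hχu : χ u ≠ 1 := by
    intro h
    apply hχ1
    ext y
    obtain ⟨m, rfl⟩ : ∃ m : ℕ, u ^ m = y := by
      have h1 := hu y
      rw [← mem_powers_iff_mem_zpowers] at h1
      exact h1
    rw [Units.val_pow_eq_pow_val, map_pow, h, one_pow, ← Units.val_pow_eq_pow_val,
      MulChar.one_apply_coe]
  have : Fact l.Prime := ⟨hl⟩
  have ho : orderOf (χ u) = l := orderOf_eq_prime hχl hχu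
  rw [Units.val_pow_eq_pow_val, map_pow, ← orderOf_dvd_iff_pow_eq_one, ho, ← pow_mul,
    ← orderOf_dvd_iff_pow_eq_one, hord]
  obtain ⟨m, hm⟩ := hlp
  rw [hm, Nat.mul_div_cancel_left _ hl.pos]
  have hm0 : 0 < m := by
    rcases Nat.eq_zero_or_pos m with h | h
    · rw [h, mul_zero] at hm
      omega
    · exact h
  exact (Nat.mul_dvd_mul_iff_right hm0).symm

theorem gauss_kummer {F E : Type*} [Field F] [Field E] [Algebra F E]
    [IsGalois F E] [CharZero E] (K : IntermediateField F E) [NumberField K]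
    {l p : ℕ} (hl : l.Prime) (hp : p.Prime) (hlp : l ∣ p - 1)
    {ζ : E} (hζ : IsPrimitiveRoot ζ l) (hζK : ζ ∈ K) {ξ : E} (hξ : IsPrimitiveRoot ξ p) :
    ∃ (b : E) (x : K), b ≠ 0 ∧ b ^ l = (x : E) ∧
      (∀ g : E ≃ₐ[F] E, (∀ y ∈ K, g y = y) → ∀ a : ℕ, g ξ = ξ ^ a →
        (g b = b ↔ a ^ ((p - 1) / l) ≡ 1 [MOD p])) ∧
      (∀ w : HeightOneSpectrum (𝓞 K), w.valuation K (p : K) = WithZero.exp (-1 : ℤ) →
        ¬ DvdVal w l x) ∧
      (∀ w : HeightOneSpectrum (𝓞 K), (p : 𝓞 K) ∉ w.asIdeal → DvdVal w l x) := by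
  have hfp : Fact p.Prime := ⟨hp⟩
  have : NeZero p := ⟨hp.ne_zero⟩
  have hnzl : NeZero l := ⟨hl.ne_zero⟩
  have halgK : Algebra.IsAlgebraic K E := Algebra.IsAlgebraic.tower_top (K := F) K
  have halg : Algebra.IsAlgebraic ℚ E := Algebra.IsAlgebraic.trans ℚ K E
  have hp0 : (p : E) ≠ 0 := Nat.cast_ne_zero.2 hp.ne_zero
  have halgp : algebraMap K E (p : K) = (p : E) := map_natCast _ _
  have hlp' : l < p := by
    have h1 := Nat.le_of_dvd (by have := hp.two_le; omega) hlp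
    have := hp.two_le
    omega
  have hN : 0 < p - 1 := by have := hp.two_le; omega
  -- the characters
  obtain ⟨χ, hχ⟩ := MulChar.exists_mulChar_orderOf (ZMod p) (n := l) (R := E)
    (by rw [ZMod.card]; exact hlp) hζ
  have hχ1 : χ ≠ 1 := by
    rintro rfl
    rw [orderOf_one] at hχ
    exact hl.ne_one hχ.symm
  have hχl : ∀ a : (ZMod p)ˣ, χ a ^ l = 1 := by
    intro a
    rw [← MulChar.pow_apply' χ hl.ne_zero, ← hχ, pow_orderOf_eq_one, MulChar.one_apply_coe]
  set ψ : AddChar (ZMod p) E := AddChar.zmodChar p hξ.pow_eq_one with hψ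
  have hψprim : ψ.IsPrimitive := AddChar.zmodChar_primitive_of_primitive_root p hξ
  set b : E := gaussSum χ ψ with hb
  have hb0 : b ≠ 0 := by
    refine gaussSum_ne_zero_of_nontrivial ?_ hχ1 hψprim
    rw [ZMod.card]; exact hp0
  -- values of `χ` are in `K`
  have hχK : ∀ a : ZMod p, χ a ∈ K := by
    intro a
    by_cases ha : IsUnit a
    · obtain ⟨i, _, hi⟩ := hζ.eq_pow_of_pow_eq_one (hχl ha.unit)
      rw [IsUnit.unit_spec] at hi
      rw [← hi]
      exact pow_mem hζK i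
    · rw [MulChar.map_nonunit χ ha]
      exact zero_mem _
  -- action of automorphisms on `b`
  have hact : ∀ g : E ≃ₐ[F] E, (∀ y ∈ K, g y = y) → ∀ a : (ZMod p)ˣ,
      g ξ = ξ ^ (a : ZMod p).val → g b = χ⁻¹ a * b := by
    intro g hg a ha
    rw [hb, ← gaussSum_mulShift_eq, gaussSum, gaussSum, map_sum]
    refine Finset.sum_congr rfl fun x _ => ?_
    rw [map_mul, hg _ (hχK x), AddChar.mulShift_apply, hψ, AddChar.zmodChar_apply,
      AddChar.zmodChar_apply, map_pow, ha, ← pow_mul, ZMod.val_mul]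
    congr 1
    exact pow_eq_pow_mod _ hξ.pow_eq_one
  have hexa : ∀ g : E ≃ₐ[F] E, ∃ a : (ZMod p)ˣ, g ξ = ξ ^ (a : ZMod p).val := by
    intro g
    have hgξ : IsPrimitiveRoot (g ξ) p := hξ.map_of_injective g.injective
    obtain ⟨i, hi, hic⟩ := hξ.eq_pow_of_pow_eq_one (hgξ.pow_eq_one)
    have hico : i.Coprime p := by
      rw [← hic] at hgξ
      exact (hξ.pow_iff_coprime hp.pos i).1 hgξ
    refine ⟨ZMod.unitOfCoprime i hico, ?_⟩
    rw [ZMod.coe_unitOfCoprime, ZMod.val_natCast_of_lt hi, hic]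
  have hinvl : ∀ a : (ZMod p)ˣ, (χ⁻¹ a) ^ l = 1 := by
    intro a
    rw [MulChar.inv_apply_eq_inv', inv_pow, hχl, inv_one]
  -- `b ^ l` is in `K`
  have hblK : b ^ l ∈ K := by
    have h1 : b ^ l ∈ IntermediateField.fixedField K.fixingSubgroup := by
      rw [IntermediateField.mem_fixedField_iff]
      intro g hg
      rw [IntermediateField.mem_fixingSubgroup_iff] at hg
      obtain ⟨a, ha⟩ := hexa g
      rw [map_pow, hact g hg a ha, mul_pow, hinvl, one_mul]
    rwa [InfiniteGalois.fixedField_fixingSubgroup] at h1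
  refine ⟨b, ⟨b ^ l, hblK⟩, hb0, rfl, ?_, ?_, ?_⟩
  · intro g hg a ha
    have hgξ : IsPrimitiveRoot (g ξ) p := hξ.map_of_injective g.injective
    have haco : a.Coprime p := by
      rw [ha] at hgξ
      exact (hξ.pow_iff_coprime hp.pos a).1 hgξ
    have h1 : g ξ = ξ ^ ((ZMod.unitOfCoprime a haco : (ZMod p)ˣ) : ZMod p).val := by
      rw [ZMod.coe_unitOfCoprime, ZMod.val_natCast, ha]
      exact pow_eq_pow_mod _ hξ.pow_eq_one
    rw [hact g hg _ h1, mul_eq_right₀ hb0, MulChar.inv_apply_eq_inv', inv_eq_one,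
      mulChar_eq_one_iff hl hp hlp χ hχ, ← Units.val_inj, Units.val_pow_eq_pow_val,
      ZMod.coe_unitOfCoprime, Units.val_one, ← ZMod.natCast_eq_natCast_iff, Nat.cast_pow,
      Nat.cast_one]
  · intro w hw
    obtain ⟨O, hO, hOw⟩ := exists_valuationSubring_over (E := E) w
    have hmem := fun x : K => mem_iff_of_center O hO w hOw x
    have hK : ∀ c : K, c ≠ 0 → ∃ k : ℤ, O.valuation (algebraMap K E c) =
        O.valuation (p : E) ^ k := by
      intro c hc
      have := exists_zpow_of_center O w hmem (p : K) hw c hc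
      rwa [halgp] at this
    have hpO : O.valuation (p : E) < 1 := by
      have h1 : algebraMap K E (p : K) ∈ O.nonunits := by
        rw [(hmem _).2, hw, ← WithZero.exp_zero, WithZero.exp_lt_exp]
        norm_num
      rwa [halgp] at h1
    have hlO : (l : E) ∉ O.nonunits := fun h =>
      hlp'.ne (prime_unique O hl hp h hpO)
    -- the uniformizer
    have hπval : O.valuation (ξ - 1) = O.valuation (1 - ξ) := Valuation.map_sub_swap _ _ _
    have hP : O.valuation (ξ - 1) ^ (p - 1) = O.valuation (p : E) := by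
      rw [hπval]; exact val_pow_sub_one_eq O hp hξ
    have hπ0 : ξ - 1 ≠ 0 := sub_ne_zero.2 fun h => hp.ne_one (by
      have := hξ.eq_orderOf
      rw [h, orderOf_one] at this
      exact this)
    have hπ1 : O.valuation (ξ - 1) < 1 := by
      by_contra hcon
      push Not at hcon
      have := one_le_pow₀ (n := p - 1) hcon
      rw [hP] at this
      exact absurd hpO (not_lt.2 this)
    rintro ⟨z, hz⟩
    -- the unit `b * z`
    set y : E := b * algebraMap K E z with hy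
    have hyl : O.valuation (y ^ l) = 1 := by
      have h1 : y ^ l = algebraMap K E (⟨b ^ l, hblK⟩ * z ^ l) := by
        rw [hy, mul_pow, map_mul, map_pow]
        rfl
      rw [h1]
      refine val_eq_one_of_notMem O ((hmem _).1.2 hz.le) fun h => ?_
      have := (hmem _).2.1 h
      rw [hz] at this
      exact lt_irrefl _ this
    have hyv : O.valuation y = 1 := by
      rw [map_pow] at hyl
      exact (pow_eq_one_iff_of_nonneg zero_le hl.ne_zero).1 hyl
    -- `y` is a polynomial in `ξ`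
    obtain ⟨f, hf⟩ : ∃ f : K[X], aeval ξ f = y := by
      refine ⟨(∑ x : ZMod p, C (⟨χ x, hχK x⟩ : K) * X ^ x.val) * C z, ?_⟩
      rw [map_mul, map_sum, aeval_C, hy, hb, gaussSum]
      congr 1
      refine Finset.sum_congr rfl fun x _ => ?_
      rw [map_mul, aeval_C, map_pow, aeval_X, hψ, AddChar.zmodChar_apply]
      rfl
    have hcyc := minpoly_eq_cyclotomic O hp hξ hpO hp0 hK
    have hdegm : (minpoly K ξ).natDegree = p - 1 := by
      rw [hcyc, natDegree_cyclotomic, Nat.totient_prime hp]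
    have hξint : IsIntegral K ξ := (Algebra.IsAlgebraic.isAlgebraic ξ).isIntegral
    set r : K[X] := (f %ₘ minpoly K ξ).comp (X + C 1) with hr
    have hrdeg : r.natDegree < p - 1 := by
      rw [hr, natDegree_comp, natDegree_X_add_C, mul_one, ← hdegm]
      refine natDegree_modByMonic_lt f (minpoly.monic hξint) fun h1 => ?_
      rw [h1, natDegree_one] at hdegm
      omega
    have hre : ∀ t : E, aeval (t - 1) r = aeval t (f %ₘ minpoly K ξ) := by
      intro t
      rw [hr, aeval_comp]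
      simp
    have hry : aeval (ξ - 1) r = y := by
      rw [hre, ← hf]
      conv_rhs => rw [← modByMonic_add_div f (minpoly K ξ)]
      simp [minpoly.aeval]
    have hrv : O.valuation (aeval (ξ - 1) r) = 1 := by rw [hry]; exact hyv
    -- an automorphism moving `y`
    obtain ⟨a, ha⟩ := MulChar.ne_one_iff.1 hχ1
    have haco : (a : ZMod p).val.Coprime p := ZMod.val_coe_unit_coprime a
    have hξa : IsPrimitiveRoot (ξ ^ (a : ZMod p).val) p := hξ.pow_of_coprime _ haco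
    have hconj : IsConjRoot K (ξ ^ (a : ZMod p).val) ξ := by
      rw [IsConjRoot, hcyc, minpoly_eq_cyclotomic O hp hξa hpO hp0 hK]
    obtain ⟨g, hg⟩ := isConjRoot_iff_exists_algEquiv.1 hconj
    have hgy : g y = χ⁻¹ a * y := by
      have h1 := hact (g.restrictScalars F) (fun y hy => g.commutes ⟨y, hy⟩) a hg
      have h2 : g b = χ⁻¹ a * b := h1
      rw [hy, map_mul, h2, g.commutes, mul_assoc]
    have hgr : g y = aeval (ξ ^ (a : ZMod p).val - 1) r := by
      rw [← hry, ← hg]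
      have h1 := Polynomial.aeval_algHom_apply (g : E →ₐ[K] E) (ξ - 1) r
      simp only [map_sub, map_one] at h1
      exact h1.symm
    have hva : O.valuation (ξ ^ (a : ZMod p).val - 1) = O.valuation (ξ - 1) := by
      rw [Valuation.map_sub_swap, Valuation.map_sub_swap _ ξ 1]
      exact val_one_sub_pow O hp hξ haco
    have h1 := aeval_sub_coeff_mem O hπ0 hπ1 hP hK hrdeg hN hrv hva
    have h2 := aeval_sub_coeff_mem O hπ0 hπ1 hP hK hrdeg hN hrv rfl
    have h3 : g y - y ∈ O.nonunits := by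
      have h4 := O.nonunits.sub_mem h1 h2
      rw [← hgr, hry] at h4
      have e : g y - algebraMap K E (r.coeff 0) - (y - algebraMap K E (r.coeff 0)) = g y - y := by
        ring
      rwa [e] at h4
    have h5 : χ⁻¹ a - 1 ∈ O.nonunits := by
      have e : g y - y = y * (χ⁻¹ a - 1) := by rw [hgy]; ring
      rw [e, ValuationSubring.mem_nonunits_iff, map_mul, hyv, one_mul] at h3
      exact h3
    have h6 := root_eq_one O l hlO _ (hinvl a) h5
    rw [MulChar.inv_apply_eq_inv', inv_eq_one] at h6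
    exact ha h6
  · intro w hw
    set b' : E := gaussSum χ⁻¹ ψ⁻¹ with hb'
    have hbb : b * b' = (p : E) := by
      rw [hb, hb', gaussSum_mul_gaussSum_eq_card hχ1 hψprim, ZMod.card]
    have hψint : ∀ c : ZMod p, IsIntegral ℤ (ψ c) := by
      intro c
      refine IsIntegral.of_pow hp.pos ?_
      rw [hψ, AddChar.zmodChar_apply, ← pow_mul, mul_comm, pow_mul, hξ.pow_eq_one, one_pow]
      exact isIntegral_one
    have hχint : ∀ c : ZMod p, IsIntegral ℤ (χ c) := by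
      intro c
      by_cases hc : IsUnit c
      · refine IsIntegral.of_pow hl.pos ?_
        have h1 := hχl hc.unit
        rw [IsUnit.unit_spec] at h1
        rw [h1]
        exact isIntegral_one
      · rw [MulChar.map_nonunit χ hc]
        exact isIntegral_zero
    have hχint' : ∀ c : ZMod p, IsIntegral ℤ (χ⁻¹ c) := by
      intro c
      by_cases hc : IsUnit c
      · refine IsIntegral.of_pow hl.pos ?_
        have h1 := hinvl hc.unit
        rw [IsUnit.unit_spec] at h1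
        rw [h1]
        exact isIntegral_one
      · rw [MulChar.map_nonunit _ hc]
        exact isIntegral_zero
    have hbint : IsIntegral ℤ b := by
      rw [hb, gaussSum]
      exact IsIntegral.sum _ fun c _ => (hχint c).mul (hψint c)
    have hbint' : IsIntegral ℤ b' := by
      rw [hb', gaussSum]
      refine IsIntegral.sum _ fun c _ => (hχint' c).mul ?_
      rw [AddChar.inv_apply]
      exact hψint _
    set x : K := ⟨b ^ l, hblK⟩ with hx
    have hxE : (x : E) = b ^ l := rfl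
    have hx0 : x ≠ 0 := by
      intro h
      have h1 : (x : E) = 0 := by rw [h]; rfl
      rw [hxE] at h1
      exact hb0 (pow_eq_zero_iff hl.ne_zero |>.1 h1)
    set x' : K := (p : K) ^ l / x with hx'
    have hx'E : (x' : E) = b' ^ l := by
      have h1 : (x' : E) = (p : E) ^ l / (x : E) := by
        rw [hx']
        push_cast
        rfl
      rw [h1, hxE, ← hbb, mul_pow, mul_div_cancel_left₀ _ (pow_ne_zero _ hb0)]
    have hxint : IsIntegral ℤ x := by
      refine (isIntegral_algebraMap_iff (algebraMap K E).injective).1 ?_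
      exact hbint.pow l
    have hxint' : IsIntegral ℤ x' := by
      refine (isIntegral_algebraMap_iff (algebraMap K E).injective).1 ?_
      have h1 : algebraMap K E x' = b' ^ l := hx'E
      rw [h1]
      exact hbint'.pow l
    have hle : ∀ t : K, IsIntegral ℤ t → w.valuation K t ≤ 1 := fun t ht =>
      w.valuation_le_one (⟨t, ht⟩ : 𝓞 K)
    have hmul : w.valuation K x * w.valuation K x' = 1 := by
      rw [← map_mul, hx', mul_div_cancel₀ _ hx0, map_pow]
      have h1 : w.valuation K (p : K) = 1 := by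
        have h2 : w.valuation K (algebraMap (𝓞 K) K (p : 𝓞 K)) = w.intValuation (p : 𝓞 K) :=
          w.valuation_of_algebraMap _
        have h3 : algebraMap (𝓞 K) K (p : 𝓞 K) = (p : K) := map_natCast _ _
        rw [h3] at h2
        rw [h2]
        exact w.intValuation_eq_one_iff.2 hw
      rw [h1, one_pow]
    refine ⟨1, ?_⟩
    rw [one_pow, mul_one]
    refine le_antisymm (hle x hxint) ?_
    calc (1 : WithZero (Multiplicative ℤ)) = w.valuation K x * w.valuation K x' := hmul.symm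
      _ ≤ w.valuation K x * 1 := mul_le_mul_right (hle x' hxint') _
      _ = w.valuation K x := mul_one _

end Vale.Agent.P024
end
end

section

section

/-!
Uniqueness of the embedding inducing a given homomorphism.
-/

namespace Vale.Agent.P024

theorem unique_of_induces {F₁ E₁ F₂ E₂ : Type*} [Field F₁] [NumberField F₁] [Field E₁]
    [Algebra F₁ E₁] [IsGalois F₁ E₁] [Field F₂] [NumberField F₂] [Field E₂] [Algebra F₂ E₂]
    [IsGalois F₂ E₂] (α : (E₁ ≃ₐ[F₁] E₁) →* (E₂ ≃ₐ[F₂] E₂)) {l : ℕ} (hl : l.Prime)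
    (hpow₁ : ∀ x : E₁, ∃ y : E₁, y ^ l = x) (hpow₂ : ∀ x : E₂, ∃ y : E₂, y ^ l = x)
    {ζ₁ : E₁} (hζ₁ : IsPrimitiveRoot ζ₁ l) (j j' : E₂ →+* E₁)
    (hj : ∀ (g : E₁ ≃ₐ[F₁] E₁) (x : E₂), g (j x) = j ((α g) x))
    (hj' : ∀ (g : E₁ ≃ₐ[F₁] E₁) (x : E₂), g (j' x) = j' ((α g) x)) : j = j' := by
  have hnz : NeZero l := ⟨hl.ne_zero⟩
  have key : ∀ i : E₂ →+* E₁, (∀ (g : E₁ ≃ₐ[F₁] E₁) (x : E₂), g (i x) = i ((α g) x)) →
      ∀ x : E₂, KMatch α l (IntermediateField.adjoin F₁ {ζ₁}) x (i x) := by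
    intro i hi x X hX Y hY g hg
    have hgζ : g ζ₁ = ζ₁ := hg _ (IntermediateField.mem_adjoin_simple_self F₁ ζ₁)
    by_cases hx : x = 0
    · rw [hx, map_zero] at hY
      rw [hx] at hX
      rw [(pow_eq_zero_iff hl.ne_zero).1 hX, (pow_eq_zero_iff hl.ne_zero).1 hY, map_zero, map_zero]
      simp
    · have hX0 : X ≠ 0 := by
        rintro rfl
        rw [zero_pow hl.ne_zero] at hX
        exact hx hX.symm
      have hiX0 : i X ≠ 0 := (map_ne_zero i).2 hX0
      have h1 : (Y / i X) ^ l = 1 := by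
        rw [div_pow, hY, ← map_pow, hX, div_self ((map_ne_zero i).2 hx)]
      obtain ⟨k, _, hk⟩ := hζ₁.eq_pow_of_pow_eq_one h1
      have hYe : Y = ζ₁ ^ k * i X := by rw [hk, div_mul_cancel₀ _ hiX0]
      have hζk : ζ₁ ^ k ≠ 0 := pow_ne_zero _ (hζ₁.ne_zero hl.ne_zero)
      rw [hYe, map_mul, map_pow, hgζ, hi, mul_right_inj' hζk, i.injective.eq_iff]
  ext x
  have hfin : FiniteDimensional F₂ (IntermediateField.adjoin F₂ {x}) :=
    IntermediateField.adjoin.finiteDimensional (Algebra.IsIntegral.isIntegral x)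
  have hfin₁ : FiniteDimensional F₁ (IntermediateField.adjoin F₁ {ζ₁}) :=
    IntermediateField.adjoin.finiteDimensional (Algebra.IsIntegral.isIntegral ζ₁)
  have h := kmatch_unique (α := α) hl hpow₁ hpow₂ hζ₁ (IntermediateField.adjoin F₂ {x})
    (j.comp (algebraMap (IntermediateField.adjoin F₂ {x}) E₂))
    (j'.comp (algebraMap (IntermediateField.adjoin F₂ {x}) E₂))
    (IntermediateField.adjoin F₁ {ζ₁}) (IntermediateField.adjoin F₁ {ζ₁})
    (fun y => key j hj y) (fun y => key j' hj' y)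
  exact congrArg (fun f : IntermediateField.adjoin F₂ {x} →+* E₁ =>
    f ⟨x, IntermediateField.mem_adjoin_simple_self F₂ x⟩) h

end Vale.Agent.P024
end
end

section

section

/-!
Descending a Kummer character of an inertia group through a homomorphism.
-/

namespace Vale.Agent.P024

section Resolvent

variable {F E : Type*} [Field F] [Field E] [Algebra F E]

/-- separating an element from a closed subgroup -/
theorem exists_fixed_moved [IsGalois F E] (J : Subgroup (E ≃ₐ[F] E))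
    (hJ : IsClosed (J : Set (E ≃ₐ[F] E))) (g : E ≃ₐ[F] E) (hg : g ∉ J) :
    ∃ z : E, (∀ h ∈ J, h z = z) ∧ g z ≠ z := by
  by_contra hcon
  push Not at hcon
  apply hg
  have h1 := InfiniteGalois.fixingSubgroup_fixedField (⟨J, hJ⟩ : ClosedSubgroup (E ≃ₐ[F] E))
  have h2 : g ∈ (IntermediateField.fixedField J).fixingSubgroup := by
    rw [IntermediateField.mem_fixingSubgroup_iff]
    intro z hz
    rw [IntermediateField.mem_fixedField_iff] at hz
    exact hcon z hz
  have h3 : (IntermediateField.fixedField J).fixingSubgroup = J := h1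
  rwa [h3] at h2

theorem resolvent_map (B : E ≃ₐ[F] E) {l : ℕ} {ζ : E} (hζ : ζ ^ l = 1)
    (hBζ : B ζ = ζ) (z : E) (hBl : (B ^ l) z = z) (j : ℕ) :
    ζ ^ j * B (∑ i ∈ Finset.range l, ζ ^ (j * i) * (B ^ i) z) =
      ∑ i ∈ Finset.range l, ζ ^ (j * i) * (B ^ i) z := by
  rw [map_sum, Finset.mul_sum]
  have h1 : ∀ i ∈ Finset.range l, ζ ^ j * B (ζ ^ (j * i) * (B ^ i) z) =
      ζ ^ (j * (i + 1)) * (B ^ (i + 1)) z := by
    intro i _
    rw [map_mul, map_pow, hBζ, pow_succ' B, AlgEquiv.mul_apply, mul_add, mul_one, pow_add]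
    ring
  rw [Finset.sum_congr rfl h1]
  have h2 := Finset.sum_range_succ' (fun i => ζ ^ (j * i) * (B ^ i) z) l
  have h3 := Finset.sum_range_succ (fun i => ζ ^ (j * i) * (B ^ i) z) l
  rw [h3] at h2
  have h4 : ζ ^ (j * l) * (B ^ l) z = ζ ^ (j * 0) * (B ^ 0) z := by
    rw [hBl, mul_comm j l, pow_mul, hζ, one_pow, mul_zero, pow_zero, pow_zero, AlgEquiv.one_apply]
  rw [h4] at h2
  exact (add_right_cancel h2).symm

theorem exists_resolvent [CharZero E] (B : E ≃ₐ[F] E) {l : ℕ} (hl : l.Prime) {ζ : E}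
    (hζ : IsPrimitiveRoot ζ l) (hBζ : B ζ = ζ) (z : E) (hBl : (B ^ l) z = z) (hBz : B z ≠ z) :
    ∃ j : ℕ, 0 < j ∧ j < l ∧ (∑ i ∈ Finset.range l, ζ ^ (j * i) * (B ^ i) z) ≠ 0 := by
  by_contra hcon
  push Not at hcon
  apply hBz
  set r : ℕ → E := fun j => ∑ i ∈ Finset.range l, ζ ^ (j * i) * (B ^ i) z with hr
  have h1 : ∑ j ∈ Finset.range l, r j = r 0 := by
    rw [Finset.sum_eq_single 0]
    · intro j hj hj0
      exact hcon j (Nat.pos_of_ne_zero hj0) (Finset.mem_range.1 hj)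
    · intro h
      exact absurd (Finset.mem_range.2 hl.pos) h
  have h2 : ∑ j ∈ Finset.range l, r j = l * z := by
    rw [hr]
    simp only
    rw [Finset.sum_comm, Finset.sum_eq_single 0]
    · simp
    · intro i hi hi0
      rw [← Finset.sum_mul]
      have hcop : Nat.Coprime i l :=
        (Nat.coprime_of_lt_prime hi0 (Finset.mem_range.1 hi) hl).symm
      have h3 := (hζ.pow_of_coprime i hcop).geom_sum_eq_zero hl.one_lt
      have h4 : ∑ j ∈ Finset.range l, ζ ^ (j * i) = 0 := by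
        rw [← h3]
        refine Finset.sum_congr rfl fun j _ => ?_
        rw [← pow_mul, mul_comm]
      rw [h4, zero_mul]
    · intro h
      exact absurd (Finset.mem_range.2 hl.pos) h
  have h3 := resolvent_map B hζ.pow_eq_one hBζ z hBl 0
  rw [pow_zero, one_mul] at h3
  have h4 : B (r 0) = r 0 := h3
  rw [← h1, h2, map_mul, map_natCast] at h4
  exact mul_left_cancel₀ (Nat.cast_ne_zero.2 hl.ne_zero) h4

end Resolvent

section Desc

variable {F₁ E₁ F₂ E₂ : Type*} [Field F₁] [Field E₁] [Algebra F₁ E₁] [IsGalois F₁ E₁]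
    [Field F₂] [Field E₂] [Algebra F₂ E₂] [IsGalois F₂ E₂]

theorem descend [CharZero E₂] (α : (E₁ ≃ₐ[F₁] E₁) →* (E₂ ≃ₐ[F₂] E₂)) (hα : Continuous α)
    (I : Subgroup (E₁ ≃ₐ[F₁] E₁)) (hI : IsClosed (I : Set (E₁ ≃ₐ[F₁] E₁)))
    {l : ℕ} (hl : l.Prime) {ζ₁ : E₁} (hζ₁ : IsPrimitiveRoot ζ₁ l) (hIζ₁ : ∀ g ∈ I, g ζ₁ = ζ₁)
    {ζ₂ : E₂} (hζ₂ : IsPrimitiveRoot ζ₂ l) (hIζ₂ : ∀ g ∈ I, α g ζ₂ = ζ₂)
    (θ : E₁) (hθ : ∀ g ∈ I, g (θ ^ l) = θ ^ l) (hker : ∀ g ∈ I, α g = 1 → g θ = θ)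
    (t : E₁ ≃ₐ[F₁] E₁) (ht : t ∈ I) (htθ : t θ ≠ θ) :
    ∃ b : E₂, b ≠ 0 ∧ (∀ g ∈ I, α g (b ^ l) = b ^ l) ∧ α t b ≠ b := by
  have hl0 := hl.pos
  have hnz : NeZero l := ⟨hl0.ne'⟩
  have hθ0 : θ ≠ 0 := by rintro rfl; exact htθ (map_zero _)
  have hθl : θ ^ l ≠ 0 := pow_ne_zero _ hθ0
  have hexp : ∀ g ∈ I, ∃ e : ℕ, g θ = ζ₁ ^ e * θ := fun g hg =>
    exists_exp_of_fix hl0 hζ₁ rfl hθl g (hθ g hg)
  -- the kernel of the character
  let I₀ : Subgroup (E₁ ≃ₐ[F₁] E₁) := I ⊓ MulAction.stabilizer (E₁ ≃ₐ[F₁] E₁) θ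
  have hI₀ : ∀ g, g ∈ I₀ ↔ g ∈ I ∧ g θ = θ := fun g => Iff.rfl
  have hI₀c : IsClosed (I₀ : Set (E₁ ≃ₐ[F₁] E₁)) := by
    have h1 : IsOpen ((MulAction.stabilizer (E₁ ≃ₐ[F₁] E₁) θ : Subgroup (E₁ ≃ₐ[F₁] E₁)) :
      Set (E₁ ≃ₐ[F₁] E₁)) := stabilizer_isOpen_of_isIntegral (K := F₁) (L := E₁) θ
    exact hI.inter (Subgroup.isClosed_of_isOpen _ h1)
  have hJc : IsClosed ((I₀.map α : Subgroup (E₂ ≃ₐ[F₂] E₂)) : Set (E₂ ≃ₐ[F₂] E₂)) := by
    rw [Subgroup.coe_map]
    exact (hI₀c.isCompact.image hα).isClosed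
  have hnorm : ∀ g ∈ I, ∀ h ∈ I₀, g⁻¹ * h * g ∈ I₀ := by
    intro g hg h hh
    rw [hI₀] at hh ⊢
    refine ⟨I.mul_mem (I.mul_mem (I.inv_mem hg) hh.1) hg, ?_⟩
    obtain ⟨e, he⟩ := hexp g hg
    rw [AlgEquiv.mul_apply, AlgEquiv.mul_apply, he, map_mul, map_pow, hIζ₁ h hh.1, hh.2, ← he,
      ← AlgEquiv.mul_apply, inv_mul_cancel, AlgEquiv.one_apply]
  have htJ : α t ∉ I₀.map α := by
    rintro ⟨g₀, hg₀, hg⟩
    have hg₀' := (hI₀ g₀).1 hg₀
    have h1 : α (t * g₀⁻¹) = 1 := by rw [map_mul, map_inv, hg, mul_inv_cancel]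
    have h2 := hker _ (I.mul_mem ht (I.inv_mem hg₀'.1)) h1
    apply htθ
    have h3 : g₀⁻¹ θ = θ := by
      conv_lhs => rw [← hg₀'.2]
      rw [← AlgEquiv.mul_apply, inv_mul_cancel, AlgEquiv.one_apply]
    rwa [AlgEquiv.mul_apply, h3] at h2
  obtain ⟨z, hz, htz⟩ := exists_fixed_moved _ hJc _ htJ
  have hz' : ∀ g ∈ I₀, α g z = z := fun g hg => hz _ ⟨g, hg, rfl⟩
  obtain ⟨u, hu⟩ := hexp t ht
  have hul : ¬ l ∣ u := by
    intro h
    apply htθ
    rw [hu, (hζ₁.pow_eq_one_iff_dvd u).2 h, one_mul]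
  have htl : t ^ l ∈ I₀ := by
    rw [hI₀]
    refine ⟨I.pow_mem ht l, ?_⟩
    rw [pow_apply_kummer t (hIζ₁ t ht) hu, mul_comm u l, pow_mul, hζ₁.pow_eq_one, one_pow, one_mul]
  have hBl : ((α t) ^ l) z = z := by
    rw [← map_pow]; exact hz' _ htl
  have hBζ : α t ζ₂ = ζ₂ := hIζ₂ t ht
  obtain ⟨j, hj0, hjl, hr0⟩ := exists_resolvent (α t) hl hζ₂ hBζ z hBl htz
  set b : E₂ := ∑ i ∈ Finset.range l, ζ₂ ^ (j * i) * ((α t) ^ i) z with hb
  have hBb : ζ₂ ^ j * (α t) b = b := resolvent_map (α t) hζ₂.pow_eq_one hBζ z hBl j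
  -- elements of `I₀` fix `b`
  have hfix : ∀ h ∈ I₀, α h b = b := by
    intro h hh
    rw [hb, map_sum]
    refine Finset.sum_congr rfl fun i _ => ?_
    rw [map_mul, map_pow, hIζ₂ h ((hI₀ h).1 hh).1]
    congr 1
    have h1 := hz' _ (hnorm (t ^ i) (I.pow_mem ht i) h hh)
    rw [map_mul, map_mul, map_inv, map_pow, AlgEquiv.mul_apply, AlgEquiv.mul_apply] at h1
    have h2 := congrArg ((α t) ^ i) h1
    rwa [← AlgEquiv.mul_apply, mul_inv_cancel, AlgEquiv.one_apply] at h2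
  have hζ₂0 : ζ₂ ≠ 0 := hζ₂.ne_zero hl0.ne'
  have hBb' : (α t) b = ζ₂ ^ (l - j) * b := by
    conv_rhs => rw [← hBb]
    rw [← mul_assoc, ← pow_add, Nat.sub_add_cancel hjl.le, hζ₂.pow_eq_one, one_mul]
  refine ⟨b, hr0, ?_, ?_⟩
  · intro g hg
    obtain ⟨e, he⟩ := hexp g hg
    -- `e ≡ u k`
    obtain ⟨k, hk⟩ : ∃ k : ℕ, u * k ≡ e [MOD l] := by
      have hcop : Nat.Coprime u l := ((Nat.Prime.coprime_iff_not_dvd hl).2 hul).symm
      obtain ⟨m, -, hm⟩ := Nat.exists_mul_mod_eq_one_of_coprime hcop hl.one_lt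
      refine ⟨m * e, ?_⟩
      have h1 : u * m ≡ 1 [MOD l] := by
        rw [Nat.ModEq, hm, Nat.mod_eq_of_lt hl.one_lt]
      have h2 := h1.mul_right e
      rwa [one_mul, mul_assoc] at h2
    have htk : (t ^ k) θ = g θ := by
      rw [pow_apply_kummer t (hIζ₁ t ht) hu, he]
      congr 1
      exact (rootPow_eq_iff_modEq hζ₁ _ _ hl0).2 hk
    have hmem : (t ^ k)⁻¹ * g ∈ I₀ := by
      rw [hI₀]
      refine ⟨I.mul_mem (I.inv_mem (I.pow_mem ht k)) hg, ?_⟩
      rw [AlgEquiv.mul_apply, ← htk, ← AlgEquiv.mul_apply, inv_mul_cancel, AlgEquiv.one_apply]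
    have hg' : g = t ^ k * ((t ^ k)⁻¹ * g) := by group
    have h3 : α g b = ζ₂ ^ ((l - j) * k) * b := by
      rw [hg', map_mul, AlgEquiv.mul_apply, hfix _ hmem, map_pow,
        pow_apply_kummer (α t) hBζ hBb']
    rw [map_pow, h3, mul_pow, ← pow_mul, mul_comm _ l, pow_mul, hζ₂.pow_eq_one, one_pow, one_mul]
  · intro h
    rw [hBb'] at h
    have h1 : ζ₂ ^ (l - j) = 1 := mul_right_cancel₀ hr0 (by rw [h, one_mul])
    rw [hζ₂.pow_eq_one_iff_dvd] at h1
    have := Nat.le_of_dvd (by omega) h1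
    omega

end Desc

end Vale.Agent.P024
end
end

section

section

/-!
The local principle.
-/

namespace Vale.Agent.P024

open scoped NumberField
open IsDedekindDomain NumberField

section LP

variable {F₁ E₁ F₂ E₂ : Type*} [Field F₁] [Field E₁] [Algebra F₁ E₁] [IsGalois F₁ E₁]
    [CharZero E₁] [Algebra.IsAlgebraic ℚ E₁]
    [Field F₂] [NumberField F₂] [Field E₂] [Algebra F₂ E₂] [IsGalois F₂ E₂]
    [CharZero E₂] [Algebra.IsAlgebraic ℚ E₂]

theorem frob_acts (α : (E₁ ≃ₐ[F₁] E₁) →* (E₂ ≃ₐ[F₂] E₂)) (hα : Continuous α)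
    {l : ℕ} (hl : l.Prime) (hl2 : l ≠ 2)
    (hpow₂ : ∀ x : E₂, ∃ y : E₂, y ^ l = x)
    (hroot₁ : ∀ n : ℕ, 0 < n → ∃ ξ : E₁, IsPrimitiveRoot ξ n)
    (hroot₂ : ∀ n : ℕ, 0 < n → ∃ ξ : E₂, IsPrimitiveRoot ξ n)
    (O : ValuationSubring E₁) (hlO : ∀ n : ℕ, ((l ^ n : ℕ) : E₁) ∉ O.nonunits)
    (θ : E₁) (hθ : ∀ g ∈ inertia O α l, g (θ ^ l) = θ ^ l)
    (hker : ∀ g ∈ inertia O α l, α g = 1 → g θ = θ)
    (t : E₁ ≃ₐ[F₁] E₁) (ht : t ∈ inertia O α l) (htθ : t θ ≠ θ)
    (s : E₁ ≃ₐ[F₁] E₁) (hs : Stab O s) (q : ℕ) (hs' : ActsPow O s q) (hq1 : 1 < q) :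
    ∀ z : E₂, z ^ l = 1 → α s z = z ^ q := by
  have hl0 := hl.pos
  have hnz : NeZero l := ⟨hl0.ne'⟩
  have hpos : ∀ n : ℕ, 0 < l ^ n := fun n => pow_pos hl0 n
  have hroot₂' : ∀ n : ℕ, ∃ ξ : E₂, IsPrimitiveRoot ξ (l ^ n) := fun n => hroot₂ _ (hpos n)
  have hlO1 : (l : E₁) ∉ O.nonunits := by simpa using hlO 1
  obtain ⟨ζ₁, hζ₁⟩ := hroot₁ l hl0
  obtain ⟨ζ₂, hζ₂⟩ := hroot₂ l hl0
  obtain ⟨ξ, hξ⟩ := hroot₂' 2
  have hIζ₁ : ∀ g ∈ inertia O α l, g ζ₁ = ζ₁ := by
    intro g hg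
    have := acts_on_root O g 1 hg.2.1 l hlO1 ζ₁ hζ₁.pow_eq_one
    rwa [pow_one] at this
  have hIζ₂ : ∀ g ∈ inertia O α l, α g ζ₂ = ζ₂ := fun g hg => hg.2.2 ζ₂ hζ₂.pow_eq_one
  -- descent of the Kummer character
  obtain ⟨b, hb0, hbI, hbt⟩ := descend α hα (inertia O α l) (isClosed_inertia hα) hl hζ₁ hIζ₁ hζ₂
    hIζ₂ θ hθ hker t ht htθ
  set A := α s with hA
  set B := α t with hB
  -- the tame relations
  have hrel : ∀ (m : ℕ) (g : E₁ ≃ₐ[F₁] E₁), g ∈ inertia O α l →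
      ∃ δ ∈ inertia O α l, A ^ m * α g = α δ * α g ^ (q ^ m) * A ^ m ∧
        ∀ c : E₂, ∀ n : ℕ, ((α δ) ^ (l ^ n)) c = c → (α δ) c = c := by
    intro m g hg
    refine ⟨s ^ m * g * (s ^ m)⁻¹ * (g ^ (q ^ m))⁻¹, ?_, ?_, ?_⟩
    · exact (inertia O α l).mul_mem (conj_mem_inertia (hs.pow m) hg)
        ((inertia O α l).inv_mem ((inertia O α l).pow_mem hg _))
    · rw [hA, ← map_pow, ← map_pow, ← map_mul, ← map_mul, ← map_mul]
      congr 1
      group
    · intro c n hc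
      exact wild_image hα hlO _ (theta_rel O (s ^ m) g (q ^ m) (hs.pow m) (ActsPow.pow hs hs' m)
        hg.1 hg.2.1) c n hc
  -- the images of the inertia elements fix all roots of unity of `l`-power order
  have hroots : ∀ g ∈ inertia O α l, ∀ n : ℕ, ∀ η : E₂, η ^ (l ^ n) = 1 → α g η = η := by
    intro g hg
    obtain ⟨δ, -, hδ1, hδ2⟩ := hrel 1 g hg
    rw [pow_one, pow_one] at hδ1
    exact (fix_roots hl hl2 hroot₂' A (α g) (α δ) q hδ1 hq1 hδ2 hg.2.2).1
  -- the stable field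
  obtain ⟨K, m, hKn, hxK, hξK, hAK, hm, hAm, hfix⟩ := exists_stable_field A (b ^ l) ξ
  have hconj : ∀ g ∈ inertia O α l, ∀ i : ℕ, ∀ y : E₂,
      (∀ h ∈ inertia O α l, α h y = y) → α g ((A ^ i) y) = (A ^ i) y := by
    intro g hg i y hy
    have h1 := hy _ (conj_mem_inertia' (hs.pow i) hg)
    rw [map_mul, map_mul, map_inv, map_pow, AlgEquiv.mul_apply, AlgEquiv.mul_apply] at h1
    have h2 := congrArg (A ^ i) h1
    rwa [← hA, ← AlgEquiv.mul_apply, mul_inv_cancel, AlgEquiv.one_apply] at h2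
  have hIK : ∀ g ∈ inertia O α l, ∀ y ∈ K, α g y = y := by
    intro g hg
    apply hfix (α g)
    · intro i
      exact hconj g hg i _ (fun h hh => hbI h hh)
    · intro i
      exact hconj g hg i _ (fun h hh => hroots h hh 2 ξ hξ.pow_eq_one)
  have hBK : ∀ y ∈ K, B y = y := hIK t ht
  -- the local lemma for `K`
  have hqm : 1 < q ^ m := Nat.one_lt_pow hm.ne' hq1
  obtain ⟨δm, hδmI, hδm1, hδm2⟩ := hrel m t ht
  have hne : ∃ c : E₂, c ^ l ∈ K ∧ B c ≠ c := ⟨b, hxK, hbt⟩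
  obtain ⟨hact₁, hact₂⟩ := auto_cyc K hl hl2 hpow₂ hroot₂' (A ^ m) B (α δm) (q ^ m) hAm hBK
    hδm1 hqm hδm2 ⟨ξ, hξK, hξ⟩ hne
  have hq2 : l ^ 2 ∣ q ^ m - 1 := by
    have h1 := hact₁ 2 ξ hξ.pow_eq_one
    rw [hAm ξ hξK] at h1
    have hξ0 : ξ ≠ 0 := hξ.ne_zero (hpos 2).ne'
    rw [← hξ.pow_eq_one_iff_dvd]
    have h2 : ξ ^ (q ^ m - 1) * ξ = 1 * ξ := by
      rw [← pow_succ, show q ^ m - 1 + 1 = q ^ m by omega, one_mul, ← h1]
    exact mul_right_cancel₀ hξ0 h2
  obtain ⟨w, -, hw1, hw2, -⟩ := local_lemma K hl hl2 hpow₂ hζ₂ (A ^ m) B (α δm) (q ^ m) hAm hBK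
    hδm1 hqm hq2 hδm2 hact₁ hact₂ hne
  -- the action of `A` on the `l`-th roots of unity
  have hζ₂0 : ζ₂ ≠ 0 := hζ₂.ne_zero hl0.ne'
  obtain ⟨a, ha⟩ := exists_exp_root A hl0 hζ₂
  have hAζ : IsPrimitiveRoot (ζ₂ ^ a) l := by
    rw [← ha]; exact hζ₂.map_of_injective A.injective
  have hacop : ¬ l ∣ a := by
    rw [← Nat.Prime.coprime_iff_not_dvd hl]
    exact ((hζ₂.pow_iff_coprime hl0 a).1 hAζ).symm
  have hqcop : ¬ l ∣ q := by
    have h1 : s ζ₁ = ζ₁ ^ q := acts_on_root O s q hs' l hlO1 ζ₁ hζ₁.pow_eq_one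
    have h2 : IsPrimitiveRoot (ζ₁ ^ q) l := by
      rw [← h1]; exact hζ₁.map_of_injective s.injective
    rw [← Nat.Prime.coprime_iff_not_dvd hl]
    exact ((hζ₁.pow_iff_coprime hl0 q).1 h2).symm
  obtain ⟨δ, hδI, hδ1, hδ2⟩ := hrel 1 t ht
  rw [pow_one, pow_one] at hδ1
  have hδζ : α δ ζ₂ = ζ₂ := hIζ₂ δ hδI
  have hBζ : B ζ₂ = ζ₂ := hIζ₂ t ht
  have hδfix : ∀ X : E₂, X ^ l ∈ K → α δ X = X := by
    intro X hX
    by_cases hX0 : X = 0
    · rw [hX0, map_zero]
    obtain ⟨c, hc⟩ := exists_exp_of_fix hl0 hζ₂ (X := X) rfl (pow_ne_zero l hX0) (α δ)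
      (hIK δ hδI _ hX)
    apply hδ2 X 1
    rw [pow_one, pow_apply_kummer (α δ) hδζ hc, mul_comm c l, pow_mul, hζ₂.pow_eq_one, one_pow,
      one_mul]
  -- the relation between the Kummer exponents of `x` and `A x`
  have hkey : ∀ X : E₂, X ≠ 0 → X ^ l ∈ K → ∀ e e' : ℕ, B X = ζ₂ ^ e * X →
      B (A X) = ζ₂ ^ e' * A X → a * e ≡ q * e' [MOD l] := by
    intro X hX0 hX e e' he he'
    have h1 : A (B X) = α δ ((B ^ q) (A X)) := by
      have := congrArg (fun g : E₂ ≃ₐ[F₂] E₂ => g X) hδ1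
      simpa [AlgEquiv.mul_apply] using this
    have hAX : (A X) ^ l ∈ K := by rw [← map_pow]; exact hAK _ hX
    rw [he, map_mul, map_pow, ha, pow_apply_kummer B hBζ he', map_mul, map_pow, hδζ,
      hδfix _ hAX, ← pow_mul] at h1
    have hAX0 : A X ≠ 0 := by simpa using hX0
    have h2 := mul_right_cancel₀ hAX0 h1
    rw [rootPow_eq_iff_modEq hζ₂ _ _ hl0] at h2
    rwa [mul_comm q e']
  have hexpB : ∀ X : E₂, X ≠ 0 → X ^ l ∈ K → ∃ e : ℕ, B X = ζ₂ ^ e * X := fun X hX0 hX =>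
    exists_exp_of_fix hl0 hζ₂ rfl (pow_ne_zero l hX0) B (hBK _ hX)
  have hfixiff : ∀ (X : E₂) (e : ℕ), X ≠ 0 → B X = ζ₂ ^ e * X → (B X = X ↔ l ∣ e) := by
    intro X e hX0 he
    rw [he, mul_eq_right₀ hX0, hζ₂.pow_eq_one_iff_dvd]
  obtain ⟨σ, hσ⟩ := exists_restrict A K hAK hm hAm
  have hdvd : ∀ x : K, x ≠ 0 → DvdVal w l x → DvdVal w l (σ x) := by
    intro x hx hd
    have hxE : (x : E₂) ≠ 0 := by simpa using hx
    obtain ⟨X, hX⟩ := hpow₂ (x : E₂)
    have hX0 : X ≠ 0 := by rintro rfl; rw [zero_pow hl0.ne'] at hX; exact hxE hX.symm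
    have hAX0 : A X ≠ 0 := by simpa using hX0
    have hXK : X ^ l ∈ K := by rw [hX]; exact x.2
    have hAXK : (A X) ^ l ∈ K := by rw [← map_pow]; exact hAK _ hXK
    obtain ⟨e, he⟩ := hexpB X hX0 hXK
    obtain ⟨e', he'⟩ := hexpB (A X) hAX0 hAXK
    have h1 := hkey X hX0 hXK e e' he he'
    have h2 : l ∣ e := (hfixiff X e hX0 he).1 (hw1 X x hX hd)
    have h3 : l ∣ q * e' := by
      rw [← Nat.modEq_zero_iff_dvd]
      exact h1.symm.trans ((Nat.modEq_zero_iff_dvd).2 (h2.mul_left a))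
    have h4 : l ∣ e' := (hl.dvd_mul.1 h3).resolve_left hqcop
    refine hw2 (A X) (σ x) (by simpa using hx) ?_ ((hfixiff (A X) e' hAX0 he').2 h4)
    rw [← map_pow, hX, hσ]
  obtain ⟨x, hx0, hxd, hxv⟩ := val_div_apply σ w hl hdvd
  have hxE : (x : E₂) ≠ 0 := by simpa using hx0
  obtain ⟨X, hX⟩ := hpow₂ (x : E₂)
  have hX0 : X ≠ 0 := by rintro rfl; rw [zero_pow hl0.ne'] at hX; exact hxE hX.symm
  have hAX0 : A X ≠ 0 := by simpa using hX0
  have hXK : X ^ l ∈ K := by rw [hX]; exact x.2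
  have hAXK : (A X) ^ l ∈ K := by rw [← map_pow]; exact hAK _ hXK
  obtain ⟨e, he⟩ := hexpB X hX0 hXK
  obtain ⟨e', he'⟩ := hexpB (A X) hAX0 hAXK
  have h1 := hkey X hX0 hXK e e' he he'
  have h2 : B (X / A X) = X / A X := by
    refine hw1 (X / A X) (x / σ x) ?_ (dvdVal_of_valuation_eq_one hxv)
    rw [div_pow, hX, ← map_pow, hX]
    push_cast
    rw [hσ]
  rw [map_div₀, he, he'] at h2
  have h3 : ζ₂ ^ e = ζ₂ ^ e' := by
    have hz : ζ₂ ^ e' ≠ 0 := pow_ne_zero _ hζ₂0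
    rw [div_eq_div_iff (mul_ne_zero hz hAX0) hAX0] at h2
    have h4 : ζ₂ ^ e * (X * A X) = ζ₂ ^ e' * (X * A X) := by linear_combination h2
    exact mul_right_cancel₀ (mul_ne_zero hX0 hAX0) h4
  rw [rootPow_eq_iff_modEq hζ₂ _ _ hl0] at h3
  have h5 : ¬ l ∣ e := by
    intro h
    exact hxd (hw2 X x hx0 hX ((hfixiff X e hX0 he).2 h))
  have h6 : a * e ≡ q * e [MOD l] := h1.trans (h3.symm.mul_left q)
  have h7 : a ≡ q [MOD l] :=
    Nat.ModEq.cancel_right_of_coprime ((Nat.Prime.coprime_iff_not_dvd hl).2 h5) h6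
  intro z hz
  obtain ⟨i, -, rfl⟩ := hζ₂.eq_pow_of_pow_eq_one hz
  rw [map_pow, ha, (rootPow_eq_iff_modEq hζ₂ _ _ hl0).2 h7, ← pow_mul, ← pow_mul, mul_comm]

end LP

end Vale.Agent.P024
end
end

section

section

/-!
The local assembly with one-sided hypotheses on the fields `C_p` (the subfield of degree `l` of the
field of `p`-th roots of unity), for the primes `p` in a given set `Q`.
-/

namespace Vale.Agent.P024

open scoped NumberField
open IsDedekindDomain

section AsmRevQ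

variable {F₁ E₁ F₂ E₂ : Type*} [Field F₁] [Field E₁] [Algebra F₁ E₁] [IsGalois F₁ E₁]
    [CharZero E₁] [Algebra.IsAlgebraic ℚ E₁]
    [Field F₂] [Field E₂] [Algebra F₂ E₂] [IsGalois F₂ E₂]
    [CharZero E₂] [Algebra.IsAlgebraic ℚ E₂]

theorem transfer_sym_rev_kerQ (α : (E₁ ≃ₐ[F₁] E₁) →* (E₂ ≃ₐ[F₂] E₂)) (hα : Continuous α)
    (K₁ : IntermediateField F₁ E₁) [NumberField K₁] (K₂ : IntermediateField F₂ E₂) [NumberField K₂]
    (hαK : ∀ g : E₁ ≃ₐ[F₁] E₁, (∀ x ∈ K₁, g x = x) → ∀ y ∈ K₂, α g y = y)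
    {l : ℕ} (hl : l.Prime) (hl2 : l ≠ 2)
    (hpow₁ : ∀ x : E₁, ∃ y : E₁, y ^ l = x) (hpow₂ : ∀ x : E₂, ∃ y : E₂, y ^ l = x)
    (hroot₁ : ∀ n : ℕ, 0 < n → ∃ ξ : E₁, IsPrimitiveRoot ξ n)
    (hroot₂ : ∀ n : ℕ, 0 < n → ∃ ξ : E₂, IsPrimitiveRoot ξ n)
    (z₁ : K₁) (hz₁ : IsPrimitiveRoot z₁ l) (z₂ : K₂) (hz₂ : IsPrimitiveRoot z₂ l)
    (hμ : ∃ ξ ∈ K₁, IsPrimitiveRoot ξ (l ^ 2))
    (hμ₂ : ∃ ξ ∈ K₂, IsPrimitiveRoot ξ (l ^ 2))
    (Q : Set ℕ)
    (hker : ∀ p : ℕ, p.Prime → p ∈ Q → l ∣ p - 1 → ∀ (ξ₁ : E₁) (ξ₂ : E₂), IsPrimitiveRoot ξ₁ p →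
      IsPrimitiveRoot ξ₂ p → ∀ g : E₁ ≃ₐ[F₁] E₁, (∀ y ∈ K₁, g y = y) → ∀ a b : ℕ,
      g ξ₁ = ξ₁ ^ a → α g ξ₂ = ξ₂ ^ b → b ^ ((p - 1) / l) ≡ 1 [MOD p] →
      a ^ ((p - 1) / l) ≡ 1 [MOD p])
    (hG₁ : GaussKummer K₁ l) (hG₂ : GaussKummer K₂ l) :
    ∃ (κ : K₂ → K₁) (S : Finset (HeightOneSpectrum (𝓞 K₁))),
      IsTransfer α K₁ K₂ l (z₁ : E₁) (z₂ : E₂) κ ∧
      ∀ v ∉ S, (Ideal.absNorm v.asIdeal).Prime → Ideal.absNorm v.asIdeal ∈ Q →
        ∃ w : HeightOneSpectrum (𝓞 K₂),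
          (∃ p : ℕ, p.Prime ∧ (p : 𝓞 K₁) ∈ v.asIdeal ∧ (p : 𝓞 K₂) ∈ w.asIdeal) ∧
          (Ideal.absNorm w.asIdeal = Ideal.absNorm v.asIdeal →
            ∀ x : K₂, w.valuation K₂ x = 1 → ∃ z : K₁, v.valuation K₁ (κ x * z ^ l) = 1 ∧
              ∃ e : ℕ,
              v.valuation K₁ ((κ x * z ^ l) ^ ((Ideal.absNorm v.asIdeal - 1) / l) - z₁ ^ e) < 1 ∧
              w.valuation K₂ (x ^ ((Ideal.absNorm v.asIdeal - 1) / l) - z₂ ^ e) < 1) := by
  classical
  have hl0 := hl.pos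
  have hζ₁ : IsPrimitiveRoot (z₁ : E₁) l :=
    hz₁.map_of_injective (f := algebraMap K₁ E₁) (algebraMap K₁ E₁).injective
  have hζ₂ : IsPrimitiveRoot (z₂ : E₂) l :=
    hz₂.map_of_injective (f := algebraMap K₂ E₂) (algebraMap K₂ E₂).injective
  have : FiniteDimensional F₁ K₁ := by
    have : CharZero F₁ := (algebraMap F₁ E₁).charZero
    exact Module.Finite.of_restrictScalars_finite ℚ F₁ K₁
  obtain ⟨κ, hκ⟩ := exists_transfer α hα K₁ K₂ hαK hl hζ₁ z₁.2 hζ₂ z₂.2 hpow₂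
  have hmatch := local_match₁ α hα K₁ K₂ hαK hl hl2 hpow₁ hpow₂ hroot₁ hroot₂ z₁ hz₁ z₂ hz₂ hμ
    hμ₂ κ hκ
  refine ⟨κ, ((finite_above K₁ hl0.ne').union (finite_ramified K₁)).toFinset, hκ, ?_⟩
  intro v hvS hvp hpB
  rw [Set.Finite.mem_toFinset, Set.mem_union, not_or] at hvS
  obtain ⟨hv1, hv2⟩ := hvS
  have hvl : (l : 𝓞 K₁) ∉ v.asIdeal := hv1
  set p := Ideal.absNorm v.asIdeal with hp
  have hpv : (p : 𝓞 K₁) ∈ v.asIdeal := Ideal.absNorm_mem _
  have hvexp : v.valuation K₁ (p : K₁) = WithZero.exp (-1 : ℤ) := by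
    by_contra hne
    exact hv2 ⟨p, hvp, hpv, hne⟩
  have hlp : l ∣ p - 1 := by
    obtain ⟨O, hO, hOv⟩ := exists_valuationSubring_over (E := E₁) v
    have h1 : v.valuation K₁ (z₁ ^ (p - 1) - 1) < 1 := by
      refine unit_pow_sub_one' v ?_
      have h2 : v.valuation K₁ z₁ ^ l = 1 := by rw [← map_pow, hz₁.pow_eq_one, map_one]
      exact (pow_eq_one_iff_of_nonneg zero_le hl0.ne').mp h2
    have h2 := (mem_iff_of_center O hO v hOv _).2.mpr h1
    rw [map_sub, map_pow, map_one] at h2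
    have h3 := root_eq_one O l (natCast_notMem O v hOv hvl) ((z₁ : E₁) ^ (p - 1))
      (by rw [← pow_mul, mul_comm, pow_mul, hζ₁.pow_eq_one, one_pow]) h2
    rwa [hζ₁.pow_eq_one_iff_dvd] at h3
  obtain ⟨ξ₁, hξ₁⟩ := hroot₁ p hvp.pos
  obtain ⟨ξ₂, hξ₂⟩ := hroot₂ p hvp.pos
  obtain ⟨β₁, y₁, hβ₁0, hβ₁, hβ₁g, hβ₁v, -⟩ := hG₁ p hvp hlp ξ₁ hξ₁
  obtain ⟨β₂, x₂, hβ₂0, hβ₂, hβ₂g, -, hβ₂w⟩ := hG₂ p hvp hlp ξ₂ hξ₂
  have hy₁0 : y₁ ≠ 0 := by
    rintro rfl; exact pow_ne_zero l hβ₁0 (by rw [hβ₁]; rfl)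
  have hx₂0 : x₂ ≠ 0 := by
    rintro rfl; exact pow_ne_zero l hβ₂0 (by rw [hβ₂]; rfl)
  have hx₂E : (x₂ : E₂) ≠ 0 := by simpa using hx₂0
  have hkey : ¬ DvdVal v l (κ x₂) := by
    intro hd
    obtain ⟨O, s, t, hO, hOv, -, htK, -, -, -, ht', htb⟩ :=
      exists_tame K₁ hl hζ₁ z₁.2 v hvl y₁ hy₁0 (hβ₁v v hvexp) β₁ hβ₁
    obtain ⟨b₁, hb₁⟩ := hpow₁ (κ x₂ : E₁)
    have htb₁ := tame_fix K₁ hl0.ne' O hO v hOv hvl t htK ht' (κ x₂) b₁ hb₁ hd
    have hκE : (κ x₂ : E₁) ≠ 0 := by simpa using hκ.ne_zero x₂ hx₂0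
    have hb₁0 : b₁ ≠ 0 := by rintro rfl; rw [zero_pow hl0.ne'] at hb₁; exact hκE hb₁.symm
    obtain ⟨e, he⟩ := exists_exp_of_fix hl0 hζ₂ hβ₂ hx₂E (α t) (hαK t htK x₂ x₂.2)
    have h1 := hκ.spec x₂ hx₂0 β₂ b₁ hβ₂ hb₁ t htK e he
    rw [htb₁] at h1
    have h2 : (z₁ : E₁) ^ e = 1 := by
      apply mul_right_cancel₀ hb₁0
      rw [← h1, one_mul]
    have h3 : (α t) β₂ = β₂ := by
      rw [he, (hζ₂.pow_eq_one_iff_dvd e).mpr ((hζ₁.pow_eq_one_iff_dvd e).mp h2), one_mul]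
    have : NeZero p := ⟨hvp.ne_zero⟩
    obtain ⟨a, -, ha⟩ := hξ₁.eq_pow_of_pow_eq_one (ξ := t ξ₁)
      (by rw [← map_pow, hξ₁.pow_eq_one, map_one])
    obtain ⟨b, -, hb⟩ := hξ₂.eq_pow_of_pow_eq_one (ξ := α t ξ₂)
      (by rw [← map_pow, hξ₂.pow_eq_one, map_one])
    have h4 := (hβ₂g (α t) (hαK t htK) b hb.symm).mp h3
    apply htb
    rw [hβ₁g t htK a ha.symm]
    exact hker p hvp hpB hlp ξ₁ ξ₂ hξ₁ hξ₂ t htK a b ha.symm hb.symm h4
  obtain ⟨w, hwl, hw1, hw2⟩ := hmatch v hvl x₂ hx₂0 hkey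
  have hpw : (p : 𝓞 K₂) ∈ w.asIdeal := by
    by_contra hpw
    exact hkey ((hw1 x₂ hx₂0).mp (hβ₂w w hpw))
  refine ⟨w, ⟨p, hvp, hpv, hpw⟩, ?_⟩
  intro hNw x hx
  have hxp : w.valuation K₂ (x ^ (p - 1) - 1) < 1 := by
    rw [← hNw]
    exact unit_pow_sub_one' w hx
  exact hw2 x hx hxp

theorem transfer_sym_kerQ (α : (E₁ ≃ₐ[F₁] E₁) →* (E₂ ≃ₐ[F₂] E₂)) (hα : Continuous α)
    (hαo : ∀ V : Subgroup (E₁ ≃ₐ[F₁] E₁), IsOpen (V : Set (E₁ ≃ₐ[F₁] E₁)) →
      IsOpen ((V.map α : Subgroup (E₂ ≃ₐ[F₂] E₂)) : Set (E₂ ≃ₐ[F₂] E₂)))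
    (K₁ : IntermediateField F₁ E₁) [NumberField K₁] (K₂ : IntermediateField F₂ E₂) [NumberField K₂]
    (hαK : ∀ g : E₁ ≃ₐ[F₁] E₁, (∀ x ∈ K₁, g x = x) → ∀ y ∈ K₂, α g y = y)
    {l : ℕ} (hl : l.Prime) (hl2 : l ≠ 2)
    (hpow₁ : ∀ x : E₁, ∃ y : E₁, y ^ l = x) (hpow₂ : ∀ x : E₂, ∃ y : E₂, y ^ l = x)
    (hroot₁ : ∀ n : ℕ, 0 < n → ∃ ξ : E₁, IsPrimitiveRoot ξ n)
    (hroot₂ : ∀ n : ℕ, 0 < n → ∃ ξ : E₂, IsPrimitiveRoot ξ n)
    (z₁ : K₁) (hz₁ : IsPrimitiveRoot z₁ l) (z₂ : K₂) (hz₂ : IsPrimitiveRoot z₂ l)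
    (hμ : ∃ ξ ∈ K₁, IsPrimitiveRoot ξ (l ^ 2))
    (hμ₂ : ∃ ξ ∈ K₂, IsPrimitiveRoot ξ (l ^ 2))
    (Q : Set ℕ)
    (hker : ∀ p : ℕ, p.Prime → p ∈ Q → l ∣ p - 1 → ∀ (ξ₁ : E₁) (ξ₂ : E₂), IsPrimitiveRoot ξ₁ p →
      IsPrimitiveRoot ξ₂ p → ∀ g : E₁ ≃ₐ[F₁] E₁, (∀ y ∈ K₁, g y = y) → ∀ a b : ℕ,
      g ξ₁ = ξ₁ ^ a → α g ξ₂ = ξ₂ ^ b → a ^ ((p - 1) / l) ≡ 1 [MOD p] →
      b ^ ((p - 1) / l) ≡ 1 [MOD p])
    (hG₂ : GaussKummer K₂ l) :
    ∃ (κ : K₂ → K₁) (S : Finset (HeightOneSpectrum (𝓞 K₂))),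
      IsTransfer α K₁ K₂ l (z₁ : E₁) (z₂ : E₂) κ ∧
      ∀ w ∉ S, (Ideal.absNorm w.asIdeal).Prime → Ideal.absNorm w.asIdeal ∈ Q →
        ∃ v : HeightOneSpectrum (𝓞 K₁),
          (∃ p : ℕ, p.Prime ∧ (p : 𝓞 K₁) ∈ v.asIdeal ∧ (p : 𝓞 K₂) ∈ w.asIdeal) ∧
          (Ideal.absNorm v.asIdeal = Ideal.absNorm w.asIdeal →
            ∀ x : K₂, w.valuation K₂ x = 1 → ∃ z : K₁, v.valuation K₁ (κ x * z ^ l) = 1 ∧
              ∃ e : ℕ,
              v.valuation K₁ ((κ x * z ^ l) ^ ((Ideal.absNorm w.asIdeal - 1) / l) - z₁ ^ e) < 1 ∧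
              w.valuation K₂ (x ^ ((Ideal.absNorm w.asIdeal - 1) / l) - z₂ ^ e) < 1) := by
  classical
  have hl0 := hl.pos
  have hζ₁ : IsPrimitiveRoot (z₁ : E₁) l :=
    hz₁.map_of_injective (f := algebraMap K₁ E₁) (algebraMap K₁ E₁).injective
  have hζ₂ : IsPrimitiveRoot (z₂ : E₂) l :=
    hz₂.map_of_injective (f := algebraMap K₂ E₂) (algebraMap K₂ E₂).injective
  have : FiniteDimensional F₁ K₁ := by
    have : CharZero F₁ := (algebraMap F₁ E₁).charZero
    exact Module.Finite.of_restrictScalars_finite ℚ F₁ K₁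
  obtain ⟨κ, hκ⟩ := exists_transfer α hα K₁ K₂ hαK hl hζ₁ z₁.2 hζ₂ z₂.2 hpow₂
  have hmatch := local_match₁ α hα K₁ K₂ hαK hl hl2 hpow₁ hpow₂ hroot₁ hroot₂ z₁ hz₁ z₂ hz₂ hμ
    hμ₂ κ hκ
  have hfin := hit hl κ hκ.ne_zero (hκ.mul hl0 hαK hζ₁ hζ₂ hpow₁ hpow₂)
    (hκ.ker hl hαo hαK hζ₁ hζ₂ z₂.2 hpow₂) (by
      rintro v hvl ⟨x₀, hx₀, hx₀v⟩
      obtain ⟨w, -, hw, -⟩ := hmatch v hvl x₀ hx₀ hx₀v
      refine ⟨w, fun x hx => (hw x ?_).mp hx⟩
      exact ((dvdVal_iff w hl0.ne' x).mp hx).1)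
  refine ⟨κ, (hfin.union (finite_ramified K₂)).toFinset, hκ, ?_⟩
  intro w hwS hwp hpB
  rw [Set.Finite.mem_toFinset, Set.mem_union, not_or] at hwS
  obtain ⟨hw1, hw2⟩ := hwS
  replace hw1 := not_not.mp hw1
  obtain ⟨v, hvl, ⟨x₀, hx₀, hx₀v⟩, hv⟩ := hw1
  obtain ⟨w', hwl', hw'1, hw'3⟩ := hmatch v hvl x₀ hx₀ hx₀v
  have hww : w = w' := eq_of_dvdVal_imp hl w w' fun x hx hxw => (hw'1 x hx).mpr (hv x hxw)
  subst hww
  set p := Ideal.absNorm w.asIdeal with hp
  have hpw : (p : 𝓞 K₂) ∈ w.asIdeal := Ideal.absNorm_mem _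
  have hwexp : w.valuation K₂ (p : K₂) = WithZero.exp (-1 : ℤ) := by
    by_contra hne
    exact hw2 ⟨p, hwp, hpw, hne⟩
  have hlp : l ∣ p - 1 := by
    obtain ⟨O, hO, hOw⟩ := exists_valuationSubring_over (E := E₂) w
    have h1 : w.valuation K₂ (z₂ ^ (p - 1) - 1) < 1 := by
      refine unit_pow_sub_one' w ?_
      have h2 : w.valuation K₂ z₂ ^ l = 1 := by rw [← map_pow, hz₂.pow_eq_one, map_one]
      exact (pow_eq_one_iff_of_nonneg zero_le hl0.ne').mp h2
    have h2 := (mem_iff_of_center O hO w hOw _).2.mpr h1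
    rw [map_sub, map_pow, map_one] at h2
    have h3 := root_eq_one O l (natCast_notMem O w hOw hwl') ((z₂ : E₂) ^ (p - 1))
      (by rw [← pow_mul, mul_comm, pow_mul, hζ₂.pow_eq_one, one_pow]) h2
    rwa [hζ₂.pow_eq_one_iff_dvd] at h3
  have hpv : (p : 𝓞 K₁) ∈ v.asIdeal := by
    by_contra hpv
    obtain ⟨ξ₁, hξ₁⟩ := hroot₁ p hwp.pos
    obtain ⟨ξ₂, hξ₂⟩ := hroot₂ p hwp.pos
    obtain ⟨β₂, x₂, hβ₂0, hβ₂, hβ₂g, hβ₂w, -⟩ := hG₂ p hwp hlp ξ₂ hξ₂
    have hx₂0 : x₂ ≠ 0 := by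
      rintro rfl; exact pow_ne_zero l hβ₂0 (by rw [hβ₂]; rfl)
    have hx₂E : (x₂ : E₂) ≠ 0 := by simpa using hx₂0
    have hnd : ¬ DvdVal v l (κ x₂) := by
      rw [← hw'1 x₂ hx₂0]; exact hβ₂w w hwexp
    obtain ⟨b₁, hb₁⟩ := hpow₁ (κ x₂ : E₁)
    obtain ⟨O, s, t, hO, hOv, -, htK, -, -, -, ht', htb⟩ :=
      exists_tame K₁ hl hζ₁ z₁.2 v hvl (κ x₂) (hκ.ne_zero x₂ hx₂0) hnd b₁ hb₁
    have htξ : t ξ₁ = ξ₁ ^ 1 :=
      acts_on_root O t 1 ht' p (natCast_notMem O v hOv hpv) ξ₁ hξ₁.pow_eq_one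
    have : NeZero p := ⟨hwp.ne_zero⟩
    obtain ⟨b, -, hb⟩ := hξ₂.eq_pow_of_pow_eq_one (ξ := α t ξ₂)
      (by rw [← map_pow, hξ₂.pow_eq_one, map_one])
    have h4 := hker p hwp hpB hlp ξ₁ ξ₂ hξ₁ hξ₂ t htK 1 b htξ hb.symm (by rw [one_pow])
    have h3 := (hβ₂g (α t) (hαK t htK) b hb.symm).mpr h4
    apply htb
    have h5 := hκ.spec x₂ hx₂0 β₂ b₁ hβ₂ hb₁ t htK 0 (by rw [h3]; ring)
    rw [h5]; ring
  refine ⟨v, ⟨p, hwp, hpv, hpw⟩, ?_⟩
  intro hNv x hx
  have hxp : w.valuation K₂ (x ^ (Ideal.absNorm v.asIdeal - 1) - 1) < 1 := by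
    rw [hNv]
    exact unit_pow_sub_one' w hx
  have h := hw'3 x hx hxp
  rw [hNv] at h
  exact h

end AsmRevQ

end Vale.Agent.P024
end
end

section

section

/-!
`l`-th power residues modulo a prime `p ≡ 1 mod l`.
-/

namespace Vale.Agent.P024

theorem exists_pow_modEq_iff {l p : ℕ} (hl : l.Prime) (hp : p.Prime) (hlp : l ∣ p - 1) {a : ℕ}
    (ha : a.Coprime p) : (∃ c : ℕ, a ≡ c ^ l [MOD p]) ↔ a ^ ((p - 1) / l) ≡ 1 [MOD p] := by
  have : Fact p.Prime := ⟨hp⟩
  constructor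
  · rintro ⟨c, hc⟩
    have hcp : c.Coprime p := by
      have h1 : (c ^ l).Coprime p := by
        rw [Nat.Coprime, ← hc.gcd_eq]
        exact ha
      exact Nat.Coprime.coprime_dvd_left (dvd_pow_self c hl.ne_zero) h1
    refine (hc.pow _).trans ?_
    rw [← pow_mul, Nat.mul_div_cancel' hlp, ← Nat.totient_prime hp]
    exact Nat.ModEq.pow_totient hcp
  · intro h
    have hcard : Nat.card (ZMod p)ˣ = p - 1 := by
      rw [Nat.card_eq_fintype_card, ZMod.card_units]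
    set u : (ZMod p)ˣ := ZMod.unitOfCoprime a ha with hu
    have h2 : ((a ^ ((p - 1) / l) : ℕ) : ZMod p) = ((1 : ℕ) : ZMod p) :=
      (ZMod.natCast_eq_natCast_iff _ _ _).2 h
    rw [Nat.cast_pow, Nat.cast_one] at h2
    have h1 : u ^ ((p - 1) / l) = 1 := by
      rw [← Units.val_inj, Units.val_pow_eq_pow_val, hu, ZMod.coe_unitOfCoprime, Units.val_one]
      exact h2
    obtain ⟨y, hy⟩ := exists_pow_of_pow_eq_one (G := (ZMod p)ˣ) (l := l)
      (by rw [hcard]; exact hlp) u (by rw [hcard]; exact h1)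
    refine ⟨(y : ZMod p).val, ?_⟩
    rw [← ZMod.natCast_eq_natCast_iff, Nat.cast_pow, ZMod.natCast_val, ZMod.cast_id',
      id, ← Units.val_pow_eq_pow_val, hy, hu, ZMod.coe_unitOfCoprime]

end Vale.Agent.P024
end
end

section

section

/-!
Primes of prime norm and ring homomorphisms to prime fields.
-/

namespace Vale.Agent.P024

open scoped NumberField
open IsDedekindDomain NumberField

/-- A prime number `p` is the norm of a prime ideal of `Z` iff there is a ring homomorphism from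
the ring of integers of `Z` to the field with `p` elements. -/
theorem exists_absNorm_eq_iff (Z : Type*) [Field Z] [NumberField Z] {p : ℕ} (hp : p.Prime) :
    (∃ v : HeightOneSpectrum (𝓞 Z), Ideal.absNorm v.asIdeal = p) ↔
      Nonempty (𝓞 Z →+* ZMod p) := by
  have : Fact p.Prime := ⟨hp⟩
  constructor
  · rintro ⟨v, hv⟩
    have hcard : Nat.card (𝓞 Z ⧸ v.asIdeal) = p := by
      rw [← hv, Ideal.absNorm_apply, Submodule.cardQuot_apply]
    have hfin : Finite (𝓞 Z ⧸ v.asIdeal) := Nat.finite_of_card_ne_zero (by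
      rw [hcard]; exact hp.ne_zero)
    have : Fintype (𝓞 Z ⧸ v.asIdeal) := Fintype.ofFinite _
    rw [Nat.card_eq_fintype_card] at hcard
    exact ⟨((ZMod.ringEquivOfPrime _ hp hcard).symm :
      (𝓞 Z ⧸ v.asIdeal) →+* ZMod p).comp (Ideal.Quotient.mk v.asIdeal)⟩
  · rintro ⟨f⟩
    have hsurj : Function.Surjective f := ZMod.ringHom_surjective f
    have hprime : (RingHom.ker f).IsPrime := RingHom.ker_isPrime f
    have hcard : Ideal.absNorm (RingHom.ker f) = p := by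
      rw [Ideal.absNorm_apply, Submodule.cardQuot_apply]
      have h := Nat.card_congr (RingHom.quotientKerEquivOfSurjective hsurj).toEquiv
      rw [Nat.card_zmod] at h
      exact h
    refine ⟨⟨RingHom.ker f, hprime, ?_⟩, hcard⟩
    intro h
    rw [h, Ideal.absNorm_bot] at hcard
    exact hp.ne_zero hcard.symm

end Vale.Agent.P024
end
end

section

section

/-!
The local assembly with one-sided hypotheses on the fields `C_p` (the subfield of degree `l` of the
field of `p`-th roots of unity).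
-/

namespace Vale.Agent.P024

open scoped NumberField
open IsDedekindDomain

section AsmRev3

variable {F₁ E₁ F₂ E₂ : Type*} [Field F₁] [Field E₁] [Algebra F₁ E₁] [IsGalois F₁ E₁]
    [CharZero E₁] [Algebra.IsAlgebraic ℚ E₁]
    [Field F₂] [Field E₂] [Algebra F₂ E₂] [IsGalois F₂ E₂]
    [CharZero E₂] [Algebra.IsAlgebraic ℚ E₂]

theorem finite_above_set (K : Type*) [Field K] [NumberField K] {B : Set ℕ} (hB : B.Finite) :
    {v : HeightOneSpectrum (𝓞 K) | ∃ p ∈ B, p.Prime ∧ (p : 𝓞 K) ∈ v.asIdeal}.Finite := by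
  have h : {v : HeightOneSpectrum (𝓞 K) | ∃ p ∈ B, p.Prime ∧ (p : 𝓞 K) ∈ v.asIdeal} ⊆
      ⋃ p ∈ B, {v : HeightOneSpectrum (𝓞 K) | p.Prime ∧ (p : 𝓞 K) ∈ v.asIdeal} := by
    rintro v ⟨p, hpB, hp⟩
    exact Set.mem_biUnion hpB hp
  refine (hB.biUnion fun p _ => ?_).subset h
  by_cases hp : p.Prime
  · exact (finite_above K hp.ne_zero).subset fun v hv => hv.2
  · exact (Set.finite_empty).subset fun v hv => absurd hv.1 hp

theorem transfer_sym_rev_ker (α : (E₁ ≃ₐ[F₁] E₁) →* (E₂ ≃ₐ[F₂] E₂)) (hα : Continuous α)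
    (K₁ : IntermediateField F₁ E₁) [NumberField K₁] (K₂ : IntermediateField F₂ E₂) [NumberField K₂]
    (hαK : ∀ g : E₁ ≃ₐ[F₁] E₁, (∀ x ∈ K₁, g x = x) → ∀ y ∈ K₂, α g y = y)
    {l : ℕ} (hl : l.Prime) (hl2 : l ≠ 2)
    (hpow₁ : ∀ x : E₁, ∃ y : E₁, y ^ l = x) (hpow₂ : ∀ x : E₂, ∃ y : E₂, y ^ l = x)
    (hroot₁ : ∀ n : ℕ, 0 < n → ∃ ξ : E₁, IsPrimitiveRoot ξ n)
    (hroot₂ : ∀ n : ℕ, 0 < n → ∃ ξ : E₂, IsPrimitiveRoot ξ n)
    (z₁ : K₁) (hz₁ : IsPrimitiveRoot z₁ l) (z₂ : K₂) (hz₂ : IsPrimitiveRoot z₂ l)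
    (hμ : ∃ ξ ∈ K₁, IsPrimitiveRoot ξ (l ^ 2))
    (hμ₂ : ∃ ξ ∈ K₂, IsPrimitiveRoot ξ (l ^ 2))
    (B : Set ℕ) (hB : B.Finite)
    (hker : ∀ p : ℕ, p.Prime → p ∉ B → l ∣ p - 1 → ∀ (ξ₁ : E₁) (ξ₂ : E₂), IsPrimitiveRoot ξ₁ p →
      IsPrimitiveRoot ξ₂ p → ∀ g : E₁ ≃ₐ[F₁] E₁, (∀ y ∈ K₁, g y = y) → ∀ a b : ℕ,
      g ξ₁ = ξ₁ ^ a → α g ξ₂ = ξ₂ ^ b → b ^ ((p - 1) / l) ≡ 1 [MOD p] →
      a ^ ((p - 1) / l) ≡ 1 [MOD p])
    (hG₁ : GaussKummer K₁ l) (hG₂ : GaussKummer K₂ l) :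
    ∃ (κ : K₂ → K₁) (S : Finset (HeightOneSpectrum (𝓞 K₁))),
      IsTransfer α K₁ K₂ l (z₁ : E₁) (z₂ : E₂) κ ∧
      ∀ v ∉ S, (Ideal.absNorm v.asIdeal).Prime →
        ∃ w : HeightOneSpectrum (𝓞 K₂),
          (∃ p : ℕ, p.Prime ∧ (p : 𝓞 K₁) ∈ v.asIdeal ∧ (p : 𝓞 K₂) ∈ w.asIdeal) ∧
          (Ideal.absNorm w.asIdeal = Ideal.absNorm v.asIdeal →
            ∀ x : K₂, w.valuation K₂ x = 1 → ∃ z : K₁, v.valuation K₁ (κ x * z ^ l) = 1 ∧
              ∃ e : ℕ,
              v.valuation K₁ ((κ x * z ^ l) ^ ((Ideal.absNorm v.asIdeal - 1) / l) - z₁ ^ e) < 1 ∧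
              w.valuation K₂ (x ^ ((Ideal.absNorm v.asIdeal - 1) / l) - z₂ ^ e) < 1) := by
  classical
  have hl0 := hl.pos
  have hζ₁ : IsPrimitiveRoot (z₁ : E₁) l :=
    hz₁.map_of_injective (f := algebraMap K₁ E₁) (algebraMap K₁ E₁).injective
  have hζ₂ : IsPrimitiveRoot (z₂ : E₂) l :=
    hz₂.map_of_injective (f := algebraMap K₂ E₂) (algebraMap K₂ E₂).injective
  have : FiniteDimensional F₁ K₁ := by
    have : CharZero F₁ := (algebraMap F₁ E₁).charZero
    exact Module.Finite.of_restrictScalars_finite ℚ F₁ K₁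
  obtain ⟨κ, hκ⟩ := exists_transfer α hα K₁ K₂ hαK hl hζ₁ z₁.2 hζ₂ z₂.2 hpow₂
  have hmatch := local_match₁ α hα K₁ K₂ hαK hl hl2 hpow₁ hpow₂ hroot₁ hroot₂ z₁ hz₁ z₂ hz₂ hμ
    hμ₂ κ hκ
  refine ⟨κ, (((finite_above K₁ hl0.ne').union (finite_ramified K₁)).union
    (finite_above_set K₁ hB)).toFinset, hκ, ?_⟩
  intro v hvS hvp
  rw [Set.Finite.mem_toFinset, Set.mem_union, Set.mem_union, not_or, not_or] at hvS
  obtain ⟨⟨hv1, hv2⟩, hv3⟩ := hvS
  have hvl : (l : 𝓞 K₁) ∉ v.asIdeal := hv1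
  set p := Ideal.absNorm v.asIdeal with hp
  have hpv : (p : 𝓞 K₁) ∈ v.asIdeal := Ideal.absNorm_mem _
  have hvexp : v.valuation K₁ (p : K₁) = WithZero.exp (-1 : ℤ) := by
    by_contra hne
    exact hv2 ⟨p, hvp, hpv, hne⟩
  have hpB : p ∉ B := fun hpB => hv3 ⟨p, hpB, hvp, hpv⟩
  have hlp : l ∣ p - 1 := by
    obtain ⟨O, hO, hOv⟩ := exists_valuationSubring_over (E := E₁) v
    have h1 : v.valuation K₁ (z₁ ^ (p - 1) - 1) < 1 := by
      refine unit_pow_sub_one' v ?_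
      have h2 : v.valuation K₁ z₁ ^ l = 1 := by rw [← map_pow, hz₁.pow_eq_one, map_one]
      exact (pow_eq_one_iff_of_nonneg zero_le hl0.ne').mp h2
    have h2 := (mem_iff_of_center O hO v hOv _).2.mpr h1
    rw [map_sub, map_pow, map_one] at h2
    have h3 := root_eq_one O l (natCast_notMem O v hOv hvl) ((z₁ : E₁) ^ (p - 1))
      (by rw [← pow_mul, mul_comm, pow_mul, hζ₁.pow_eq_one, one_pow]) h2
    rwa [hζ₁.pow_eq_one_iff_dvd] at h3
  obtain ⟨ξ₁, hξ₁⟩ := hroot₁ p hvp.pos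
  obtain ⟨ξ₂, hξ₂⟩ := hroot₂ p hvp.pos
  obtain ⟨β₁, y₁, hβ₁0, hβ₁, hβ₁g, hβ₁v, -⟩ := hG₁ p hvp hlp ξ₁ hξ₁
  obtain ⟨β₂, x₂, hβ₂0, hβ₂, hβ₂g, -, hβ₂w⟩ := hG₂ p hvp hlp ξ₂ hξ₂
  have hy₁0 : y₁ ≠ 0 := by
    rintro rfl; exact pow_ne_zero l hβ₁0 (by rw [hβ₁]; rfl)
  have hx₂0 : x₂ ≠ 0 := by
    rintro rfl; exact pow_ne_zero l hβ₂0 (by rw [hβ₂]; rfl)
  have hx₂E : (x₂ : E₂) ≠ 0 := by simpa using hx₂0
  have hkey : ¬ DvdVal v l (κ x₂) := by
    intro hd
    obtain ⟨O, s, t, hO, hOv, -, htK, -, -, -, ht', htb⟩ :=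
      exists_tame K₁ hl hζ₁ z₁.2 v hvl y₁ hy₁0 (hβ₁v v hvexp) β₁ hβ₁
    obtain ⟨b₁, hb₁⟩ := hpow₁ (κ x₂ : E₁)
    have htb₁ := tame_fix K₁ hl0.ne' O hO v hOv hvl t htK ht' (κ x₂) b₁ hb₁ hd
    have hκE : (κ x₂ : E₁) ≠ 0 := by simpa using hκ.ne_zero x₂ hx₂0
    have hb₁0 : b₁ ≠ 0 := by rintro rfl; rw [zero_pow hl0.ne'] at hb₁; exact hκE hb₁.symm
    obtain ⟨e, he⟩ := exists_exp_of_fix hl0 hζ₂ hβ₂ hx₂E (α t) (hαK t htK x₂ x₂.2)
    have h1 := hκ.spec x₂ hx₂0 β₂ b₁ hβ₂ hb₁ t htK e he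
    rw [htb₁] at h1
    have h2 : (z₁ : E₁) ^ e = 1 := by
      apply mul_right_cancel₀ hb₁0
      rw [← h1, one_mul]
    have h3 : (α t) β₂ = β₂ := by
      rw [he, (hζ₂.pow_eq_one_iff_dvd e).mpr ((hζ₁.pow_eq_one_iff_dvd e).mp h2), one_mul]
    have : NeZero p := ⟨hvp.ne_zero⟩
    obtain ⟨a, -, ha⟩ := hξ₁.eq_pow_of_pow_eq_one (ξ := t ξ₁)
      (by rw [← map_pow, hξ₁.pow_eq_one, map_one])
    obtain ⟨b, -, hb⟩ := hξ₂.eq_pow_of_pow_eq_one (ξ := α t ξ₂)
      (by rw [← map_pow, hξ₂.pow_eq_one, map_one])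
    have h4 := (hβ₂g (α t) (hαK t htK) b hb.symm).mp h3
    apply htb
    rw [hβ₁g t htK a ha.symm]
    exact hker p hvp hpB hlp ξ₁ ξ₂ hξ₁ hξ₂ t htK a b ha.symm hb.symm h4
  obtain ⟨w, hwl, hw1, hw2⟩ := hmatch v hvl x₂ hx₂0 hkey
  have hpw : (p : 𝓞 K₂) ∈ w.asIdeal := by
    by_contra hpw
    exact hkey ((hw1 x₂ hx₂0).mp (hβ₂w w hpw))
  refine ⟨w, ⟨p, hvp, hpv, hpw⟩, ?_⟩
  intro hNw x hx
  have hxp : w.valuation K₂ (x ^ (p - 1) - 1) < 1 := by
    rw [← hNw]
    exact unit_pow_sub_one' w hx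
  exact hw2 x hx hxp

end AsmRev3

end Vale.Agent.P024
end
end

section

section

/-!
Homomorphisms that are injective on tame inertia at many primes.
-/

namespace Vale.Agent.P024

open scoped NumberField ENNReal Topology
open IsDedekindDomain NumberField Filter

section

variable {F₁ E₁ F₂ E₂ : Type*} [Field F₁] [Field E₁] [Algebra F₁ E₁]
    [IsGalois F₁ E₁] [Field F₂] [Field E₂] [Algebra F₂ E₂] [IsGalois F₂ E₂]

theorem exists_agree (α : (E₁ ≃ₐ[F₁] E₁) →* (E₂ ≃ₐ[F₂] E₂)) (hα : Continuous α)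
    {l : ℕ} (hl : l.Prime) {ζ₁ : E₁} (hζ₁ : IsPrimitiveRoot ζ₁ l) {ζ₂ : E₂}
    (hζ₂ : IsPrimitiveRoot ζ₂ l) :
    ∃ W : Subgroup (E₁ ≃ₐ[F₁] E₁), IsOpen (W : Set (E₁ ≃ₐ[F₁] E₁)) ∧
      ∀ g : E₁ ≃ₐ[F₁] E₁, g ∈ W ↔ ∃ n : ℕ, (∀ z : E₁, z ^ l = 1 → g z = z ^ n) ∧
        ∀ z : E₂, z ^ l = 1 → α g z = z ^ n := by
  have hnz : NeZero l := ⟨hl.ne_zero⟩
  let W : Subgroup (E₁ ≃ₐ[F₁] E₁) :=
    { carrier := {g | ∃ n : ℕ, (∀ z : E₁, z ^ l = 1 → g z = z ^ n) ∧
        ∀ z : E₂, z ^ l = 1 → α g z = z ^ n}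
      one_mem' := ⟨1, fun z _ => by simp, fun z _ => by simp⟩
      mul_mem' := by
        rintro g h ⟨n, hn, hn'⟩ ⟨m, hm, hm'⟩
        refine ⟨n * m, fun z hz => ?_, fun z hz => ?_⟩
        · rw [AlgEquiv.mul_apply, hm z hz, map_pow, hn z hz, pow_mul]
        · rw [map_mul, AlgEquiv.mul_apply, hm' z hz, map_pow, hn' z hz, pow_mul]
      inv_mem' := by
        rintro g ⟨n, hn, hn'⟩
        have hcop : n.Coprime l := by
          have h2 : IsPrimitiveRoot (g ζ₁) l := hζ₁.map_of_injective g.injective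
          rw [hn ζ₁ hζ₁.pow_eq_one] at h2
          exact (hζ₁.pow_iff_coprime hl.pos n).1 h2
        obtain ⟨m, hm⟩ := Nat.exists_mul_mod_eq_one_of_coprime hcop hl.one_lt
        have hm' : m * n ≡ 1 [MOD l] := by
          rw [Nat.ModEq, Nat.mod_eq_of_lt hl.one_lt, mul_comm]
          exact hm.2
        refine ⟨m, fun z hz => ?_, fun z hz => ?_⟩
        · have h1 : g (z ^ m) = z := by
            rw [map_pow, hn z hz, ← pow_mul, mul_comm]
            conv_rhs => rw [← pow_one z]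
            obtain ⟨i, -, rfl⟩ := hζ₁.eq_pow_of_pow_eq_one hz
            rw [← pow_mul, ← pow_mul, rootPow_eq_iff_modEq hζ₁ _ _ hl.pos]
            exact Nat.ModEq.mul_left i hm'
          conv_lhs => rw [← h1]
          rw [← AlgEquiv.mul_apply, inv_mul_cancel, AlgEquiv.one_apply]
        · have h1 : α g (z ^ m) = z := by
            rw [map_pow, hn' z hz, ← pow_mul, mul_comm]
            conv_rhs => rw [← pow_one z]
            obtain ⟨i, -, rfl⟩ := hζ₂.eq_pow_of_pow_eq_one hz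
            rw [← pow_mul, ← pow_mul, rootPow_eq_iff_modEq hζ₂ _ _ hl.pos]
            exact Nat.ModEq.mul_left i hm'
          conv_lhs => rw [← h1]
          rw [map_inv, ← AlgEquiv.mul_apply, inv_mul_cancel, AlgEquiv.one_apply] }
  refine ⟨W, ?_, fun g => Iff.rfl⟩
  have h1 : IsOpen ((MulAction.stabilizer (E₂ ≃ₐ[F₂] E₂) ζ₂ : Subgroup (E₂ ≃ₐ[F₂] E₂)) :
    Set (E₂ ≃ₐ[F₂] E₂)) := stabilizer_isOpen_of_isIntegral (K := F₂) (L := E₂) ζ₂
  have h2 : IsOpen ((MulAction.stabilizer (E₁ ≃ₐ[F₁] E₁) ζ₁ : Subgroup (E₁ ≃ₐ[F₁] E₁)) :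
    Set (E₁ ≃ₐ[F₁] E₁)) := stabilizer_isOpen_of_isIntegral (K := F₁) (L := E₁) ζ₁
  let H : Subgroup (E₁ ≃ₐ[F₁] E₁) :=
    (MulAction.stabilizer (E₂ ≃ₐ[F₂] E₂) ζ₂).comap α ⊓ MulAction.stabilizer (E₁ ≃ₐ[F₁] E₁) ζ₁
  have hH : IsOpen (H : Set (E₁ ≃ₐ[F₁] E₁)) := (h1.preimage hα).inter h2
  refine Subgroup.isOpen_mono (H₁ := H) ?_ hH
  rintro g ⟨hg2, hg1⟩
  have hg2' : α g ζ₂ = ζ₂ := hg2
  have hg1' : g ζ₁ = ζ₁ := hg1
  refine ⟨1, fun z hz => ?_, fun z hz => ?_⟩
  · obtain ⟨i, -, rfl⟩ := hζ₁.eq_pow_of_pow_eq_one hz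
    rw [map_pow, hg1', pow_one]
  · obtain ⟨i, -, rfl⟩ := hζ₂.eq_pow_of_pow_eq_one hz
    rw [map_pow, hg2', pow_one]

end

section

variable {F₁ E₁ F₂ E₂ : Type*} [Field F₁] [NumberField F₁] [Field E₁] [Algebra F₁ E₁]
    [IsGalois F₁ E₁] [CharZero E₁] [Algebra.IsAlgebraic ℚ E₁]
    [Field F₂] [NumberField F₂] [Field E₂] [Algebra F₂ E₂] [IsGalois F₂ E₂]
    [CharZero E₂] [Algebra.IsAlgebraic ℚ E₂]

end

end Vale.Agent.P024
end
end
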