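import Vale.Agent.P024.MathlibUsed
import Vale.Agent.P024.Bdl.B1

set_option linter.all false

namespace AFast005597x5a
@[reducible] def a0.{u1, u2} {x1 : Type u1} {x2 : Type u2} [x3 : Field x1] [x4 : Field x2] [x5 : Algebra x1 x2] : MulOne Gal(x2/x1) := inferInstance
@[reducible] def a1.{u1, u2} {x1 : Type u1} {x2 : Type u2} [x3 : Field x1] [x4 : Field x2] [x5 : Algebra x1 x2] : MulOneClass Gal(x2/x1) := inferInstance
@[reducible] def a2.{u1, u2} {x1 : Type u1} {x2 : Type u2} [x3 : Field x1] [x4 : Field x2] [x5 : Algebra x1 x2] : Monoid Gal(x2/x1) := inferInstance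
theorem a3.{u1, u2} {x1 : Type u1} {x2 : Type u2} [x3 : Field x1] [x4 : Field x2] [x5 : Algebra x1 x2] : MonoidHomClass Gal(x2/x1) x2 x2 := inferInstance
theorem a4.{u1, u2} {x1 : Type u1} {x2 : Type u2} [x3 : Field x1] [x4 : Field x2] [x5 : Algebra x1 x2] : RingHomClass Gal(x2/x1) x2 x2 := inferInstance
theorem a5.{u1, u2} {x1 : Type u1} {x2 : Type u2} [x3 : Field x1] [x4 : Field x2] [x5 : Algebra x1 x2] : AddSubmonoidClass (IntermediateField x1 x2) x2 := inferInstance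
theorem a6.{u1, u2} {x1 : Type u1} {x2 : Type u2} [x3 : Field x1] [x4 : Field x2] [x5 : Algebra x1 x2] : ZeroMemClass (IntermediateField x1 x2) x2 := inferInstance
@[reducible] def a7.{u1, u2} {x1 : Type u1} {x2 : Type u2} [x3 : Field x2] [x4 : Field x1] [x5 : Algebra x2 x1] {x6 : IntermediateField x2 x1} : Zero ↥x6 := inferInstance
@[reducible] def a8.{u1, u2} {x1 : Type u1} {x2 : Type u2} [x3 : Field x1] [x4 : Field x2] [x5 : Algebra x1 x2] : Mul Gal(x2/x1) := inferInstance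
theorem a9.{u1} {x1 : Type u1} [x2 : Field x1] [x3 : NumberField x1] : AddMonoid.FG (NumberField.RingOfIntegers x1) := inferInstance
@[reducible] def a10.{u1} {x1 : Type u1} [x2 : Field x1] : MulZeroOneClass (Ideal (NumberField.RingOfIntegers x1)) := inferInstance
theorem a11.{u1, u2} {x1 : Type u1} {x2 : Type u2} [x3 : Field x1] [x4 : Field x2] [x5 : Algebra x1 x2] : AlgHomClass Gal(x2/x1) x1 x2 x2 := inferInstance
@[reducible] def a12.{u1} {x1 : Type u1} [x2 : Field x1] : Semiring (Ideal (NumberField.RingOfIntegers x1)) := inferInstance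
theorem a13.{u1} {x1 : Type u1} [x2 : Field x1] [x3 : NumberField x1] : IsAddTorsionFree (NumberField.RingOfIntegers x1) := inferInstance
theorem a14.{u1, u2} {x1 : Type u1} {x2 : Type u2} [x3 : Field x2] [x4 : Field x1] [x5 : Algebra x2 x1] {x6 : IntermediateField x2 x1} : MonoidHomClass (↥x6 →+* x1) (↥x6) x1 := inferInstance
theorem a15.{u1, u2} {x1 : Type u1} {x2 : Type u2} [x3 : Field x1] [x4 : Field x2] [x5 : Algebra x1 x2] : MonoidWithZeroHomClass Gal(x2/x1) x2 x2 := inferInstance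
theorem a16.{u1, u2} {x1 : Type u1} {x2 : Type u2} [x3 : Field x1] [x4 : Field x2] [x5 : Algebra x1 x2] : SubsemiringClass (IntermediateField x1 x2) x2 := inferInstance
@[reducible] def a17.{u1, u2} {x1 : Type u1} {x2 : Type u2} [x3 : Field x1] [x4 : Field x2] [x5 : Algebra x1 x2] : One Gal(x2/x1) := inferInstance
theorem a18.{u1} {x1 : Type u1} [x2 : Field x1] [x3 : NumberField x1] : IsAffineAddMonoid (NumberField.RingOfIntegers x1) := inferInstance
theorem a19.{u1, u2} {x1 : Type u1} {x2 : Type u2} [x3 : Field x2] [x4 : Field x1] [x5 : Algebra x2 x1] {x6 : IntermediateField x2 x1} : MonoidWithZeroHomClass (↥x6 →+* x1) (↥x6) x1 := inferInstance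
theorem a20.{u1} {x1 : Type u1} [x2 : Field x1] : IsCancelAdd (NumberField.RingOfIntegers x1) := inferInstance
@[reducible] def a21 : LinearOrderedCommMonoidWithZero (WithZero (Multiplicative ℤ)) := inferInstance
@[reducible] def a22.{u1, u2} {x1 : Type u1} {x2 : Type u2} [x3 : Field x2] [x4 : Field x1] [x5 : Algebra x2 x1] {x6 : IntermediateField x2 x1} : Ring ↥x6 := inferInstance
@[reducible] def a23.{u1, u2} {x1 : Type u1} {x2 : Type u2} [x3 : Field x2] [x4 : Field x1] [x5 : Algebra x2 x1] {x6 : IntermediateField x2 x1} : CommSemiring ↥x6 := inferInstance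
@[reducible] def a24.{u1} {x1 : Type u1} [x2 : Field x1] : IdemSemiring (Submodule (NumberField.RingOfIntegers x1) (NumberField.RingOfIntegers x1)) := inferInstance
theorem a25 : IsOrderedCancelMonoid (Multiplicative ℤ) := inferInstance
@[reducible] def a26.{u1, u2} {x1 : Type u1} {x2 : Type u2} [x3 : Field x1] [x4 : Field x2] [x5 : Algebra x1 x2] : InvOneClass Gal(x2/x1) := inferInstance
theorem a27.{u1, u2} {x1 : Type u1} {x2 : Type u2} [x3 : Field x1] [x4 : Field x2] [x5 : Algebra x1 x2] : NonUnitalAlgHomClass Gal(x2/x1) x1 x2 x2 := inferInstance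
@[reducible] def a28.{u1, u2} {x1 : Type u1} {x2 : Type u2} [x3 : Field x1] [x4 : Field x2] [x5 : Algebra x1 x2] : DivInvOneMonoid Gal(x2/x1) := inferInstance
@[reducible] def a29.{u1, u2} {x1 : Type u1} {x2 : Type u2} [x3 : Field x1] [x4 : Field x2] [x5 : Algebra x1 x2] : Pow Gal(x2/x1) ℕ := inferInstance
@[reducible] def a30.{u1, u2} {x1 : Type u1} {x2 : Type u2} [x3 : Field x2] [x4 : Field x1] [x5 : Algebra x2 x1] {x6 : IntermediateField x2 x1} : Pow ↥x6 ℕ := inferInstance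
@[reducible] def a31.{u1, u2} {x1 : Type u1} {x2 : Type u2} [x3 : Field x2] [x4 : Field x1] [x5 : Algebra x2 x1] {x6 : IntermediateField x2 x1} : AddCommGroup ↥x6 := inferInstance
@[reducible] def a32.{u1, u2} {x1 : Type u1} {x2 : Type u2} [x3 : Field x1] [x4 : Field x2] [x5 : Algebra x1 x2] : NPow Gal(x2/x1) := inferInstance
@[reducible] def a33.{u1, u2} {x1 : Type u1} {x2 : Type u2} [x3 : Field x1] [x4 : Field x2] [x5 : Algebra x1 x2] : DivisionMonoid Gal(x2/x1) := inferInstance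
theorem a34 : IsOrderedCancelAddMonoid ℤ := inferInstance
theorem a35 : PerfectField ℚ := inferInstance
theorem a36.{u1, u2} {x1 : Type u1} {x2 : Type u2} [x3 : Field x1] [x4 : Field x2] [x5 : Algebra x1 x2] : SubmonoidClass (IntermediateField x1 x2) x2 := inferInstance
@[reducible] def a37.{u1, u2} {x1 : Type u1} {x2 : Type u2} [x3 : Field x2] [x4 : Field x1] [x5 : Algebra x2 x1] {x6 : IntermediateField x2 x1} : Semiring ↥x6 := inferInstance
theorem a38.{u1, u2} {x1 : Type u1} {x2 : Type u2} [x3 : Field x1] [x4 : Field x2] [x5 : Algebra x1 x2] : AddMonoidHomClass Gal(x2/x1) x2 x2 := inferInstance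
theorem a39.{u1, u2} {x1 : Type u1} {x2 : Type u2} [x3 : Field x2] [x4 : Field x1] [x5 : Algebra x2 x1] {x6 : IntermediateField x2 x1} [x7 : IsGalois x2 x1] : IsGalois (↥x6) x1 := inferInstance
@[reducible] def a40 : Mul (WithZero (Multiplicative ℤ)) := inferInstance
theorem a41.{u1, u2} {x1 : Type u1} {x2 : Type u2} [x3 : Field x1] [x4 : Field x2] [x5 : Algebra x1 x2] : MulHomClass Gal(x2/x1) x2 x2 := inferInstance
@[reducible] def a42.{u1, u2} {x1 : Type u1} {x2 : Type u2} [x3 : Field x2] [x4 : Field x1] [x5 : Algebra x2 x1] {x6 : IntermediateField x2 x1} : NonAssocSemiring ↥x6 := inferInstance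
theorem a43.{u1, u2} {x1 : Type u1} {x2 : Type u2} [x3 : Field x1] [x4 : Field x2] [x5 : Algebra x1 x2] : DistribMulActionSemiHomClass Gal(x2/x1) (⇑(MonoidHom.id x1)) x2 x2 := inferInstance
@[reducible] def a44.{u1, u2} {x1 : Type u1} {x2 : Type u2} [x3 : Field x2] [x4 : Field x1] [x5 : Algebra x2 x1] {x6 : IntermediateField x2 x1} : Algebra ℤ ↥x6 := inferInstance
theorem a45 : PosMulReflectLT ℝ := inferInstance
theorem a46.{u1, u2} {x1 : Type u1} {x2 : Type u2} [x3 : Field x1] [x4 : Field x2] [x5 : Algebra x1 x2] [x6 : IsGalois x1 x2] : TotallySeparatedSpace Gal(x2/x1) := inferInstance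
theorem a47.{u1} {x1 : Type u1} {x2 : Type} [x3 : Field x1] [x4 : Field x2] : MulHomClass (x1 →+* x2) x1 x2 := inferInstance
theorem a48 : CharZero ℝ := inferInstance
theorem a49.{u1, u2} {x1 : Type u1} {x2 : Type u2} [x3 : Field x1] [x4 : Field x2] : MonoidHomClass (x1 →+* x2) x1 x2 := inferInstance
@[reducible] def a50.{u1, u2} {x1 : Type u1} {x2 : Type u2} [x3 : Field x1] [x4 : Field x2] [x5 : Algebra x1 x2] : Inv Gal(x2/x1) := inferInstance
theorem a51 : AddLeftMono ℝ := inferInstance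
theorem a52.{u1} {x1 : Type u1} [x2 : Field x1] {x3 : ValuationSubring x1} : ZeroLEOneClass x3.ValueGroup := inferInstance
theorem a53 : PosMulReflectLE ℝ := inferInstance
theorem a54.{u1, u2} {x1 : Type u1} {x2 : Type u2} [x3 : Field x1] [x4 : Field x2] [x5 : Algebra x1 x2] : OneHomClass Gal(x2/x1) x2 x2 := inferInstance
theorem a55.{u1, u2} {x1 : Type u1} {x2 : Type u2} [x3 : Field x1] [x4 : Field x2] [x5 : Algebra x1 x2] : ZeroHomClass Gal(x2/x1) x2 x2 := inferInstance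
theorem a56 : @Filter.NeBot Real (@nhdsWithin Real (@UniformSpace.toTopologicalSpace Real (@PseudoMetricSpace.toUniformSpace Real Real.pseudoMetricSpace)) (@OfNat.ofNat Real (nat_lit 1) (@One.toOfNat1 Real Real.instOne)) (@Set.Ioi Real (@PartialOrder.toPreorder Real (@SemilatticeInf.toPartialOrder Real (@Lattice.toSemilatticeInf Real (@DistribLattice.toLattice Real (@instDistribLatticeOfLinearOrder Real Real.linearOrder))))) (@OfNat.ofNat Real (nat_lit 1) (@One.toOfNat1 Real Real.instOne)))) := inferInstance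
@[reducible] def a57.{u1} {x1 : Type u1} [x2 : Field x1] [x3 : NumberField x1] : Module ℚ≥0 x1 := inferInstance
theorem a58.{u1, u2} {x1 : Type u1} {x2 : Type u2} [x3 : Field x1] [x4 : Field x2] [x5 : Algebra x1 x2] [x6 : IsGalois x1 x2] : T2Space Gal(x2/x1) := inferInstance
@[reducible] def a59.{u1, u2} {x1 : Type u1} {x2 : Type u2} [x3 : Field x2] [x4 : Field x1] [x5 : Algebra x2 x1] {x6 : IntermediateField x2 x1} : Sub ↥x6 := inferInstance
@[reducible] def a60.{u1, u2} {x1 : Type u1} {x2 : Type u2} [x3 : Field x2] [x4 : Field x1] [x5 : Algebra x2 x1] {x6 : IntermediateField x2 x1} : NPow ↥x6 := inferInstance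
@[reducible] def a61.{u1, u2} {x1 : Type u1} {x2 : Type u2} [x3 : Field x2] [x4 : Field x1] [x5 : Algebra x2 x1] {x6 : IntermediateField x2 x1} : Monoid ↥x6 := inferInstance
@[reducible] def a62.{u1, u2} {x1 : Type u1} {x2 : Type u2} [x3 : Field x2] [x4 : Field x1] [x5 : Algebra x2 x1] {x6 : IntermediateField x2 x1} : MulZeroOneClass (Ideal (NumberField.RingOfIntegers ↥x6)) := inferInstance
theorem a63 : PosMulStrictMono ℝ := inferInstance
theorem a64.{u1, u2} {x1 : Type u1} {x2 : Type u2} [x3 : Field x1] [x4 : Field x2] [x5 : Algebra x1 x2] : SeparatelyContinuousMul Gal(x2/x1) := inferInstance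
@[reducible] def a65.{u1, u2} {x1 : Type u1} {x2 : Type u2} [x3 : Field x2] [x4 : Field x1] [x5 : Algebra x2 x1] {x6 : IntermediateField x2 x1} : One ↥x6 := inferInstance
@[reducible] def a66.{u1, u2} {x1 : Type u1} {x2 : Type u2} [x3 : Field x2] [x4 : Field x1] [x5 : Algebra x2 x1] {x6 : IntermediateField x2 x1} : MulZeroClass ↥x6 := inferInstance
@[reducible] def a67.{u1, u2} {x1 : Type u1} {x2 : Type u2} [x3 : Field x2] [x4 : Field x1] [x5 : Algebra x2 x1] {x6 : IntermediateField x2 x1} : Semiring (Ideal (NumberField.RingOfIntegers ↥x6)) := inferInstance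
theorem a68 : DenselyOrdered ℝ := inferInstance
theorem a69.{u1, u2} {x1 : Type u1} {x2 : Type u2} [x3 : Field x1] [x4 : Field x2] [x5 : Algebra x1 x2] : ContinuousMul Gal(x2/x1) := inferInstance
theorem a70.{u1} {x1 : Type u1} {x2 : Type} [x3 : Field x1] [x4 : Field x2] : NonUnitalRingHomClass (x1 →+* x2) x1 x2 := inferInstance
@[reducible] def a71.{u1, u2} {x1 : Type u1} {x2 : Type u2} [x3 : Field x2] [x4 : Field x1] [x5 : Algebra x2 x1] {x6 : IntermediateField x2 x1} : CommMonoid ↥x6 := inferInstance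
theorem a72 : CovariantClass ℝ ℝ (Function.swap fun x1 x2 => x1 + x2) fun x1 x2 => x1 ≤ x2 := inferInstance
theorem a73.{u1, u2} {x1 : Type u1} {x2 : Type u2} [x3 : Field x1] [x4 : Field x2] : MonoidWithZeroHomClass (x1 →+* x2) x1 x2 := inferInstance
theorem a74.{u1} {x1 : Type u1} [x2 : Field x1] {x3 : ValuationSubring x1} : MonoidHomClass (Valuation x1 x3.ValueGroup) x1 x3.ValueGroup := inferInstance
@[reducible] noncomputable def a75 {x1 : ℕ} [x2 : Fact (Nat.Prime x1)] : Monoid ℤ_[x1] := inferInstance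
@[reducible] noncomputable def a76.{u1} {x1 : Type u1} [x2 : Field x1] {x3 : ValuationSubring x1} : MulZeroClass x3.ValueGroup := inferInstance
@[reducible] def a77.{u1, u2} {x1 : Type u1} {x2 : Type u2} [x3 : Field x2] [x4 : Field x1] [x5 : Algebra x2 x1] {x6 : IntermediateField x2 x1} : AddCommMonoid (NumberField.RingOfIntegers ↥x6) := inferInstance
@[reducible] def a78.{u1, u2} {x1 : Type u1} {x2 : Type u2} [x3 : Field x2] [x4 : Field x1] [x5 : Algebra x2 x1] {x6 : IntermediateField x2 x1} : AddCommMonoid ↥x6 := inferInstance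
@[reducible] noncomputable def a79.{u1} {x1 : Type u1} [x2 : Field x1] {x3 : ValuationSubring x1} : Zero x3.ValueGroup := inferInstance
@[reducible] noncomputable def a80.{u1} {x1 : Type u1} [x2 : Field x1] {x3 : ValuationSubring x1} : One x3.ValueGroup := inferInstance
@[reducible] noncomputable def a81.{u1} {x1 : Type u1} [x2 : Field x1] {x3 : ValuationSubring x1} : Preorder x3.ValueGroup := inferInstance
@[reducible] def a82 : NPow (WithZero (Multiplicative ℤ)) := inferInstance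
theorem a83 : ZeroLEOneClass (WithZero (Multiplicative ℤ)) := inferInstance
@[reducible] def a84 : Monoid (WithZero (Multiplicative ℤ)) := inferInstance
@[reducible] noncomputable def a85.{u1} {x1 : Type u1} [x2 : Field x1] {x3 : ValuationSubring x1} : PartialOrder x3.ValueGroup := inferInstance
theorem a86.{u1} {x1 : Type u1} [x2 : Field x1] : IsCancelMulZero (NumberField.RingOfIntegers x1) := inferInstance
end AFast005597x5a
attribute [local instance] AFast005597x5a.a0 AFast005597x5a.a1 AFast005597x5a.a2 AFast005597x5a.a3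
  AFast005597x5a.a4 AFast005597x5a.a5 AFast005597x5a.a6 AFast005597x5a.a7 AFast005597x5a.a8
  AFast005597x5a.a9 AFast005597x5a.a10 AFast005597x5a.a11 AFast005597x5a.a12 AFast005597x5a.a13
  AFast005597x5a.a14 AFast005597x5a.a15 AFast005597x5a.a16 AFast005597x5a.a17 AFast005597x5a.a18
  AFast005597x5a.a19 AFast005597x5a.a20 AFast005597x5a.a21 AFast005597x5a.a22 AFast005597x5a.a23
  AFast005597x5a.a24 AFast005597x5a.a25 AFast005597x5a.a26 AFast005597x5a.a27 AFast005597x5a.a28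
  AFast005597x5a.a29 AFast005597x5a.a30 AFast005597x5a.a31 AFast005597x5a.a32 AFast005597x5a.a33
  AFast005597x5a.a34 AFast005597x5a.a35 AFast005597x5a.a36 AFast005597x5a.a37 AFast005597x5a.a38
  AFast005597x5a.a39 AFast005597x5a.a40 AFast005597x5a.a41 AFast005597x5a.a42 AFast005597x5a.a43
  AFast005597x5a.a44 AFast005597x5a.a45 AFast005597x5a.a46 AFast005597x5a.a47 AFast005597x5a.a48
  AFast005597x5a.a49 AFast005597x5a.a50 AFast005597x5a.a51 AFast005597x5a.a52 AFast005597x5a.a53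
  AFast005597x5a.a54 AFast005597x5a.a55 AFast005597x5a.a56 AFast005597x5a.a57 AFast005597x5a.a58
  AFast005597x5a.a59 AFast005597x5a.a60 AFast005597x5a.a61 AFast005597x5a.a62 AFast005597x5a.a63
  AFast005597x5a.a64 AFast005597x5a.a65 AFast005597x5a.a66 AFast005597x5a.a67 AFast005597x5a.a68
  AFast005597x5a.a69 AFast005597x5a.a70 AFast005597x5a.a71 AFast005597x5a.a72 AFast005597x5a.a73
  AFast005597x5a.a74 AFast005597x5a.a75 AFast005597x5a.a76 AFast005597x5a.a77 AFast005597x5a.a78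
  AFast005597x5a.a79 AFast005597x5a.a80 AFast005597x5a.a81 AFast005597x5a.a82 AFast005597x5a.a83
  AFast005597x5a.a84 AFast005597x5a.a85 AFast005597x5a.a86
namespace AFast005597x5b
theorem a0.{u1, u2} {x1 : Type u1} {x2 : Type u2} [x3 : Field x2] [x4 : Field x1] [x5 : Algebra x2 x1] {x6 : IntermediateField x2 x1} : FaithfulSMul (NumberField.RingOfIntegers ↥x6) ↥x6 := inferInstance
@[reducible] def a1.{u1, u2} {x1 : Type u1} {x2 : Type u2} [x3 : Field x2] [x4 : Field x1] [x5 : Algebra x2 x1] {x6 : IntermediateField x2 x1} [x7 : NumberField x2] : Module ℚ ↥x6 := inferInstance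
theorem a2.{u1} {x1 : Type u1} {x2 : Type} [x3 : Field x1] [x4 : Field x2] : AddMonoidHomClass (x1 →+* x2) x1 x2 := inferInstance
theorem a3.{u1, u2, u3, u4} {x1 : Type u1} {x2 : Type u2} [x3 : Field x1] [x4 : Field x2] [x5 : Algebra x1 x2] {x6 : Type u3} {x7 : Type u4} [x8 : Field x6] [x9 : Field x7] [x10 : Algebra x6 x7] : MulHomClass (Gal(x2/x1) →* Gal(x7/x6)) Gal(x2/x1) Gal(x7/x6) := inferInstance
theorem a4.{u1, u2} {x1 : Type u1} {x2 : Type u2} [x3 : Field x1] [x4 : Field x2] [x5 : Algebra x1 x2] [x6 : IsGalois x1 x2] : T1Space Gal(x2/x1) := inferInstance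
theorem a5.{u1} {x1 : Type u1} [x2 : Field x1] : FaithfulSMul (NumberField.RingOfIntegers x1) x1 := inferInstance
theorem a6.{u1} {x1 : Type u1} [x2 : Field x1] [x3 : NumberField x1] : IsScalarTower ℚ ℚ (AlgebraicClosure x1) := inferInstance
theorem a7.{u1, u2} {x1 : Type u1} {x2 : Type u2} [x3 : Field x2] [x4 : Field x1] [x5 : Algebra x2 x1] {x6 : IntermediateField x2 x1} [x7 : NumberField ↥x6] : AddMonoid.FG (NumberField.RingOfIntegers ↥x6) := inferInstance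
theorem a8 {x1 : Type} [x2 : Field x1] : MulHomClass (Valuation x1 (WithZero (Multiplicative ℤ))) x1 (WithZero (Multiplicative ℤ)) := inferInstance
theorem a9.{u1} {x1 : Type u1} {x2 : Type} [x3 : Field x1] [x4 : Field x2] [x5 : NumberField x1] [x6 : NumberField x2] : DistribMulActionSemiHomClass (x1 →+* x2) (⇑(RingHom.id ℚ≥0)) x1 x2 := inferInstance
@[reducible] def a10.{u1, u2} {x1 : Type u1} {x2 : Type u2} [x3 : Field x2] [x4 : Field x1] [x5 : Algebra x2 x1] {x6 : IntermediateField x2 x1} [x7 : NumberField x2] : Module ℚ≥0 ↥x6 := inferInstance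
theorem a11.{u1} {x1 : Type u1} [x2 : Field x1] {x3 : ValuationSubring x1} : MulHomClass (Valuation x1 x3.ValueGroup) x1 x3.ValueGroup := inferInstance
end AFast005597x5b
attribute [local instance] AFast005597x5b.a0 AFast005597x5b.a1 AFast005597x5b.a2 AFast005597x5b.a3
  AFast005597x5b.a4 AFast005597x5b.a5 AFast005597x5b.a6 AFast005597x5b.a7 AFast005597x5b.a8
  AFast005597x5b.a9 AFast005597x5b.a10 AFast005597x5b.a11
section

section

/-!
Families with values in finitely many classes modulo `l`-th powers.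
-/

namespace Vale.Agent.P024

open scoped NumberField
open IsDedekindDomain

/-- the family `A` takes values in finitely many classes modulo `l`-th powers. -/
def FinClasses {X K : Type*} [Field K] (l : ℕ) (A : X → K) : Prop :=
  ∃ T : Finset K, (∀ t ∈ T, t ≠ 0) ∧ ∀ x, ∃ t ∈ T, ∃ z : K, z ≠ 0 ∧ A x = t * z ^ l

theorem finClasses_of_finite {X K C : Type*} [Field K] [Finite C] (l : ℕ) (A : X → K)
    (hA : ∀ x, A x ≠ 0) (F : X → C)
    (h : ∀ x x', F x = F x' → ∃ r : K, r ≠ 0 ∧ A x = A x' * r ^ l) : FinClasses l A := by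
  classical
  have : Fintype C := Fintype.ofFinite C
  let rep : C → K := fun c => if h : ∃ x, F x = c then A h.choose else 1
  refine ⟨Finset.univ.image rep, ?_, ?_⟩
  · intro t ht
    obtain ⟨c, -, rfl⟩ := Finset.mem_image.1 ht
    by_cases hc : ∃ x, F x = c
    · have : rep c = A hc.choose := dif_pos hc
      rw [this]; exact hA _
    · have : rep c = 1 := dif_neg hc
      rw [this]; exact one_ne_zero
  · intro x
    have hc : ∃ x', F x' = F x := ⟨x, rfl⟩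
    have h1 : rep (F x) = A hc.choose := dif_pos hc
    obtain ⟨r, hr0, hr⟩ := h x hc.choose hc.choose_spec.symm
    exact ⟨rep (F x), Finset.mem_image_of_mem _ (Finset.mem_univ _), r, hr0, by rw [h1, hr]⟩

/-- descent of finiteness along a finite Galois extension -/
theorem finClasses_descend {X K Z : Type*} [Field K] [Field Z] [Algebra K Z]
    [FiniteDimensional K Z] [IsGalois K Z] {l : ℕ} (hl : l ≠ 0) (A : X → K) (hA : ∀ x, A x ≠ 0)
    (h : FinClasses l (fun x => algebraMap K Z (A x))) : FinClasses l A := by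
  classical
  obtain ⟨T, hT0, hT⟩ := h
  choose t ht z hz0 hz using hT
  have hfinG : Finite (Z ≃ₐ[K] Z) := inferInstance
  -- the possible values of `h z / z`
  let R : Set Z := ⋃ s ∈ T, ⋃ g : Z ≃ₐ[K] Z, {r : Z | r ^ l = s / g s}
  have hR : R.Finite := by
    apply Set.Finite.biUnion (Finset.finite_toSet T)
    intro s _
    apply Set.finite_iUnion
    intro g
    have hne : (Polynomial.X ^ l - Polynomial.C (s / g s) : Polynomial Z) ≠ 0 :=
      Polynomial.X_pow_sub_C_ne_zero (Nat.pos_of_ne_zero hl) _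
    refine (Multiset.finite_toSet (Polynomial.roots (Polynomial.X ^ l -
      Polynomial.C (s / g s) : Polynomial Z))).subset ?_
    intro r hr
    show r ∈ _
    rw [Set.mem_ofPred_eq, Polynomial.mem_roots hne]
    simp only [Polynomial.IsRoot.def, Polynomial.eval_sub, Polynomial.eval_pow, Polynomial.eval_X,
      Polynomial.eval_C]
    rw [sub_eq_zero]
    exact hr
  have : Finite R := hR.to_subtype
  have hmem : ∀ (x : X) (g : Z ≃ₐ[K] Z), g (z x) / z x ∈ R := by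
    intro x g
    simp only [R, Set.mem_iUnion]
    refine ⟨t x, ht x, g, ?_⟩
    show (g (z x) / z x) ^ l = t x / g (t x)
    have h1 := congrArg g (hz x)
    simp only [map_mul, map_pow, AlgEquiv.commutes] at h1
    have h2 := hz x
    simp only at h2
    have hgt : g (t x) ≠ 0 := by rw [Ne, EmbeddingLike.map_eq_zero_iff]; exact hT0 _ (ht x)
    rw [div_pow, div_eq_div_iff (pow_ne_zero _ (hz0 x)) hgt, ← h2, h1]
    ring
  let F : X → T × ((Z ≃ₐ[K] Z) → R) := fun x => (⟨t x, ht x⟩, fun g => ⟨g (z x) / z x, hmem x g⟩)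
  refine finClasses_of_finite l A hA F ?_
  intro x x' hF
  have h1 : t x = t x' := congrArg Subtype.val (congrArg Prod.fst hF)
  have h2 : ∀ g : Z ≃ₐ[K] Z, g (z x / z x') = z x / z x' := by
    intro g
    have := congrArg Subtype.val (congrFun (congrArg Prod.snd hF) g)
    simp only [F] at this
    have hgz : g (z x') ≠ 0 := by rw [Ne, EmbeddingLike.map_eq_zero_iff]; exact hz0 x'
    rw [map_div₀]
    rw [div_eq_div_iff (hz0 x) (hz0 x')] at this
    rw [div_eq_div_iff hgz (hz0 x'), this]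
    ring
  obtain ⟨r, hr⟩ := (IsGalois.mem_range_algebraMap_iff_fixed (F := K) (z x / z x')).2 h2
  refine ⟨r, ?_, ?_⟩
  · rintro rfl
    rw [map_zero] at hr
    exact div_ne_zero (hz0 x) (hz0 x') hr.symm
  · apply FaithfulSMul.algebraMap_injective K Z
    rw [map_mul, map_pow, hr]
    have h3 := hz x
    have h4 := hz x'
    simp only at h3 h4
    rw [h3, h4, h1, div_pow]
    have := pow_ne_zero l (hz0 x')
    field_simp

theorem exists_mul_mod {l : ℕ} (hl : l.Prime) {e : ℕ} (he : ¬ l ∣ e) :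
    ∃ u k : ℕ, u * e = 1 + l * k := by
  have hcop : Nat.Coprime e l := ((Nat.Prime.coprime_iff_not_dvd hl).2 he).symm
  obtain ⟨u, -, hu⟩ := Nat.exists_mul_mod_eq_one_of_coprime hcop hl.one_lt
  refine ⟨u, (e * u) / l, ?_⟩
  have := Nat.mod_add_div (e * u) l
  rw [hu] at this
  rw [mul_comm u e]
  exact this.symm

/-- if a family does not take values in finitely many classes, it contains arbitrarily long
independent tuples. -/
theorem exists_indep {X K : Type*} [Field K] {l : ℕ} (hl : l.Prime) (A : X → K)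
    (hA : ∀ x, A x ≠ 0) (h : ¬ FinClasses l A) (d : ℕ) :
    ∃ x : Fin d → X, ∀ e : Fin d → ℕ, (∃ y : K, y ^ l = ∏ j, A (x j) ^ e j) → ∀ j, l ∣ e j := by
  classical
  induction d with
  | zero => exact ⟨Fin.elim0, fun e _ j => j.elim0⟩
  | succ d ih =>
    obtain ⟨x, hx⟩ := ih
    by_contra hcon
    push Not at hcon
    apply h
    have key : ∀ x' : X, ∃ r : Fin d → Fin l, ∃ z : K, z ≠ 0 ∧
        A x' = (∏ j, A (x j) ^ (r j : ℕ)) * z ^ l := by
      intro x'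
      obtain ⟨e, ⟨y, hy⟩, j₀, hj₀⟩ := hcon (Fin.snoc x x')
      rw [Fin.prod_univ_castSucc] at hy
      simp only [Fin.snoc_castSucc, Fin.snoc_last] at hy
      have hel : ¬ l ∣ e (Fin.last d) := by
        intro hdvd
        obtain ⟨k, hk⟩ := hdvd
        have h1 : (y / A x' ^ k) ^ l = ∏ j : Fin d, A (x j) ^ e (Fin.castSucc j) := by
          rw [div_pow, hy, hk, ← pow_mul, mul_comm k l]
          exact mul_div_cancel_right₀ _ (pow_ne_zero _ (hA x'))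
        have h2 := hx (fun j => e (Fin.castSucc j)) ⟨_, h1⟩
        apply hj₀
        refine Fin.lastCases ?_ (fun j => ?_) j₀
        · exact ⟨k, hk⟩
        · exact h2 j
      obtain ⟨u, k, huk⟩ := exists_mul_mod hl hel
      -- A x' * A x' ^ (l k) * ∏ A (x j) ^ (u e_j) = (y ^ u) ^ l
      have h3 : A x' * (A x' ^ k) ^ l * ∏ j : Fin d, A (x j) ^ (u * e (Fin.castSucc j)) =
          (y ^ u) ^ l := by
        have e1 : (y ^ u) ^ l = (y ^ l) ^ u := by rw [← pow_mul, ← pow_mul, mul_comm]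
        rw [e1, hy, mul_pow, ← Finset.prod_pow, ← pow_mul, ← pow_mul, mul_comm (e _) u, huk,
          pow_add, pow_one, mul_comm k l]
        rw [mul_comm (∏ j : Fin d, (A (x j) ^ e (Fin.castSucc j)) ^ u)]
        congr 1
        refine Finset.prod_congr rfl fun j _ => ?_
        rw [← pow_mul, mul_comm]
      have hlpos : 0 < l := hl.pos
      -- complementary exponents
      let r : Fin d → ℕ := fun j => (l - 1) * (u * e (Fin.castSucc j))
      have h4 : A x' * (A x' ^ k) ^ l * (∏ j : Fin d, A (x j) ^ (u * e (Fin.castSucc j))) ^ l =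
          (∏ j : Fin d, A (x j) ^ r j) * (y ^ u) ^ l := by
        have : (∏ j : Fin d, A (x j) ^ (u * e (Fin.castSucc j))) ^ l =
            (∏ j : Fin d, A (x j) ^ (u * e (Fin.castSucc j))) * (∏ j : Fin d, A (x j) ^ r j) := by
          rw [← Finset.prod_pow, ← Finset.prod_mul_distrib]
          refine Finset.prod_congr rfl fun j _ => ?_
          rw [← pow_mul, ← pow_add]
          congr 1
          simp only [r]
          obtain ⟨l', rfl⟩ := Nat.exists_eq_succ_of_ne_zero hl.ne_zero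
          simp only [Nat.succ_sub_one, Nat.succ_eq_add_one]
          ring
        rw [this, ← mul_assoc, h3]
        ring
      have h5 : (∏ j : Fin d, A (x j) ^ r j) = (∏ j : Fin d, A (x j) ^ (r j % l)) *
          (∏ j : Fin d, A (x j) ^ (r j / l)) ^ l := by
        rw [← Finset.prod_pow, ← Finset.prod_mul_distrib]
        refine Finset.prod_congr rfl fun j _ => ?_
        rw [← pow_mul, ← pow_add, mul_comm (r j / l), Nat.mod_add_div]
      have hP0 : ∀ f : Fin d → ℕ, (∏ j : Fin d, A (x j) ^ f j) ≠ 0 := fun f =>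
        Finset.prod_ne_zero_iff.2 fun j _ => pow_ne_zero _ (hA _)
      have hy0 : y ≠ 0 := by
        rintro rfl
        rw [zero_pow hl.ne_zero] at hy
        exact mul_ne_zero (hP0 _) (pow_ne_zero _ (hA x')) hy.symm
      refine ⟨fun j => ⟨r j % l, Nat.mod_lt _ hlpos⟩,
        (∏ j : Fin d, A (x j) ^ (r j / l)) * y ^ u /
          (A x' ^ k * ∏ j : Fin d, A (x j) ^ (u * e (Fin.castSucc j))), ?_, ?_⟩
      · exact div_ne_zero (mul_ne_zero (hP0 _) (pow_ne_zero _ hy0))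
          (mul_ne_zero (pow_ne_zero _ (hA _)) (hP0 _))
      · simp only
        have hd0 : (A x' ^ k) ^ l * (∏ j : Fin d, A (x j) ^ (u * e (Fin.castSucc j))) ^ l ≠ 0 :=
          mul_ne_zero (pow_ne_zero _ (pow_ne_zero _ (hA _))) (pow_ne_zero _ (hP0 _))
        rw [div_pow, mul_pow, mul_pow, mul_div_assoc', eq_div_iff hd0, ← mul_assoc, h4, h5]
        ring
    refine ⟨Finset.univ.image (fun r : Fin d → Fin l => ∏ j, A (x j) ^ (r j : ℕ)), ?_, ?_⟩
    · intro t ht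
      obtain ⟨r, -, rfl⟩ := Finset.mem_image.1 ht
      exact Finset.prod_ne_zero_iff.2 fun j _ => pow_ne_zero _ (hA _)
    · intro x'
      obtain ⟨r, z, hz0, hz⟩ := key x'
      exact ⟨_, Finset.mem_image_of_mem _ (Finset.mem_univ r), z, hz0, hz⟩

end Vale.Agent.P024
end
end

section

section

/-!
The global step, run from the primes of `K₁`.
-/

namespace Vale.Agent.P024

open scoped NumberField
open IsDedekindDomain NumberField

/-- the existence of a good embedding, from the side of `K₁`. -/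
theorem exists_good_embedding_rev {K₁ K₂ : Type*} [Field K₁] [NumberField K₁] [Field K₂]
    [NumberField K₂] {Z : Type} [Field Z] [NumberField Z] [IsGalois ℚ Z] (s : K₁ →+* Z)
    (i : K₂ →+* Z)
    {l : ℕ} (hl : l.Prime) {ζ₁ : K₁} (hζ₁ : IsPrimitiveRoot ζ₁ l) {ζ₂ : K₂}
    (hζ₂ : IsPrimitiveRoot ζ₂ l) (κ : K₂ → K₁) (hκ0 : ∀ x, x ≠ 0 → κ x ≠ 0)
    (S : Finset (HeightOneSpectrum (𝓞 K₁)))
    (hsym : ∀ v : HeightOneSpectrum (𝓞 K₁), v ∉ S → (Ideal.absNorm v.asIdeal).Prime →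
      ∃ w : HeightOneSpectrum (𝓞 K₂),
        (∃ p : ℕ, p.Prime ∧ (p : 𝓞 K₁) ∈ v.asIdeal ∧ (p : 𝓞 K₂) ∈ w.asIdeal) ∧
        (Ideal.absNorm w.asIdeal = Ideal.absNorm v.asIdeal →
          ∀ x : K₂, w.valuation K₂ x = 1 → ∃ z : K₁, v.valuation K₁ (κ x * z ^ l) = 1 ∧
            ∃ e : ℕ,
              v.valuation K₁ ((κ x * z ^ l) ^ ((Ideal.absNorm v.asIdeal - 1) / l) - ζ₁ ^ e) < 1 ∧
              w.valuation K₂ (x ^ ((Ideal.absNorm v.asIdeal - 1) / l) - ζ₂ ^ e) < 1)) :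
    ∃ (i' : K₂ →+* Z) (c c' m : ℕ), c + c' = l * m ∧ s ζ₁ = (i' ζ₂) ^ c ∧
      FinClasses l (fun x : {x : K₂ // x ≠ 0} => s (κ x) * i' x ^ c') := by
  classical
  have hnz : NeZero l := ⟨hl.ne_zero⟩
  -- exponents
  have hζσ : ∀ σ : Z ≃ₐ[ℚ] Z, IsPrimitiveRoot ((σ : Z →+* Z).comp i ζ₂) l := fun σ =>
    hζ₂.map_of_injective ((σ : Z →+* Z).comp i).injective
  have hc : ∀ σ : Z ≃ₐ[ℚ] Z, ∃ c : ℕ, c < l ∧ ((σ : Z →+* Z).comp i ζ₂) ^ c = s ζ₁ := by
    intro σ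
    have h1 : (s ζ₁) ^ l = 1 := by
      rw [← map_pow, hζ₁.pow_eq_one, map_one]
    exact (hζσ σ).eq_pow_of_pow_eq_one h1
  choose c hcl hc using hc
  by_contra hcon
  push Not at hcon
  have hcc : ∀ σ : Z ≃ₐ[ℚ] Z, c σ + (l - c σ) = l * 1 := by
    intro σ
    have := hcl σ
    omega
  have hfin : ∀ σ : Z ≃ₐ[ℚ] Z, ¬ FinClasses l
      (fun x : {x : K₂ // x ≠ 0} => s (κ x) * (σ : Z →+* Z).comp i x ^ (l - c σ)) := by
    intro σ
    exact hcon ((σ : Z →+* Z).comp i) (c σ) (l - c σ) 1 (hcc σ) (hc σ).symm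
  have hne : ∀ (σ : Z ≃ₐ[ℚ] Z) (x : {x : K₂ // x ≠ 0}),
      s (κ x) * (σ : Z →+* Z).comp i x ^ (l - c σ) ≠ 0 := by
    intro σ x
    refine mul_ne_zero ?_ (pow_ne_zero _ ?_)
    · rw [Ne, map_eq_zero]; exact hκ0 _ x.2
    · rw [Ne, map_eq_zero]; exact x.2
  let d := Fintype.card (Z ≃ₐ[ℚ] Z)
  have hd : Fintype.card (Z ≃ₐ[ℚ] Z) < l ^ d := Nat.lt_pow_self hl.one_lt
  have hind := fun σ : Z ≃ₐ[ℚ] Z => exists_indep hl _ (hne σ) (hfin σ) d
  choose X hX using hind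
  -- finite set of primes to avoid
  have hS1 : (⋃ w ∈ S, {P : HeightOneSpectrum (𝓞 Z) |
      P.valuation Z ((Ideal.absNorm w.asIdeal : ℕ) : Z) ≠ 1}).Finite := by
    apply Set.Finite.biUnion (Finset.finite_toSet S)
    intro w _
    apply finite_valuation_ne_one
    rw [Ne, Nat.cast_eq_zero, Ideal.absNorm_eq_zero_iff]
    exact w.ne_bot
  have hS2 : (⋃ σ : Z ≃ₐ[ℚ] Z, ⋃ j : Fin d, {P : HeightOneSpectrum (𝓞 Z) |
      P.valuation Z (s (κ (X σ j)) * (σ : Z →+* Z).comp i (X σ j) ^ (l - c σ)) ≠ 1}).Finite := by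
    apply Set.finite_iUnion
    intro σ
    apply Set.finite_iUnion
    intro j
    exact finite_valuation_ne_one (hne σ (X σ j))
  have hS3 : (⋃ σ : Z ≃ₐ[ℚ] Z, ⋃ j : Fin d, {P : HeightOneSpectrum (𝓞 Z) |
      P.valuation Z ((σ : Z →+* Z).comp i (X σ j)) ≠ 1}).Finite := by
    apply Set.finite_iUnion
    intro σ
    apply Set.finite_iUnion
    intro j
    apply finite_valuation_ne_one
    rw [Ne, map_eq_zero]
    exact (X σ j).2
  have hS4 : {P : HeightOneSpectrum (𝓞 Z) | P.valuation Z ((l : ℕ) : Z) ≠ 1}.Finite := by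
    apply finite_valuation_ne_one
    rw [Ne, Nat.cast_eq_zero]
    exact hl.ne_zero
  have hζs : IsPrimitiveRoot (s ζ₁) l := hζ₁.map_of_injective s.injective
  obtain ⟨P, hPS, hP, hPA⟩ := exists_prime_avoiding Z hl hζs d
    (fun (σ : Z ≃ₐ[ℚ] Z) j => s (κ (X σ j)) * (σ : Z →+* Z).comp i (X σ j) ^ (l - c σ))
    (fun σ j => hne σ (X σ j)) hX hd (((hS1.union hS2).union hS3).union hS4).toFinset
  rw [Set.Finite.mem_toFinset, Set.mem_union, Set.mem_union, Set.mem_union, not_or, not_or,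
    not_or] at hPS
  obtain ⟨⟨⟨hP1, hP2⟩, hP3⟩, hP4⟩ := hPS
  have hP2' : ∀ (σ : Z ≃ₐ[ℚ] Z) (j : Fin d), P.valuation Z
      (s (κ (X σ j)) * (σ : Z →+* Z).comp i (X σ j) ^ (l - c σ)) = 1 := by
    intro σ j
    by_contra h
    apply hP2
    simp only [Set.mem_iUnion]
    exact ⟨σ, j, h⟩
  have hP3' : ∀ (σ : Z ≃ₐ[ℚ] Z) (j : Fin d),
      P.valuation Z ((σ : Z →+* Z).comp i (X σ j)) = 1 := by
    intro σ j
    by_contra h
    apply hP3
    simp only [Set.mem_iUnion]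
    exact ⟨σ, j, h⟩
  have hP4' : P.valuation Z ((l : ℕ) : Z) = 1 := by
    by_contra h
    exact hP4 h
  set p := Ideal.absNorm P.asIdeal with hp
  have hpP : (p : 𝓞 Z) ∈ P.asIdeal := Ideal.absNorm_mem P.asIdeal
  -- the prime below in `K₁`
  let v := pullPrime s P
  have hvN : Ideal.absNorm v.asIdeal = p := absNorm_pull s P hP
  have hvS : v ∉ S := by
    intro hvS
    apply hP1
    simp only [Set.mem_iUnion]
    refine ⟨v, hvS, ?_⟩
    show P.valuation Z ((Ideal.absNorm v.asIdeal : ℕ) : Z) ≠ 1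
    rw [hvN]
    have : P.valuation Z (algebraMap (𝓞 Z) Z (p : 𝓞 Z)) < 1 :=
      (P.valuation_lt_one_iff_mem _).2 hpP
    rw [map_natCast] at this
    exact this.ne
  obtain ⟨w, ⟨q, hq, hqv, hqw⟩, hsymw⟩ := hsym v hvS (by rw [hvN]; exact hP)
  have hpv : (p : 𝓞 K₁) ∈ v.asIdeal := by
    rw [← hvN]; exact Ideal.absNorm_mem v.asIdeal
  have hqp : q = p := eq_of_mem_of_mem v hq hP hqv hpv
  rw [hqp] at hqw
  -- find the embedding of `K₂`
  obtain ⟨Q, hQ⟩ := exists_pull_eq i w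
  have hpQ : (p : 𝓞 Z) ∈ Q.asIdeal := by
    rw [← hQ, mem_pullPrime, map_natCast] at hqw
    exact hqw
  obtain ⟨σ, hσ⟩ := exists_gal_pull P Q hP hpP hpQ
  have hpull : pullPrime ((σ : Z →+* Z).comp i) P = w := by
    rw [pullPrime_comp, ← hQ]
    congr 1
  have hwN : Ideal.absNorm w.asIdeal = p := by
    rw [← hpull]; exact absNorm_pull _ P hP
  -- `l` divides `p - 1`
  have hlp : l ∣ p - 1 := by
    refine dvd_absNorm_sub_one hl hζs P ?_
    rw [← P.valuation_eq_one_iff_notMem (K := Z), map_natCast]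
    exact hP4'
  apply hPA σ
  intro j
  have hwx : w.valuation K₂ (X σ j : K₂) = 1 := by
    rw [← hpull]
    exact valuation_eq_one_of_pull _ P (hP3' σ j)
  obtain ⟨z, hz, e, he1, he2⟩ := hsymw (by rw [hvN, hwN]) _ hwx
  rw [hvN] at he1 he2
  rw [← hpull] at he2
  have h1 := valuation_pull_eq_one s P hz
  have h2 := valuation_pull_lt_one s P he1
  have h3 := valuation_pull_lt_one _ P he2
  rw [map_sub, map_pow, map_pow] at h2 h3
  rw [← hc σ] at h2
  have h4 := isPowMod_of_symbols P hP hlp (hζσ σ).pow_eq_one hl.ne_zero (c σ) (l - c σ) 1 (hcc σ)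
    _ _ h1 (hP3' σ j) e h2 h3
  rw [map_mul, map_pow] at h4 h1
  have h5 : s (κ (X σ j)) * s z ^ l * (σ : Z →+* Z).comp i (X σ j) ^ (l - c σ) =
      s (κ (X σ j)) * (σ : Z →+* Z).comp i (X σ j) ^ (l - c σ) * (s z) ^ l := by ring
  rw [h5] at h4
  refine isPowMod_mul_pow P hl.ne_zero (hP2' σ j) ?_ h4
  rw [← h5, map_mul, h1, map_pow, hP3', one_pow, one_mul]

/-- the second half of the global step -/
theorem embedding_of_finClasses {K₁ K₂ : Type*} [Field K₁] [NumberField K₁] [Field K₂]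
    [NumberField K₂] {Z : Type} [Field Z] [NumberField Z] [IsGalois ℚ Z] (s : K₁ →+* Z)
    (i : K₂ →+* Z)
    {l : ℕ} (hl : l.Prime) {ζ₁ : K₁} (hζ₁ : IsPrimitiveRoot ζ₁ l) {ζ₂ : K₂}
    (hζ₂ : IsPrimitiveRoot ζ₂ l) (κ : K₂ → K₁) (hκ0 : ∀ x, x ≠ 0 → κ x ≠ 0)
    (c c' m : ℕ) (hcc : c + c' = l * m) (hc : s ζ₁ = (i ζ₂) ^ c)
    (hfin : FinClasses l (fun x : {x : K₂ // x ≠ 0} => s (κ x) * i x ^ c')) :
    ∃ (j : K₂ →+* K₁) (T : Finset K₁), ¬ l ∣ c ∧ (∀ x, s (j x) = i x) ∧ ∀ x : K₂, x ≠ 0 →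
      ∃ t ∈ T, t ≠ 0 ∧ ∃ z : K₁, z ≠ 0 ∧ κ x = j x ^ c * t * z ^ l := by
  classical
  have hζs : IsPrimitiveRoot (s ζ₁) l := hζ₁.map_of_injective s.injective
  have hlc : ¬ l ∣ c := by
    rintro ⟨k, hk⟩
    have h1 : s ζ₁ = 1 := by
      rw [hc, hk, pow_mul, ← map_pow, hζ₂.pow_eq_one, map_one, one_pow]
    rw [h1] at hζs
    have := hζs.unique IsPrimitiveRoot.one
    exact hl.one_lt.ne' this
  have hlc' : ¬ l ∣ c' := by
    intro h
    apply hlc
    have h1 : l ∣ c + c' := hcc ▸ dvd_mul_right l m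
    exact (Nat.dvd_add_iff_left h).2 h1
  let _ : Algebra K₁ Z := s.toAlgebra
  have hs : ∀ x, algebraMap K₁ Z x = s x := fun _ => rfl
  have hfd : FiniteDimensional K₁ Z := inferInstance
  have : IsScalarTower ℚ K₁ Z := inferInstance
  have hgal : IsGalois K₁ Z := IsGalois.tower_top_of_isGalois ℚ K₁ Z
  obtain ⟨T, hT0, hT⟩ := hfin
  -- `i` is invariant under the Galois group of `Z` over `K₁`
  have hinv : ∀ (h : Z ≃ₐ[K₁] Z) (x : K₂), h (i x) = i x := by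
    intro h
    have key : (h : Z →+* Z).comp i = i := by
      refine eq_of_forall_pow_gen (l := l) ((h : Z →+* Z).comp i) i (T.image fun t => h t / t) ?_
      intro a ha
      obtain ⟨t, ht, z, hz0, hz⟩ := hT ⟨a, ha⟩
      simp only at hz
      have ht0 := hT0 t ht
      have hht0 : h t ≠ 0 := by rw [Ne, EmbeddingLike.map_eq_zero_iff]; exact ht0
      refine ⟨c', c', hlc', h t / t, Finset.mem_image_of_mem _ ht, div_ne_zero hht0 ht0,
        h z / z, ?_⟩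
      have h1 := congrArg h hz
      rw [map_mul, map_mul, map_pow, map_pow, ← hs, AlgEquiv.commutes, hs] at h1
      have hsκ : s (κ a) ≠ 0 := by rw [Ne, map_eq_zero]; exact hκ0 a ha
      show (h (i a)) ^ c' = i a ^ c' * (h t / t) * (h z / z) ^ l
      rw [div_pow]
      have hzl := pow_ne_zero l hz0
      apply mul_left_cancel₀ hsκ
      rw [h1]
      have : s (κ a) * (i a ^ c' * (h t / t) * (h z ^ l / z ^ l)) =
          (s (κ a) * i a ^ c') * ((h t / t) * (h z ^ l / z ^ l)) := by ring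
      rw [this, hz]
      field_simp
    intro x
    exact congrArg (fun f : K₂ →+* Z => f x) key
  have hrange : ∀ x : K₂, i x ∈ s.fieldRange := by
    intro x
    obtain ⟨r, hr⟩ := (IsGalois.mem_range_algebraMap_iff_fixed (F := K₁) (i x)).2
      (fun h => hinv h x)
    exact ⟨r, hr⟩
  let j : K₂ →+* K₁ := (s.rangeRestrictFieldEquiv.symm : s.fieldRange →+* K₁).comp
    (i.codRestrict s.fieldRange hrange)
  have hj : ∀ x, s (j x) = i x := by
    intro x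
    exact s.rangeRestrictFieldEquiv_apply_symm_apply (i.codRestrict s.fieldRange hrange x)
  have hfin2 : FinClasses l (fun x : {x : K₂ // x ≠ 0} => κ x * j x ^ c') := by
    refine finClasses_descend (Z := Z) hl.ne_zero _ ?_ ⟨T, hT0, ?_⟩
    · intro x
      refine mul_ne_zero (hκ0 _ x.2) (pow_ne_zero _ ?_)
      rw [Ne, map_eq_zero]; exact x.2
    · intro x
      obtain ⟨t, ht, z, hz0, hz⟩ := hT x
      refine ⟨t, ht, z, hz0, ?_⟩
      simp only at hz ⊢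
      rw [hs, map_mul, map_pow, hj]
      exact hz
  obtain ⟨T₁, hT₁0, hT₁⟩ := hfin2
  refine ⟨j, T₁, hlc, hj, fun x hx => ?_⟩
  obtain ⟨t, ht, z, hz0, hz⟩ := hT₁ ⟨x, hx⟩
  simp only at hz
  have hjx : j x ≠ 0 := by rw [Ne, map_eq_zero]; exact hx
  refine ⟨t, ht, hT₁0 t ht, z / j x ^ m, div_ne_zero hz0 (pow_ne_zero _ hjx), ?_⟩
  rw [div_pow, ← pow_mul, mul_comm m l, ← hcc, pow_add]
  have e1 : j x ^ c ≠ 0 := pow_ne_zero _ hjx
  have e2 : j x ^ c' ≠ 0 := pow_ne_zero _ hjx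
  field_simp
  rw [hz]

theorem global_step_rev {K₁ K₂ : Type*} [Field K₁] [NumberField K₁] [Field K₂] [NumberField K₂]
    {l : ℕ} (hl : l.Prime) {ζ₁ : K₁} (hζ₁ : IsPrimitiveRoot ζ₁ l) {ζ₂ : K₂}
    (hζ₂ : IsPrimitiveRoot ζ₂ l) (κ : K₂ → K₁) (hκ0 : ∀ x, x ≠ 0 → κ x ≠ 0)
    (S : Finset (HeightOneSpectrum (𝓞 K₁)))
    (hsym : ∀ v : HeightOneSpectrum (𝓞 K₁), v ∉ S → (Ideal.absNorm v.asIdeal).Prime →
      ∃ w : HeightOneSpectrum (𝓞 K₂),
        (∃ p : ℕ, p.Prime ∧ (p : 𝓞 K₁) ∈ v.asIdeal ∧ (p : 𝓞 K₂) ∈ w.asIdeal) ∧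
        (Ideal.absNorm w.asIdeal = Ideal.absNorm v.asIdeal →
          ∀ x : K₂, w.valuation K₂ x = 1 → ∃ z : K₁, v.valuation K₁ (κ x * z ^ l) = 1 ∧
            ∃ e : ℕ,
              v.valuation K₁ ((κ x * z ^ l) ^ ((Ideal.absNorm v.asIdeal - 1) / l) - ζ₁ ^ e) < 1 ∧
              w.valuation K₂ (x ^ ((Ideal.absNorm v.asIdeal - 1) / l) - ζ₂ ^ e) < 1)) :
    ∃ (j : K₂ →+* K₁) (c : ℕ) (T : Finset K₁), ¬ l ∣ c ∧ ∀ x : K₂, x ≠ 0 →
      ∃ t ∈ T, t ≠ 0 ∧ ∃ z : K₁, z ≠ 0 ∧ κ x = j x ^ c * t * z ^ l := by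
  obtain ⟨Z, _, _, hZ, ⟨s⟩, ⟨i⟩⟩ := exists_common_galois K₁ K₂
  obtain ⟨i', c, c', m, hcc, hc, hfin⟩ := exists_good_embedding_rev s i hl hζ₁ hζ₂ κ hκ0 S hsym
  obtain ⟨j, T, hlc, -, hT⟩ := embedding_of_finClasses s i' hl hζ₁ hζ₂ κ hκ0 c c' m hcc hc hfin
  exact ⟨j, c, T, hlc, hT⟩

end Vale.Agent.P024
end
end

section

section

/-!
The global step, for a set of primes of positive upper density among the primes splitting
completely in any given number field.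
-/

namespace Vale.Agent.P024

open scoped NumberField ENNReal Topology
open IsDedekindDomain NumberField Filter

/-- The primes of `Z` whose norm is a prime number in `Q` have positive upper Dirichlet density. -/
def MeetsPrimes (Z : Type) [Field Z] [NumberField Z] (Q : Set ℕ) : Prop :=
  ∃ δ : ℝ, 0 < δ ∧ ∃ᶠ s : ℝ in 𝓝[>] 1, ENNReal.ofReal (δ * Real.log (1 / (s - 1))) ≤
    ∑' p : {p : HeightOneSpectrum (𝓞 Z) |
      (Ideal.absNorm p.asIdeal).Prime ∧ Ideal.absNorm p.asIdeal ∈ Q},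
      ENNReal.ofReal (nm Z p.1 s)

/-- For every number field `Z` which is Galois over the rationals, the primes of `Z` whose norm is
a prime number in `Q` have positive upper Dirichlet density. -/
def MeetsSplit (Q : Set ℕ) : Prop :=
  ∀ (Z : Type) [Field Z] [NumberField Z] [IsGalois ℚ Z], MeetsPrimes Z Q

theorem exists_lt_mul_pow {l : ℕ} (hl : l.Prime) {δ : ℝ} (hδ : 0 < δ) (c : ℝ) :
    ∃ d : ℕ, c < δ * (l : ℝ) ^ d := by
  obtain ⟨d, hd⟩ := pow_unbounded_of_one_lt (c / δ) (y := (l : ℝ)) (by exact_mod_cast hl.one_lt)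
  refine ⟨d, ?_⟩
  rw [div_lt_iff₀ hδ] at hd
  linarith

/-- the existence of a good embedding -/
theorem exists_good_embedding_dens {K₁ K₂ : Type*} [Field K₁] [NumberField K₁] [Field K₂]
    [NumberField K₂] {Z : Type} [Field Z] [NumberField Z] [IsGalois ℚ Z] (ι₁ : K₁ →+* Z)
    (i : K₂ →+* Z)
    {l : ℕ} (hl : l.Prime) {ζ₁ : K₁} (hζ₁ : IsPrimitiveRoot ζ₁ l) {ζ₂ : K₂}
    (hζ₂ : IsPrimitiveRoot ζ₂ l) (κ : K₂ → K₁) (hκ0 : ∀ x, x ≠ 0 → κ x ≠ 0)
    (Q : Set ℕ) (hQ : MeetsPrimes Z Q)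
    (S : Finset (HeightOneSpectrum (𝓞 K₂)))
    (hsym : ∀ w : HeightOneSpectrum (𝓞 K₂), w ∉ S → (Ideal.absNorm w.asIdeal).Prime →
      Ideal.absNorm w.asIdeal ∈ Q → ∃ v : HeightOneSpectrum (𝓞 K₁),
        (∃ p : ℕ, p.Prime ∧ (p : 𝓞 K₁) ∈ v.asIdeal ∧ (p : 𝓞 K₂) ∈ w.asIdeal) ∧
        (Ideal.absNorm v.asIdeal = Ideal.absNorm w.asIdeal →
          ∀ x : K₂, w.valuation K₂ x = 1 → ∃ z : K₁, v.valuation K₁ (κ x * z ^ l) = 1 ∧
            ∃ e : ℕ,
              v.valuation K₁ ((κ x * z ^ l) ^ ((Ideal.absNorm w.asIdeal - 1) / l) - ζ₁ ^ e) < 1 ∧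
              w.valuation K₂ (x ^ ((Ideal.absNorm w.asIdeal - 1) / l) - ζ₂ ^ e) < 1)) :
    ∃ (s : K₁ →+* Z) (c c' m : ℕ), c + c' = l * m ∧ s ζ₁ = (i ζ₂) ^ c ∧
      FinClasses l (fun x : {x : K₂ // x ≠ 0} => s (κ x) * i x ^ c') := by
  classical
  have hnz : NeZero l := ⟨hl.ne_zero⟩
  have hζ : IsPrimitiveRoot (i ζ₂) l := hζ₂.map_of_injective i.injective
  -- exponents
  have hc : ∀ σ : Z ≃ₐ[ℚ] Z, ∃ c : ℕ, c < l ∧ (i ζ₂) ^ c = σ (ι₁ ζ₁) := by
    intro σ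
    have h1 : (σ (ι₁ ζ₁)) ^ l = 1 := by
      rw [← map_pow, ← map_pow, hζ₁.pow_eq_one, map_one, map_one]
    exact hζ.eq_pow_of_pow_eq_one h1
  choose c hcl hc using hc
  by_contra hcon
  push Not at hcon
  have hcc : ∀ σ : Z ≃ₐ[ℚ] Z, c σ + (l - c σ) = l * 1 := by
    intro σ
    have := hcl σ
    omega
  have hfin : ∀ σ : Z ≃ₐ[ℚ] Z, ¬ FinClasses l
      (fun x : {x : K₂ // x ≠ 0} => (σ : Z →+* Z).comp ι₁ (κ x) * i x ^ (l - c σ)) := by
    intro σ
    exact hcon ((σ : Z →+* Z).comp ι₁) (c σ) (l - c σ) 1 (hcc σ) (hc σ).symm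
  have hne : ∀ (σ : Z ≃ₐ[ℚ] Z) (x : {x : K₂ // x ≠ 0}),
      (σ : Z →+* Z).comp ι₁ (κ x) * i x ^ (l - c σ) ≠ 0 := by
    intro σ x
    refine mul_ne_zero ?_ (pow_ne_zero _ ?_)
    · rw [Ne, map_eq_zero]; exact hκ0 _ x.2
    · rw [Ne, map_eq_zero]; exact x.2
  obtain ⟨δ, hδ, hG⟩ := hQ
  obtain ⟨d, hd⟩ : ∃ d : ℕ, (Fintype.card (Z ≃ₐ[ℚ] Z) : ℝ) < δ * (l : ℝ) ^ d :=
    exists_lt_mul_pow hl hδ _
  have hind := fun σ : Z ≃ₐ[ℚ] Z => exists_indep hl _ (hne σ) (hfin σ) d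
  choose X hX using hind
  -- finite set of primes to avoid
  have hS1 : (⋃ w ∈ S, {P : HeightOneSpectrum (𝓞 Z) |
      P.valuation Z ((Ideal.absNorm w.asIdeal : ℕ) : Z) ≠ 1}).Finite := by
    apply Set.Finite.biUnion (Finset.finite_toSet S)
    intro w _
    apply finite_valuation_ne_one
    rw [Ne, Nat.cast_eq_zero, Ideal.absNorm_eq_zero_iff]
    exact w.ne_bot
  have hS2 : (⋃ σ : Z ≃ₐ[ℚ] Z, ⋃ j : Fin d, {P : HeightOneSpectrum (𝓞 Z) |
      P.valuation Z ((σ : Z →+* Z).comp ι₁ (κ (X σ j)) * i (X σ j) ^ (l - c σ)) ≠ 1}).Finite := by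
    apply Set.finite_iUnion
    intro σ
    apply Set.finite_iUnion
    intro j
    exact finite_valuation_ne_one (hne σ (X σ j))
  have hS3 : (⋃ σ : Z ≃ₐ[ℚ] Z, ⋃ j : Fin d, {P : HeightOneSpectrum (𝓞 Z) |
      P.valuation Z (i (X σ j)) ≠ 1}).Finite := by
    apply Set.finite_iUnion
    intro σ
    apply Set.finite_iUnion
    intro j
    apply finite_valuation_ne_one
    rw [Ne, map_eq_zero]
    exact (X σ j).2
  have hS4 : {P : HeightOneSpectrum (𝓞 Z) | P.valuation Z ((l : ℕ) : Z) ≠ 1}.Finite := by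
    apply finite_valuation_ne_one
    rw [Ne, Nat.cast_eq_zero]
    exact hl.ne_zero
  obtain ⟨P, ⟨hP, hPQ⟩, hPS, hPA⟩ := exists_prime_avoiding_dens Z hl hζ d
    (fun (σ : Z ≃ₐ[ℚ] Z) j => (σ : Z →+* Z).comp ι₁ (κ (X σ j)) * i (X σ j) ^ (l - c σ))
    (fun σ j => hne σ (X σ j)) hX _ δ hG hd (((hS1.union hS2).union hS3).union hS4).toFinset
  rw [Set.Finite.mem_toFinset, Set.mem_union, Set.mem_union, Set.mem_union, not_or, not_or,
    not_or] at hPS
  obtain ⟨⟨⟨hP1, hP2⟩, hP3⟩, hP4⟩ := hPS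
  have hP2' : ∀ (σ : Z ≃ₐ[ℚ] Z) (j : Fin d), P.valuation Z
      ((σ : Z →+* Z).comp ι₁ (κ (X σ j)) * i (X σ j) ^ (l - c σ)) = 1 := by
    intro σ j
    by_contra h
    apply hP2
    simp only [Set.mem_iUnion]
    exact ⟨σ, j, h⟩
  have hP3' : ∀ (σ : Z ≃ₐ[ℚ] Z) (j : Fin d), P.valuation Z (i (X σ j)) = 1 := by
    intro σ j
    by_contra h
    apply hP3
    simp only [Set.mem_iUnion]
    exact ⟨σ, j, h⟩
  have hP4' : P.valuation Z ((l : ℕ) : Z) = 1 := by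
    by_contra h
    exact hP4 h
  set p := Ideal.absNorm P.asIdeal with hp
  have hpP : (p : 𝓞 Z) ∈ P.asIdeal := Ideal.absNorm_mem P.asIdeal
  -- the prime below in `K₂`
  let w := pullPrime i P
  have hwN : Ideal.absNorm w.asIdeal = p := absNorm_pull i P hP
  have hwS : w ∉ S := by
    intro hwS
    apply hP1
    simp only [Set.mem_iUnion]
    refine ⟨w, hwS, ?_⟩
    show P.valuation Z ((Ideal.absNorm w.asIdeal : ℕ) : Z) ≠ 1
    rw [hwN]
    have : P.valuation Z (algebraMap (𝓞 Z) Z (p : 𝓞 Z)) < 1 :=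
      (P.valuation_lt_one_iff_mem _).2 hpP
    rw [map_natCast] at this
    exact this.ne
  obtain ⟨v, ⟨q, hq, hqv, hqw⟩, hsymv⟩ := hsym w hwS (by rw [hwN]; exact hP)
    (by rw [hwN]; exact hPQ)
  have hpw : (p : 𝓞 K₂) ∈ w.asIdeal := by
    rw [← hwN]; exact Ideal.absNorm_mem w.asIdeal
  have hqp : q = p := eq_of_mem_of_mem w hq hP hqw hpw
  rw [hqp] at hqv
  -- find the embedding of `K₁`
  obtain ⟨Q, hQ⟩ := exists_pull_eq ι₁ v
  have hpQ : (p : 𝓞 Z) ∈ Q.asIdeal := by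
    rw [← hQ, mem_pullPrime, map_natCast] at hqv
    exact hqv
  obtain ⟨σ, hσ⟩ := exists_gal_pull P Q hP hpP hpQ
  have hpull : pullPrime ((σ : Z →+* Z).comp ι₁) P = v := by
    rw [pullPrime_comp, ← hQ]
    congr 1
  have hvN : Ideal.absNorm v.asIdeal = p := by
    rw [← hpull]; exact absNorm_pull _ P hP
  -- `l` divides `p - 1`
  have hlp : l ∣ p - 1 := by
    refine dvd_absNorm_sub_one hl hζ P ?_
    rw [← P.valuation_eq_one_iff_notMem (K := Z), map_natCast]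
    exact hP4'
  apply hPA σ
  intro j
  have hwx : w.valuation K₂ (X σ j : K₂) = 1 := valuation_eq_one_of_pull i P (hP3' σ j)
  obtain ⟨z, hz, e, he1, he2⟩ := hsymv (by rw [hvN, hwN]) _ hwx
  rw [hwN] at he1 he2
  rw [← hpull] at hz he1
  have h1 := valuation_pull_eq_one _ P hz
  have h2 := valuation_pull_lt_one _ P he1
  have h3 := valuation_pull_lt_one _ P he2
  rw [map_sub, map_pow, map_pow] at h2 h3
  have hσζ : (σ : Z →+* Z).comp ι₁ ζ₁ = (i ζ₂) ^ c σ := (hc σ).symm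
  rw [hσζ] at h2
  have h4 := isPowMod_of_symbols P hP hlp hζ.pow_eq_one hl.ne_zero (c σ) (l - c σ) 1 (hcc σ)
    _ _ h1 (hP3' σ j) e h2 h3
  rw [map_mul, map_pow] at h4 h1
  have h5 : (σ : Z →+* Z).comp ι₁ (κ (X σ j)) * (σ : Z →+* Z).comp ι₁ z ^ l *
      i (X σ j) ^ (l - c σ) = (σ : Z →+* Z).comp ι₁ (κ (X σ j)) * i (X σ j) ^ (l - c σ) *
      ((σ : Z →+* Z).comp ι₁ z) ^ l := by ring
  rw [h5] at h4
  refine isPowMod_mul_pow P hl.ne_zero (hP2' σ j) ?_ h4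
  rw [← h5, map_mul, h1, map_pow, hP3', one_pow, one_mul]

/-- the existence of a good embedding, from the side of `K₁`. -/
theorem exists_good_embedding_rev_dens {K₁ K₂ : Type*} [Field K₁] [NumberField K₁] [Field K₂]
    [NumberField K₂] {Z : Type} [Field Z] [NumberField Z] [IsGalois ℚ Z] (s : K₁ →+* Z)
    (i : K₂ →+* Z)
    {l : ℕ} (hl : l.Prime) {ζ₁ : K₁} (hζ₁ : IsPrimitiveRoot ζ₁ l) {ζ₂ : K₂}
    (hζ₂ : IsPrimitiveRoot ζ₂ l) (κ : K₂ → K₁) (hκ0 : ∀ x, x ≠ 0 → κ x ≠ 0)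
    (Q : Set ℕ) (hQ : MeetsPrimes Z Q)
    (S : Finset (HeightOneSpectrum (𝓞 K₁)))
    (hsym : ∀ v : HeightOneSpectrum (𝓞 K₁), v ∉ S → (Ideal.absNorm v.asIdeal).Prime →
      Ideal.absNorm v.asIdeal ∈ Q → ∃ w : HeightOneSpectrum (𝓞 K₂),
        (∃ p : ℕ, p.Prime ∧ (p : 𝓞 K₁) ∈ v.asIdeal ∧ (p : 𝓞 K₂) ∈ w.asIdeal) ∧
        (Ideal.absNorm w.asIdeal = Ideal.absNorm v.asIdeal →
          ∀ x : K₂, w.valuation K₂ x = 1 → ∃ z : K₁, v.valuation K₁ (κ x * z ^ l) = 1 ∧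
            ∃ e : ℕ,
              v.valuation K₁ ((κ x * z ^ l) ^ ((Ideal.absNorm v.asIdeal - 1) / l) - ζ₁ ^ e) < 1 ∧
              w.valuation K₂ (x ^ ((Ideal.absNorm v.asIdeal - 1) / l) - ζ₂ ^ e) < 1)) :
    ∃ (i' : K₂ →+* Z) (c c' m : ℕ), c + c' = l * m ∧ s ζ₁ = (i' ζ₂) ^ c ∧
      FinClasses l (fun x : {x : K₂ // x ≠ 0} => s (κ x) * i' x ^ c') := by
  classical
  have hnz : NeZero l := ⟨hl.ne_zero⟩
  -- exponents
  have hζσ : ∀ σ : Z ≃ₐ[ℚ] Z, IsPrimitiveRoot ((σ : Z →+* Z).comp i ζ₂) l := fun σ =>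
    hζ₂.map_of_injective ((σ : Z →+* Z).comp i).injective
  have hc : ∀ σ : Z ≃ₐ[ℚ] Z, ∃ c : ℕ, c < l ∧ ((σ : Z →+* Z).comp i ζ₂) ^ c = s ζ₁ := by
    intro σ
    have h1 : (s ζ₁) ^ l = 1 := by
      rw [← map_pow, hζ₁.pow_eq_one, map_one]
    exact (hζσ σ).eq_pow_of_pow_eq_one h1
  choose c hcl hc using hc
  by_contra hcon
  push Not at hcon
  have hcc : ∀ σ : Z ≃ₐ[ℚ] Z, c σ + (l - c σ) = l * 1 := by
    intro σ
    have := hcl σ
    omega
  have hfin : ∀ σ : Z ≃ₐ[ℚ] Z, ¬ FinClasses l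
      (fun x : {x : K₂ // x ≠ 0} => s (κ x) * (σ : Z →+* Z).comp i x ^ (l - c σ)) := by
    intro σ
    exact hcon ((σ : Z →+* Z).comp i) (c σ) (l - c σ) 1 (hcc σ) (hc σ).symm
  have hne : ∀ (σ : Z ≃ₐ[ℚ] Z) (x : {x : K₂ // x ≠ 0}),
      s (κ x) * (σ : Z →+* Z).comp i x ^ (l - c σ) ≠ 0 := by
    intro σ x
    refine mul_ne_zero ?_ (pow_ne_zero _ ?_)
    · rw [Ne, map_eq_zero]; exact hκ0 _ x.2
    · rw [Ne, map_eq_zero]; exact x.2
  obtain ⟨δ, hδ, hG⟩ := hQ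
  obtain ⟨d, hd⟩ : ∃ d : ℕ, (Fintype.card (Z ≃ₐ[ℚ] Z) : ℝ) < δ * (l : ℝ) ^ d :=
    exists_lt_mul_pow hl hδ _
  have hind := fun σ : Z ≃ₐ[ℚ] Z => exists_indep hl _ (hne σ) (hfin σ) d
  choose X hX using hind
  -- finite set of primes to avoid
  have hS1 : (⋃ w ∈ S, {P : HeightOneSpectrum (𝓞 Z) |
      P.valuation Z ((Ideal.absNorm w.asIdeal : ℕ) : Z) ≠ 1}).Finite := by
    apply Set.Finite.biUnion (Finset.finite_toSet S)
    intro w _
    apply finite_valuation_ne_one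
    rw [Ne, Nat.cast_eq_zero, Ideal.absNorm_eq_zero_iff]
    exact w.ne_bot
  have hS2 : (⋃ σ : Z ≃ₐ[ℚ] Z, ⋃ j : Fin d, {P : HeightOneSpectrum (𝓞 Z) |
      P.valuation Z (s (κ (X σ j)) * (σ : Z →+* Z).comp i (X σ j) ^ (l - c σ)) ≠ 1}).Finite := by
    apply Set.finite_iUnion
    intro σ
    apply Set.finite_iUnion
    intro j
    exact finite_valuation_ne_one (hne σ (X σ j))
  have hS3 : (⋃ σ : Z ≃ₐ[ℚ] Z, ⋃ j : Fin d, {P : HeightOneSpectrum (𝓞 Z) |
      P.valuation Z ((σ : Z →+* Z).comp i (X σ j)) ≠ 1}).Finite := by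
    apply Set.finite_iUnion
    intro σ
    apply Set.finite_iUnion
    intro j
    apply finite_valuation_ne_one
    rw [Ne, map_eq_zero]
    exact (X σ j).2
  have hS4 : {P : HeightOneSpectrum (𝓞 Z) | P.valuation Z ((l : ℕ) : Z) ≠ 1}.Finite := by
    apply finite_valuation_ne_one
    rw [Ne, Nat.cast_eq_zero]
    exact hl.ne_zero
  have hζs : IsPrimitiveRoot (s ζ₁) l := hζ₁.map_of_injective s.injective
  obtain ⟨P, ⟨hP, hPQ⟩, hPS, hPA⟩ := exists_prime_avoiding_dens Z hl hζs d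
    (fun (σ : Z ≃ₐ[ℚ] Z) j => s (κ (X σ j)) * (σ : Z →+* Z).comp i (X σ j) ^ (l - c σ))
    (fun σ j => hne σ (X σ j)) hX _ δ hG hd (((hS1.union hS2).union hS3).union hS4).toFinset
  rw [Set.Finite.mem_toFinset, Set.mem_union, Set.mem_union, Set.mem_union, not_or, not_or,
    not_or] at hPS
  obtain ⟨⟨⟨hP1, hP2⟩, hP3⟩, hP4⟩ := hPS
  have hP2' : ∀ (σ : Z ≃ₐ[ℚ] Z) (j : Fin d), P.valuation Z
      (s (κ (X σ j)) * (σ : Z →+* Z).comp i (X σ j) ^ (l - c σ)) = 1 := by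
    intro σ j
    by_contra h
    apply hP2
    simp only [Set.mem_iUnion]
    exact ⟨σ, j, h⟩
  have hP3' : ∀ (σ : Z ≃ₐ[ℚ] Z) (j : Fin d),
      P.valuation Z ((σ : Z →+* Z).comp i (X σ j)) = 1 := by
    intro σ j
    by_contra h
    apply hP3
    simp only [Set.mem_iUnion]
    exact ⟨σ, j, h⟩
  have hP4' : P.valuation Z ((l : ℕ) : Z) = 1 := by
    by_contra h
    exact hP4 h
  set p := Ideal.absNorm P.asIdeal with hp
  have hpP : (p : 𝓞 Z) ∈ P.asIdeal := Ideal.absNorm_mem P.asIdeal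
  -- the prime below in `K₁`
  let v := pullPrime s P
  have hvN : Ideal.absNorm v.asIdeal = p := absNorm_pull s P hP
  have hvS : v ∉ S := by
    intro hvS
    apply hP1
    simp only [Set.mem_iUnion]
    refine ⟨v, hvS, ?_⟩
    show P.valuation Z ((Ideal.absNorm v.asIdeal : ℕ) : Z) ≠ 1
    rw [hvN]
    have : P.valuation Z (algebraMap (𝓞 Z) Z (p : 𝓞 Z)) < 1 :=
      (P.valuation_lt_one_iff_mem _).2 hpP
    rw [map_natCast] at this
    exact this.ne
  obtain ⟨w, ⟨q, hq, hqv, hqw⟩, hsymw⟩ := hsym v hvS (by rw [hvN]; exact hP)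
    (by rw [hvN]; exact hPQ)
  have hpv : (p : 𝓞 K₁) ∈ v.asIdeal := by
    rw [← hvN]; exact Ideal.absNorm_mem v.asIdeal
  have hqp : q = p := eq_of_mem_of_mem v hq hP hqv hpv
  rw [hqp] at hqw
  -- find the embedding of `K₂`
  obtain ⟨Q, hQ⟩ := exists_pull_eq i w
  have hpQ : (p : 𝓞 Z) ∈ Q.asIdeal := by
    rw [← hQ, mem_pullPrime, map_natCast] at hqw
    exact hqw
  obtain ⟨σ, hσ⟩ := exists_gal_pull P Q hP hpP hpQ
  have hpull : pullPrime ((σ : Z →+* Z).comp i) P = w := by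
    rw [pullPrime_comp, ← hQ]
    congr 1
  have hwN : Ideal.absNorm w.asIdeal = p := by
    rw [← hpull]; exact absNorm_pull _ P hP
  -- `l` divides `p - 1`
  have hlp : l ∣ p - 1 := by
    refine dvd_absNorm_sub_one hl hζs P ?_
    rw [← P.valuation_eq_one_iff_notMem (K := Z), map_natCast]
    exact hP4'
  apply hPA σ
  intro j
  have hwx : w.valuation K₂ (X σ j : K₂) = 1 := by
    rw [← hpull]
    exact valuation_eq_one_of_pull _ P (hP3' σ j)
  obtain ⟨z, hz, e, he1, he2⟩ := hsymw (by rw [hvN, hwN]) _ hwx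
  rw [hvN] at he1 he2
  rw [← hpull] at he2
  have h1 := valuation_pull_eq_one s P hz
  have h2 := valuation_pull_lt_one s P he1
  have h3 := valuation_pull_lt_one _ P he2
  rw [map_sub, map_pow, map_pow] at h2 h3
  rw [← hc σ] at h2
  have h4 := isPowMod_of_symbols P hP hlp (hζσ σ).pow_eq_one hl.ne_zero (c σ) (l - c σ) 1 (hcc σ)
    _ _ h1 (hP3' σ j) e h2 h3
  rw [map_mul, map_pow] at h4 h1
  have h5 : s (κ (X σ j)) * s z ^ l * (σ : Z →+* Z).comp i (X σ j) ^ (l - c σ) =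
      s (κ (X σ j)) * (σ : Z →+* Z).comp i (X σ j) ^ (l - c σ) * (s z) ^ l := by ring
  rw [h5] at h4
  refine isPowMod_mul_pow P hl.ne_zero (hP2' σ j) ?_ h4
  rw [← h5, map_mul, h1, map_pow, hP3', one_pow, one_mul]

theorem global_step_dens {K₁ K₂ : Type*} [Field K₁] [NumberField K₁] [Field K₂] [NumberField K₂]
    {l : ℕ} (hl : l.Prime) {ζ₁ : K₁} (hζ₁ : IsPrimitiveRoot ζ₁ l) {ζ₂ : K₂}
    (hζ₂ : IsPrimitiveRoot ζ₂ l) (κ : K₂ → K₁) (hκ0 : ∀ x, x ≠ 0 → κ x ≠ 0)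
    (Q : Set ℕ) (hQ : MeetsSplit Q)
    (S : Finset (HeightOneSpectrum (𝓞 K₂)))
    (hsym : ∀ w : HeightOneSpectrum (𝓞 K₂), w ∉ S → (Ideal.absNorm w.asIdeal).Prime →
      Ideal.absNorm w.asIdeal ∈ Q → ∃ v : HeightOneSpectrum (𝓞 K₁),
        (∃ p : ℕ, p.Prime ∧ (p : 𝓞 K₁) ∈ v.asIdeal ∧ (p : 𝓞 K₂) ∈ w.asIdeal) ∧
        (Ideal.absNorm v.asIdeal = Ideal.absNorm w.asIdeal →
          ∀ x : K₂, w.valuation K₂ x = 1 → ∃ z : K₁, v.valuation K₁ (κ x * z ^ l) = 1 ∧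
            ∃ e : ℕ,
              v.valuation K₁ ((κ x * z ^ l) ^ ((Ideal.absNorm w.asIdeal - 1) / l) - ζ₁ ^ e) < 1 ∧
              w.valuation K₂ (x ^ ((Ideal.absNorm w.asIdeal - 1) / l) - ζ₂ ^ e) < 1)) :
    ∃ (j : K₂ →+* K₁) (c : ℕ) (T : Finset K₁), ¬ l ∣ c ∧ ∀ x : K₂, x ≠ 0 →
      ∃ t ∈ T, t ≠ 0 ∧ ∃ z : K₁, z ≠ 0 ∧ κ x = j x ^ c * t * z ^ l := by
  obtain ⟨Z, _, _, hZ, ⟨ι₁⟩, ⟨i⟩⟩ := exists_common_galois K₁ K₂
  obtain ⟨s, c, c', m, hcc, hc, hfin⟩ := exists_good_embedding_dens ι₁ i hl hζ₁ hζ₂ κ hκ0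
    Q (hQ Z) S hsym
  obtain ⟨j, T, hlc, -, hT⟩ := embedding_of_finClasses s i hl hζ₁ hζ₂ κ hκ0 c c' m hcc hc hfin
  exact ⟨j, c, T, hlc, hT⟩

theorem global_step_rev_dens {K₁ K₂ : Type*} [Field K₁] [NumberField K₁] [Field K₂] [NumberField K₂]
    {l : ℕ} (hl : l.Prime) {ζ₁ : K₁} (hζ₁ : IsPrimitiveRoot ζ₁ l) {ζ₂ : K₂}
    (hζ₂ : IsPrimitiveRoot ζ₂ l) (κ : K₂ → K₁) (hκ0 : ∀ x, x ≠ 0 → κ x ≠ 0)
    (Q : Set ℕ) (hQ : MeetsSplit Q)
    (S : Finset (HeightOneSpectrum (𝓞 K₁)))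
    (hsym : ∀ v : HeightOneSpectrum (𝓞 K₁), v ∉ S → (Ideal.absNorm v.asIdeal).Prime →
      Ideal.absNorm v.asIdeal ∈ Q → ∃ w : HeightOneSpectrum (𝓞 K₂),
        (∃ p : ℕ, p.Prime ∧ (p : 𝓞 K₁) ∈ v.asIdeal ∧ (p : 𝓞 K₂) ∈ w.asIdeal) ∧
        (Ideal.absNorm w.asIdeal = Ideal.absNorm v.asIdeal →
          ∀ x : K₂, w.valuation K₂ x = 1 → ∃ z : K₁, v.valuation K₁ (κ x * z ^ l) = 1 ∧
            ∃ e : ℕ,
              v.valuation K₁ ((κ x * z ^ l) ^ ((Ideal.absNorm v.asIdeal - 1) / l) - ζ₁ ^ e) < 1 ∧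
              w.valuation K₂ (x ^ ((Ideal.absNorm v.asIdeal - 1) / l) - ζ₂ ^ e) < 1)) :
    ∃ (j : K₂ →+* K₁) (c : ℕ) (T : Finset K₁), ¬ l ∣ c ∧ ∀ x : K₂, x ≠ 0 →
      ∃ t ∈ T, t ≠ 0 ∧ ∃ z : K₁, z ≠ 0 ∧ κ x = j x ^ c * t * z ^ l := by
  obtain ⟨Z, _, _, hZ, ⟨s⟩, ⟨i⟩⟩ := exists_common_galois K₁ K₂
  obtain ⟨i', c, c', m, hcc, hc, hfin⟩ := exists_good_embedding_rev_dens s i hl hζ₁ hζ₂ κ hκ0
    Q (hQ Z) S hsym
  obtain ⟨j, T, hlc, -, hT⟩ := embedding_of_finClasses s i' hl hζ₁ hζ₂ κ hκ0 c c' m hcc hc hfin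
  exact ⟨j, c, T, hlc, hT⟩

end Vale.Agent.P024
end
end

section

section

/-!
Criteria for the density condition on sets of prime numbers.
-/

namespace Vale.Agent.P024

open scoped NumberField ENNReal Topology
open IsDedekindDomain NumberField Filter

/-- the prime numbers in `Q` which are the norm of a prime ideal of `Z` -/
def normPrimes (Z : Type*) [Field Z] [NumberField Z] (Q : Set ℕ) : Set ℕ :=
  {p : ℕ | p.Prime ∧ p ∈ Q ∧ ∃ v : HeightOneSpectrum (𝓞 Z), Ideal.absNorm v.asIdeal = p}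

theorem summable_rpow_neg (A : Set ℕ) {s : ℝ} (hs : 1 < s) :
    Summable fun p : A => ((p : ℕ) : ℝ) ^ (-s) := by
  have h : Summable fun n : ℕ => (n : ℝ) ^ (-s) := by
    rw [Real.summable_nat_rpow]
    linarith
  exact h.comp_injective Subtype.val_injective

theorem ofReal_tsum_rpow (A : Set ℕ) {s : ℝ} (hs : 1 < s) :
    ENNReal.ofReal (∑' p : A, ((p : ℕ) : ℝ) ^ (-s)) =
      ∑' p : A, ENNReal.ofReal (((p : ℕ) : ℝ) ^ (-s)) :=
  ENNReal.ofReal_tsum_of_nonneg (fun p => by positivity) (summable_rpow_neg A hs)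

/-- from sums over prime numbers to sums over primes -/
theorem meetsPrimes_of_norm (Z : Type) [Field Z] [NumberField Z] (Q : Set ℕ) {δ : ℝ} (hδ : 0 < δ)
    (h : ∃ᶠ s : ℝ in 𝓝[>] 1, δ * Real.log (1 / (s - 1)) ≤
      ∑' p : normPrimes Z Q, ((p : ℕ) : ℝ) ^ (-s)) : MeetsPrimes Z Q := by
  refine ⟨δ, hδ, (h.and_eventually self_mem_nhdsWithin).mono ?_⟩
  rintro s ⟨h1, h2⟩
  have hs : (1 : ℝ) < s := h2
  refine (ENNReal.ofReal_le_ofReal h1).trans ?_
  rw [ofReal_tsum_rpow _ hs]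
  have hch : ∀ p : normPrimes Z Q, ∃ v : {v : HeightOneSpectrum (𝓞 Z) |
      (Ideal.absNorm v.asIdeal).Prime ∧ Ideal.absNorm v.asIdeal ∈ Q},
      Ideal.absNorm v.1.asIdeal = p := by
    rintro ⟨p, hp, hpQ, v, hv⟩
    exact ⟨⟨v, by rw [Set.mem_ofPred_eq, hv]; exact ⟨hp, hpQ⟩⟩, hv⟩
  choose f hf using hch
  have hinj : Function.Injective f := by
    intro p q hpq
    apply Subtype.ext
    rw [← hf p, ← hf q, hpq]
  calc ∑' p : normPrimes Z Q, ENNReal.ofReal (((p : ℕ) : ℝ) ^ (-s))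
      = ∑' p : normPrimes Z Q, ENNReal.ofReal (nm Z (f p).1 s) := by
        refine tsum_congr fun p => ?_
        unfold nm
        rw [hf p]
    _ ≤ _ := ENNReal.tsum_comp_le_tsum_of_injective hinj (fun v => ENNReal.ofReal (nm Z v.1 s))

/-- the sum over the primes of prime norm is at most the degree times the sum over their norms -/
theorem degOneSum_le (Z : Type*) [Field Z] [NumberField Z] (s : ℝ) :
    degOneSum Z s ≤ (Module.finrank ℤ (𝓞 Z) : ℝ≥0∞) *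
      ∑' p : normPrimes Z Set.univ, ENNReal.ofReal (((p : ℕ) : ℝ) ^ (-s)) := by
  classical
  unfold degOneSum
  let f : {p : HeightOneSpectrum (𝓞 Z) | (Ideal.absNorm p.asIdeal).Prime} →
      normPrimes Z Set.univ := fun v => ⟨Ideal.absNorm v.1.asIdeal, v.2, Set.mem_univ _, v.1, rfl⟩
  rw [← ENNReal.tsum_fiberwise _ f, ← ENNReal.tsum_mul_left]
  refine ENNReal.tsum_le_tsum fun p => ?_
  rw [ENNReal.tsum_eq_iSup_sum]
  refine iSup_le fun A => ?_
  have hval : ∀ v : (f ⁻¹' {p}), Ideal.absNorm v.1.1.asIdeal = p.1 := by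
    rintro ⟨v, hv⟩
    exact congrArg Subtype.val hv
  have hchar : ∀ v : HeightOneSpectrum (𝓞 Z), Ideal.absNorm v.asIdeal = p.1 →
      resChar v = p.1 := by
    intro v hv
    obtain ⟨h1, -, n, hn, hn'⟩ := resChar_spec v
    rw [hv] at hn'
    have hp : p.1.Prime := p.2.1
    have h2 : resChar v ∣ p.1 := by
      rw [hn']
      exact dvd_pow_self _ hn
    exact (Nat.prime_dvd_prime_iff_eq h1 hp).1 h2
  have hinj : Function.Injective (fun v : (f ⁻¹' {p}) => v.1.1) :=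
    Subtype.val_injective.comp Subtype.val_injective
  have h2 := card_le_finrank p.2.1 (A.map ⟨_, hinj⟩) (by
    intro v hv
    obtain ⟨x, -, rfl⟩ := Finset.mem_map.1 hv
    exact hchar _ (hval x))
  rw [Finset.card_map] at h2
  calc ∑ v ∈ A, ENNReal.ofReal (nm Z v.1.1 s)
      = ∑ v ∈ A, ENNReal.ofReal ((p.1 : ℝ) ^ (-s)) := by
        refine Finset.sum_congr rfl fun v _ => ?_
        unfold nm
        rw [hval v]
    _ = (A.card : ℝ≥0∞) * ENNReal.ofReal ((p.1 : ℝ) ^ (-s)) := by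
        rw [Finset.sum_const, nsmul_eq_mul]
    _ ≤ _ := by
        gcongr

/-- The complement of a set of Dirichlet density zero. -/
theorem frequently_norm_compl (Z : Type*) [Field Z] [NumberField Z] (B : Set ℕ)
    (hB : Tendsto (fun s : ℝ => (∑' p : {p : ℕ | p.Prime ∧ p ∈ B}, ((p : ℕ) : ℝ) ^ (-s)) /
      Real.log (1 / (s - 1))) (𝓝[>] 1) (𝓝 0)) :
    ∃ δ : ℝ, 0 < δ ∧ ∃ᶠ s : ℝ in 𝓝[>] 1, δ * Real.log (1 / (s - 1)) ≤
      ∑' p : normPrimes Z Bᶜ, ((p : ℕ) : ℝ) ^ (-s) := by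
  obtain ⟨C, hC⟩ := lower Z
  set n : ℝ := (Module.finrank ℤ (𝓞 Z) : ℝ) with hn
  have hn0 : 0 < n := by
    rw [hn, Nat.cast_pos]
    exact Module.finrank_pos
  have h1 : ∀ᶠ s : ℝ in 𝓝[>] 1, (∑' p : {p : ℕ | p.Prime ∧ p ∈ B}, ((p : ℕ) : ℝ) ^ (-s)) /
      Real.log (1 / (s - 1)) < 1 / (4 * n) := hB.eventually_lt_const (by positivity)
  have h2 : ∀ᶠ s : ℝ in 𝓝[>] 1, 4 * |C| < Real.log (1 / (s - 1)) :=
    tendsto_log_one_div.eventually_gt_atTop _
  have h3 : ∀ᶠ s : ℝ in 𝓝[>] 1, (0 : ℝ) < Real.log (1 / (s - 1)) :=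
    tendsto_log_one_div.eventually_gt_atTop _
  refine ⟨1 / (2 * n), by positivity, Eventually.frequently ?_⟩
  filter_upwards [hC, h1, h2, h3, self_mem_nhdsWithin] with s hs hs1 hs2 hs3 hs4
  have hs' : (1 : ℝ) < s := hs4
  set L : ℝ := Real.log (1 / (s - 1)) with hL
  set D : ℝ := ∑' p : {p : ℕ | p.Prime ∧ p ∈ B}, ((p : ℕ) : ℝ) ^ (-s) with hD
  set T : ℝ := ∑' p : normPrimes Z Bᶜ, ((p : ℕ) : ℝ) ^ (-s) with hT
  have hD0 : 0 ≤ D := tsum_nonneg fun p => by positivity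
  have hT0 : 0 ≤ T := tsum_nonneg fun p => by positivity
  have h4 : ∑' p : normPrimes Z Set.univ, ENNReal.ofReal (((p : ℕ) : ℝ) ^ (-s)) ≤
      ENNReal.ofReal T + ENNReal.ofReal D := by
    rw [hT, hD, ofReal_tsum_rpow _ hs', ofReal_tsum_rpow _ hs']
    rw [tsum_subtype (normPrimes Z Set.univ) (fun p : ℕ => ENNReal.ofReal ((p : ℝ) ^ (-s))),
      tsum_subtype (normPrimes Z Bᶜ) (fun p : ℕ => ENNReal.ofReal ((p : ℝ) ^ (-s))),
      tsum_subtype {p : ℕ | p.Prime ∧ p ∈ B} (fun p : ℕ => ENNReal.ofReal ((p : ℝ) ^ (-s))),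
      ← ENNReal.tsum_add]
    refine ENNReal.tsum_le_tsum fun p => ?_
    by_cases hp : p ∈ normPrimes Z Set.univ
    · rw [Set.indicator_of_mem hp]
      by_cases hpB : p ∈ B
      · rw [Set.indicator_of_mem (s := {p : ℕ | p.Prime ∧ p ∈ B}) ⟨hp.1, hpB⟩]
        exact le_add_self
      · rw [Set.indicator_of_mem (s := normPrimes Z Bᶜ) ⟨hp.1, hpB, hp.2.2⟩]
        exact le_self_add
    · rw [Set.indicator_of_notMem hp]
      exact zero_le
  have h5 : ENNReal.ofReal (L - C) ≤ ENNReal.ofReal (n * (T + D)) := by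
    refine (hs.trans (degOneSum_le Z s)).trans ?_
    rw [ENNReal.ofReal_mul hn0.le, ENNReal.ofReal_add hT0 hD0, hn, ENNReal.ofReal_natCast]
    gcongr
  have h6 : L - C ≤ n * (T + D) := by
    rwa [ENNReal.ofReal_le_ofReal_iff (by positivity)] at h5
  rw [div_lt_iff₀ hs3] at hs1
  have h7 : n * D < L / 4 := by
    have := mul_lt_mul_of_pos_left hs1 hn0
    calc n * D < n * (1 / (4 * n) * L) := this
      _ = L / 4 := by field_simp
  have h8 : C ≤ |C| := le_abs_self C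
  have h9 : L / 2 ≤ n * T := by linarith
  calc 1 / (2 * n) * L = (L / 2) / n := by field_simp
    _ ≤ (n * T) / n := by gcongr
    _ = T := by field_simp

theorem meetsSplit_compl {B : Set ℕ}
    (hB : Tendsto (fun s : ℝ => (∑' p : {p : ℕ | p.Prime ∧ p ∈ B}, ((p : ℕ) : ℝ) ^ (-s)) /
      Real.log (1 / (s - 1))) (𝓝[>] 1) (𝓝 0)) : MeetsSplit Bᶜ := by
  intro Z _ _ _
  obtain ⟨δ, hδ, h⟩ := frequently_norm_compl Z B hB
  exact meetsPrimes_of_norm Z Bᶜ hδ h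

end Vale.Agent.P024
end
end

section

section

/-!
The core steps of the main theorems with one-sided hypotheses.
-/

namespace Vale.Agent.P024

open scoped NumberField
open IsDedekindDomain IntermediateField

section Level

variable {F₁ E₁ F₂ E₂ : Type*} [Field F₁] [NumberField F₁] [Field E₁]
    [Algebra F₁ E₁] [IsGalois F₁ E₁] [Field F₂] [NumberField F₂] [Field E₂] [Algebra F₂ E₂]
    [IsGalois F₂ E₂]

omit [NumberField F₁] [NumberField F₂] in
theorem exists_level_U (α : (E₁ ≃ₐ[F₁] E₁) →* (E₂ ≃ₐ[F₂] E₂)) (hα : Continuous α) {l : ℕ}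
    (hl : l.Prime) (hroot₁ : ∀ n : ℕ, 0 < n → ∃ z : E₁, IsPrimitiveRoot z n)
    (hroot₂ : ∀ n : ℕ, 0 < n → ∃ z : E₂, IsPrimitiveRoot z n)
    (U : Subgroup (E₁ ≃ₐ[F₁] E₁)) (hU : IsOpen (U : Set (E₁ ≃ₐ[F₁] E₁)))
    (L₂ : IntermediateField F₂ E₂) (hL₂ : FiniteDimensional F₂ L₂) :
    ∃ (K₁ : IntermediateField F₁ E₁) (K₂ : IntermediateField F₂ E₂), FiniteDimensional F₁ K₁ ∧
      FiniteDimensional F₂ K₂ ∧ L₂ ≤ K₂ ∧
      (∀ g : E₁ ≃ₐ[F₁] E₁, (∀ z ∈ K₁, g z = z) → g ∈ U) ∧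
      (∀ g : E₁ ≃ₐ[F₁] E₁, (∀ z ∈ K₁, g z = z) → ∀ x ∈ K₂, (α g) x = x) ∧
      (∀ z : E₁, z ^ (l ^ 2) = 1 → z ∈ K₁) ∧ (∀ z : E₂, z ^ (l ^ 2) = 1 → z ∈ K₂) := by
  obtain ⟨ζ₁, hζ₁⟩ := hroot₁ (l ^ 2) (pow_pos hl.pos 2)
  obtain ⟨ζ₂, hζ₂⟩ := hroot₂ (l ^ 2) (pow_pos hl.pos 2)
  have hfin₁ : FiniteDimensional F₁ F₁⟮ζ₁⟯ :=
    adjoin.finiteDimensional (Algebra.IsIntegral.isIntegral ζ₁)
  have hfin₂ : FiniteDimensional F₂ F₂⟮ζ₂⟯ :=
    adjoin.finiteDimensional (Algebra.IsIntegral.isIntegral ζ₂)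
  set K₂ : IntermediateField F₂ E₂ := L₂ ⊔ F₂⟮ζ₂⟯ with hK₂def
  have hK₂fin : FiniteDimensional F₂ K₂ := finiteDimensional_sup L₂ F₂⟮ζ₂⟯
  have hVopen : IsOpen (K₂.fixingSubgroup : Set (E₂ ≃ₐ[F₂] E₂)) := K₂.fixingSubgroup_isOpen
  have hWopen : IsOpen ((U : Set (E₁ ≃ₐ[F₁] E₁)) ∩ α ⁻¹' (K₂.fixingSubgroup : Set _)) :=
    hU.inter (hVopen.preimage hα)
  have hWmem : (U : Set (E₁ ≃ₐ[F₁] E₁)) ∩ α ⁻¹' (K₂.fixingSubgroup : Set _) ∈ nhds 1 :=
    hWopen.mem_nhds ⟨U.one_mem, by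
      simp only [Set.mem_preimage, map_one]
      exact K₂.fixingSubgroup.one_mem⟩
  rw [krullTopology_mem_nhds_one_iff] at hWmem
  obtain ⟨M, hMfin, hM⟩ := hWmem
  set K₁ : IntermediateField F₁ E₁ := M ⊔ F₁⟮ζ₁⟯ with hK₁def
  have hK₁fin : FiniteDimensional F₁ K₁ := finiteDimensional_sup M F₁⟮ζ₁⟯
  have hmem : ∀ g : E₁ ≃ₐ[F₁] E₁, (∀ z ∈ K₁, g z = z) → g ∈ U ∧ ∀ x ∈ K₂, (α g) x = x := by
    intro g hg
    have h1 : g ∈ M.fixingSubgroup := by
      rw [IntermediateField.mem_fixingSubgroup_iff]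
      intro x hx
      exact hg x (le_sup_left (a := M) (b := F₁⟮ζ₁⟯) hx)
    obtain ⟨h2, h3⟩ := hM h1
    refine ⟨h2, ?_⟩
    have h4 : α g ∈ K₂.fixingSubgroup := h3
    rw [IntermediateField.mem_fixingSubgroup_iff] at h4
    exact h4
  have hroots₁ : ∀ z : E₁, z ^ (l ^ 2) = 1 → z ∈ K₁ := by
    intro z hz
    have : NeZero (l ^ 2) := ⟨(pow_pos hl.pos 2).ne'⟩
    obtain ⟨i, _, rfl⟩ := hζ₁.eq_pow_of_pow_eq_one hz
    exact pow_mem (le_sup_right (a := M) (b := F₁⟮ζ₁⟯) (mem_adjoin_simple_self F₁ ζ₁)) i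
  have hroots₂ : ∀ z : E₂, z ^ (l ^ 2) = 1 → z ∈ K₂ := by
    intro z hz
    have : NeZero (l ^ 2) := ⟨(pow_pos hl.pos 2).ne'⟩
    obtain ⟨i, _, rfl⟩ := hζ₂.eq_pow_of_pow_eq_one hz
    exact pow_mem (le_sup_right (a := L₂) (b := F₂⟮ζ₂⟯) (mem_adjoin_simple_self F₂ ζ₂)) i
  exact ⟨K₁, K₂, hK₁fin, hK₂fin, le_sup_left, fun g hg => (hmem g hg).1, fun g hg => (hmem g hg).2,
    hroots₁, hroots₂⟩

/-- `l`-power residue classes of `p`-th cyclotomic characters: automorphism `g` of `E` acts on the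
`p`-th roots of unity as an `l`-th power. -/
theorem core_ker_rev (α : (E₁ ≃ₐ[F₁] E₁) →* (E₂ ≃ₐ[F₂] E₂)) (hα : Continuous α)
    {l : ℕ} (hl : l.Prime) (hl2 : l ≠ 2)
    (hpow₁ : ∀ x : E₁, ∃ y : E₁, y ^ l = x) (hpow₂ : ∀ x : E₂, ∃ y : E₂, y ^ l = x)
    (hroot₁ : ∀ n : ℕ, 0 < n → ∃ z : E₁, IsPrimitiveRoot z n)
    (hroot₂ : ∀ n : ℕ, 0 < n → ∃ z : E₂, IsPrimitiveRoot z n)
    (hGK₁ : ∀ (K : IntermediateField F₁ E₁) [NumberField K], (∀ z : E₁, z ^ l = 1 → z ∈ K) →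
      GaussKummer K l)
    (hGK₂ : ∀ (K : IntermediateField F₂ E₂) [NumberField K], (∀ z : E₂, z ^ l = 1 → z ∈ K) →
      GaussKummer K l)
    (U : Subgroup (E₁ ≃ₐ[F₁] E₁)) (hU : IsOpen (U : Set (E₁ ≃ₐ[F₁] E₁)))
    (B : Set ℕ) (hB : B.Finite)
    (hker : ∀ g ∈ U, ∀ p a b : ℕ, p.Prime → p ∉ B → l ∣ p - 1 →
      (∀ z : E₁, z ^ p = 1 → g z = z ^ a) → (∀ z : E₂, z ^ p = 1 → (α g) z = z ^ b) →
      b ^ ((p - 1) / l) ≡ 1 [MOD p] → a ^ ((p - 1) / l) ≡ 1 [MOD p])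
    (L₂ : IntermediateField F₂ E₂) (hL₂ : FiniteDimensional F₂ L₂) :
    ∃ (K₁ : IntermediateField F₁ E₁) (j : L₂ →+* E₁), FiniteDimensional F₁ K₁ ∧
        ∀ x : L₂, KMatch α l K₁ (x : E₂) (j x) := by
  have : CharZero E₁ := charZero_of_injective_algebraMap (algebraMap F₁ E₁).injective
  have : CharZero E₂ := charZero_of_injective_algebraMap (algebraMap F₂ E₂).injective
  have : Algebra.IsAlgebraic ℚ E₁ := Algebra.IsAlgebraic.trans ℚ F₁ E₁
  have : Algebra.IsAlgebraic ℚ E₂ := Algebra.IsAlgebraic.trans ℚ F₂ E₂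
  obtain ⟨K₁, K₂, hK₁, hK₂, hLK, hKU, hαK, hμ₁, hμ₂⟩ :=
    exists_level_U α hα hl hroot₁ hroot₂ U hU L₂ hL₂
  have : NumberField K₁ := NumberField.of_module_finite F₁ K₁
  have : NumberField K₂ := NumberField.of_module_finite F₂ K₂
  obtain ⟨ζ₁, hζ₁⟩ := hroot₁ l hl.pos
  obtain ⟨ζ₂, hζ₂⟩ := hroot₂ l hl.pos
  have hl₁ : ∀ z : E₁, z ^ l = 1 → z ∈ K₁ := fun z hz =>
    hμ₁ z (by rw [pow_two, pow_mul, hz, one_pow])
  have hl₂ : ∀ z : E₂, z ^ l = 1 → z ∈ K₂ := fun z hz =>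
    hμ₂ z (by rw [pow_two, pow_mul, hz, one_pow])
  have hζ₁K : ζ₁ ∈ K₁ := hl₁ ζ₁ hζ₁.pow_eq_one
  have hζ₂K : ζ₂ ∈ K₂ := hl₂ ζ₂ hζ₂.pow_eq_one
  have hz₁ : IsPrimitiveRoot (⟨ζ₁, hζ₁K⟩ : K₁) l :=
    IsPrimitiveRoot.of_map_of_injective (f := algebraMap K₁ E₁) hζ₁ (algebraMap K₁ E₁).injective
  have hz₂ : IsPrimitiveRoot (⟨ζ₂, hζ₂K⟩ : K₂) l :=
    IsPrimitiveRoot.of_map_of_injective (f := algebraMap K₂ E₂) hζ₂ (algebraMap K₂ E₂).injective
  obtain ⟨ξ, hξ⟩ := hroot₁ (l ^ 2) (pow_pos hl.pos 2)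
  obtain ⟨ξ', hξ'⟩ := hroot₂ (l ^ 2) (pow_pos hl.pos 2)
  obtain ⟨κ, S, hκ, hsym⟩ := transfer_sym_rev_ker α hα K₁ K₂ hαK hl hl2 hpow₁ hpow₂
    hroot₁ hroot₂ ⟨ζ₁, hζ₁K⟩ hz₁ ⟨ζ₂, hζ₂K⟩ hz₂ ⟨ξ, hμ₁ ξ hξ.pow_eq_one, hξ⟩
    ⟨ξ', hμ₂ ξ' hξ'.pow_eq_one, hξ'⟩ B hB
    (by
      intro p hp hpB hlp ξ₁ ξ₂ h1 h2 g hg a b ha hb
      have : NeZero p := ⟨hp.ne_zero⟩
      refine hker g (hKU g hg) p a b hp hpB hlp ?_ ?_
      · intro z hz
        obtain ⟨i, _, rfl⟩ := h1.eq_pow_of_pow_eq_one hz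
        rw [map_pow, ha, ← pow_mul, ← pow_mul, mul_comm]
      · intro z hz
        obtain ⟨i, _, rfl⟩ := h2.eq_pow_of_pow_eq_one hz
        rw [map_pow, hb, ← pow_mul, ← pow_mul, mul_comm])
    (hGK₁ K₁ hl₁) (hGK₂ K₂ hl₂)
  obtain ⟨j, c, T, hc, hT⟩ := global_step_rev hl hz₁ hz₂ κ hκ.ne_zero S hsym
  obtain ⟨N₁, hN₁, hmatch⟩ := match_of_kappa α hl hpow₁ K₁ K₂ hζ₁ hζ₁K hζ₂ hαK κ
    (fun x hx X hX b hb g hg e he => hκ.spec x hx X b hX hb g hg e he) j c hc T hT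
  refine ⟨N₁, (algebraMap K₁ E₁).comp (j.comp (IntermediateField.inclusion hLK).toRingHom), hN₁, ?_⟩
  intro x
  exact hmatch (IntermediateField.inclusion hLK x)

end Level

end Vale.Agent.P024
end
end

section

section

/-!
The main theorems with one-sided hypotheses; the first one does not assume that the image is open.
-/

namespace Vale.Agent.P024

theorem gaussKummer_of_mem {F E : Type*} [Field F] [Field E] [Algebra F E] [IsGalois F E]
    [CharZero E] {l : ℕ} (hl : l.Prime) {ζ : E} (hζ : IsPrimitiveRoot ζ l)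
    (K : IntermediateField F E) [NumberField K] (hK : ∀ z : E, z ^ l = 1 → z ∈ K) :
    GaussKummer K l := by
  intro p hp hlp ξ hξ
  exact gauss_kummer K hl hp hlp hζ (hK ζ hζ.pow_eq_one) hξ

/-- Main theorem A: any continuous homomorphism, one odd prime `l`, one open subgroup `U`, all
but finitely many primes `p ≡ 1 mod l`. -/
theorem induced_of_ker_A {F₁ E₁ F₂ E₂ : Type*} [Field F₁] [NumberField F₁] [Field E₁]
    [Algebra F₁ E₁] [IsGalois F₁ E₁] [Field F₂] [NumberField F₂] [Field E₂] [Algebra F₂ E₂]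
    [IsGalois F₂ E₂] (hE₁ : SolvablyClosed E₁) (hE₂ : SolvablyClosed E₂)
    (α : (E₁ ≃ₐ[F₁] E₁) →* (E₂ ≃ₐ[F₂] E₂)) (hα : Continuous α)
    {l : ℕ} (hl : l.Prime) (hl2 : l ≠ 2)
    (U : Subgroup (E₁ ≃ₐ[F₁] E₁)) (hU : IsOpen (U : Set (E₁ ≃ₐ[F₁] E₁)))
    (B : Set ℕ) (hB : B.Finite)
    (hker : ∀ g ∈ U, ∀ p a b : ℕ, p.Prime → p ∉ B → l ∣ p - 1 →
      (∀ z : E₁, z ^ p = 1 → g z = z ^ a) → (∀ z : E₂, z ^ p = 1 → (α g) z = z ^ b) →
      b ^ ((p - 1) / l) ≡ 1 [MOD p] → a ^ ((p - 1) / l) ≡ 1 [MOD p]) :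
    ∃ j : E₂ →+* E₁, ∀ (g : E₁ ≃ₐ[F₁] E₁) (x : E₂), g (j x) = j ((α g) x) := by
  have : CharZero E₁ := charZero_of_injective_algebraMap (algebraMap F₁ E₁).injective
  have : CharZero E₂ := charZero_of_injective_algebraMap (algebraMap F₂ E₂).injective
  obtain ⟨ζ₁, hζ₁⟩ := hE₁.exists_primitiveRoot l hl.pos
  obtain ⟨ζ₂, hζ₂⟩ := hE₂.exists_primitiveRoot l hl.pos
  exact glue396 hl (hE₁.exists_root l hl.pos) (hE₂.exists_root l hl.pos) hζ₁
    (fun K₂ hK₂ => core_ker_rev α hα hl hl2 (hE₁.exists_root l hl.pos)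
      (hE₂.exists_root l hl.pos) hE₁.exists_primitiveRoot hE₂.exists_primitiveRoot
      (fun K _ hK => gaussKummer_of_mem hl hζ₁ K hK)
      (fun K _ hK => gaussKummer_of_mem hl hζ₂ K hK) U hU B hB hker K₂ hK₂)

end Vale.Agent.P024
end
end

section

section

/-!
The index of an open subgroup containing many Frobenius elements.
-/

namespace Vale.Agent.P024

open scoped NumberField ENNReal Topology
open IsDedekindDomain NumberField Filter

section Conj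

variable {F E : Type*} [Field F] [Field E] [Algebra F E]

theorem nonunits_iff {O : ValuationSubring E} {x : E} : x ∈ O.nonunits ↔ x = 0 ∨ x⁻¹ ∉ O := by
  rw [ValuationSubring.mem_nonunits_iff]
  by_cases hx : x = 0
  · subst hx; simp
  · have hne : O.valuation x ≠ 0 := by rwa [Valuation.ne_zero_iff]
    rw [← ValuationSubring.valuation_le_one_iff, not_le, map_inv₀]
    constructor
    · intro h
      exact Or.inr ((one_lt_inv₀ (zero_lt_iff.mpr hne)).mpr h)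
    · rintro (h | h)
      · exact absurd h hx
      · exact (one_lt_inv₀ (zero_lt_iff.mpr hne)).mp h

/-- the conjugate of a valuation subring -/
def conjO (O : ValuationSubring E) (g : E ≃ₐ[F] E) : ValuationSubring E :=
  O.comap ((g⁻¹ : E ≃ₐ[F] E) : E →+* E)

theorem mem_conjO {O : ValuationSubring E} {g : E ≃ₐ[F] E} {x : E} :
    x ∈ conjO O g ↔ g⁻¹ x ∈ O := Iff.rfl

theorem nonunits_conjO {O : ValuationSubring E} {g : E ≃ₐ[F] E} {x : E} :
    x ∈ (conjO O g).nonunits ↔ g⁻¹ x ∈ O.nonunits := by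
  rw [nonunits_iff, nonunits_iff, mem_conjO, map_inv₀]
  simp

theorem conjO_ne_top {O : ValuationSubring E} (hO : O ≠ ⊤) (g : E ≃ₐ[F] E) : conjO O g ≠ ⊤ := by
  intro h
  apply hO
  rw [eq_top_iff]
  intro x _
  have h1 : g x ∈ conjO O g := by rw [h]; trivial
  rw [mem_conjO, ← AlgEquiv.mul_apply, inv_mul_cancel, AlgEquiv.one_apply] at h1
  exact h1

end Conj

section Residue

theorem residue_degree_one {F N : Type*} [Field F] [NumberField F] [Field N] [NumberField N]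
    [Algebra F N] (v : HeightOneSpectrum (𝓞 F)) (P : HeightOneSpectrum (𝓞 N))
    (hP : P.asIdeal.comap (algebraMap (𝓞 F) (𝓞 N)) = v.asIdeal)
    (h : ∀ x : 𝓞 N, x ^ Ideal.absNorm v.asIdeal - x ∈ P.asIdeal) :
    Ideal.absNorm P.asIdeal = Ideal.absNorm v.asIdeal ∧
      ∀ x : 𝓞 N, ∃ a : 𝓞 F, x - algebraMap (𝓞 F) (𝓞 N) a ∈ P.asIdeal := by
  classical
  set q := Ideal.absNorm v.asIdeal with hq
  have hq1 : 1 < q := one_lt_absNorm v
  let : Field (𝓞 N ⧸ P.asIdeal) := Ideal.Quotient.field P.asIdeal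
  have hfinN : Finite (𝓞 N ⧸ P.asIdeal) := Ideal.finiteQuotientOfFreeOfNeBot _ P.ne_bot
  have hfinF : Finite (𝓞 F ⧸ v.asIdeal) := Ideal.finiteQuotientOfFreeOfNeBot _ v.ne_bot
  let := Fintype.ofFinite (𝓞 N ⧸ P.asIdeal)
  have hcardN : Nat.card (𝓞 N ⧸ P.asIdeal) = Ideal.absNorm P.asIdeal := by
    rw [Ideal.absNorm_apply]; rfl
  have hcardF : Nat.card (𝓞 F ⧸ v.asIdeal) = q := by
    rw [hq, Ideal.absNorm_apply]; rfl
  have hle : Nat.card (𝓞 N ⧸ P.asIdeal) ≤ q := by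
    rw [Nat.card_eq_fintype_card]
    have h1 : (Finset.univ : Finset (𝓞 N ⧸ P.asIdeal)).val ⊆
        (Polynomial.X ^ q - Polynomial.X : Polynomial (𝓞 N ⧸ P.asIdeal)).roots := by
      intro x _
      rw [Polynomial.mem_roots (FiniteField.X_pow_card_sub_X_ne_zero _ hq1)]
      obtain ⟨y, rfl⟩ := Ideal.Quotient.mk_surjective x
      rw [Polynomial.IsRoot, Polynomial.eval_sub, Polynomial.eval_pow, Polynomial.eval_X,
        ← map_pow, ← map_sub, Ideal.Quotient.eq_zero_iff_mem]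
      exact h y
    have h2 := Polynomial.card_le_degree_of_subset_roots h1
    rwa [FiniteField.X_pow_card_sub_X_natDegree_eq _ hq1, Finset.card_univ] at h2
  let φ : (𝓞 F ⧸ v.asIdeal) →+* (𝓞 N ⧸ P.asIdeal) :=
    Ideal.quotientMap P.asIdeal (algebraMap (𝓞 F) (𝓞 N)) hP.ge
  have hφ : Function.Injective φ := Ideal.quotientMap_injective' hP.le
  have hbij : Function.Bijective φ := hφ.bijective_of_nat_card_le (by rw [hcardF]; exact hle)
  refine ⟨?_, ?_⟩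
  · rw [← hcardN, ← hcardF]
    exact (Nat.card_eq_of_bijective φ hbij).symm
  · intro x
    obtain ⟨y, hy⟩ := hbij.2 (Ideal.Quotient.mk P.asIdeal x)
    obtain ⟨a, rfl⟩ := Ideal.Quotient.mk_surjective y
    refine ⟨a, ?_⟩
    rw [Ideal.quotientMap_mk] at hy
    rw [← Ideal.Quotient.eq]
    exact hy.symm

theorem exists_natCast_nonunit {E : Type*} [Field E] [CharZero E] {c : E} (hc : IsIntegral ℤ c)
    (hc0 : c ≠ 0) : ∃ n : ℕ, n ≠ 0 ∧ ∀ O : ValuationSubring E, c ∈ O.nonunits →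
      (n : E) ∈ O.nonunits := by
  let c' : 𝓞 E := ⟨c, hc⟩
  have hc'0 : c' ≠ 0 := by
    intro h
    apply hc0
    exact congrArg (fun x : 𝓞 E => (x : E)) h
  have halg : IsAlgebraic ℤ c' := by
    have h1 : IsIntegral ℤ c' := by
      rw [← isIntegral_algebraMap_iff (FaithfulSMul.algebraMap_injective (𝓞 E) E)]
      exact hc
    exact h1.isAlgebraic
  obtain ⟨r, hr0, d, hd⟩ := halg.exists_nonzero_dvd (mem_nonZeroDivisors_of_ne_zero hc'0)
  refine ⟨r.natAbs, Int.natAbs_ne_zero.2 hr0, fun O hO => ?_⟩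
  have h2 : ((r : ℤ) : E) ∈ O.nonunits := by
    have h3 : ((r : ℤ) : E) = (d : E) * c := by
      have h4 := congrArg (algebraMap (𝓞 E) E) hd
      rw [map_mul, eq_intCast (algebraMap ℤ (𝓞 E)), map_intCast, mul_comm] at h4
      exact h4
    rw [h3]
    exact Near.mul_mem_nonunits ((O.valuation_le_one_iff _).2 (coe_mem_valuationSubring O d)) hO
  rcases Int.natAbs_eq r with h | h
  · rw [h] at h2
    simpa using h2
  · rw [h, Int.cast_neg] at h2
    have := O.nonunits.neg_mem h2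
    simpa using this

end Residue

section Index

variable {F : Type*} {E : Type*} [Field F] [NumberField F] [Field E] [Algebra F E] [IsGalois F E]
    [CharZero E] [Algebra.IsAlgebraic ℚ E]

theorem finiteDimensional_fixedField (W : Subgroup (E ≃ₐ[F] E))
    (hW : IsOpen (W : Set (E ≃ₐ[F] E))) :
    FiniteDimensional F (IntermediateField.fixedField W) ∧
      (IntermediateField.fixedField W).fixingSubgroup = W := by
  have hWc : IsClosed (W : Set (E ≃ₐ[F] E)) := W.isClosed_of_isOpen hW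
  have h1 : (IntermediateField.fixedField W).fixingSubgroup = W :=
    InfiniteGalois.fixingSubgroup_fixedField (⟨W, hWc⟩ : ClosedSubgroup (E ≃ₐ[F] E))
  refine ⟨?_, h1⟩
  rw [← InfiniteGalois.isOpen_iff_finite, h1]
  exact hW

theorem index_bound (W : Subgroup (E ≃ₐ[F] E)) (hW : IsOpen (W : Set (E ≃ₐ[F] E)))
    (G : Set (HeightOneSpectrum (𝓞 F))) (δ : ℝ)
    (hG : ∃ᶠ s : ℝ in 𝓝[>] 1, ENNReal.ofReal (δ * Real.log (1 / (s - 1))) ≤
      ∑' p : G, ENNReal.ofReal (nm F p.1 s))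
    (S : Set (HeightOneSpectrum (𝓞 F))) (hS : S.Finite)
    (hFrob : ∀ v ∈ G, v ∉ S → ∀ O : ValuationSubring E, O ≠ ⊤ → IsCenter O v →
      ∀ s : E ≃ₐ[F] E, Stab O s → ActsPow O s (Ideal.absNorm v.asIdeal) → s ∈ W)
    (m : ℕ) (hm : 0 < m) (g : Fin m → (E ≃ₐ[F] E))
    (hg : ∀ i j, i ≠ j → g j * (g i)⁻¹ ∉ W) : δ ≤ 1 / m := by
  classical
  obtain ⟨hfd, hfix⟩ := finiteDimensional_fixedField W hW
  set N := IntermediateField.fixedField W with hN
  have hNF : NumberField N := NumberField.of_module_finite F N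
  have hWN : ∀ s ∈ W, ∀ x : N, s (x : E) = x := by
    intro s hs x
    exact (IntermediateField.mem_fixedField_iff W (x : E)).1 x.2 s hs
  -- an integral primitive element
  obtain ⟨y, hy⟩ := Field.exists_primitive_element F N
  obtain ⟨d, hd0, hdy⟩ := ((IsFractionRing.isAlgebraic_iff ℤ ℚ N (x := y)).2
    (Algebra.IsAlgebraic.isAlgebraic y)).exists_integral_multiple
  set y₀ : 𝓞 N := ⟨d • y, hdy⟩ with hy₀
  have hy₀E : ((y₀ : N) : E) = (d : E) * (y : E) := by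
    rw [hy₀]
    show ((d • y : N) : E) = _
    rw [zsmul_eq_mul]
    push_cast
    rfl
  have hd0' : (d : E) ≠ 0 := Int.cast_ne_zero.2 hd0
  have hgen : ∀ h h' : E ≃ₐ[F] E, h ((y₀ : N) : E) = h' ((y₀ : N) : E) → h'⁻¹ * h ∈ W := by
    intro h h' heq
    rw [hy₀E, map_mul, map_mul, map_intCast, map_intCast] at heq
    have h1 := mul_left_cancel₀ hd0' heq
    rw [← hfix, IntermediateField.mem_fixingSubgroup_iff]
    have h2 : (h'⁻¹ * h) (y : E) = y := by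
      rw [AlgEquiv.mul_apply, h1, ← AlgEquiv.mul_apply, inv_mul_cancel, AlgEquiv.one_apply]
    have h3 : N = IntermediateField.adjoin F {(y : E)} := by
      have h4 := congrArg (IntermediateField.map N.val) hy
      rw [IntermediateField.adjoin_map, Set.image_singleton, ← AlgHom.fieldRange_eq_map,
        IntermediateField.fieldRange_val] at h4
      exact h4.symm
    rw [h3]
    refine fix_adjoin _ _ ?_
    rintro _ rfl
    exact h2
  have hintE : ∀ (O : ValuationSubring E) (x : 𝓞 N), ((x : N) : E) ∈ O := by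
    intro O x
    have h1 : IsIntegral ℤ ((x : N) : E) := (RingOfIntegers.isIntegral_coe x).algebraMap
    exact coe_mem_valuationSubring O (⟨((x : N) : E), h1⟩ : 𝓞 E)
  -- the differences of the conjugates
  set c : Fin m → Fin m → E := fun i j => (g i)⁻¹ ((y₀ : N) : E) - (g j)⁻¹ ((y₀ : N) : E) with hc
  have hcint : ∀ i j, IsIntegral ℤ (c i j) := by
    have h1 : IsIntegral ℤ ((y₀ : N) : E) := (RingOfIntegers.isIntegral_coe y₀).algebraMap
    have h2 : ∀ h : E ≃ₐ[F] E, IsIntegral ℤ (h ((y₀ : N) : E)) := by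
      intro h
      exact h1.map ((h : E →+* E).toIntAlgHom)
    intro i j
    exact (h2 _).sub (h2 _)
  have hc0 : ∀ i j, i ≠ j → c i j ≠ 0 := by
    intro i j hij h
    have h1 := hgen (g i)⁻¹ (g j)⁻¹ (sub_eq_zero.1 h)
    rw [inv_inv] at h1
    exact hg i j hij h1
  have hn : ∀ i j, ∃ n : ℕ, n ≠ 0 ∧ (i ≠ j → ∀ O : ValuationSubring E, c i j ∈ O.nonunits →
      (n : E) ∈ O.nonunits) := by
    intro i j
    by_cases hij : i = j
    · exact ⟨1, one_ne_zero, fun h => absurd hij h⟩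
    · obtain ⟨n, hn, h⟩ := exists_natCast_nonunit (hcint i j) (hc0 i j hij)
      exact ⟨n, hn, fun _ => h⟩
  choose n hn0 hn using hn
  have hS' : (S ∪ ⋃ i, ⋃ j, {v : HeightOneSpectrum (𝓞 F) | (n i j : 𝓞 F) ∈ v.asIdeal}).Finite :=
    hS.union (Set.finite_iUnion fun i => Set.finite_iUnion fun j => finite_above F (hn0 i j))
  have key := le_sum_of_cover_dens F (ι := Unit) (fun _ => N) (fun _ => m) (fun _ => hm) G δ hG
    _ hS' ?_
  · simpa using key
  intro v hv hvS'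
  rw [Set.mem_union, not_or, Set.mem_iUnion, not_exists] at hvS'
  obtain ⟨hvS, hvn⟩ := hvS'
  obtain ⟨O, hO, hOv⟩ := exists_valuationSubring_over (E := E) v
  have hcard : Nat.card (𝓞 F ⧸ v.asIdeal) = Ideal.absNorm v.asIdeal := by
    rw [Ideal.absNorm_apply]; rfl
  have hPex : ∀ i, ∃ P : HeightOneSpectrum (𝓞 N), ∀ x : 𝓞 N, x ∈ P.asIdeal ↔
      algebraMap N E x ∈ (conjO O (g i)).nonunits := fun i =>
    exists_center (K := N) _ (conjO_ne_top hO (g i))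
  choose P hP using hPex
  have hOi : ∀ i, IsCenter (conjO O (g i)) v := by
    intro i x
    rw [nonunits_conjO, (g i)⁻¹.commutes]
    exact hOv x
  have hover : ∀ i, (P i).asIdeal.comap (algebraMap (𝓞 F) (𝓞 N)) = v.asIdeal := by
    intro i
    ext x
    rw [Ideal.mem_comap, hP, hOi i x]
    rfl
  have hpow : ∀ i (x : 𝓞 N), x ^ Ideal.absNorm v.asIdeal - x ∈ (P i).asIdeal := by
    intro i x
    obtain ⟨s, hs, hs'⟩ := exists_frob (conjO O (g i)) (conjO_ne_top hO _) v (hOi i)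
    rw [hcard] at hs'
    have hsW := hFrob v hv hvS _ (conjO_ne_top hO _) (hOi i) s hs hs'
    have h1 := hs' ((x : N) : E) (hintE _ x)
    rw [hWN s hsW] at h1
    rw [hP]
    have h2 : algebraMap N E ((x ^ Ideal.absNorm v.asIdeal - x : 𝓞 N) : N) =
        -(((x : N) : E) - ((x : N) : E) ^ Ideal.absNorm v.asIdeal) := by
      rw [neg_sub]
      simp
    rw [h2]
    exact ValuationSubring.nonunits _ |>.neg_mem h1
  have hres := fun i => residue_degree_one v (P i) (hover i) (hpow i)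
  have hinj : Function.Injective P := by
    intro i j hij
    by_contra hne
    obtain ⟨a, ha⟩ := (hres i).2 y₀
    have ha' := ha
    rw [hij, hP, nonunits_conjO] at ha'
    rw [hP, nonunits_conjO] at ha
    have h1 : algebraMap N E ((y₀ - algebraMap (𝓞 F) (𝓞 N) a : 𝓞 N) : N) =
        ((y₀ : N) : E) - algebraMap F E a := by
      have h0 : ((y₀ - algebraMap (𝓞 F) (𝓞 N) a : 𝓞 N) : N) = (y₀ : N) - algebraMap F N a := rfl
      rw [h0, map_sub]
      rfl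
    rw [h1, map_sub, (g _)⁻¹.commutes] at ha ha'
    have h2 : c i j ∈ O.nonunits := by
      have h3 := sub_mem_nonunits O ha ha'
      have h4 : c i j = (g i)⁻¹ ((y₀ : N) : E) - algebraMap F E a -
          ((g j)⁻¹ ((y₀ : N) : E) - algebraMap F E a) := by
        rw [hc]; ring
      rw [h4]
      exact h3
    have h5 := hn i j hne O h2
    apply hvn i
    rw [Set.mem_iUnion]
    refine ⟨j, ?_⟩
    show (n i j : 𝓞 F) ∈ v.asIdeal
    rw [hOv]
    simpa using h5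
  refine ⟨(), Finset.univ.map ⟨P, hinj⟩, by simp, ?_⟩
  intro Q hQ
  obtain ⟨i, -, rfl⟩ := Finset.mem_map.1 hQ
  exact ⟨hover i, (hres i).1⟩

end Index

end Vale.Agent.P024
end
end

section

section

/-!
Frobenius elements and homomorphisms that are injective on tame inertia.
-/

namespace Vale.Agent.P024

open scoped NumberField
open IsDedekindDomain NumberField

section

variable {F E : Type*} [Field F] [Field E] [Algebra F E] [IsGalois F E] [CharZero E]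
  [Algebra.IsAlgebraic ℚ E]

/-- tame inertia elements for a given place -/
theorem exists_tame_at (K : IntermediateField F E) [NumberField K]
    {l : ℕ} (hl : l.Prime) {ζ : E} (hζ : IsPrimitiveRoot ζ l) (hζK : ζ ∈ K)
    (v : HeightOneSpectrum (𝓞 K)) (hvl : (l : 𝓞 K) ∉ v.asIdeal)
    (y : K) (hy0 : y ≠ 0) (hy : ¬ DvdVal v l y) (b : E) (hb : b ^ l = (y : E))
    (O' : ValuationSubring E) (hO' : O' ≠ ⊤) (hv' : IsCenter O' v) :
    ∃ t : E ≃ₐ[F] E, (∀ x ∈ K, t x = x) ∧ Stab O' t ∧ ActsPow O' t 1 ∧ t b ≠ b := by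
  have hnz : NeZero l := ⟨hl.ne_zero⟩
  obtain ⟨O, -, t, hO, hv, -, htK, -, -, ht, ht', htb⟩ :=
    exists_tame K hl hζ hζK v hvl y hy0 hy b hb
  obtain ⟨g, hg⟩ := exists_conj (M := K) O O' hO hO' (by
    intro x
    rw [(mem_iff_of_center O hO v hv x).1, (mem_iff_of_center O' hO' v hv' x).1])
  let gF : E ≃ₐ[F] E := g.restrictScalars F
  have hgF : ∀ x, gF x ∈ O' ↔ x ∈ O := hg
  have hgi : ∀ x, gF⁻¹ x ∈ O ↔ x ∈ O' := by
    intro x
    rw [← hgF, ← AlgEquiv.mul_apply, mul_inv_cancel, AlgEquiv.one_apply]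
  have hnon : ∀ x, x ∈ O.nonunits → gF x ∈ O'.nonunits := by
    intro x hx
    rw [nonunits_iff] at hx ⊢
    rcases hx with hx | hx
    · left; rw [hx, map_zero]
    · right
      rw [← map_inv₀, hgF]
      exact hx
  have hgK : ∀ x ∈ K, gF x = x := fun x hx => g.commutes ⟨x, hx⟩
  have hgiK : ∀ x ∈ K, gF⁻¹ x = x := by
    intro x hx
    conv_lhs => rw [← hgK x hx]
    rw [← AlgEquiv.mul_apply, inv_mul_cancel, AlgEquiv.one_apply]
  refine ⟨gF * t * gF⁻¹, ?_, ?_, ?_, ?_⟩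
  · intro x hx
    rw [AlgEquiv.mul_apply, AlgEquiv.mul_apply, hgiK x hx, htK x hx, hgK x hx]
  · intro x
    rw [AlgEquiv.mul_apply, AlgEquiv.mul_apply, hgF, ht, hgi]
  · intro x hx
    have h1 := hnon _ (ht' (gF⁻¹ x) ((hgi x).2 hx))
    rw [pow_one, map_sub, ← AlgEquiv.mul_apply gF gF⁻¹, mul_inv_cancel, AlgEquiv.one_apply] at h1
    rw [pow_one, AlgEquiv.mul_apply, AlgEquiv.mul_apply]
    exact h1
  · intro h
    apply htb
    have hyE : (y : E) ≠ 0 := by simpa using hy0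
    have hb0 : b ≠ 0 := by
      rintro rfl
      rw [zero_pow hl.ne_zero] at hb
      exact hyE hb.symm
    have h1 : (gF⁻¹ b / b) ^ l = 1 := by
      rw [div_pow, ← map_pow, hb, hgiK _ y.2, div_self hyE]
    obtain ⟨i, -, hi⟩ := hζ.eq_pow_of_pow_eq_one h1
    have h2 : gF⁻¹ b = ζ ^ i * b := by rw [hi, div_mul_cancel₀ _ hb0]
    have hζ0 : ζ ≠ 0 := hζ.ne_zero hl.ne_zero
    have h3 : t (gF⁻¹ b) = gF⁻¹ b := by
      have h4 := congrArg (fun x => (gF⁻¹ : E ≃ₐ[F] E) x) h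
      rwa [AlgEquiv.mul_apply, AlgEquiv.mul_apply, ← AlgEquiv.mul_apply gF⁻¹ gF, inv_mul_cancel,
        AlgEquiv.one_apply] at h4
    rw [h2, map_mul, map_pow, htK _ hζK] at h3
    exact mul_left_cancel₀ (pow_ne_zero _ hζ0) h3

end

section LP2

variable {F₁ E₁ F₂ E₂ : Type*} [Field F₁] [NumberField F₁] [Field E₁] [Algebra F₁ E₁]
    [IsGalois F₁ E₁] [CharZero E₁] [Algebra.IsAlgebraic ℚ E₁]
    [Field F₂] [NumberField F₂] [Field E₂] [Algebra F₂ E₂] [IsGalois F₂ E₂]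
    [CharZero E₂] [Algebra.IsAlgebraic ℚ E₂]

theorem natCast_pow_notMem_nonunits {O : ValuationSubring E₁} {v : HeightOneSpectrum (𝓞 F₁)}
    (hv : IsCenter O v) {l : ℕ} (hvl : (l : 𝓞 F₁) ∉ v.asIdeal) (n : ℕ) :
    ((l ^ n : ℕ) : E₁) ∉ O.nonunits := by
  intro h
  have h1 : ((l ^ n : ℕ) : 𝓞 F₁) ∈ v.asIdeal := by
    rw [hv]
    simpa using h
  rw [Nat.cast_pow] at h1
  exact hvl (v.isPrime.mem_of_pow_mem n h1)

end LP2

end Vale.Agent.P024
end
end

section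

section

/-!
Homomorphisms that do not kill the `p`-part of inertia.
-/

namespace Vale.Agent.P024

open scoped NumberField ENNReal Topology
open IsDedekindDomain NumberField Filter

section Val

variable {E : Type*} [Field E] [CharZero E] [Algebra.IsAlgebraic ℚ E]

theorem exists_val_pow_eq (O : ValuationSubring E) (hO : O ≠ ⊤) (x y : E) (hx : x ≠ 0)
    (hy0 : y ≠ 0) (hy : O.valuation y ≠ 1) :
    ∃ d : ℕ, 0 < d ∧ ∃ c : ℤ, O.valuation (x ^ d) = O.valuation (y ^ c) := by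
  let N : IntermediateField ℚ E := IntermediateField.adjoin ℚ {x, y}
  have hfd : FiniteDimensional ℚ N :=
    IntermediateField.finiteDimensional_adjoin fun z _ =>
      (Algebra.IsAlgebraic.isAlgebraic (R := ℚ) z).isIntegral
  have hN : NumberField N := ⟨⟩
  let x' : N := ⟨x, IntermediateField.subset_adjoin ℚ _ (by simp)⟩
  let y' : N := ⟨y, IntermediateField.subset_adjoin ℚ _ (by simp)⟩
  obtain ⟨v, hv⟩ := exists_center (K := N) O hO
  have hmem := mem_iff_of_center O hO v hv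
  have hx'0 : x' ≠ 0 := by
    intro h
    exact hx (congrArg Subtype.val h)
  have hy'0 : y' ≠ 0 := by
    intro h
    exact hy0 (congrArg Subtype.val h)
  have hval : ∀ z : N, v.valuation N z = 1 → O.valuation (algebraMap N E z) = 1 := by
    intro z hz
    have hz0 : z ≠ 0 := by
      rintro rfl
      rw [map_zero] at hz
      exact zero_ne_one hz
    apply le_antisymm
    · rw [ValuationSubring.valuation_le_one_iff, (hmem z).1, hz]
    · rw [← not_lt]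
      intro h
      have h1 : algebraMap N E z ∈ O.nonunits := h
      rw [(hmem z).2, hz] at h1
      exact lt_irrefl _ h1
  have hvx : v.valuation N x' ≠ 0 := (Valuation.ne_zero_iff _).2 hx'0
  have hvy : v.valuation N y' ≠ 0 := (Valuation.ne_zero_iff _).2 hy'0
  set a := WithZero.log (v.valuation N x') with ha
  set b := WithZero.log (v.valuation N y') with hb
  have hxa : v.valuation N x' = WithZero.exp a := (WithZero.exp_log hvx).symm
  have hyb : v.valuation N y' = WithZero.exp b := (WithZero.exp_log hvy).symm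
  have hb0 : b ≠ 0 := by
    intro h
    apply hy
    refine hval y' ?_
    rw [hyb, h, WithZero.exp_zero]
  refine ⟨b.natAbs, Int.natAbs_pos.2 hb0, a * b.sign, ?_⟩
  have h1 : v.valuation N (x' ^ b.natAbs / y' ^ (a * b.sign)) = 1 := by
    rw [map_div₀, map_pow, map_zpow₀, hxa, hyb, ← WithZero.exp_nsmul, ← WithZero.exp_zsmul,
      ← WithZero.exp_sub, ← WithZero.exp_zero]
    congr 1
    rw [nsmul_eq_mul, zsmul_eq_mul, Int.natCast_natAbs, Int.cast_id]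
    rcases le_total 0 b with h | h
    · rcases h.lt_or_eq with h2 | h2
      · rw [abs_of_pos h2, Int.sign_eq_one_of_pos h2]; ring
      · exact absurd h2.symm hb0
    · rcases h.lt_or_eq with h2 | h2
      · rw [abs_of_neg h2, Int.sign_eq_neg_one_of_neg h2]; ring
      · exact absurd h2 hb0
  have h2 := hval _ h1
  have h3 : algebraMap N E (x' ^ b.natAbs / y' ^ (a * b.sign)) =
      x ^ b.natAbs / y ^ (a * b.sign) := by
    rw [map_div₀, map_pow, map_zpow₀]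
    rfl
  rw [h3, map_div₀] at h2
  have h4 : O.valuation (y ^ (a * b.sign)) ≠ 0 :=
    (Valuation.ne_zero_iff _).2 (zpow_ne_zero _ hy0)
  exact (div_eq_one_iff_eq h4).1 h2

omit [CharZero E] [Algebra.IsAlgebraic ℚ E] in
theorem near_one_of_coprime {O : ValuationSubring E} {ω : E} {a b : ℕ} (hab : a.Coprime b)
    (ha : Near O (ω ^ a) 1) (hb : Near O (ω ^ b) 1) : ω - 1 ∈ O.nonunits := by
  rcases Nat.eq_zero_or_pos b with h0 | h0
  · subst h0
    rw [Nat.coprime_zero_right] at hab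
    subst hab
    have h1 := ha.2.2
    rwa [pow_one, div_one] at h1
  · rcases Nat.lt_or_ge 1 b with h1 | h1
    · obtain ⟨m, hm⟩ := Nat.exists_mul_mod_eq_one_of_coprime hab h1
      have h2 : a * m = b * (a * m / b) + 1 := by
        have := Nat.div_add_mod (a * m) b
        rw [hm.2] at this
        exact this.symm
      have h3 : Near O (ω ^ (a * m)) 1 := by
        have := ha.pow m
        rwa [one_pow, ← pow_mul] at this
      have h4 : Near O (ω ^ (b * (a * m / b))) 1 := by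
        have := hb.pow (a * m / b)
        rwa [one_pow, ← pow_mul] at this
      have h5 := h3.div h4
      rw [div_one] at h5
      have h6 : ω ^ (a * m) / ω ^ (b * (a * m / b)) = ω := by
        have h7 := h4.1
        rw [div_eq_iff h7]
        conv_lhs => rw [h2]
        rw [pow_succ, mul_comm]
      rw [h6] at h5
      have h8 := h5.2.2
      rwa [div_one] at h8
    · have h2 : b = 1 := by omega
      subst h2
      have h1 := hb.2.2
      rwa [pow_one, div_one] at h1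

end Val

section Hker

variable {F₁ E₁ F₂ E₂ : Type*} [Field F₁] [Field E₁] [Algebra F₁ E₁]
    [IsGalois F₁ E₁] [CharZero F₁] [CharZero E₁] [Algebra.IsAlgebraic ℚ E₁]
    [Field F₂] [Field E₂] [Algebra F₂ E₂] [IsGalois F₂ E₂]

theorem hker_of_alive (α : (E₁ ≃ₐ[F₁] E₁) →* (E₂ ≃ₐ[F₂] E₂)) (hα : Continuous α)
    {p : ℕ} (hp : p.Prime) (hpow₁ : ∀ x : E₁, ∃ y : E₁, y ^ p = x)
    (O : ValuationSubring E₁) (hO : O ≠ ⊤) (hpO : ∀ n : ℕ, ((p ^ n : ℕ) : E₁) ∉ O.nonunits)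
    (t : E₁ ≃ₐ[F₁] E₁) (ht : Stab O t) (ht1 : ActsPow O t 1) (htp : ProP p t) (hαt : α t ≠ 1)
    (θ : E₁) (hθ0 : θ ≠ 0) (hθv : O.valuation θ ≠ 1) (hθt : t (θ ^ p) = θ ^ p)
    (g : E₁ ≃ₐ[F₁] E₁) (hg : Stab O g) (hg1 : ActsPow O g 1) (hgθ : g (θ ^ p) = θ ^ p)
    (hαg : α g = 1) : g θ = θ := by
  by_contra hne
  have hfp : Fact p.Prime := ⟨hp⟩
  choose r hr using hpow₁
  let th : ℕ → E₁ := fun n => r^[n] θ
  have hth0 : th 0 = θ := rfl
  have hths : ∀ n, th (n + 1) ^ p = th n := by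
    intro n
    show (r^[n + 1] θ) ^ p = r^[n] θ
    rw [Function.iterate_succ_apply', hr]
  have hthn : ∀ n k, th (n + k) ^ (p ^ k) = th n := by
    intro n k
    induction k with
    | zero => simp
    | succ k ih =>
      rw [pow_succ', pow_mul, ← add_assoc, hths, ih]
  have hth00 : ∀ n, th n ≠ 0 := by
    intro n h
    have h1 := hthn 0 n
    rw [zero_add, h, zero_pow (pow_pos hp.pos n).ne', hth0] at h1
    exact hθ0 h1.symm
  have hthp : ∀ n, th n ^ (p ^ (n + 1)) = θ ^ p := by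
    intro n
    have h1 := hthn 0 n
    rw [zero_add] at h1
    rw [pow_succ, pow_mul, h1, hth0]
  have hfixroot : ∀ h : E₁ ≃ₐ[F₁] E₁, ActsPow O h 1 → ∀ (n : ℕ) (ξ : E₁), ξ ^ (p ^ n) = 1 →
      h ξ = ξ := by
    intro h hh n ξ hξ
    have := acts_on_root O h 1 hh (p ^ n) (hpO n) ξ hξ
    rwa [pow_one] at this
  -- for each `n` some `t * g ^ a` fixes `th n`
  have hex : ∀ n, ∃ a : ℕ, (t * g ^ a) (th n) = th n := by
    intro n
    set ζ := g (th n) / th n with hζ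
    have hζ1 : ζ ^ (p ^ (n + 1)) = 1 := by
      rw [hζ, div_pow, ← map_pow, hthp, hgθ, div_self (pow_ne_zero _ hθ0)]
    have hζ2 : ¬ ζ ^ (p ^ n) = 1 := by
      intro h
      apply hne
      have h1 := hthn 0 n
      rw [zero_add, hth0] at h1
      rw [hζ, div_pow, ← map_pow, h1, div_eq_one_iff_eq hθ0] at h
      exact h
    have hord : orderOf ζ = p ^ (n + 1) := orderOf_eq_prime_pow hζ2 hζ1
    have hprim : IsPrimitiveRoot ζ (p ^ (n + 1)) := hord ▸ IsPrimitiveRoot.orderOf ζ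
    have hnz : NeZero (p ^ (n + 1)) := ⟨(pow_pos hp.pos _).ne'⟩
    have ht2 : (t (th n) / th n) ^ (p ^ (n + 1)) = 1 := by
      rw [div_pow, ← map_pow, hthp, hθt, div_self (pow_ne_zero _ hθ0)]
    obtain ⟨e, he, he'⟩ := hprim.eq_pow_of_pow_eq_one ht2
    have htth : t (th n) = ζ ^ e * th n := by rw [he', div_mul_cancel₀ _ (hth00 n)]
    have hgth : g (th n) = ζ * th n := by rw [hζ, div_mul_cancel₀ _ (hth00 n)]
    have hgζ : g ζ = ζ := hfixroot g hg1 _ _ hζ1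
    have htζ : t ζ = ζ := hfixroot t ht1 _ _ hζ1
    have hgpow : ∀ a : ℕ, (g ^ a) (th n) = ζ ^ a * th n := by
      intro a
      induction a with
      | zero => simp
      | succ a ih =>
        rw [pow_succ', AlgEquiv.mul_apply, ih, map_mul, map_pow, hgζ, hgth, pow_succ]
        ring
    refine ⟨p ^ (n + 1) - e, ?_⟩
    rw [AlgEquiv.mul_apply, hgpow, map_mul, map_pow, htζ, htth, ← mul_assoc, ← pow_add,
      Nat.sub_add_cancel he.le, hζ1, one_mul]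
  choose a ha using hex
  have ha' : ∀ k n, k ≤ n → (t * g ^ (a n)) (th k) = th k := by
    intro k n hkn
    obtain ⟨i, rfl⟩ := Nat.exists_eq_add_of_le hkn
    rw [← hthn k i, map_pow, ha]
  obtain ⟨h, hh⟩ := exists_clusterPt_of_compactSpace (Filter.map (fun n => t * g ^ (a n)) atTop)
  have hmem : ∀ C : Set (E₁ ≃ₐ[F₁] E₁), IsClosed C → (∀ᶠ n in atTop, t * g ^ (a n) ∈ C) →
      h ∈ C := by
    intro C hC hev
    refine (isClosed_iff_clusterPt.1 hC) h (hh.mono ?_)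
    rw [le_principal_iff, mem_map]
    exact hev
  have hh1 : Stab O h := by
    intro x
    exact hmem {h | h x ∈ O ↔ x ∈ O} (isClosed_apply x (fun y => y ∈ O ↔ x ∈ O))
      (Eventually.of_forall fun n => (ht.mul (hg.pow (a n))) x)
  have hh2 : ActsPow O h 1 := by
    intro x hx
    refine hmem {h | h x - x ^ 1 ∈ O.nonunits} (isClosed_apply x (fun y => y - x ^ 1 ∈ O.nonunits))
      (Eventually.of_forall fun n => ?_)
    have h1 : ActsPow O (g ^ (a n)) (1 ^ (a n)) := ActsPow.pow hg hg1 (a n)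
    rw [one_pow] at h1
    have h2 := ActsPow.mul ht (hg.pow (a n)) ht1 h1
    rw [one_mul] at h2
    exact h2 x hx
  have hh3 : α h = α t := by
    refine hmem {h | α h = α t} (isClosed_singleton.preimage hα) (Eventually.of_forall fun n => ?_)
    show α (t * g ^ (a n)) = α t
    rw [map_mul, map_pow, hαg, one_pow, mul_one]
  have hh4 : ∀ k, h (th k) = th k := by
    intro k
    refine hmem {h | h (th k) = th k} (isClosed_apply _ (fun y => y = th k)) ?_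
    filter_upwards [eventually_ge_atTop k] with n hn
    exact ha' k n hn
  -- `h` is trivial in the `p`-part of the tame quotient
  have hT : TameTriv O p h := by
    intro x hx hxp
    obtain ⟨d, hd, c, hc⟩ := exists_val_pow_eq O hO x θ hx hθ0 hθv
    obtain ⟨k, m, hm, rfl⟩ := Nat.exists_eq_pow_mul_and_not_dvd hd.ne' p hp.ne_one
    have hthk : th k ^ (p ^ k) = θ := by
      have := hthn 0 k
      rwa [zero_add, hth0] at this
    have h1 : O.valuation (x ^ m) = O.valuation (th k ^ c) := by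
      have h2 : O.valuation (x ^ m) ^ (p ^ k) = O.valuation (th k ^ c) ^ (p ^ k) := by
        rw [← map_pow, ← map_pow, ← pow_mul, mul_comm m, hc, ← zpow_natCast, ← zpow_mul,
          mul_comm c, zpow_mul, zpow_natCast, hthk]
      exact (pow_left_inj₀ zero_le zero_le (pow_pos hp.pos k).ne').1 h2
    have h2 := theta_indep hh2 (pow_ne_zero m hx) (zpow_ne_zero c (hth00 k)) h1
    rw [map_zpow₀, hh4, div_self (zpow_ne_zero c (hth00 k)), map_pow, ← div_pow] at h2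
    have hω0 : h x / x ≠ 0 := div_ne_zero (by simpa using hx) hx
    refine near_one_of_coprime ((Nat.Prime.coprime_iff_not_dvd hp).2 hm).symm h2 ?_
    exact ⟨pow_ne_zero _ hω0, one_ne_zero, by rwa [div_one]⟩
  apply hαt
  ext b
  rw [AlgEquiv.one_apply]
  obtain ⟨n, hn⟩ := htp.image hα b
  rw [← hh3] at hn ⊢
  exact tameTriv_image hα h hh1 hh2 hT n (hpO n) b hn

end Hker

section Alive

variable {F₁ E₁ F₂ E₂ : Type*} [Field F₁] [NumberField F₁] [Field E₁] [Algebra F₁ E₁]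
    [IsGalois F₁ E₁] [CharZero E₁] [Algebra.IsAlgebraic ℚ E₁]
    [Field F₂] [NumberField F₂] [Field E₂] [Algebra F₂ E₂] [IsGalois F₂ E₂]
    [CharZero E₂] [Algebra.IsAlgebraic ℚ E₂]

/-- `α` does not kill the pro-`p` elements of the inertia group of `O`. -/
def AliveAt {F₁ E₁ F₂ E₂ : Type*} [Field F₁] [Field E₁] [Algebra F₁ E₁] [Field F₂] [Field E₂]
    [Algebra F₂ E₂] (α : (E₁ ≃ₐ[F₁] E₁) →* (E₂ ≃ₐ[F₂] E₂)) (p : ℕ) (O : ValuationSubring E₁) :
    Prop :=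
  ∃ t : E₁ ≃ₐ[F₁] E₁, Stab O t ∧ ActsPow O t 1 ∧ ProP p t ∧ α t ≠ 1

omit [NumberField F₂] [IsGalois F₂ E₂] [CharZero E₂] [Algebra.IsAlgebraic ℚ E₂] in
theorem AliveAt.of_center {α : (E₁ ≃ₐ[F₁] E₁) →* (E₂ ≃ₐ[F₂] E₂)} {p : ℕ}
    {O O' : ValuationSubring E₁} (h : AliveAt α p O) (hO : O ≠ ⊤) (hO' : O' ≠ ⊤)
    {v : HeightOneSpectrum (𝓞 F₁)} (hv : IsCenter O v) (hv' : IsCenter O' v) :
    AliveAt α p O' := by
  obtain ⟨t, ht, ht1, htp, hαt⟩ := h
  obtain ⟨g, hg⟩ := exists_conj (M := F₁) O O' hO hO' (by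
    intro x
    rw [(mem_iff_of_center O hO v hv x).1, (mem_iff_of_center O' hO' v hv' x).1])
  have hgi : ∀ x, g⁻¹ x ∈ O ↔ x ∈ O' := by
    intro x
    rw [← hg, ← AlgEquiv.mul_apply, mul_inv_cancel, AlgEquiv.one_apply]
  have hnon : ∀ x, x ∈ O.nonunits → g x ∈ O'.nonunits := by
    intro x hx
    rw [nonunits_iff] at hx ⊢
    rcases hx with hx | hx
    · left; rw [hx, map_zero]
    · right
      rw [← map_inv₀, hg]
      exact hx
  refine ⟨g * t * g⁻¹, ?_, ?_, htp.conj g, ?_⟩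
  · intro x
    rw [AlgEquiv.mul_apply, AlgEquiv.mul_apply, hg, ht, hgi]
  · intro x hx
    have h1 := hnon _ (ht1 (g⁻¹ x) ((hgi x).2 hx))
    rw [pow_one, map_sub, ← AlgEquiv.mul_apply g g⁻¹, mul_inv_cancel, AlgEquiv.one_apply] at h1
    rw [pow_one, AlgEquiv.mul_apply, AlgEquiv.mul_apply]
    exact h1
  · intro h1
    apply hαt
    rw [map_mul, map_mul, map_inv] at h1
    have h2 : (α g)⁻¹ * (α g * α t * (α g)⁻¹) * α g = α t := by group
    rw [← h2, h1]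
    group

theorem frob_of_alive (α : (E₁ ≃ₐ[F₁] E₁) →* (E₂ ≃ₐ[F₂] E₂)) (hα : Continuous α)
    {l : ℕ} (hl : l.Prime) (hl2 : l ≠ 2)
    (hpow₁ : ∀ x : E₁, ∃ y : E₁, y ^ l = x)
    (hpow₂ : ∀ x : E₂, ∃ y : E₂, y ^ l = x)
    (hroot₁ : ∀ n : ℕ, 0 < n → ∃ ξ : E₁, IsPrimitiveRoot ξ n)
    (hroot₂ : ∀ n : ℕ, 0 < n → ∃ ξ : E₂, IsPrimitiveRoot ξ n)
    (v : HeightOneSpectrum (𝓞 F₁)) (hvl : (l : 𝓞 F₁) ∉ v.asIdeal)
    (O : ValuationSubring E₁) (hO : O ≠ ⊤) (hv : IsCenter O v) (hA : AliveAt α l O)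
    (s : E₁ ≃ₐ[F₁] E₁) (hs : Stab O s) (hs' : ActsPow O s (Ideal.absNorm v.asIdeal)) :
    ∀ z : E₂, z ^ l = 1 → α s z = z ^ Ideal.absNorm v.asIdeal := by
  classical
  have hl0 := hl.pos
  have hnz : NeZero l := ⟨hl.ne_zero⟩
  have hlO := natCast_pow_notMem_nonunits hv hvl
  have hlO1 : (l : E₁) ∉ O.nonunits := by simpa using hlO 1
  obtain ⟨t₀, ht₀, ht₀1, ht₀p, hαt₀⟩ := hA
  obtain ⟨ζ₁, hζ₁⟩ := hroot₁ l hl0
  obtain ⟨ζ₂, hζ₂⟩ := hroot₂ l hl0
  -- the field of definition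
  let H : Subgroup (E₁ ≃ₐ[F₁] E₁) :=
    (MulAction.stabilizer (E₂ ≃ₐ[F₂] E₂) ζ₂).comap α ⊓ MulAction.stabilizer (E₁ ≃ₐ[F₁] E₁) ζ₁
  have hH : IsOpen (H : Set (E₁ ≃ₐ[F₁] E₁)) := by
    have h1 : IsOpen ((MulAction.stabilizer (E₂ ≃ₐ[F₂] E₂) ζ₂ : Subgroup (E₂ ≃ₐ[F₂] E₂)) :
      Set (E₂ ≃ₐ[F₂] E₂)) := stabilizer_isOpen_of_isIntegral (K := F₂) (L := E₂) ζ₂
    have h2 : IsOpen ((MulAction.stabilizer (E₁ ≃ₐ[F₁] E₁) ζ₁ : Subgroup (E₁ ≃ₐ[F₁] E₁)) :
      Set (E₁ ≃ₐ[F₁] E₁)) := stabilizer_isOpen_of_isIntegral (K := F₁) (L := E₁) ζ₁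
    exact (h1.preimage hα).inter h2
  have hHmem : ∀ g : E₁ ≃ₐ[F₁] E₁, g ∈ H ↔ α g ζ₂ = ζ₂ ∧ g ζ₁ = ζ₁ := fun g => Iff.rfl
  obtain ⟨hfd, hfix⟩ := finiteDimensional_fixedField H hH
  set K₁ := IntermediateField.fixedField H with hK₁
  have hNF : NumberField K₁ := NumberField.of_module_finite F₁ K₁
  have hHK : ∀ g : E₁ ≃ₐ[F₁] E₁, (∀ x ∈ K₁, g x = x) → g ∈ H := by
    intro g hg
    rw [← hfix, IntermediateField.mem_fixingSubgroup_iff]
    exact hg
  have hKH : ∀ g ∈ H, ∀ x ∈ K₁, g x = x := by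
    intro g hg x hx
    exact (IntermediateField.mem_fixedField_iff H x).1 hx g hg
  have hζK : ζ₁ ∈ K₁ := by
    rw [hK₁, IntermediateField.mem_fixedField_iff]
    intro g hg
    exact ((hHmem g).1 hg).2
  obtain ⟨v', hv'⟩ := exists_center (K := K₁) O hO
  obtain ⟨y, hy⟩ := v'.valuation_exists_uniformizer K₁
  have hy0 : y ≠ 0 := by
    rintro rfl
    rw [map_zero] at hy
    exact WithZero.exp_ne_zero hy.symm
  have hyd : ¬ DvdVal v' l y := by
    intro hd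
    have h11 := ((dvdVal_iff v' hl.ne_zero y).1 hd).2
    rw [hy, WithZero.log_exp] at h11
    have h12 : (l : ℤ) ∣ 1 := by
      rw [← dvd_neg]; exact h11
    have h13 : l ∣ 1 := by exact_mod_cast h12
    exact hl.one_lt.ne' (Nat.dvd_one.1 h13)
  obtain ⟨θ, hθ⟩ := hpow₁ (y : E₁)
  have hvl' : (l : 𝓞 K₁) ∉ v'.asIdeal := by
    rw [hv']
    simpa using hlO1
  have hfixζ₁ : ∀ g : E₁ ≃ₐ[F₁] E₁, ActsPow O g 1 → g ζ₁ = ζ₁ := by
    intro g hg
    have := acts_on_root O g 1 hg l hlO1 ζ₁ hζ₁.pow_eq_one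
    rwa [pow_one] at this
  have hfixζ : ∀ g ∈ inertia O α l, g ∈ H := by
    intro g hg
    rw [hHmem]
    exact ⟨hg.2.2 ζ₂ hζ₂.pow_eq_one, hfixζ₁ g hg.2.1⟩
  have ht₀H : t₀ ∈ H := by
    rw [hHmem]
    exact ⟨(ht₀p.image hα).root hl hζ₂, hfixζ₁ t₀ ht₀1⟩
  obtain ⟨t, htK, ht, ht', htθ⟩ := exists_tame_at K₁ hl hζ₁ hζK v' hvl' y hy0 hyd θ hθ O hO hv'
  have hθ0 : θ ≠ 0 := by
    rintro rfl
    rw [zero_pow hl.ne_zero] at hθ
    exact hy0 (by simpa using hθ.symm)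
  have htI : t ∈ inertia O α l := by
    refine ⟨ht, ht', ?_⟩
    intro z hz
    have h1 := ((hHmem t).1 (hHK t htK)).1
    obtain ⟨i, -, rfl⟩ := hζ₂.eq_pow_of_pow_eq_one hz
    rw [map_pow, h1]
  have hθv : O.valuation θ ≠ 1 := by
    intro h
    have h1 : algebraMap K₁ E₁ y ∈ O.nonunits := by
      rw [(mem_iff_of_center O hO v' hv' y).2, hy, ← WithZero.exp_zero, WithZero.exp_lt_exp]
      norm_num
    have h2 : O.valuation (θ ^ l) < 1 := by
      rw [hθ]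
      exact h1
    rw [map_pow, h, one_pow] at h2
    exact lt_irrefl _ h2
  refine frob_acts α hα hl hl2 hpow₂ hroot₁ hroot₂ O hlO θ ?_ ?_ t htI htθ s hs _ hs'
    (one_lt_absNorm v)
  · intro g hg
    rw [hθ]
    exact hKH g (hfixζ g hg) _ y.2
  · intro g hg hg1
    exact hker_of_alive α hα hl hpow₁ O hO hlO t₀ ht₀ ht₀1 ht₀p hαt₀ θ hθ0 hθv
      (by rw [hθ]; exact hKH t₀ ht₀H _ y.2) g hg.1 hg.2.1
      (by rw [hθ]; exact hKH g (hfixζ g hg) _ y.2) hg1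

end Alive

end Vale.Agent.P024
end
end

section

section

/-!
The core steps of the main theorems with one-sided hypotheses for the primes in a set `Q`.
-/

namespace Vale.Agent.P024

open scoped NumberField
open IsDedekindDomain IntermediateField

section Level

variable {F₁ E₁ F₂ E₂ : Type*} [Field F₁] [NumberField F₁] [Field E₁]
    [Algebra F₁ E₁] [IsGalois F₁ E₁] [Field F₂] [NumberField F₂] [Field E₂] [Algebra F₂ E₂]
    [IsGalois F₂ E₂]

theorem core_ker_revQ (α : (E₁ ≃ₐ[F₁] E₁) →* (E₂ ≃ₐ[F₂] E₂)) (hα : Continuous α)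
    {l : ℕ} (hl : l.Prime) (hl2 : l ≠ 2)
    (hpow₁ : ∀ x : E₁, ∃ y : E₁, y ^ l = x) (hpow₂ : ∀ x : E₂, ∃ y : E₂, y ^ l = x)
    (hroot₁ : ∀ n : ℕ, 0 < n → ∃ z : E₁, IsPrimitiveRoot z n)
    (hroot₂ : ∀ n : ℕ, 0 < n → ∃ z : E₂, IsPrimitiveRoot z n)
    (hGK₁ : ∀ (K : IntermediateField F₁ E₁) [NumberField K], (∀ z : E₁, z ^ l = 1 → z ∈ K) →
      GaussKummer K l)
    (hGK₂ : ∀ (K : IntermediateField F₂ E₂) [NumberField K], (∀ z : E₂, z ^ l = 1 → z ∈ K) →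
      GaussKummer K l)
    (U : Subgroup (E₁ ≃ₐ[F₁] E₁)) (hU : IsOpen (U : Set (E₁ ≃ₐ[F₁] E₁)))
    (Q : Set ℕ) (hQ : MeetsSplit Q)
    (hker : ∀ g ∈ U, ∀ p a b : ℕ, p.Prime → p ∈ Q → l ∣ p - 1 →
      (∀ z : E₁, z ^ p = 1 → g z = z ^ a) → (∀ z : E₂, z ^ p = 1 → (α g) z = z ^ b) →
      b ^ ((p - 1) / l) ≡ 1 [MOD p] → a ^ ((p - 1) / l) ≡ 1 [MOD p])
    (L₂ : IntermediateField F₂ E₂) (hL₂ : FiniteDimensional F₂ L₂) :
    ∃ (K₁ : IntermediateField F₁ E₁) (j : L₂ →+* E₁), FiniteDimensional F₁ K₁ ∧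
        ∀ x : L₂, KMatch α l K₁ (x : E₂) (j x) := by
  have : CharZero E₁ := charZero_of_injective_algebraMap (algebraMap F₁ E₁).injective
  have : CharZero E₂ := charZero_of_injective_algebraMap (algebraMap F₂ E₂).injective
  have : Algebra.IsAlgebraic ℚ E₁ := Algebra.IsAlgebraic.trans ℚ F₁ E₁
  have : Algebra.IsAlgebraic ℚ E₂ := Algebra.IsAlgebraic.trans ℚ F₂ E₂
  obtain ⟨K₁, K₂, hK₁, hK₂, hLK, hKU, hαK, hμ₁, hμ₂⟩ :=
    exists_level_U α hα hl hroot₁ hroot₂ U hU L₂ hL₂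
  have : NumberField K₁ := NumberField.of_module_finite F₁ K₁
  have : NumberField K₂ := NumberField.of_module_finite F₂ K₂
  obtain ⟨ζ₁, hζ₁⟩ := hroot₁ l hl.pos
  obtain ⟨ζ₂, hζ₂⟩ := hroot₂ l hl.pos
  have hl₁ : ∀ z : E₁, z ^ l = 1 → z ∈ K₁ := fun z hz =>
    hμ₁ z (by rw [pow_two, pow_mul, hz, one_pow])
  have hl₂ : ∀ z : E₂, z ^ l = 1 → z ∈ K₂ := fun z hz =>
    hμ₂ z (by rw [pow_two, pow_mul, hz, one_pow])
  have hζ₁K : ζ₁ ∈ K₁ := hl₁ ζ₁ hζ₁.pow_eq_one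
  have hζ₂K : ζ₂ ∈ K₂ := hl₂ ζ₂ hζ₂.pow_eq_one
  have hz₁ : IsPrimitiveRoot (⟨ζ₁, hζ₁K⟩ : K₁) l :=
    IsPrimitiveRoot.of_map_of_injective (f := algebraMap K₁ E₁) hζ₁ (algebraMap K₁ E₁).injective
  have hz₂ : IsPrimitiveRoot (⟨ζ₂, hζ₂K⟩ : K₂) l :=
    IsPrimitiveRoot.of_map_of_injective (f := algebraMap K₂ E₂) hζ₂ (algebraMap K₂ E₂).injective
  obtain ⟨ξ, hξ⟩ := hroot₁ (l ^ 2) (pow_pos hl.pos 2)
  obtain ⟨ξ', hξ'⟩ := hroot₂ (l ^ 2) (pow_pos hl.pos 2)
  obtain ⟨κ, S, hκ, hsym⟩ := transfer_sym_rev_kerQ α hα K₁ K₂ hαK hl hl2 hpow₁ hpow₂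
    hroot₁ hroot₂ ⟨ζ₁, hζ₁K⟩ hz₁ ⟨ζ₂, hζ₂K⟩ hz₂ ⟨ξ, hμ₁ ξ hξ.pow_eq_one, hξ⟩
    ⟨ξ', hμ₂ ξ' hξ'.pow_eq_one, hξ'⟩ Q
    (by
      intro p hp hpB hlp ξ₁ ξ₂ h1 h2 g hg a b ha hb
      have : NeZero p := ⟨hp.ne_zero⟩
      refine hker g (hKU g hg) p a b hp hpB hlp ?_ ?_
      · intro z hz
        obtain ⟨i, _, rfl⟩ := h1.eq_pow_of_pow_eq_one hz
        rw [map_pow, ha, ← pow_mul, ← pow_mul, mul_comm]
      · intro z hz
        obtain ⟨i, _, rfl⟩ := h2.eq_pow_of_pow_eq_one hz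
        rw [map_pow, hb, ← pow_mul, ← pow_mul, mul_comm])
    (hGK₁ K₁ hl₁) (hGK₂ K₂ hl₂)
  obtain ⟨j, c, T, hc, hT⟩ := global_step_rev_dens hl hz₁ hz₂ κ hκ.ne_zero Q hQ S hsym
  obtain ⟨N₁, hN₁, hmatch⟩ := match_of_kappa α hl hpow₁ K₁ K₂ hζ₁ hζ₁K hζ₂ hαK κ
    (fun x hx X hX b hb g hg e he => hκ.spec x hx X b hX hb g hg e he) j c hc T hT
  refine ⟨N₁, (algebraMap K₁ E₁).comp (j.comp (IntermediateField.inclusion hLK).toRingHom), hN₁, ?_⟩
  intro x
  exact hmatch (IntermediateField.inclusion hLK x)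

theorem core_ker_openQ (α : (E₁ ≃ₐ[F₁] E₁) →* (E₂ ≃ₐ[F₂] E₂)) (hα : Continuous α)
    (hopen : IsOpen (Set.range α))
    {l : ℕ} (hl : l.Prime) (hl2 : l ≠ 2)
    (hpow₁ : ∀ x : E₁, ∃ y : E₁, y ^ l = x) (hpow₂ : ∀ x : E₂, ∃ y : E₂, y ^ l = x)
    (hroot₁ : ∀ n : ℕ, 0 < n → ∃ z : E₁, IsPrimitiveRoot z n)
    (hroot₂ : ∀ n : ℕ, 0 < n → ∃ z : E₂, IsPrimitiveRoot z n)
    (hGK₂ : ∀ (K : IntermediateField F₂ E₂) [NumberField K], (∀ z : E₂, z ^ l = 1 → z ∈ K) →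
      GaussKummer K l)
    (U : Subgroup (E₁ ≃ₐ[F₁] E₁)) (hU : IsOpen (U : Set (E₁ ≃ₐ[F₁] E₁)))
    (Q : Set ℕ) (hQ : MeetsSplit Q)
    (hker : ∀ g ∈ U, ∀ p a b : ℕ, p.Prime → p ∈ Q → l ∣ p - 1 →
      (∀ z : E₁, z ^ p = 1 → g z = z ^ a) → (∀ z : E₂, z ^ p = 1 → (α g) z = z ^ b) →
      a ^ ((p - 1) / l) ≡ 1 [MOD p] → b ^ ((p - 1) / l) ≡ 1 [MOD p])
    (L₂ : IntermediateField F₂ E₂) (hL₂ : FiniteDimensional F₂ L₂) :
    ∃ (K₁ : IntermediateField F₁ E₁) (j : L₂ →+* E₁), FiniteDimensional F₁ K₁ ∧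
        ∀ x : L₂, KMatch α l K₁ (x : E₂) (j x) := by
  have : CharZero E₁ := charZero_of_injective_algebraMap (algebraMap F₁ E₁).injective
  have : CharZero E₂ := charZero_of_injective_algebraMap (algebraMap F₂ E₂).injective
  have : Algebra.IsAlgebraic ℚ E₁ := Algebra.IsAlgebraic.trans ℚ F₁ E₁
  have : Algebra.IsAlgebraic ℚ E₂ := Algebra.IsAlgebraic.trans ℚ F₂ E₂
  obtain ⟨K₁, K₂, hK₁, hK₂, hLK, hKU, hαK, hμ₁, hμ₂⟩ :=
    exists_level_U α hα hl hroot₁ hroot₂ U hU L₂ hL₂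
  have : NumberField K₁ := NumberField.of_module_finite F₁ K₁
  have : NumberField K₂ := NumberField.of_module_finite F₂ K₂
  obtain ⟨ζ₁, hζ₁⟩ := hroot₁ l hl.pos
  obtain ⟨ζ₂, hζ₂⟩ := hroot₂ l hl.pos
  have hl₁ : ∀ z : E₁, z ^ l = 1 → z ∈ K₁ := fun z hz =>
    hμ₁ z (by rw [pow_two, pow_mul, hz, one_pow])
  have hl₂ : ∀ z : E₂, z ^ l = 1 → z ∈ K₂ := fun z hz =>
    hμ₂ z (by rw [pow_two, pow_mul, hz, one_pow])
  have hζ₁K : ζ₁ ∈ K₁ := hl₁ ζ₁ hζ₁.pow_eq_one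
  have hζ₂K : ζ₂ ∈ K₂ := hl₂ ζ₂ hζ₂.pow_eq_one
  have hz₁ : IsPrimitiveRoot (⟨ζ₁, hζ₁K⟩ : K₁) l :=
    IsPrimitiveRoot.of_map_of_injective (f := algebraMap K₁ E₁) hζ₁ (algebraMap K₁ E₁).injective
  have hz₂ : IsPrimitiveRoot (⟨ζ₂, hζ₂K⟩ : K₂) l :=
    IsPrimitiveRoot.of_map_of_injective (f := algebraMap K₂ E₂) hζ₂ (algebraMap K₂ E₂).injective
  obtain ⟨ξ, hξ⟩ := hroot₁ (l ^ 2) (pow_pos hl.pos 2)
  obtain ⟨ξ', hξ'⟩ := hroot₂ (l ^ 2) (pow_pos hl.pos 2)
  obtain ⟨κ, S, hκ, hsym⟩ := transfer_sym_kerQ α hα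
    (fun V hV => isOpen_map_of_isOpen_range α hα hopen V hV) K₁ K₂ hαK hl hl2 hpow₁ hpow₂
    hroot₁ hroot₂ ⟨ζ₁, hζ₁K⟩ hz₁ ⟨ζ₂, hζ₂K⟩ hz₂ ⟨ξ, hμ₁ ξ hξ.pow_eq_one, hξ⟩
    ⟨ξ', hμ₂ ξ' hξ'.pow_eq_one, hξ'⟩ Q
    (by
      intro p hp hpB hlp ξ₁ ξ₂ h1 h2 g hg a b ha hb
      have : NeZero p := ⟨hp.ne_zero⟩
      refine hker g (hKU g hg) p a b hp hpB hlp ?_ ?_
      · intro z hz
        obtain ⟨i, _, rfl⟩ := h1.eq_pow_of_pow_eq_one hz
        rw [map_pow, ha, ← pow_mul, ← pow_mul, mul_comm]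
      · intro z hz
        obtain ⟨i, _, rfl⟩ := h2.eq_pow_of_pow_eq_one hz
        rw [map_pow, hb, ← pow_mul, ← pow_mul, mul_comm])
    (hGK₂ K₂ hl₂)
  obtain ⟨j, c, T, hc, hT⟩ := global_step_dens hl hz₁ hz₂ κ hκ.ne_zero Q hQ S hsym
  obtain ⟨N₁, hN₁, hmatch⟩ := match_of_kappa α hl hpow₁ K₁ K₂ hζ₁ hζ₁K hζ₂ hαK κ
    (fun x hx X hX b hb g hg e he => hκ.spec x hx X b hX hb g hg e he) j c hc T hT
  refine ⟨N₁, (algebraMap K₁ E₁).comp (j.comp (IntermediateField.inclusion hLK).toRingHom), hN₁, ?_⟩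
  intro x
  exact hmatch (IntermediateField.inclusion hLK x)

end Level

end Vale.Agent.P024
end
end

section

section

/-!
The main theorems with one-sided hypotheses for the primes in a set of positive upper density.
-/

namespace Vale.Agent.P024

/-- Main theorem A: any continuous homomorphism, one odd prime `l`, one open subgroup `U`, and the
primes `p ≡ 1 mod l` in a set `Q` meeting the set of primes which split completely in any given
number field in a set of positive upper density. -/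
theorem induced_of_kerQ_A {F₁ E₁ F₂ E₂ : Type*} [Field F₁] [NumberField F₁] [Field E₁]
    [Algebra F₁ E₁] [IsGalois F₁ E₁] [Field F₂] [NumberField F₂] [Field E₂] [Algebra F₂ E₂]
    [IsGalois F₂ E₂] (hE₁ : SolvablyClosed E₁) (hE₂ : SolvablyClosed E₂)
    (α : (E₁ ≃ₐ[F₁] E₁) →* (E₂ ≃ₐ[F₂] E₂)) (hα : Continuous α)
    {l : ℕ} (hl : l.Prime) (hl2 : l ≠ 2)
    (U : Subgroup (E₁ ≃ₐ[F₁] E₁)) (hU : IsOpen (U : Set (E₁ ≃ₐ[F₁] E₁)))
    (Q : Set ℕ) (hQ : MeetsSplit Q)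
    (hker : ∀ g ∈ U, ∀ p a b : ℕ, p.Prime → p ∈ Q → l ∣ p - 1 →
      (∀ z : E₁, z ^ p = 1 → g z = z ^ a) → (∀ z : E₂, z ^ p = 1 → (α g) z = z ^ b) →
      b ^ ((p - 1) / l) ≡ 1 [MOD p] → a ^ ((p - 1) / l) ≡ 1 [MOD p]) :
    ∃ j : E₂ →+* E₁, ∀ (g : E₁ ≃ₐ[F₁] E₁) (x : E₂), g (j x) = j ((α g) x) := by
  have : CharZero E₁ := charZero_of_injective_algebraMap (algebraMap F₁ E₁).injective
  have : CharZero E₂ := charZero_of_injective_algebraMap (algebraMap F₂ E₂).injective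
  obtain ⟨ζ₁, hζ₁⟩ := hE₁.exists_primitiveRoot l hl.pos
  obtain ⟨ζ₂, hζ₂⟩ := hE₂.exists_primitiveRoot l hl.pos
  exact glue396 hl (hE₁.exists_root l hl.pos) (hE₂.exists_root l hl.pos) hζ₁
    (fun K₂ hK₂ => core_ker_revQ α hα hl hl2 (hE₁.exists_root l hl.pos)
      (hE₂.exists_root l hl.pos) hE₁.exists_primitiveRoot hE₂.exists_primitiveRoot
      (fun K _ hK => gaussKummer_of_mem hl hζ₁ K hK)
      (fun K _ hK => gaussKummer_of_mem hl hζ₂ K hK) U hU Q hQ hker K₂ hK₂)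

/-- Main theorem B: continuous homomorphisms with open image, with the reverse implication. -/
theorem induced_of_kerQ_B {F₁ E₁ F₂ E₂ : Type*} [Field F₁] [NumberField F₁] [Field E₁]
    [Algebra F₁ E₁] [IsGalois F₁ E₁] [Field F₂] [NumberField F₂] [Field E₂] [Algebra F₂ E₂]
    [IsGalois F₂ E₂] (hE₁ : SolvablyClosed E₁) (hE₂ : SolvablyClosed E₂)
    (α : (E₁ ≃ₐ[F₁] E₁) →* (E₂ ≃ₐ[F₂] E₂)) (hα : Continuous α)
    (hopen : IsOpen (Set.range α)) {l : ℕ} (hl : l.Prime) (hl2 : l ≠ 2)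
    (U : Subgroup (E₁ ≃ₐ[F₁] E₁)) (hU : IsOpen (U : Set (E₁ ≃ₐ[F₁] E₁)))
    (Q : Set ℕ) (hQ : MeetsSplit Q)
    (hker : ∀ g ∈ U, ∀ p a b : ℕ, p.Prime → p ∈ Q → l ∣ p - 1 →
      (∀ z : E₁, z ^ p = 1 → g z = z ^ a) → (∀ z : E₂, z ^ p = 1 → (α g) z = z ^ b) →
      a ^ ((p - 1) / l) ≡ 1 [MOD p] → b ^ ((p - 1) / l) ≡ 1 [MOD p]) :
    ∃ j : E₂ →+* E₁, ∀ (g : E₁ ≃ₐ[F₁] E₁) (x : E₂), g (j x) = j ((α g) x) := by
  have : CharZero E₁ := charZero_of_injective_algebraMap (algebraMap F₁ E₁).injective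
  have : CharZero E₂ := charZero_of_injective_algebraMap (algebraMap F₂ E₂).injective
  obtain ⟨ζ₁, hζ₁⟩ := hE₁.exists_primitiveRoot l hl.pos
  obtain ⟨ζ₂, hζ₂⟩ := hE₂.exists_primitiveRoot l hl.pos
  exact glue396 hl (hE₁.exists_root l hl.pos) (hE₂.exists_root l hl.pos) hζ₁
    (fun K₂ hK₂ => core_ker_openQ α hα hopen hl hl2 (hE₁.exists_root l hl.pos)
      (hE₂.exists_root l hl.pos) hE₁.exists_primitiveRoot hE₂.exists_primitiveRoot
      (fun K _ hK => gaussKummer_of_mem hl hζ₂ K hK) U hU Q hQ hker K₂ hK₂)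

end Vale.Agent.P024
end
end

section

section

/-!
The main theorems with `l`-th power residue conditions for the primes in a set of positive upper
density.
-/

namespace Vale.Agent.P024

open scoped NumberField Topology
open IsDedekindDomain Filter

section

variable {F₁ E₁ F₂ E₂ : Type*} [Field F₁] [NumberField F₁] [Field E₁]
    [Algebra F₁ E₁] [IsGalois F₁ E₁] [Field F₂] [NumberField F₂] [Field E₂] [Algebra F₂ E₂]
    [IsGalois F₂ E₂]

omit [NumberField F₁] [IsGalois F₁ E₁] in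
theorem exponent_coprime [CharZero E₁] (hE₁ : SolvablyClosed E₁) (g : E₁ ≃ₐ[F₁] E₁) {p a : ℕ}
    (hp : 0 < p) (ha : ∀ z : E₁, z ^ p = 1 → g z = z ^ a) : a.Coprime p := by
  obtain ⟨ξ₁, hξ₁⟩ := hE₁.exists_primitiveRoot p hp
  have h2 : IsPrimitiveRoot (g ξ₁) p := hξ₁.map_of_injective g.injective
  rw [ha ξ₁ hξ₁.pow_eq_one] at h2
  exact (hξ₁.pow_iff_coprime hp a).1 h2

theorem induced_of_residue_A (hE₁ : SolvablyClosed E₁) (hE₂ : SolvablyClosed E₂)
    (α : (E₁ ≃ₐ[F₁] E₁) →* (E₂ ≃ₐ[F₂] E₂)) (hα : Continuous α)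
    {l : ℕ} (hl : l.Prime) (hl2 : l ≠ 2)
    (U : Subgroup (E₁ ≃ₐ[F₁] E₁)) (hU : IsOpen (U : Set (E₁ ≃ₐ[F₁] E₁)))
    (Q : Set ℕ) (hQ : MeetsSplit Q)
    (h : ∀ g ∈ U, ∀ p : ℕ, p.Prime → p ∈ Q → p ≡ 1 [MOD l] → ∀ a b : ℕ,
      (∀ z : E₁, z ^ p = 1 → g z = z ^ a) → (∀ z : E₂, z ^ p = 1 → (α g) z = z ^ b) →
      (∃ c : ℕ, b ≡ c ^ l [MOD p]) → ∃ c : ℕ, a ≡ c ^ l [MOD p]) :
    ∃ j : E₂ →+* E₁, ∀ (g : E₁ ≃ₐ[F₁] E₁) (x : E₂), g (j x) = j ((α g) x) := by
  have : CharZero E₁ := charZero_of_injective_algebraMap (algebraMap F₁ E₁).injective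
  have : CharZero E₂ := charZero_of_injective_algebraMap (algebraMap F₂ E₂).injective
  refine induced_of_kerQ_A hE₁ hE₂ α hα hl hl2 U hU Q hQ ?_
  intro g hg p a b hp hpQ hlp ha hb hb1
  have hac : a.Coprime p := exponent_coprime hE₁ g hp.pos ha
  have hbc : b.Coprime p := exponent_coprime hE₂ (α g) hp.pos hb
  have hpl : p ≡ 1 [MOD l] := ((Nat.modEq_iff_dvd' hp.one_le).2 hlp).symm
  exact (exists_pow_modEq_iff hl hp hlp hac).1 (h g hg p hp hpQ hpl a b ha hb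
    ((exists_pow_modEq_iff hl hp hlp hbc).2 hb1))

/-- `l`-th power residue conditions from the action on the `p`-th roots of unity. -/
theorem induced_of_acts_A (hE₁ : SolvablyClosed E₁) (hE₂ : SolvablyClosed E₂)
    (α : (E₁ ≃ₐ[F₁] E₁) →* (E₂ ≃ₐ[F₂] E₂)) (hα : Continuous α)
    {l : ℕ} (hl : l.Prime) (hl2 : l ≠ 2)
    (U : Subgroup (E₁ ≃ₐ[F₁] E₁)) (hU : IsOpen (U : Set (E₁ ≃ₐ[F₁] E₁)))
    (Q : Set ℕ) (hQ : MeetsSplit Q)
    (h : ∀ g ∈ U, ∀ p ∈ Q, p.Prime → p ≡ 1 [MOD l] →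
      (∃ c : ℕ, ∀ z : E₂, z ^ p = 1 → (α g) z = z ^ c ^ l) →
      ∃ c : ℕ, ∀ z : E₁, z ^ p = 1 → g z = z ^ c ^ l) :
    ∃ j : E₂ →+* E₁, ∀ (g : E₁ ≃ₐ[F₁] E₁) (x : E₂), g (j x) = j ((α g) x) := by
  have : CharZero E₁ := charZero_of_injective_algebraMap (algebraMap F₁ E₁).injective
  refine induced_of_residue_A hE₁ hE₂ α hα hl hl2 U hU Q hQ ?_
  rintro g hg p hp hpQ hpl a b ha hb ⟨c, hc⟩
  obtain ⟨c', hc'⟩ := h g hg p hpQ hp hpl ⟨c, fun z hz => by
    rw [hb z hz, ← pow_mod_orderOf, ← pow_mod_orderOf z (c ^ l)]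
    congr 1
    exact hc.of_dvd (orderOf_dvd_of_pow_eq_one hz)⟩
  obtain ⟨ξ, hξ⟩ := hE₁.exists_primitiveRoot p hp.pos
  refine ⟨c', (pow_eq_pow_iff_modEq' hξ hp.pos).1 ?_⟩
  rw [← ha ξ hξ.pow_eq_one, ← hc' ξ hξ.pow_eq_one]

end

/-- the complement of a set of Dirichlet density zero; the whole set of primes -/
theorem norm_univ (Z : Type) [Field Z] [NumberField Z] : ∃ δ : ℝ, 0 < δ ∧
    ∃ᶠ s : ℝ in 𝓝[>] 1, δ * Real.log (1 / (s - 1)) ≤
      ∑' p : normPrimes Z Set.univ, ((p : ℕ) : ℝ) ^ (-s) := by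
  have h := frequently_norm_compl Z ∅ (by
    have h0 : {p : ℕ | p.Prime ∧ p ∈ (∅ : Set ℕ)} = ∅ := by ext p; simp
    rw [h0]
    simp)
  rwa [Set.compl_empty] at h

theorem normPrimes_eq (Z : Type*) [Field Z] [NumberField Z] (Q : Set ℕ) :
    normPrimes Z Q = {p : ℕ | p.Prime ∧ p ∈ Q ∧ Nonempty (𝓞 Z →+* ZMod p)} := by
  ext p
  constructor
  · rintro ⟨h1, h2, h3⟩
    exact ⟨h1, h2, (exists_absNorm_eq_iff Z h1).1 h3⟩
  · rintro ⟨h1, h2, h3⟩
    exact ⟨h1, h2, (exists_absNorm_eq_iff Z h1).2 h3⟩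

theorem meetsSplit_of_ringHom {Q : Set ℕ}
    (hQ : ∀ (Z : Type) [Field Z] [NumberField Z] [IsGalois ℚ Z], ∃ δ : ℝ, 0 < δ ∧
      ∃ᶠ s : ℝ in 𝓝[>] 1, δ * Real.log (1 / (s - 1)) ≤
        ∑' p : {p : ℕ | p.Prime ∧ p ∈ Q ∧ Nonempty (𝓞 Z →+* ZMod p)}, ((p : ℕ) : ℝ) ^ (-s)) :
    MeetsSplit Q := by
  intro Z _ _ _
  obtain ⟨δ, hδ, h⟩ := hQ Z
  refine meetsPrimes_of_norm Z Q hδ ?_
  rw [normPrimes_eq]
  exact h

theorem ringHom_univ (Z : Type) [Field Z] [NumberField Z] : ∃ δ : ℝ, 0 < δ ∧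
    ∃ᶠ s : ℝ in 𝓝[>] 1, δ * Real.log (1 / (s - 1)) ≤
      ∑' p : {p : ℕ | p.Prime ∧ p ∈ Set.univ ∧ Nonempty (𝓞 Z →+* ZMod p)},
        ((p : ℕ) : ℝ) ^ (-s) := by
  rw [← normPrimes_eq]
  exact norm_univ Z

theorem solvablyClosed_of_isAbelianGalois {E : Type*} [Field E]
    (h : ∀ M : IntermediateField E (AlgebraicClosure E), IsAbelianGalois E M → M = ⊥) :
    SolvablyClosed E := by
  intro M hM hcomm
  exact h M { hM with is_comm := ⟨hcomm⟩ }

section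

variable {F₁ E₁ F₂ E₂ : Type*} [Field F₁] [NumberField F₁] [Field E₁]
    [Algebra F₁ E₁] [IsGalois F₁ E₁] [Field F₂] [NumberField F₂] [Field E₂] [Algebra F₂ E₂]
    [IsGalois F₂ E₂]

theorem existsUnique_of_exists (hE₁ : SolvablyClosed E₁) (hE₂ : SolvablyClosed E₂)
    (α : (E₁ ≃ₐ[F₁] E₁) →* (E₂ ≃ₐ[F₂] E₂))
    (h : ∃ j : E₂ →+* E₁, ∀ (g : E₁ ≃ₐ[F₁] E₁) (x : E₂), g (j x) = j ((α g) x)) :
    ∃! j : E₂ →+* E₁, ∀ (g : E₁ ≃ₐ[F₁] E₁) (x : E₂), g (j x) = j ((α g) x) := by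
  have : CharZero E₁ := charZero_of_injective_algebraMap (algebraMap F₁ E₁).injective
  have : CharZero E₂ := charZero_of_injective_algebraMap (algebraMap F₂ E₂).injective
  obtain ⟨j, hj⟩ := h
  obtain ⟨ζ, hζ⟩ := hE₁.exists_primitiveRoot 3 (by norm_num)
  exact ⟨j, hj, fun j' hj' => unique_of_induces α Nat.prime_three
    (hE₁.exists_root 3 (by norm_num)) (hE₂.exists_root 3 (by norm_num)) hζ j' j hj' hj⟩

theorem acts_of_compatible (hE₁ : SolvablyClosed E₁) (hE₂ : SolvablyClosed E₂)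
    (α : (E₁ ≃ₐ[F₁] E₁) →* (E₂ ≃ₐ[F₂] E₂))
    (h : ∀ (g : E₁ ≃ₐ[F₁] E₁) (n k : ℕ), 0 < n → (∀ z : E₁, z ^ n = 1 → g z = z ^ k) →
      ∀ z : E₂, z ^ n = 1 → (α g) z = z ^ k)
    (g : E₁ ≃ₐ[F₁] E₁) {p : ℕ} (hp : 0 < p) {m : ℕ}
    (hc : ∀ z : E₂, z ^ p = 1 → (α g) z = z ^ m) (z : E₁) (hz : z ^ p = 1) : g z = z ^ m := by
  have : CharZero E₁ := charZero_of_injective_algebraMap (algebraMap F₁ E₁).injective
  have : CharZero E₂ := charZero_of_injective_algebraMap (algebraMap F₂ E₂).injective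
  have : NeZero p := ⟨hp.ne'⟩
  obtain ⟨ξ₁, hξ₁⟩ := hE₁.exists_primitiveRoot p hp
  obtain ⟨ξ₂, hξ₂⟩ := hE₂.exists_primitiveRoot p hp
  obtain ⟨a, -, ha⟩ := hξ₁.eq_pow_of_pow_eq_one (ξ := g ξ₁)
    (by rw [← map_pow, hξ₁.pow_eq_one, map_one])
  have ha' : ∀ z : E₁, z ^ p = 1 → g z = z ^ a := by
    intro z hz
    obtain ⟨i, -, rfl⟩ := hξ₁.eq_pow_of_pow_eq_one hz
    rw [map_pow, ← ha, ← pow_mul, ← pow_mul, mul_comm]
  have h1 := h g p a hp ha' ξ₂ hξ₂.pow_eq_one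
  rw [hc ξ₂ hξ₂.pow_eq_one] at h1
  have h2 := (pow_eq_pow_iff_modEq' hξ₂ hp).1 h1
  rw [ha' z hz, ← pow_mod_orderOf, ← pow_mod_orderOf z m]
  congr 1
  exact (h2.of_dvd (orderOf_dvd_of_pow_eq_one hz)).symm

end

end Vale.Agent.P024
end
end

section

section

/-!
Homomorphisms that do not kill the `p`-part of inertia at many primes.
-/

namespace Vale.Agent.P024

open scoped NumberField ENNReal Topology
open IsDedekindDomain NumberField Filter

section Conv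

variable (F : Type*) [Field F] [NumberField F]

theorem frequently_ofReal (G : Set (HeightOneSpectrum (𝓞 F))) {δ : ℝ} (hδ : 0 < δ)
    (h : ∃ᶠ s : ℝ in 𝓝[>] 1, δ * Real.log (1 / (s - 1)) ≤
      ∑' v : G, (Ideal.absNorm v.1.asIdeal : ℝ) ^ (-s)) :
    ∃ᶠ s : ℝ in 𝓝[>] 1, ENNReal.ofReal (δ * Real.log (1 / (s - 1))) ≤
      ∑' v : G, ENNReal.ofReal (nm F v.1 s) := by
  have h2 : ∀ᶠ s : ℝ in 𝓝[>] 1, (0 : ℝ) < Real.log (1 / (s - 1)) :=
    tendsto_log_one_div.eventually_gt_atTop _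
  refine (h.and_eventually h2).mono ?_
  rintro s ⟨hs, hs2⟩
  have hpos : 0 < δ * Real.log (1 / (s - 1)) := mul_pos hδ hs2
  have hsum : Summable fun v : G => (Ideal.absNorm v.1.asIdeal : ℝ) ^ (-s) := by
    by_contra hcon
    rw [tsum_eq_zero_of_not_summable hcon] at hs
    linarith
  refine (ENNReal.ofReal_le_ofReal hs).trans ?_
  rw [ENNReal.ofReal_tsum_of_nonneg (fun v => by positivity) hsum]
  exact le_of_eq rfl

theorem eventually_toReal (G : Set (HeightOneSpectrum (𝓞 F))) {δ : ℝ}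
    (h : ∀ᶠ s : ℝ in 𝓝[>] 1, ENNReal.ofReal (δ * Real.log (1 / (s - 1))) ≤
      ∑' v : G, ENNReal.ofReal (nm F v.1 s)) :
    ∀ᶠ s : ℝ in 𝓝[>] 1, δ * Real.log (1 / (s - 1)) ≤
      ∑' v : G, (Ideal.absNorm v.1.asIdeal : ℝ) ^ (-s) := by
  obtain ⟨C, hC⟩ := upper F
  filter_upwards [h, hC] with s hs hs2
  have hfin : ∑' v : G, ENNReal.ofReal (nm F v.1 s) ≠ ∞ := by
    refine ne_top_of_le_ne_top ENNReal.ofReal_ne_top (le_trans ?_ hs2)
    exact ENNReal.tsum_comp_le_tsum_of_injective Subtype.val_injective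
      (fun v : HeightOneSpectrum (𝓞 F) => ENNReal.ofReal (nm F v s))
  have hsum : Summable fun v : G => (Ideal.absNorm v.1.asIdeal : ℝ) ^ (-s) := by
    have h1 := ENNReal.summable_toReal hfin
    refine h1.congr fun v => ?_
    rw [ENNReal.toReal_ofReal (nm_nonneg _ _)]
    rfl
  have h3 : ENNReal.ofReal (∑' v : G, (Ideal.absNorm v.1.asIdeal : ℝ) ^ (-s)) =
      ∑' v : G, ENNReal.ofReal (nm F v.1 s) := by
    rw [ENNReal.ofReal_tsum_of_nonneg (fun v => by positivity) hsum]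
    exact rfl
  rw [← h3, ENNReal.ofReal_le_ofReal_iff (tsum_nonneg fun v => by positivity)] at hs
  exact hs

end Conv

section

variable {F₁ E₁ F₂ E₂ : Type*} [Field F₁] [NumberField F₁] [Field E₁] [Algebra F₁ E₁]
    [IsGalois F₁ E₁] [Field F₂] [NumberField F₂] [Field E₂] [Algebra F₂ E₂] [IsGalois F₂ E₂]

/-- The primes of `F₁`, prime to `p`, at which `α` does not kill the pro-`p` elements of
inertia. -/
def Alive (α : (E₁ ≃ₐ[F₁] E₁) →* (E₂ ≃ₐ[F₂] E₂)) (p : ℕ) : Set (HeightOneSpectrum (𝓞 F₁)) :=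
  {v | (p : 𝓞 F₁) ∉ v.asIdeal ∧ ∃ O : ValuationSubring E₁, O ≠ ⊤ ∧ IsCenter O v ∧ AliveAt α p O}

theorem exists_common_power (hE₁ : SolvablyClosed E₁) (hE₂ : SolvablyClosed E₂)
    (α : (E₁ ≃ₐ[F₁] E₁) →* (E₂ ≃ₐ[F₂] E₂)) (hα : Continuous α)
    {p : ℕ} (hp : p.Prime) (hp2 : p ≠ 2) {δ : ℝ}
    (hG : ∃ᶠ s : ℝ in 𝓝[>] 1, ENNReal.ofReal (δ * Real.log (1 / (s - 1))) ≤
      ∑' v : Alive α p, ENNReal.ofReal (nm F₁ v.1 s))
    (m : ℕ) (hm : 0 < m) (hδ : (1 : ℝ) / m < δ) (g : E₁ ≃ₐ[F₁] E₁) :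
    ∃ i : ℕ, 0 < i ∧ i < m ∧ ∃ n : ℕ, (∀ z : E₁, z ^ p = 1 → (g ^ i) z = z ^ n) ∧
      ∀ z : E₂, z ^ p = 1 → α (g ^ i) z = z ^ n := by
  have : CharZero E₁ := charZero_of_injective_algebraMap (algebraMap F₁ E₁).injective
  have : CharZero E₂ := charZero_of_injective_algebraMap (algebraMap F₂ E₂).injective
  have : Algebra.IsAlgebraic ℚ E₁ := Algebra.IsAlgebraic.trans ℚ F₁ E₁
  have : Algebra.IsAlgebraic ℚ E₂ := Algebra.IsAlgebraic.trans ℚ F₂ E₂
  obtain ⟨ζ₁, hζ₁⟩ := hE₁.exists_primitiveRoot p hp.pos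
  obtain ⟨ζ₂, hζ₂⟩ := hE₂.exists_primitiveRoot p hp.pos
  obtain ⟨W, hWo, hW⟩ := exists_agree α hα hp hζ₁ hζ₂
  by_contra hcon
  push Not at hcon
  have hcon' : ∀ i : ℕ, 0 < i → i < m → g ^ i ∉ W := by
    intro i hi him h
    obtain ⟨n, hn1, hn2⟩ := (hW _).1 h
    obtain ⟨z, hz, hz'⟩ := hcon i hi him n hn1
    exact hz' (hn2 z hz)
  have h1 := index_bound W hWo (Alive α p) δ hG ∅ Set.finite_empty ?_ m hm (fun i => g ^ (i : ℕ)) ?_
  · linarith
  · rintro v ⟨hv, O', hO', hv', hA⟩ - O hO hOv s hs hs'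
    rw [hW]
    have hlO := natCast_pow_notMem_nonunits hOv hv
    refine ⟨Ideal.absNorm v.asIdeal, ?_, ?_⟩
    · intro z hz
      exact acts_on_root O s _ hs' p (by simpa using hlO 1) z hz
    · exact frob_of_alive α hα hp hp2 (hE₁.exists_root p hp.pos) (hE₂.exists_root p hp.pos)
        hE₁.exists_primitiveRoot hE₂.exists_primitiveRoot v hv O hO hOv
        (hA.of_center hO' hO hv' hOv) s hs hs'
  · have key : ∀ i j : ℕ, j < m → i < j → g ^ j * (g ^ i)⁻¹ ∉ W := by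
      intro i j hj hij h
      apply hcon' (j - i) (by omega) (by omega)
      have h2 : g ^ j * (g ^ i)⁻¹ = g ^ (j - i) := by
        rw [mul_inv_eq_iff_eq_mul, ← pow_add]
        congr 1
        omega
      rwa [h2] at h
    intro i j hij h
    rcases lt_or_gt_of_ne hij with h1 | h1
    · exact key i j j.2 h1 h
    · apply key j i i.2 h1
      have h3 := inv_mem h
      simpa using h3

/-- If `α` does not kill the pro-`p` elements of the inertia groups of a set of primes of upper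
density at least `δ`, for all primes `p` outside a set of density zero, then it is induced. -/
theorem induced_of_alive (hE₁ : SolvablyClosed E₁) (hE₂ : SolvablyClosed E₂)
    (α : (E₁ ≃ₐ[F₁] E₁) →* (E₂ ≃ₐ[F₂] E₂)) (hα : Continuous α)
    (Q : Set ℕ) (hQ : MeetsSplit Q) {δ : ℝ} (hδ : 0 < δ)
    (h : ∀ p : ℕ, p.Prime → p ∈ Q → ∃ᶠ s : ℝ in 𝓝[>] 1, δ * Real.log (1 / (s - 1)) ≤
      ∑' v : Alive α p, (Ideal.absNorm v.1.asIdeal : ℝ) ^ (-s)) :
    ∃ j : E₂ →+* E₁, ∀ (g : E₁ ≃ₐ[F₁] E₁) (x : E₂), g (j x) = j ((α g) x) := by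
  have : CharZero E₁ := charZero_of_injective_algebraMap (algebraMap F₁ E₁).injective
  have : CharZero E₂ := charZero_of_injective_algebraMap (algebraMap F₂ E₂).injective
  obtain ⟨m, hm⟩ := exists_nat_one_div_lt hδ
  obtain ⟨l, hlm, hl⟩ := Nat.exists_infinite_primes (m + 3)
  have hl2 : l ≠ 2 := by omega
  have hlδ : (1 : ℝ) / l < δ := by
    refine lt_of_le_of_lt ?_ hm
    have h1 : ((m : ℝ) + 1) ≤ l := by
      have : m + 1 ≤ l := by omega
      exact_mod_cast this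
    exact one_div_le_one_div_of_le (by positivity) h1
  refine induced_of_kerQ_A hE₁ hE₂ α hα hl hl2 ⊤ isOpen_univ Q hQ ?_
  intro g _ p a b hp hpQ hlp ha hb hb1
  have hp2 : p ≠ 2 := by
    rintro rfl
    have := Nat.le_of_dvd (by norm_num) hlp
    omega
  obtain ⟨i, hi0, hil, n, hn1, hn2⟩ := exists_common_power hE₁ hE₂ α hα hp hp2
    (frequently_ofReal F₁ _ hδ (h p hp hpQ)) l hl.pos hlδ g
  obtain ⟨ζ₁, hζ₁⟩ := hE₁.exists_primitiveRoot p hp.pos
  obtain ⟨ζ₂, hζ₂⟩ := hE₂.exists_primitiveRoot p hp.pos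
  have h1 : a ^ i ≡ n [MOD p] := by
    rw [← pow_eq_pow_iff_modEq' hζ₁ hp.pos, ← hn1 ζ₁ hζ₁.pow_eq_one,
      pow_apply_root g (ha ζ₁ hζ₁.pow_eq_one) i]
  have h2 : b ^ i ≡ n [MOD p] := by
    rw [← pow_eq_pow_iff_modEq' hζ₂ hp.pos, ← hn2 ζ₂ hζ₂.pow_eq_one, map_pow,
      pow_apply_root (α g) (hb ζ₂ hζ₂.pow_eq_one) i]
  have hac : a.Coprime p := exponent_coprime hE₁ g hp.pos ha
  obtain ⟨M, hM⟩ := hlp
  have hMl : (p - 1) / l = M := by rw [hM, Nat.mul_div_cancel_left _ hl.pos]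
  rw [hMl] at hb1 ⊢
  have h3 : (a ^ M) ^ i ≡ 1 [MOD p] := by
    calc (a ^ M) ^ i = (a ^ i) ^ M := by ring
      _ ≡ (b ^ i) ^ M [MOD p] := (h1.trans h2.symm).pow M
      _ = (b ^ M) ^ i := by ring
      _ ≡ 1 ^ i [MOD p] := hb1.pow i
      _ = 1 := one_pow i
  have h4 : (a ^ M) ^ l ≡ 1 [MOD p] := by
    have h5 := Nat.ModEq.pow_totient hac
    rw [Nat.totient_prime hp, hM, mul_comm, pow_mul] at h5
    exact h5
  rw [← ZMod.natCast_eq_natCast_iff] at h3 h4 ⊢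
  push_cast at h3 h4 ⊢
  have h6 := pow_gcd_eq_one.2 ⟨h3, h4⟩
  have h7 : i.gcd l = 1 := ((Nat.Prime.coprime_iff_not_dvd hl).2 (fun h => by
    have := Nat.le_of_dvd hi0 h
    omega)).symm
  rwa [h7, pow_one] at h6

end

end Vale.Agent.P024
end
end

section

section

/-!
Open homomorphisms that do not kill the `p`-part of inertia at many primes with norm `1` mod `p`.
-/

namespace Vale.Agent.P024

open scoped NumberField ENNReal Topology
open IsDedekindDomain NumberField Filter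

section

variable {F E : Type*} [Field F] [NumberField F] [Field E] [Algebra F E] [IsGalois F E]

/-- the number of conjugates of a primitive `p`-th root of unity -/
theorem exists_conjugates {p : ℕ} (hp : p.Prime) {ζ : E} (hζ : IsPrimitiveRoot ζ p) :
    ∃ (D : ℕ) (h : Fin D → (E ≃ₐ[F] E)), p - 1 ≤ Module.finrank ℚ F * D ∧
      ∀ i j, i ≠ j → h i ζ ≠ h j ζ := by
  classical
  have : CharZero E := charZero_of_injective_algebraMap (algebraMap F E).injective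
  have hint : IsIntegral F ζ := Algebra.IsIntegral.isIntegral ζ
  have hfd : FiniteDimensional F (IntermediateField.adjoin F {ζ}) :=
    IntermediateField.adjoin.finiteDimensional hint
  set K := IntermediateField.adjoin F {ζ} with hK
  have hKN : NumberField K := NumberField.of_module_finite F K
  set D := (minpoly F ζ).natDegree with hD
  have hDK : Module.finrank F K = D := IntermediateField.adjoin.finrank hint
  have hcard : Fintype.card ((minpoly F ζ).rootSet E) = D :=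
    Polynomial.card_rootSet_eq_natDegree (Algebra.IsSeparable.isSeparable F ζ)
      (Normal.splits inferInstance ζ)
  let e : Fin D ≃ (minpoly F ζ).rootSet E := (Fintype.equivFinOfCardEq hcard).symm
  have hex : ∀ i : Fin D, ∃ h : E ≃ₐ[F] E, h ζ = e i := by
    intro i
    refine minpoly.exists_algEquiv_of_root' (Algebra.IsAlgebraic.isAlgebraic ζ) ?_
    exact (Polynomial.mem_rootSet.1 (e i).2).2
  choose h hh using hex
  refine ⟨D, h, ?_, ?_⟩
  · rw [← hDK, Module.finrank_mul_finrank ℚ F K]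
    let z : K := ⟨ζ, IntermediateField.mem_adjoin_simple_self F ζ⟩
    have hz : IsPrimitiveRoot z p :=
      IsPrimitiveRoot.of_map_of_injective (f := algebraMap K E) hζ (algebraMap K E).injective
    have h1 := minpoly.natDegree_le (A := ℚ) z
    rw [← Polynomial.cyclotomic_eq_minpoly_rat hz hp.pos, Polynomial.natDegree_cyclotomic,
      Nat.totient_prime hp] at h1
    exact h1
  · intro i j hij hcon
    rw [hh, hh] at hcon
    exact hij (e.injective (Subtype.ext hcon))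

end

section

variable {F₁ E₁ F₂ E₂ : Type*} [Field F₁] [NumberField F₁] [Field E₁] [Algebra F₁ E₁]
    [IsGalois F₁ E₁] [Field F₂] [NumberField F₂] [Field E₂] [Algebra F₂ E₂] [IsGalois F₂ E₂]

/-- The primes in `Alive α p` of norm `1` modulo `p`. -/
def AliveOne (α : (E₁ ≃ₐ[F₁] E₁) →* (E₂ ≃ₐ[F₂] E₂)) (p : ℕ) : Set (HeightOneSpectrum (𝓞 F₁)) :=
  {v | v ∈ Alive α p ∧ Ideal.absNorm v.asIdeal ≡ 1 [MOD p]}

theorem exists_open_power (hE₁ : SolvablyClosed E₁) (hE₂ : SolvablyClosed E₂)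
    (α : (E₁ ≃ₐ[F₁] E₁) →* (E₂ ≃ₐ[F₂] E₂)) (hα : Continuous α)
    {p : ℕ} (hp : p.Prime) (hp2 : p ≠ 2) {δ : ℝ} (hδ : 0 < δ)
    (hG : ∃ᶠ s : ℝ in 𝓝[>] 1, ENNReal.ofReal (δ / (p - 1) * Real.log (1 / (s - 1))) ≤
      ∑' v : AliveOne α p, ENNReal.ofReal (nm F₁ v.1 s))
    (m : ℕ) (hm : 0 < m) (hδm : (Module.finrank ℚ F₁ : ℝ) / m < δ) (g : E₁ ≃ₐ[F₁] E₁)
    (hg : ∀ z : E₁, z ^ p = 1 → g z = z) :
    ∃ i : ℕ, 0 < i ∧ i < m ∧ ∀ z : E₂, z ^ p = 1 → α (g ^ i) z = z := by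
  classical
  have : CharZero E₁ := charZero_of_injective_algebraMap (algebraMap F₁ E₁).injective
  have : CharZero E₂ := charZero_of_injective_algebraMap (algebraMap F₂ E₂).injective
  have : Algebra.IsAlgebraic ℚ E₁ := Algebra.IsAlgebraic.trans ℚ F₁ E₁
  have : Algebra.IsAlgebraic ℚ E₂ := Algebra.IsAlgebraic.trans ℚ F₂ E₂
  have hnz : NeZero p := ⟨hp.ne_zero⟩
  obtain ⟨ζ₁, hζ₁⟩ := hE₁.exists_primitiveRoot p hp.pos
  obtain ⟨ζ₂, hζ₂⟩ := hE₂.exists_primitiveRoot p hp.pos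
  let W : Subgroup (E₁ ≃ₐ[F₁] E₁) :=
    (MulAction.stabilizer (E₂ ≃ₐ[F₂] E₂) ζ₂).comap α ⊓ MulAction.stabilizer (E₁ ≃ₐ[F₁] E₁) ζ₁
  have hWo : IsOpen (W : Set (E₁ ≃ₐ[F₁] E₁)) := by
    have h1 : IsOpen ((MulAction.stabilizer (E₂ ≃ₐ[F₂] E₂) ζ₂ : Subgroup (E₂ ≃ₐ[F₂] E₂)) :
      Set (E₂ ≃ₐ[F₂] E₂)) := stabilizer_isOpen_of_isIntegral (K := F₂) (L := E₂) ζ₂
    have h2 : IsOpen ((MulAction.stabilizer (E₁ ≃ₐ[F₁] E₁) ζ₁ : Subgroup (E₁ ≃ₐ[F₁] E₁)) :
      Set (E₁ ≃ₐ[F₁] E₁)) := stabilizer_isOpen_of_isIntegral (K := F₁) (L := E₁) ζ₁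
    exact (h1.preimage hα).inter h2
  have hW : ∀ g : E₁ ≃ₐ[F₁] E₁, g ∈ W ↔ α g ζ₂ = ζ₂ ∧ g ζ₁ = ζ₁ := fun g => Iff.rfl
  obtain ⟨D, h, hD, hh⟩ := exists_conjugates (F := F₁) hp hζ₁
  by_contra hcon
  push Not at hcon
  have hcon' : ∀ i : ℕ, 0 < i → i < m → α (g ^ i) ζ₂ ≠ ζ₂ := by
    intro i hi him h
    obtain ⟨z, hz, hz'⟩ := hcon i hi him
    apply hz'
    obtain ⟨k, -, rfl⟩ := hζ₂.eq_pow_of_pow_eq_one hz
    rw [map_pow, h]
  have hgroot : ∀ (i : ℕ) (z : E₁), z ^ p = 1 → (g ^ i) z = z := by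
    intro i z hz
    induction i with
    | zero => simp
    | succ i ih => rw [pow_succ', AlgEquiv.mul_apply, ih, hg z hz]
  have hgroot' : ∀ (i : ℕ) (z : E₁), z ^ p = 1 → (g ^ i)⁻¹ z = z := by
    intro i z hz
    conv_lhs => rw [← hgroot i z hz]
    rw [← AlgEquiv.mul_apply, inv_mul_cancel, AlgEquiv.one_apply]
  have hDpos : 0 < D := by
    rcases Nat.eq_zero_or_pos D with h0 | h0
    · rw [h0, mul_zero] at hD
      have := hp.two_le
      omega
    · exact h0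
  -- the family of elements in different classes
  let x : Fin m × Fin D → (E₁ ≃ₐ[F₁] E₁) := fun c => g ^ (c.1 : ℕ) * (h c.2)⁻¹
  have hx : ∀ c d : Fin m × Fin D, c ≠ d → x d * (x c)⁻¹ ∉ W := by
    intro c d hcd hmem
    have e : x d * (x c)⁻¹ = g ^ (d.1 : ℕ) * (h d.2)⁻¹ * h c.2 * (g ^ (c.1 : ℕ))⁻¹ := by
      show g ^ (d.1 : ℕ) * (h d.2)⁻¹ * (g ^ (c.1 : ℕ) * (h c.2)⁻¹)⁻¹ = _
      group
    rw [e, hW] at hmem
    obtain ⟨hm2, hm1⟩ := hmem
    rw [AlgEquiv.mul_apply, AlgEquiv.mul_apply, AlgEquiv.mul_apply,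
      hgroot' _ ζ₁ hζ₁.pow_eq_one, hgroot _ _ (by
        rw [← map_pow, ← map_pow, hζ₁.pow_eq_one, map_one, map_one])] at hm1
    have h1 : h c.2 ζ₁ = h d.2 ζ₁ := by
      have h2 := congrArg (fun y => h d.2 y) hm1
      rwa [← AlgEquiv.mul_apply, mul_inv_cancel, AlgEquiv.one_apply] at h2
    have h2 : c.2 = d.2 := by
      by_contra hne
      exact hh _ _ hne h1
    have h3 : c.1 ≠ d.1 := by
      intro h3
      exact hcd (Prod.ext h3 h2)
    have h4 : g ^ (d.1 : ℕ) * (h d.2)⁻¹ * h c.2 * (g ^ (c.1 : ℕ))⁻¹ =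
        g ^ (d.1 : ℕ) * (g ^ (c.1 : ℕ))⁻¹ := by
      rw [h2, inv_mul_cancel_right]
    rw [h4] at hm2
    rcases lt_or_gt_of_ne h3 with h5 | h5
    · have h5' : (c.1 : ℕ) < d.1 := h5
      have h6 : g ^ (d.1 : ℕ) * (g ^ (c.1 : ℕ))⁻¹ = g ^ ((d.1 : ℕ) - c.1) := by
        rw [mul_inv_eq_iff_eq_mul, ← pow_add]
        congr 1
        omega
      rw [h6] at hm2
      exact hcon' _ (by omega) (by have := d.1.2; omega) hm2
    · have h5' : (d.1 : ℕ) < c.1 := h5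
      have h6 : g ^ (d.1 : ℕ) * (g ^ (c.1 : ℕ))⁻¹ = (g ^ ((c.1 : ℕ) - d.1))⁻¹ := by
        rw [mul_inv_eq_iff_eq_mul, eq_inv_mul_iff_mul_eq, ← pow_add]
        congr 1
        omega
      rw [h6, map_inv] at hm2
      refine hcon' ((c.1 : ℕ) - d.1) (by omega) (by have := c.1.2; omega) ?_
      conv_lhs => rw [← hm2]
      rw [← AlgEquiv.mul_apply, mul_inv_cancel, AlgEquiv.one_apply]
  have h1 := index_bound W hWo (AliveOne α p) (δ / (p - 1)) hG ∅ Set.finite_empty ?_ (m * D)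
    (Nat.mul_pos hm hDpos) (fun i => x (finProdFinEquiv.symm i)) ?_
  · have hp1 : (0 : ℝ) < (p : ℝ) - 1 := by
      have : (1 : ℝ) < p := by exact_mod_cast hp.one_lt
      linarith
    have hm' : (0 : ℝ) < m := by exact_mod_cast hm
    have hD' : (0 : ℝ) < D := by exact_mod_cast hDpos
    rw [div_le_div_iff₀ hp1 (by positivity)] at h1
    rw [div_lt_iff₀ hm'] at hδm
    have h2 : ((p : ℝ) - 1) ≤ Module.finrank ℚ F₁ * D := by
      have h3 : ((p - 1 : ℕ) : ℝ) ≤ ((Module.finrank ℚ F₁ * D : ℕ) : ℝ) := by exact_mod_cast hD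
      rw [Nat.cast_sub hp.one_le] at h3
      push_cast at h3
      exact h3
    push_cast at h1
    have h4 : (Module.finrank ℚ F₁ : ℝ) * D < δ * m * D := by
      exact mul_lt_mul_of_pos_right hδm hD'
    linarith
  · rintro v ⟨⟨hv, O', hO', hv', hA⟩, hN⟩ - O hO hOv s hs hs'
    rw [hW]
    have hlO := natCast_pow_notMem_nonunits hOv hv
    have hlO1 : (p : E₁) ∉ O.nonunits := by simpa using hlO 1
    constructor
    · rw [frob_of_alive α hα hp hp2 (hE₁.exists_root p hp.pos) (hE₂.exists_root p hp.pos)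
        hE₁.exists_primitiveRoot hE₂.exists_primitiveRoot v hv O hO hOv
        (hA.of_center hO' hO hv' hOv) s hs hs' ζ₂ hζ₂.pow_eq_one]
      conv_rhs => rw [← pow_one ζ₂]
      exact (rootPow_eq_iff_modEq hζ₂ _ _ hp.pos).2 hN
    · rw [acts_on_root O s _ hs' p hlO1 ζ₁ hζ₁.pow_eq_one]
      conv_rhs => rw [← pow_one ζ₁]
      exact (rootPow_eq_iff_modEq hζ₁ _ _ hp.pos).2 hN
  · intro i j hij
    exact hx _ _ (fun hcon => hij (finProdFinEquiv.symm.injective hcon))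

/-- If `α` is open and, for all primes `p` in `Q`, does not kill the pro-`p` elements of the inertia
groups of a set of primes of norm `1` modulo `p` of upper density at least `δ / (p - 1)`, then it is
induced. -/
theorem induced_of_aliveOne (hE₁ : SolvablyClosed E₁) (hE₂ : SolvablyClosed E₂)
    (α : (E₁ ≃ₐ[F₁] E₁) →* (E₂ ≃ₐ[F₂] E₂)) (hα : Continuous α) (hopen : IsOpen (Set.range α))
    (Q : Set ℕ) (hQ : MeetsSplit Q) {δ : ℝ} (hδ : 0 < δ)
    (h : ∀ p : ℕ, p.Prime → p ∈ Q → ∃ᶠ s : ℝ in 𝓝[>] 1,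
      δ / (p - 1) * Real.log (1 / (s - 1)) ≤
        ∑' v : AliveOne α p, (Ideal.absNorm v.1.asIdeal : ℝ) ^ (-s)) :
    ∃ j : E₂ →+* E₁, ∀ (g : E₁ ≃ₐ[F₁] E₁) (x : E₂), g (j x) = j ((α g) x) := by
  have : CharZero E₁ := charZero_of_injective_algebraMap (algebraMap F₁ E₁).injective
  have : CharZero E₂ := charZero_of_injective_algebraMap (algebraMap F₂ E₂).injective
  obtain ⟨m, hm⟩ := exists_nat_gt ((Module.finrank ℚ F₁ : ℝ) / δ)
  obtain ⟨l, hlm, hl⟩ := Nat.exists_infinite_primes (m + 3)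
  have hl2 : l ≠ 2 := by omega
  have hl0 : (0 : ℝ) < l := by exact_mod_cast hl.pos
  have hlδ : (Module.finrank ℚ F₁ : ℝ) / l < δ := by
    rw [div_lt_iff₀ hδ] at hm
    rw [div_lt_iff₀ hl0]
    have h1 : (m : ℝ) ≤ l := by
      have : m ≤ l := by omega
      exact_mod_cast this
    nlinarith
  refine induced_of_kerQ_B hE₁ hE₂ α hα hopen hl hl2 ⊤ isOpen_univ Q hQ ?_
  intro g _ p a b hp hpQ hlp ha hb ha1
  have hp2 : p ≠ 2 := by
    rintro rfl
    have := Nat.le_of_dvd (by norm_num) hlp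
    omega
  have hp1 : (0 : ℝ) < (p : ℝ) - 1 := by
    have : (1 : ℝ) < p := by exact_mod_cast hp.one_lt
    linarith
  obtain ⟨ζ₁, hζ₁⟩ := hE₁.exists_primitiveRoot p hp.pos
  obtain ⟨ζ₂, hζ₂⟩ := hE₂.exists_primitiveRoot p hp.pos
  have hbc : b.Coprime p := exponent_coprime hE₂ (α g) hp.pos hb
  obtain ⟨M, hM⟩ := hlp
  have hMl : (p - 1) / l = M := by rw [hM, Nat.mul_div_cancel_left _ hl.pos]
  rw [hMl] at ha1 ⊢
  have hnz : NeZero p := ⟨hp.ne_zero⟩
  obtain ⟨i, hi0, hil, hi⟩ := exists_open_power hE₁ hE₂ α hα hp hp2 hδ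
    (frequently_ofReal F₁ _ (div_pos hδ hp1) (h p hp hpQ)) l hl.pos hlδ (g ^ M) (by
      intro z hz
      obtain ⟨k, -, rfl⟩ := hζ₁.eq_pow_of_pow_eq_one hz
      rw [map_pow, pow_apply_root g (ha ζ₁ hζ₁.pow_eq_one) M]
      congr 1
      conv_rhs => rw [← pow_one ζ₁]
      exact (rootPow_eq_iff_modEq hζ₁ _ _ hp.pos).2 ha1)
  have h3 : (b ^ M) ^ i ≡ 1 [MOD p] := by
    have h5 := hi ζ₂ hζ₂.pow_eq_one
    rw [map_pow, map_pow, ← pow_mul, pow_apply_root (α g) (hb ζ₂ hζ₂.pow_eq_one)] at h5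
    rw [← pow_mul]
    exact (rootPow_eq_iff_modEq hζ₂ _ _ hp.pos).1 (by rw [h5, pow_one])
  have h4 : (b ^ M) ^ l ≡ 1 [MOD p] := by
    have h5 := Nat.ModEq.pow_totient hbc
    rw [Nat.totient_prime hp, hM, mul_comm, pow_mul] at h5
    exact h5
  rw [← ZMod.natCast_eq_natCast_iff] at h3 h4 ⊢
  push_cast at h3 h4 ⊢
  have h6 := pow_gcd_eq_one.2 ⟨h3, h4⟩
  have h7 : i.gcd l = 1 := ((Nat.Prime.coprime_iff_not_dvd hl).2 (fun h => by
    have := Nat.le_of_dvd hi0 h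
    omega)).symm
  rwa [h7, pow_one] at h6

end

end Vale.Agent.P024
end
end

section

section

/-!
Density of the primes of norm `1` modulo `p`.
-/

namespace Vale.Agent.P024

open scoped NumberField ENNReal Topology
open IsDedekindDomain NumberField Filter

theorem resChar_eq_absNorm {M : Type*} [Field M] [NumberField M] (w : HeightOneSpectrum (𝓞 M))
    (hw : (Ideal.absNorm w.asIdeal).Prime) : resChar w = Ideal.absNorm w.asIdeal := by
  obtain ⟨h1, -, n, hn, hn'⟩ := resChar_spec w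
  have h2 : resChar w ∣ Ideal.absNorm w.asIdeal := by
    rw [hn']
    exact dvd_pow_self _ hn
  exact (Nat.prime_dvd_prime_iff_eq h1 hw).1 h2

theorem tsum_fiber_le (M : Type*) [Field M] [NumberField M] (A : Set (HeightOneSpectrum (𝓞 M)))
    (hA : ∀ w ∈ A, (Ideal.absNorm w.asIdeal).Prime) {ι : Type*} (f : A → ι) (a : ι → ℝ≥0∞) (s : ℝ)
    (hf : ∀ w : A, ENNReal.ofReal (nm M w.1 s) = a (f w))
    (hN : ∀ w w' : A, f w = f w' → Ideal.absNorm w.1.asIdeal = Ideal.absNorm w'.1.asIdeal) :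
    ∑' w : A, ENNReal.ofReal (nm M w.1 s) ≤
      (Module.finrank ℤ (𝓞 M) : ℝ≥0∞) * ∑' i, a i := by
  classical
  rw [← ENNReal.tsum_fiberwise _ f, ← ENNReal.tsum_mul_left]
  refine ENNReal.tsum_le_tsum fun i => ?_
  rw [ENNReal.tsum_eq_iSup_sum]
  refine iSup_le fun A' => ?_
  have hval : ∀ w : (f ⁻¹' {i}), ENNReal.ofReal (nm M w.1.1 s) = a i := by
    rintro ⟨w, hw⟩
    have hw' : f w = i := hw
    exact (hf w).trans (congrArg a hw')
  have hinj : Function.Injective (fun w : (f ⁻¹' {i}) => w.1.1) :=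
    Subtype.val_injective.comp Subtype.val_injective
  have hcard : A'.card ≤ Module.finrank ℤ (𝓞 M) := by
    rcases A'.eq_empty_or_nonempty with h0 | ⟨w₀, hw₀⟩
    · rw [h0, Finset.card_empty]; exact Nat.zero_le _
    · have h2 := card_le_finrank (hA w₀.1.1 w₀.1.2) (A'.map ⟨_, hinj⟩) (by
        intro v hv
        obtain ⟨x, -, rfl⟩ := Finset.mem_map.1 hv
        show resChar x.1.1 = _
        rw [resChar_eq_absNorm _ (hA x.1.1 x.1.2)]
        have hx : f x.1 = i := x.2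
        have hw : f w₀.1 = i := w₀.2
        exact hN x.1 w₀.1 (by rw [hx, hw]))
      rwa [Finset.card_map] at h2
  calc ∑ w ∈ A', ENNReal.ofReal (nm M w.1.1 s) = ∑ w ∈ A', a i :=
        Finset.sum_congr rfl fun w _ => hval w
    _ = (A'.card : ℝ≥0∞) * a i := by
        rw [Finset.sum_const, nsmul_eq_mul]
    _ ≤ _ := by
        gcongr

theorem tsum_finite_le (M : Type*) [Field M] [NumberField M] {A : Set (HeightOneSpectrum (𝓞 M))}
    (hA : A.Finite) {s : ℝ} (hs : 1 < s) :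
    ∑' w : A, ENNReal.ofReal (nm M w.1 s) ≤ (hA.toFinset.card : ℝ≥0∞) := by
  have h1 : ∀ w : A, ENNReal.ofReal (nm M w.1 s) ≤ 1 := by
    intro w
    rw [ENNReal.ofReal_le_one]
    exact (nm_le_half w.1 hs.le).trans (by norm_num)
  calc ∑' w : A, ENNReal.ofReal (nm M w.1 s) ≤ ∑' _ : A, (1 : ℝ≥0∞) :=
        ENNReal.tsum_le_tsum h1
    _ = _ := by
        rw [ENNReal.tsum_const, mul_one]
        have : ENat.card A = (hA.toFinset.card : ℕ∞) := by
          rw [← Set.encard, hA.encard_eq_coe_toFinset_card]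
        rw [this]
        rfl

theorem dens_calc {n L C D t N P : ℝ} {c : ℕ} {X : ℝ≥0∞} (hn0 : 0 < n) (hnle : n ≤ N * P)
    (hN : 0 < N) (hP : 0 < P) (hD0 : 0 ≤ D) (ht0 : 0 ≤ t) (hX1 : ENNReal.ofReal (L - C) ≤ X)
    (hX2 : X ≤ ENNReal.ofReal n * ENNReal.ofReal D + (c : ℝ≥0∞) +
      ENNReal.ofReal n * ENNReal.ofReal t)
    (hs1 : D / L < 1 / (4 * n)) (hs2 : 4 * (|C| + c) < L) (hs3 : 0 < L) :
    1 / (2 * N) / P * L ≤ t := by
  have h5 : ENNReal.ofReal (L - C) ≤ ENNReal.ofReal (n * D + c + n * t) := by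
    refine (hX1.trans hX2).trans ?_
    rw [ENNReal.ofReal_add (by positivity) (by positivity),
      ENNReal.ofReal_add (by positivity) (by positivity), ENNReal.ofReal_natCast,
      ENNReal.ofReal_mul hn0.le, ENNReal.ofReal_mul hn0.le]
  have h6 : L - C ≤ n * D + c + n * t := by
    rwa [ENNReal.ofReal_le_ofReal_iff (by positivity)] at h5
  rw [div_lt_iff₀ hs3] at hs1
  have h7 : n * D < L / 4 := by
    have := mul_lt_mul_of_pos_left hs1 hn0
    calc n * D < n * (1 / (4 * n) * L) := this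
      _ = L / 4 := by field_simp
  have h8 : C ≤ |C| := le_abs_self C
  have h9 : L / 2 ≤ n * t := by linarith
  calc 1 / (2 * N) / P * L = (L / 2) / (N * P) := by field_simp
    _ ≤ (L / 2) / n := by gcongr
    _ ≤ (n * t) / n := by gcongr
    _ = t := by field_simp

section

variable (F : Type*) {E : Type*} [Field F] [NumberField F] [Field E] [Algebra F E] [IsGalois F E]

/-- Lower bound for the density of the primes of prime norm outside `B` congruent to `1` modulo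
`p`. -/
theorem eventually_dens_one {p : ℕ} (hp : p.Prime) {ζ : E} (hζ : IsPrimitiveRoot ζ p) (B : Set ℕ)
    (hB : Tendsto (fun s : ℝ => (∑' p : {p : ℕ | p.Prime ∧ p ∈ B}, ((p : ℕ) : ℝ) ^ (-s)) /
      Real.log (1 / (s - 1))) (𝓝[>] 1) (𝓝 0))
    (S : Set (HeightOneSpectrum (𝓞 F))) (hS : S.Finite) :
    ∀ᶠ s : ℝ in 𝓝[>] 1,
      ENNReal.ofReal (1 / (2 * Module.finrank ℚ F) / (p - 1) * Real.log (1 / (s - 1))) ≤
        ∑' v : {v : HeightOneSpectrum (𝓞 F) | (Ideal.absNorm v.asIdeal).Prime ∧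
          Ideal.absNorm v.asIdeal ∉ B ∧ Ideal.absNorm v.asIdeal ≡ 1 [MOD p] ∧ v ∉ S},
          ENNReal.ofReal (nm F v.1 s) := by
  classical
  have : CharZero E := charZero_of_injective_algebraMap (algebraMap F E).injective
  have : Algebra.IsAlgebraic ℚ E := Algebra.IsAlgebraic.trans ℚ F E
  have hint : IsIntegral F ζ := Algebra.IsIntegral.isIntegral ζ
  have hfd : FiniteDimensional F (IntermediateField.adjoin F {ζ}) :=
    IntermediateField.adjoin.finiteDimensional hint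
  set M := IntermediateField.adjoin F {ζ} with hM
  have hMN : NumberField M := NumberField.of_module_finite F M
  set f : F →+* M := algebraMap F M with hf
  set G : Set (HeightOneSpectrum (𝓞 F)) := {v | (Ideal.absNorm v.asIdeal).Prime ∧
          Ideal.absNorm v.asIdeal ∉ B ∧ Ideal.absNorm v.asIdeal ≡ 1 [MOD p] ∧ v ∉ S} with hG
  obtain ⟨C, hC⟩ := lower M
  set n : ℝ := (Module.finrank ℤ (𝓞 M) : ℝ) with hn
  have hn0 : 0 < n := by
    rw [hn, Nat.cast_pos]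
    exact Module.finrank_pos
  -- the degree of `M`
  have hnle : n ≤ Module.finrank ℚ F * ((p : ℝ) - 1) := by
    have h1 : Module.finrank ℤ (𝓞 M) = Module.finrank ℚ F * (minpoly F ζ).natDegree := by
      rw [RingOfIntegers.rank, ← IntermediateField.adjoin.finrank hint,
        Module.finrank_mul_finrank ℚ F M]
    have h2 : (minpoly F ζ).natDegree ≤ p - 1 := by
      have h3 : minpoly F ζ ∣ Polynomial.cyclotomic p F := by
        apply minpoly.dvd
        rw [Polynomial.aeval_def, ← Polynomial.eval_map, Polynomial.map_cyclotomic]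
        exact hζ.isRoot_cyclotomic hp.pos
      have h4 := Polynomial.natDegree_le_of_dvd h3 (Polynomial.cyclotomic_ne_zero p F)
      rwa [Polynomial.natDegree_cyclotomic, Nat.totient_prime hp] at h4
    rw [hn, h1]
    push_cast
    gcongr
    have h5 : (((minpoly F ζ).natDegree : ℕ) : ℝ) ≤ ((p - 1 : ℕ) : ℝ) := by exact_mod_cast h2
    rw [Nat.cast_sub hp.one_le] at h5
    simpa using h5
  set AS : Set (HeightOneSpectrum (𝓞 M)) := {w | pullPrime f w ∈ S ∨ (p : 𝓞 M) ∈ w.asIdeal}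
    with hAS
  have hASf : AS.Finite := by
    have h1 : AS ⊆ (⋃ v ∈ S, {w : HeightOneSpectrum (𝓞 M) |
        ((Ideal.absNorm v.asIdeal : ℕ) : 𝓞 M) ∈ w.asIdeal}) ∪
        {w : HeightOneSpectrum (𝓞 M) | (p : 𝓞 M) ∈ w.asIdeal} := by
      rintro w (hw | hw)
      · left
        refine Set.mem_biUnion hw ?_
        have h2 : ((Ideal.absNorm (pullPrime f w).asIdeal : ℕ) : 𝓞 F) ∈ (pullPrime f w).asIdeal :=
          Ideal.absNorm_mem _
        rw [mem_pullPrime, map_natCast] at h2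
        exact h2
      · right
        exact hw
    refine Set.Finite.subset (Set.Finite.union (hS.biUnion fun v _ => ?_)
      (finite_above M hp.ne_zero)) h1
    refine finite_above M ?_
    rw [Ne, Ideal.absNorm_eq_zero_iff]
    exact v.ne_bot
  set AB : Set (HeightOneSpectrum (𝓞 M)) := {w | (Ideal.absNorm w.asIdeal).Prime ∧
    Ideal.absNorm w.asIdeal ∈ B} with hAB
  set AG : Set (HeightOneSpectrum (𝓞 M)) := {w | (Ideal.absNorm w.asIdeal).Prime ∧
    Ideal.absNorm w.asIdeal ∉ B ∧ w ∉ AS} with hAG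
  have hGmem : ∀ w ∈ AG, pullPrime f w ∈ G := by
    rintro w ⟨hw1, hw2, hw3⟩
    have hwS : pullPrime f w ∉ S := fun h => hw3 (Or.inl h)
    have hwp : (p : 𝓞 M) ∉ w.asIdeal := fun h => hw3 (Or.inr h)
    have hN := absNorm_pull f w hw1
    refine ⟨by rwa [hN], by rwa [hN], ?_, hwS⟩
    rw [hN]
    obtain ⟨O, hO, hOw⟩ := exists_valuationSubring_over (E := E) w
    obtain ⟨g, -, hg⟩ := exists_frob (K := M) O hO w hOw
    have hcard : Nat.card (𝓞 M ⧸ w.asIdeal) = Ideal.absNorm w.asIdeal := by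
      rw [Ideal.absNorm_apply]; rfl
    rw [hcard] at hg
    have hpO : (p : E) ∉ O.nonunits := by
      intro h
      apply hwp
      rw [hOw]
      simpa using h
    have h1 := acts_on_root O g _ hg p hpO ζ hζ.pow_eq_one
    have h2 : g ζ = ζ := g.commutes ⟨ζ, IntermediateField.mem_adjoin_simple_self F ζ⟩
    rw [h2] at h1
    refine (rootPow_eq_iff_modEq hζ _ _ hp.pos).1 ?_
    rw [← h1, pow_one]
  have hbound : ∀ s : ℝ, 1 < s → degOneSum M s ≤
      ENNReal.ofReal n * ENNReal.ofReal (∑' r : {r : ℕ | r.Prime ∧ r ∈ B}, ((r : ℕ) : ℝ) ^ (-s)) +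
      (hASf.toFinset.card : ℝ≥0∞) +
      ENNReal.ofReal n * ∑' v : G, ENNReal.ofReal (nm F v.1 s) := by
    intro s hs
    have h1 : ∑' w : AB, ENNReal.ofReal (nm M w.1 s) ≤
        ENNReal.ofReal n * ENNReal.ofReal (∑' r : {r : ℕ | r.Prime ∧ r ∈ B},
          ((r : ℕ) : ℝ) ^ (-s)) := by
      rw [ofReal_tsum_rpow _ hs, hn, ENNReal.ofReal_natCast]
      refine tsum_fiber_le M AB (fun w hw => hw.1)
        (fun w => (⟨Ideal.absNorm w.1.asIdeal, w.2⟩ : {r : ℕ | r.Prime ∧ r ∈ B}))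
        (fun r => ENNReal.ofReal (((r : ℕ) : ℝ) ^ (-s))) s (fun w => rfl) ?_
      intro w w' h
      exact congrArg Subtype.val h
    have h2 := tsum_finite_le M hASf hs
    have h3 : ∑' w : AG, ENNReal.ofReal (nm M w.1 s) ≤
        ENNReal.ofReal n * ∑' v : G, ENNReal.ofReal (nm F v.1 s) := by
      rw [hn, ENNReal.ofReal_natCast]
      refine tsum_fiber_le M AG (fun w hw => hw.1)
        (fun w => (⟨pullPrime f w.1, hGmem w.1 w.2⟩ : G))
        (fun v => ENNReal.ofReal (nm F v.1 s)) s (fun w => ?_) ?_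
      · unfold nm
        rw [absNorm_pull f w.1 w.2.1]
      · intro w w' h
        have h4 : pullPrime f w.1 = pullPrime f w'.1 := congrArg Subtype.val h
        rw [← absNorm_pull f w.1 w.2.1, ← absNorm_pull f w'.1 w'.2.1, h4]
    refine le_trans ?_ (add_le_add (add_le_add h1 h2) h3)
    unfold degOneSum
    rw [tsum_subtype {w : HeightOneSpectrum (𝓞 M) | (Ideal.absNorm w.asIdeal).Prime}
        (fun w => ENNReal.ofReal (nm M w s)),
      tsum_subtype AB (fun w => ENNReal.ofReal (nm M w s)),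
      tsum_subtype AS (fun w => ENNReal.ofReal (nm M w s)),
      tsum_subtype AG (fun w => ENNReal.ofReal (nm M w s)), ← ENNReal.tsum_add,
      ← ENNReal.tsum_add]
    refine ENNReal.tsum_le_tsum fun w => ?_
    by_cases hw : (Ideal.absNorm w.asIdeal).Prime
    · rw [Set.indicator_of_mem (s := {w : HeightOneSpectrum (𝓞 M) |
        (Ideal.absNorm w.asIdeal).Prime}) hw]
      by_cases hwB : Ideal.absNorm w.asIdeal ∈ B
      · rw [Set.indicator_of_mem (s := AB) ⟨hw, hwB⟩, add_assoc]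
        exact le_self_add
      · by_cases hwS : w ∈ AS
        · rw [Set.indicator_of_mem (s := AS) hwS]
          exact le_add_right le_add_self
        · rw [Set.indicator_of_mem (s := AG) ⟨hw, hwB, hwS⟩]
          exact le_add_self
    · rw [Set.indicator_of_notMem (s := {w : HeightOneSpectrum (𝓞 M) |
        (Ideal.absNorm w.asIdeal).Prime}) hw]
      exact zero_le
  have hp1 : (0 : ℝ) < (p : ℝ) - 1 := by
    have : (1 : ℝ) < p := by exact_mod_cast hp.one_lt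
    linarith
  have hF0 : (0 : ℝ) < Module.finrank ℚ F := by
    rw [Nat.cast_pos]
    exact Module.finrank_pos
  have h4n : (0 : ℝ) < 1 / (4 * n) := one_div_pos.2 (mul_pos (by norm_num) hn0)
  have e1 : ∀ᶠ s : ℝ in 𝓝[>] 1, (∑' p : {p : ℕ | p.Prime ∧ p ∈ B}, ((p : ℕ) : ℝ) ^ (-s)) /
      Real.log (1 / (s - 1)) < 1 / (4 * n) := hB.eventually_lt_const h4n
  have e2 : ∀ᶠ s : ℝ in 𝓝[>] 1, 4 * (|C| + hASf.toFinset.card) < Real.log (1 / (s - 1)) :=
    tendsto_log_one_div.eventually_gt_atTop _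
  have e3 : ∀ᶠ s : ℝ in 𝓝[>] 1, (0 : ℝ) < Real.log (1 / (s - 1)) :=
    tendsto_log_one_div.eventually_gt_atTop _
  filter_upwards [hC, e1, e2, e3, self_mem_nhdsWithin] with s hs hs1 hs2 hs3 hs4
  have hs' : (1 : ℝ) < s := hs4
  by_cases hT : ∑' v : G, ENNReal.ofReal (nm F v.1 s) = ∞
  · rw [hT]
    exact le_top
  have hTt : ∑' v : G, ENNReal.ofReal (nm F v.1 s) =
      ENNReal.ofReal (∑' v : G, ENNReal.ofReal (nm F v.1 s)).toReal :=
    (ENNReal.ofReal_toReal hT).symm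
  have hb := hbound s hs'
  rw [hTt] at hb ⊢
  exact ENNReal.ofReal_le_ofReal (dens_calc hn0 hnle hF0 hp1 (tsum_nonneg fun p => by positivity)
    ENNReal.toReal_nonneg hs hb hs1 hs2 hs3)

end

end Vale.Agent.P024
end
end

section

section

/-!
The kernel of a homomorphism and the inertia elements it kills.
-/

namespace Vale.Agent.P024

open scoped NumberField ENNReal Topology
open IsDedekindDomain NumberField Filter

section

variable {F E : Type*} [Field F] [Field E] [Algebra F E] [IsGalois F E] [CharZero E]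
  [Algebra.IsAlgebraic ℚ E]

/-- pro-`p` tame inertia elements -/
theorem exists_tame_proP (K : IntermediateField F E) [NumberField K]
    {l : ℕ} (hl : l.Prime) {ζ : E} (hζ : IsPrimitiveRoot ζ l) (hζK : ζ ∈ K)
    (v : HeightOneSpectrum (𝓞 K)) (hvl : (l : 𝓞 K) ∉ v.asIdeal)
    (y : K) (hy0 : y ≠ 0) (hy : ¬ DvdVal v l y) (b : E) (hb : b ^ l = (y : E))
    (O : ValuationSubring E) (hO : O ≠ ⊤) (hv : IsCenter O v) :
    ∃ t : E ≃ₐ[F] E, (∀ x ∈ K, t x = x) ∧ Stab O t ∧ ActsPow O t 1 ∧ ProP l t ∧ t b ≠ b := by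
  have hnz : NeZero l := ⟨hl.ne_zero⟩
  obtain ⟨t₀, ht₀K, ht₀, ht₀1, ht₀b⟩ := exists_tame_at K hl hζ hζK v hvl y hy0 hy b hb O hO hv
  obtain ⟨t, htp, htC, htx⟩ := exists_proP_part t₀ hl
  have hKpow : ∀ (n : ℕ) (x : E), x ∈ K → (t₀ ^ n) x = x := by
    intro n x hx
    induction n with
    | zero => simp
    | succ n ih => rw [pow_succ', AlgEquiv.mul_apply, ih, ht₀K x hx]
  refine ⟨t, ?_, ?_, ?_, htp, ?_⟩
  · intro x hx
    exact htC {h | h x = x} (isClosed_apply x (fun y => y = x)) (fun n => hKpow n x hx)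
  · intro x
    exact htC {h | h x ∈ O ↔ x ∈ O} (isClosed_apply x (fun y => y ∈ O ↔ x ∈ O))
      (fun n => (ht₀.pow n) x)
  · intro x hx
    refine htC {h | h x - x ^ 1 ∈ O.nonunits}
      (isClosed_apply x (fun y => y - x ^ 1 ∈ O.nonunits)) (fun n => ?_)
    have h1 : ActsPow O (t₀ ^ n) (1 ^ n) := ActsPow.pow ht₀ ht₀1 n
    rw [one_pow] at h1
    exact h1 x hx
  · have hb0 : b ≠ 0 := by
      rintro rfl
      exact ht₀b (map_zero _)
    obtain ⟨e, he⟩ := exists_exp_of_fix hl.pos hζ (X := b) hb (by simpa using hy0) t₀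
      (ht₀K _ y.2)
    rw [htx b 1 ?_]
    · exact ht₀b
    · rw [pow_one, pow_apply_kummer t₀ (ht₀K ζ hζK) he, mul_comm e l, pow_mul, hζ.pow_eq_one,
        one_pow, one_mul]

end

section

variable {F₁ E₁ F₂ E₂ : Type*} [Field F₁] [NumberField F₁] [Field E₁] [Algebra F₁ E₁]
    [IsGalois F₁ E₁] [Field F₂] [NumberField F₂] [Field E₂] [Algebra F₂ E₂] [IsGalois F₂ E₂]

theorem pullPrime_center {F K E : Type*} [Field F] [NumberField F] [Field K] [NumberField K]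
    [Field E] [Algebra F E] [Algebra K E] [Algebra F K] [IsScalarTower F K E]
    {O : ValuationSubring E} {v : HeightOneSpectrum (𝓞 F)} {w : HeightOneSpectrum (𝓞 K)}
    (hv : IsCenter O v) (hw : IsCenter O w) : pullPrime (algebraMap F K) w = v := by
  apply HeightOneSpectrum.ext
  ext x
  rw [mem_pullPrime, hv, hw]
  have : algebraMap K E ((RingOfIntegers.mapRingHom (algebraMap F K) x : 𝓞 K) : K) =
      algebraMap F E (x : F) := (IsScalarTower.algebraMap_apply F K E (x : F)).symm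
  rw [this]

theorem alive_of_kernel (hE₁ : SolvablyClosed E₁) 
    (α : (E₁ ≃ₐ[F₁] E₁) →* (E₂ ≃ₐ[F₂] E₂))
    (U : Subgroup (E₁ ≃ₐ[F₁] E₁)) (hU : IsOpen (U : Set (E₁ ≃ₐ[F₁] E₁)))
    {p : ℕ} (hp : p.Prime) :
    ∃ S : Set (HeightOneSpectrum (𝓞 F₁)), S.Finite ∧ ∀ v ∉ S,
      (Ideal.absNorm v.asIdeal).Prime → Ideal.absNorm v.asIdeal ≡ 1 [MOD p] →
      (∀ g ∈ U, α g = 1 → ∀ z : E₁, z ^ (Ideal.absNorm v.asIdeal) = 1 → g z = z) →
      v ∈ AliveOne α p := by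
  classical
  have : CharZero E₁ := charZero_of_injective_algebraMap (algebraMap F₁ E₁).injective
  have : Algebra.IsAlgebraic ℚ E₁ := Algebra.IsAlgebraic.trans ℚ F₁ E₁
  obtain ⟨ζ, hζ⟩ := hE₁.exists_primitiveRoot p hp.pos
  let H : Subgroup (E₁ ≃ₐ[F₁] E₁) := U ⊓ MulAction.stabilizer (E₁ ≃ₐ[F₁] E₁) ζ
  have hH : IsOpen (H : Set (E₁ ≃ₐ[F₁] E₁)) := by
    have h2 : IsOpen ((MulAction.stabilizer (E₁ ≃ₐ[F₁] E₁) ζ : Subgroup (E₁ ≃ₐ[F₁] E₁)) :
      Set (E₁ ≃ₐ[F₁] E₁)) := stabilizer_isOpen_of_isIntegral (K := F₁) (L := E₁) ζ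
    exact hU.inter h2
  have hHmem : ∀ g : E₁ ≃ₐ[F₁] E₁, g ∈ H ↔ g ∈ U ∧ g ζ = ζ := fun g => Iff.rfl
  obtain ⟨hfd, hfix⟩ := finiteDimensional_fixedField H hH
  set K := IntermediateField.fixedField H with hK
  have hNF : NumberField K := NumberField.of_module_finite F₁ K
  have hHK : ∀ g : E₁ ≃ₐ[F₁] E₁, (∀ x ∈ K, g x = x) → g ∈ H := by
    intro g hg
    rw [← hfix, IntermediateField.mem_fixingSubgroup_iff]
    exact hg
  have hζK : ζ ∈ K := by
    rw [hK, IntermediateField.mem_fixedField_iff]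
    intro g hg
    exact ((hHmem g).1 hg).2
  refine ⟨(pullPrime (algebraMap F₁ K)) '' {w : HeightOneSpectrum (𝓞 K) | ∃ p : ℕ, p.Prime ∧
    (p : 𝓞 K) ∈ w.asIdeal ∧ w.valuation K (p : K) ≠ WithZero.exp (-1 : ℤ)} ∪
    {v | (p : 𝓞 F₁) ∈ v.asIdeal}, ((finite_ramified K).image _).union
      (finite_above F₁ hp.ne_zero), ?_⟩
  intro v hvS hr hrp hker
  set r := Ideal.absNorm v.asIdeal with hrdef
  have hvp : (p : 𝓞 F₁) ∉ v.asIdeal := fun h => hvS (Or.inr h)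
  obtain ⟨O, hO, hOv⟩ := exists_valuationSubring_over (E := E₁) v
  obtain ⟨w, hw⟩ := exists_center (K := K) O hO
  have hpull : pullPrime (algebraMap F₁ K) w = v := pullPrime_center hOv hw
  have hrw : (r : 𝓞 K) ∈ w.asIdeal := by
    have h1 : (r : 𝓞 F₁) ∈ (pullPrime (algebraMap F₁ K) w).asIdeal := by
      rw [hpull]; exact Ideal.absNorm_mem _
    rwa [mem_pullPrime, map_natCast] at h1
  have hwr : w.valuation K (r : K) = WithZero.exp (-1 : ℤ) := by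
    by_contra hne
    exact hvS (Or.inl ⟨w, ⟨r, hr, hrw, hne⟩, hpull⟩)
  have hpr : p ∣ r - 1 := (Nat.modEq_iff_dvd' hr.one_le).1 hrp.symm
  obtain ⟨ξ, hξ⟩ := hE₁.exists_primitiveRoot r hr.pos
  obtain ⟨θ, x, hθ0, hθ, hx, hfixθ⟩ := exists_cyclotomic_kummer K hp hr hpr hζ hζK hξ w hwr
  have hwp : (p : 𝓞 K) ∉ w.asIdeal := by
    intro h
    apply hvp
    rw [hOv]
    have h1 := (hw _).1 h
    simpa using h1
  have hx0 : x ≠ 0 := by
    rintro rfl
    have : θ ^ p = 0 := by rw [hθ]; rfl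
    exact hθ0 (pow_eq_zero_iff hp.ne_zero |>.1 this)
  obtain ⟨t, htK, ht, ht1, htp, htθ⟩ := exists_tame_proP K hp hζ hζK w hwp x hx0 hx θ hθ O hO hw
  refine ⟨⟨hvp, O, hO, hOv, t, ht, ht1, htp, ?_⟩, hrp⟩
  intro hαt
  apply htθ
  refine hfixθ t htK ?_
  exact hker t ((hHmem t).1 (hHK t htK)).1 hαt ξ hξ.pow_eq_one

/-- an inertia element fixing enough is wild -/
theorem wild_of_fix [CharZero E₁] [Algebra.IsAlgebraic ℚ E₁] (O : ValuationSubring E₁)
    (hO : O ≠ ⊤) (g : E₁ ≃ₐ[F₁] E₁) (hg1 : ActsPow O g 1)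
    (hfix : ∀ n d : ℕ, 0 < d → ∃ y : E₁, y ^ d = n ∧ g y = y) :
    ∀ x : E₁, x ≠ 0 → g x / x - 1 ∈ O.nonunits := by
  intro x hx
  obtain ⟨n, hn0, hn⟩ := exists_nat_mem_nonunits O hO
  have hnE : (n : E₁) ≠ 0 := Nat.cast_ne_zero.2 hn0
  have hnv : O.valuation (n : E₁) ≠ 1 := ne_of_lt hn
  obtain ⟨d, hd, c, hc⟩ := exists_val_pow_eq O hO x n hx hnE hnv
  obtain ⟨y, hy, hgy⟩ := hfix n d hd
  have hy0 : y ≠ 0 := by
    rintro rfl
    rw [zero_pow hd.ne'] at hy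
    exact hnE hy.symm
  have h1 : O.valuation x = O.valuation (y ^ c) := by
    have h2 : O.valuation x ^ d = O.valuation (y ^ c) ^ d := by
      rw [← map_pow, ← map_pow, hc, ← zpow_natCast, ← zpow_mul, mul_comm c, zpow_mul,
        zpow_natCast, hy]
    exact (pow_left_inj₀ zero_le zero_le hd.ne').1 h2
  have h2 := theta_indep hg1 hx (zpow_ne_zero c hy0) h1
  rw [map_zpow₀, hgy, div_self (zpow_ne_zero c hy0)] at h2
  have h3 := h2.2.2
  rwa [div_one] at h3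

theorem alive_of_induced (hE₁ : SolvablyClosed E₁) (hE₂ : SolvablyClosed E₂)
    (α : (E₁ ≃ₐ[F₁] E₁) →* (E₂ ≃ₐ[F₂] E₂)) (j : E₂ →+* E₁)
    (hj : ∀ (g : E₁ ≃ₐ[F₁] E₁) (x : E₂), g (j x) = j ((α g) x)) {p : ℕ} (hp : p.Prime)
    (v : HeightOneSpectrum (𝓞 F₁)) (hvp : (p : 𝓞 F₁) ∉ v.asIdeal) : v ∈ Alive α p := by
  classical
  have : CharZero E₁ := charZero_of_injective_algebraMap (algebraMap F₁ E₁).injective
  have : CharZero E₂ := charZero_of_injective_algebraMap (algebraMap F₂ E₂).injective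
  have : Algebra.IsAlgebraic ℚ E₁ := Algebra.IsAlgebraic.trans ℚ F₁ E₁
  obtain ⟨ζ, hζ⟩ := hE₁.exists_primitiveRoot p hp.pos
  let H : Subgroup (E₁ ≃ₐ[F₁] E₁) := MulAction.stabilizer (E₁ ≃ₐ[F₁] E₁) ζ
  have hH : IsOpen (H : Set (E₁ ≃ₐ[F₁] E₁)) :=
    stabilizer_isOpen_of_isIntegral (K := F₁) (L := E₁) ζ
  obtain ⟨hfd, hfix⟩ := finiteDimensional_fixedField H hH
  set K := IntermediateField.fixedField H with hK
  have hNF : NumberField K := NumberField.of_module_finite F₁ K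
  have hζK : ζ ∈ K := by
    rw [hK, IntermediateField.mem_fixedField_iff]
    intro g hg
    exact hg
  obtain ⟨O, hO, hOv⟩ := exists_valuationSubring_over (E := E₁) v
  obtain ⟨w, hw⟩ := exists_center (K := K) O hO
  obtain ⟨y, hy⟩ := w.valuation_exists_uniformizer K
  have hy0 : y ≠ 0 := by
    rintro rfl
    rw [map_zero] at hy
    exact WithZero.exp_ne_zero hy.symm
  have hyd : ¬ DvdVal w p y := by
    intro hd
    have h11 := ((dvdVal_iff w hp.ne_zero y).1 hd).2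
    rw [hy, WithZero.log_exp] at h11
    have h12 : (p : ℤ) ∣ 1 := by
      rw [← dvd_neg]; exact h11
    have h13 : p ∣ 1 := by exact_mod_cast h12
    exact hp.one_lt.ne' (Nat.dvd_one.1 h13)
  obtain ⟨θ, hθ⟩ := hE₁.exists_root p hp.pos (y : E₁)
  have hwp : (p : 𝓞 K) ∉ w.asIdeal := by
    intro h
    apply hvp
    rw [hOv]
    have h1 := (hw _).1 h
    simpa using h1
  obtain ⟨t, htK, ht, ht1, htp, htθ⟩ := exists_tame_proP K hp hζ hζK w hwp y hy0 hyd θ hθ O hO hw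
  refine ⟨hvp, O, hO, hOv, t, ht, ht1, htp, ?_⟩
  intro hαt
  apply htθ
  have hθ0 : θ ≠ 0 := by
    rintro rfl
    exact htθ (map_zero _)
  have h1 := wild_of_fix O hO t ht1 (by
    intro n d hd
    obtain ⟨z, hz⟩ := hE₂.exists_root d hd (n : E₂)
    refine ⟨j z, by rw [← map_pow, hz, map_natCast], ?_⟩
    rw [hj, hαt, AlgEquiv.one_apply]) θ hθ0
  have hpO : (p : E₁) ∉ O.nonunits := by
    have := natCast_pow_notMem_nonunits hOv hvp 1
    simpa using this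
  have h2 : (t θ / θ) ^ p = 1 := by
    rw [div_pow, ← map_pow, hθ, htK _ y.2, div_self]
    simpa using hy0
  have h3 := root_eq_one O p hpO _ h2 h1
  rwa [div_eq_one_iff_eq hθ0] at h3

end

end Vale.Agent.P024
end
end

section

section

/-!
Characters of order `p` obtained by transfer from Kummer characters.
-/

namespace Vale.Agent.P024

open scoped NumberField ENNReal Topology
open IsDedekindDomain NumberField Filter

section Transfer

variable {G A : Type*} [Group G] [CommGroup A] {H : Subgroup G} [hn : H.Normal] [H.FiniteIndex]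

theorem conj_out_mem {h : G} (hh : h ∈ H) (q : G ⧸ H) : (q.out)⁻¹ * h * q.out ∈ H := by
  have := hn.conj_mem h hh (q.out)⁻¹
  rwa [inv_inv] at this

theorem transfer_apply_of_mem (ϕ : H →* A) {h : G} (hh : h ∈ H) :
    letI := H.fintypeQuotientOfFiniteIndex
    MonoidHom.transfer ϕ h = ∏ q : G ⧸ H, ϕ ⟨(q.out)⁻¹ * h * q.out, conj_out_mem hh q⟩ := by
  let T : H.LeftTransversal :=
    ⟨Set.range Quotient.out, Subgroup.isComplement_range_left Quotient.out_eq'⟩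
  have hT : ∀ q : G ⧸ H, (T.2.leftQuotientEquiv q : G) = q.out := fun q =>
    Subgroup.IsComplement.leftQuotientEquiv_apply Quotient.out_eq' q
  have hq : ∀ q : G ⧸ H, h⁻¹ • q = q := by
    intro q
    obtain ⟨x, rfl⟩ := QuotientGroup.mk_surjective q
    show QuotientGroup.mk (h⁻¹ * x) = QuotientGroup.mk x
    rw [QuotientGroup.eq]
    have := hn.conj_mem h hh x⁻¹
    simpa [mul_assoc] using this
  rw [MonoidHom.transfer_def ϕ T]
  unfold Subgroup.leftTransversals.diff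
  dsimp only
  refine Finset.prod_congr rfl fun q _ => ?_
  congr 1
  apply Subtype.ext
  show (T.2.leftQuotientEquiv q : G)⁻¹ * ((h • T).2.leftQuotientEquiv q : G) = _
  rw [Subgroup.smul_apply_eq_smul_apply_inv_smul, hq, hT]
  exact (mul_assoc _ _ _).symm

end Transfer

section CRT

theorem exists_uniformizer_coprime (K : Type*) [Field K] [NumberField K]
    (w : HeightOneSpectrum (𝓞 K)) (T : Set (HeightOneSpectrum (𝓞 K))) (hT : T.Finite) :
    ∃ y : 𝓞 K, w.valuation K (y : K) = WithZero.exp (-1 : ℤ) ∧ ∀ w' ∈ T, w' ≠ w →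
      y ∉ w'.asIdeal := by
  classical
  obtain ⟨π, hπ⟩ := w.intValuation_exists_uniformizer
  set s : Finset (HeightOneSpectrum (𝓞 K)) := insert w hT.toFinset with hs
  obtain ⟨y, hy⟩ := IsDedekindDomain.exists_forall_sub_mem_ideal (s := s)
    (fun w' : HeightOneSpectrum (𝓞 K) => w'.asIdeal) (fun _ => 2)
    (fun w' _ => w'.prime) (fun w₁ _ w₂ _ h h' => h (HeightOneSpectrum.ext h'))
    (fun w' => if w'.1 = w then π else 1)
  refine ⟨y, ?_, ?_⟩
  · have h1 := hy w (Finset.mem_insert_self _ _)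
    simp only [if_true] at h1
    have h2 : w.intValuation (y - π) ≤ WithZero.exp (-(2 : ℤ)) := by
      have := (w.intValuation_le_pow_iff_mem (y - π) 2).2 h1
      simpa using this
    have h3 : w.intValuation y = WithZero.exp (-1 : ℤ) := by
      have h4 : w.intValuation (y - π) < w.intValuation π := by
        rw [hπ]
        refine lt_of_le_of_lt h2 ?_
        rw [WithZero.exp_lt_exp]
        norm_num
      have h5 := Valuation.map_add_eq_of_lt_right _ h4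
      rw [sub_add_cancel] at h5
      rw [h5, hπ]
    rw [HeightOneSpectrum.valuation_of_algebraMap]
    exact h3
  · intro w' hw' hne hmem
    have h1 := hy w' (Finset.mem_insert_of_mem (hT.mem_toFinset.2 hw'))
    simp only [if_neg hne] at h1
    have h2 : y - 1 ∈ w'.asIdeal := Ideal.pow_le_self two_ne_zero h1
    have h3 : (1 : 𝓞 K) ∈ w'.asIdeal := by
      have := w'.asIdeal.sub_mem hmem h2
      simpa using this
    exact w'.isPrime.ne_top ((Ideal.eq_top_iff_one _).2 h3)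

end CRT

section Kummer

variable {F E : Type*} [Field F] [Field E] [Algebra F E]

/-- the Kummer character -/
theorem exists_kummer_char {p : ℕ} (hp : p.Prime) {ζ : E} (hζ : IsPrimitiveRoot ζ p)
    (H : Subgroup (E ≃ₐ[F] E)) (hH : ∀ h ∈ H, h ζ = ζ) {η : E} (hη0 : η ≠ 0)
    (hη : ∀ h ∈ H, h (η ^ p) = η ^ p) :
    ∃ κ : H →* Multiplicative (ZMod p), ∀ (h : H) (e : ℕ),
      (h : E ≃ₐ[F] E) η = ζ ^ e * η → κ h = Multiplicative.ofAdd (e : ZMod p) := by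
  have hex : ∀ h : H, ∃ e : ℕ, (h : E ≃ₐ[F] E) η = ζ ^ e * η := fun h =>
    exists_exp_of_fix hp.pos hζ (X := η) rfl (pow_ne_zero _ hη0) h.1 (hη h.1 h.2)
  choose e he using hex
  have huniq : ∀ (h : H) (k : ℕ), (h : E ≃ₐ[F] E) η = ζ ^ k * η → (e h : ZMod p) = k := by
    intro h k hk
    rw [he h] at hk
    have h1 := mul_right_cancel₀ hη0 hk
    rw [rootPow_eq_iff_modEq hζ _ _ hp.pos] at h1
    exact (ZMod.natCast_eq_natCast_iff _ _ _).2 h1
  refine ⟨{ toFun := fun h => Multiplicative.ofAdd (e h : ZMod p)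
            map_one' := ?_
            map_mul' := ?_ }, ?_⟩
  · have := huniq 1 0 (by simp)
    rw [this]
    simp
  · intro h h'
    have := huniq (h * h') (e h + e h') (by
      show (h : E ≃ₐ[F] E) ((h' : E ≃ₐ[F] E) η) = _
      rw [he h', map_mul, map_pow, hH h h.2, he h, pow_add]
      ring)
    rw [this]
    push_cast
    rfl
  · intro h k hk
    show Multiplicative.ofAdd (e h : ZMod p) = _
    rw [huniq h k hk]

end Kummer

section Bad

variable {F₁ E₁ F₂ E₂ : Type*} [Field F₁] [NumberField F₁] [Field E₁] [Algebra F₁ E₁]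
    [IsGalois F₁ E₁] [CharZero E₁] [Algebra.IsAlgebraic ℚ E₁]

/-- the primes of norm `1` modulo `p` split completely in `F₁(ζ_p)` -/
theorem center_conj_ne {p : ℕ} {ζ : E₁} (hζ : IsPrimitiveRoot ζ p) (hp : p.Prime)
    (K : IntermediateField F₁ E₁) [NumberField K] (hζK : ζ ∈ K)
    (hK : ∀ g : E₁ ≃ₐ[F₁] E₁, g ζ = ζ → ∀ x ∈ K, g x = x)
    (v : HeightOneSpectrum (𝓞 F₁)) (hvp : (p : 𝓞 F₁) ∉ v.asIdeal)
    (hv1 : Ideal.absNorm v.asIdeal ≡ 1 [MOD p]) (O : ValuationSubring E₁) (hO : O ≠ ⊤)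
    (hOv : IsCenter O v) (w : HeightOneSpectrum (𝓞 K)) (hw : IsCenter O w)
    (c : E₁ ≃ₐ[F₁] E₁) (hw' : IsCenter (conjO O c⁻¹) w) : c ζ = ζ := by
  have hpO : (p : E₁) ∉ O.nonunits := by
    have := natCast_pow_notMem_nonunits hOv hvp 1
    simpa using this
  -- the residue field of `w` is that of `v`
  obtain ⟨s, hs, hs'⟩ := exists_frob O hO v hOv
  have hcard : Nat.card (𝓞 F₁ ⧸ v.asIdeal) = Ideal.absNorm v.asIdeal := by
    rw [Ideal.absNorm_apply]; rfl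
  rw [hcard] at hs'
  have hsζ : s ζ = ζ := by
    rw [acts_on_root O s _ hs' p hpO ζ hζ.pow_eq_one]
    conv_rhs => rw [← pow_one ζ]
    exact (rootPow_eq_iff_modEq hζ _ _ hp.pos).2 hv1
  have hcomap : w.asIdeal.comap (algebraMap (𝓞 F₁) (𝓞 K)) = v.asIdeal := by
    ext x
    rw [Ideal.mem_comap, hw, hOv]
    rfl
  have hintE : ∀ x : 𝓞 K, ((x : K) : E₁) ∈ O := by
    intro x
    have h1 : IsIntegral ℤ ((x : K) : E₁) := (RingOfIntegers.isIntegral_coe x).algebraMap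
    exact coe_mem_valuationSubring O (⟨((x : K) : E₁), h1⟩ : 𝓞 E₁)
  have hpow : ∀ x : 𝓞 K, x ^ Ideal.absNorm v.asIdeal - x ∈ w.asIdeal := by
    intro x
    have h1 := hs' ((x : K) : E₁) (hintE x)
    rw [hK s hsζ _ (x : K).2] at h1
    rw [hw]
    have h2 : algebraMap K E₁ ((x ^ Ideal.absNorm v.asIdeal - x : 𝓞 K) : K) =
        -(((x : K) : E₁) - ((x : K) : E₁) ^ Ideal.absNorm v.asIdeal) := by
      rw [neg_sub]
      simp
    rw [h2]
    exact O.nonunits.neg_mem h1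
  have hres := (residue_degree_one v w hcomap hpow).2
  -- an element of the decomposition group
  have hO' : conjO O c⁻¹ ≠ ⊤ := conjO_ne_top hO _
  obtain ⟨h, hh⟩ := exists_conj (M := K) O (conjO O c⁻¹) hO hO' (by
    intro x
    rw [(mem_iff_of_center O hO w hw x).1, (mem_iff_of_center _ hO' w hw' x).1])
  let hF : E₁ ≃ₐ[F₁] E₁ := h.restrictScalars F₁
  have hc' : Stab O (c * hF) := by
    intro x
    have h1 := hh x
    rw [mem_conjO, inv_inv] at h1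
    exact h1
  have hζint : IsIntegral ℤ (⟨ζ, hζK⟩ : K) := by
    have h1 : IsIntegral ℤ ζ := hζ.isIntegral hp.pos
    exact (isIntegral_algebraMap_iff (algebraMap K E₁).injective).1 h1
  obtain ⟨a, ha⟩ := hres ⟨⟨ζ, hζK⟩, hζint⟩
  rw [hw] at ha
  have ha' : ζ - algebraMap F₁ E₁ (a : F₁) ∈ O.nonunits := ha
  have h1 : (c * hF) (ζ - algebraMap F₁ E₁ (a : F₁)) ∈ O.nonunits := nonunits_map O _ hc' ha'
  rw [map_sub, (c * hF).commutes] at h1
  have h2 : (c * hF) ζ - ζ ∈ O.nonunits := by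
    have h3 := sub_mem_nonunits O h1 ha'
    have e : (c * hF) ζ - algebraMap F₁ E₁ (a : F₁) - (ζ - algebraMap F₁ E₁ (a : F₁)) =
        (c * hF) ζ - ζ := by ring
    rwa [e] at h3
  have hζ0 : ζ ≠ 0 := hζ.ne_zero hp.ne_zero
  have hζv : O.valuation ζ = 1 := by
    have h4 : O.valuation ζ ^ p = 1 := by rw [← map_pow, hζ.pow_eq_one, map_one]
    exact (pow_eq_one_iff_of_nonneg zero_le hp.ne_zero).1 h4
  have h3 : (c * hF) ζ / ζ - 1 ∈ O.nonunits := by
    have e : (c * hF) ζ / ζ - 1 = ζ⁻¹ * ((c * hF) ζ - ζ) := by field_simp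
    rw [e]
    refine Near.mul_mem_nonunits (le_of_eq ?_) h2
    rw [map_inv₀, hζv, inv_one]
  have h4 : ((c * hF) ζ / ζ) ^ p = 1 := by
    rw [div_pow, ← map_pow, hζ.pow_eq_one, map_one, div_one]
  have h5 := root_eq_one O p hpO _ h4 h3
  rw [div_eq_one_iff_eq hζ0, AlgEquiv.mul_apply] at h5
  have h6 : hF ζ = ζ := h.commutes ⟨ζ, hζK⟩
  rwa [h6] at h5

/-- inertia fixes the roots of units -/
theorem inertia_fix_root {p : ℕ} (hp : p.Prime) (K : IntermediateField F₁ E₁) [NumberField K]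
    (O : ValuationSubring E₁) (hO : O ≠ ⊤) (hpO : (p : E₁) ∉ O.nonunits)
    (t : E₁ ≃ₐ[F₁] E₁) (ht1 : ActsPow O t 1)
    (y : 𝓞 K) (η : E₁) (hη0 : η ≠ 0) (hη : η ^ p = ((y : K) : E₁))
    (c : E₁ ≃ₐ[F₁] E₁) (hty : t (c (η ^ p)) = c (η ^ p)) (w : HeightOneSpectrum (𝓞 K))
    (hw : IsCenter (conjO O c⁻¹) w) (hyw : y ∉ w.asIdeal) : t (c η) = c η := by
  have hcη0 : c η ≠ 0 := by simpa using hη0
  have h1 : c (η ^ p) ∉ O.nonunits := by
    intro h
    apply hyw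
    rw [hw, nonunits_conjO, inv_inv]
    rw [hη] at h
    exact h
  have hint : IsIntegral ℤ (c (η ^ p)) := by
    rw [hη]
    have h2 : IsIntegral ℤ ((y : K) : E₁) := (RingOfIntegers.isIntegral_coe y).algebraMap
    exact h2.map ((c : E₁ →+* E₁).toIntAlgHom)
  have h2 : c (η ^ p) ∈ O := coe_mem_valuationSubring O (⟨c (η ^ p), hint⟩ : 𝓞 E₁)
  have h3 : O.valuation (c (η ^ p)) = 1 :=
    le_antisymm ((O.valuation_le_one_iff _).2 h2) (not_lt.1 h1)
  have h4 : O.valuation (c η) = 1 := by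
    rw [map_pow c, map_pow] at h3
    exact (pow_eq_one_iff_of_nonneg zero_le hp.ne_zero).1 h3
  have h5 := near_of_actsPow ht1 h4
  rw [pow_one] at h5
  have h6 : (t (c η) / c η) ^ p = 1 := by
    rw [div_pow, ← map_pow, ← map_pow, hty, div_self]
    rw [map_pow]
    exact pow_ne_zero _ hcη0
  have h7 := root_eq_one O p hpO _ h6 h5.2.2
  rwa [div_eq_one_iff_eq hcη0] at h7

end Bad

end Vale.Agent.P024
end
end

section

section

/-!
If the image of the kernel of `α` in the abelianization modulo `p` is finite, then all but finitely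
many primes of norm `1` modulo `p` are alive.
-/

namespace Vale.Agent.P024

open scoped NumberField ENNReal Topology
open IsDedekindDomain NumberField Filter

section

variable {F₁ E₁ F₂ E₂ : Type*} [Field F₁] [NumberField F₁] [Field E₁] [Algebra F₁ E₁]
    [IsGalois F₁ E₁] [Field F₂] [NumberField F₂] [Field E₂] [Algebra F₂ E₂] [IsGalois F₂ E₂]

/-- The data attached to a prime of norm `1` modulo `p`: a character of order `p` and an element
of inertia. -/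
theorem exists_char [CharZero E₁] [Algebra.IsAlgebraic ℚ E₁] {p : ℕ} (hp : p.Prime)
    (hpow : ∀ x : E₁, ∃ y : E₁, y ^ p = x) {ζ : E₁} (hζ : IsPrimitiveRoot ζ p)
    (v : HeightOneSpectrum (𝓞 F₁)) (hvp : (p : 𝓞 F₁) ∉ v.asIdeal)
    (hv1 : Ideal.absNorm v.asIdeal ≡ 1 [MOD p]) (T : Set (HeightOneSpectrum (𝓞 F₁)))
    (hT : T.Finite) (hvT : v ∉ T) :
    ∃ χ : (E₁ ≃ₐ[F₁] E₁) →* Multiplicative (ZMod p),
      IsOpen (χ.ker : Set (E₁ ≃ₐ[F₁] E₁)) ∧
      (∃ (O : ValuationSubring E₁) (t : E₁ ≃ₐ[F₁] E₁), O ≠ ⊤ ∧ IsCenter O v ∧ Stab O t ∧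
        ActsPow O t 1 ∧ ProP p t ∧ t ζ = ζ ∧ χ t ≠ 1) ∧
      ∀ v' ∈ T, (p : 𝓞 F₁) ∉ v'.asIdeal → ∀ (O : ValuationSubring E₁) (t : E₁ ≃ₐ[F₁] E₁),
        O ≠ ⊤ → IsCenter O v' → ActsPow O t 1 → t ζ = ζ → χ t = 1 := by
  classical
  have hnz : NeZero p := ⟨hp.ne_zero⟩
  let H : Subgroup (E₁ ≃ₐ[F₁] E₁) := MulAction.stabilizer (E₁ ≃ₐ[F₁] E₁) ζ
  have hHmem : ∀ g : E₁ ≃ₐ[F₁] E₁, g ∈ H ↔ g ζ = ζ := fun g => Iff.rfl
  have hH : IsOpen (H : Set (E₁ ≃ₐ[F₁] E₁)) :=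
    stabilizer_isOpen_of_isIntegral (K := F₁) (L := E₁) ζ
  have hHroot : ∀ g ∈ H, ∀ z : E₁, z ^ p = 1 → g z = z := by
    intro g hg z hz
    obtain ⟨i, -, rfl⟩ := hζ.eq_pow_of_pow_eq_one hz
    rw [map_pow, (hHmem g).1 hg]
  have hHn : H.Normal := by
    refine ⟨fun g hg c => ?_⟩
    rw [hHmem, AlgEquiv.mul_apply, AlgEquiv.mul_apply, hHroot g hg _ (by
      rw [← map_pow, hζ.pow_eq_one, map_one]), ← AlgEquiv.mul_apply, mul_inv_cancel,
      AlgEquiv.one_apply]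
  have hHfin : H.FiniteIndex := by
    have := Subgroup.quotient_finite_of_isOpen H hH
    exact Subgroup.finiteIndex_of_finite_quotient
  obtain ⟨hfd, hfix⟩ := finiteDimensional_fixedField H hH
  set K := IntermediateField.fixedField H with hK
  have hNF : NumberField K := NumberField.of_module_finite F₁ K
  have hHK : ∀ g : E₁ ≃ₐ[F₁] E₁, (∀ x ∈ K, g x = x) → g ∈ H := by
    intro g hg
    rw [← hfix, IntermediateField.mem_fixingSubgroup_iff]
    exact hg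
  have hKH : ∀ g : E₁ ≃ₐ[F₁] E₁, g ζ = ζ → ∀ x ∈ K, g x = x := by
    intro g hg x hx
    exact (IntermediateField.mem_fixedField_iff H x).1 hx g hg
  have hζK : ζ ∈ K := by
    rw [hK, IntermediateField.mem_fixedField_iff]
    intro g hg
    exact hg
  have hKc : ∀ (c : E₁ ≃ₐ[F₁] E₁) (x : E₁), x ∈ K → c x ∈ K := by
    intro c x hx
    rw [hK, IntermediateField.mem_fixedField_iff]
    intro g hg
    have h1 : (c⁻¹ * g * c) x = x := by
      apply hKH _ _ x hx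
      have := hHn.conj_mem g hg c⁻¹
      rw [inv_inv] at this
      exact this
    have h2 := congrArg (fun z => c z) h1
    rwa [← AlgEquiv.mul_apply, ← mul_assoc, ← mul_assoc, mul_inv_cancel, one_mul,
      AlgEquiv.mul_apply] at h2
  obtain ⟨O, hO, hOv⟩ := exists_valuationSubring_over (E := E₁) v
  have hpO : (p : E₁) ∉ O.nonunits := by
    have := natCast_pow_notMem_nonunits hOv hvp 1
    simpa using this
  obtain ⟨w, hw⟩ := exists_center (K := K) O hO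
  -- the primes to avoid
  set T' : Set (HeightOneSpectrum (𝓞 K)) := ⋃ v' ∈ insert v T,
    {w' : HeightOneSpectrum (𝓞 K) | ((Ideal.absNorm v'.asIdeal : ℕ) : 𝓞 K) ∈ w'.asIdeal} with hT'
  have hT'fin : T'.Finite := by
    refine (hT.insert v).biUnion fun v' _ => finite_above K ?_
    rw [Ne, Ideal.absNorm_eq_zero_iff]
    exact v'.ne_bot
  have hT'mem : ∀ v' ∈ insert v T, ∀ (O' : ValuationSubring E₁), IsCenter O' v' →
      ∀ w' : HeightOneSpectrum (𝓞 K), IsCenter O' w' → w' ∈ T' := by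
    intro v' hv' O' hO'v w' hO'w
    refine Set.mem_biUnion hv' ?_
    show ((Ideal.absNorm v'.asIdeal : ℕ) : 𝓞 K) ∈ w'.asIdeal
    rw [hO'w]
    have h1 := (hO'v ((Ideal.absNorm v'.asIdeal : ℕ) : 𝓞 F₁)).1 (Ideal.absNorm_mem _)
    simpa using h1
  obtain ⟨y, hy, hyT⟩ := exists_uniformizer_coprime K w T' hT'fin
  have hy0 : (y : K) ≠ 0 := by
    intro h
    rw [h, map_zero] at hy
    exact WithZero.exp_ne_zero hy.symm
  have hyd : ¬ DvdVal w p (y : K) := by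
    intro hd
    have h11 := ((dvdVal_iff w hp.ne_zero (y : K)).1 hd).2
    rw [hy, WithZero.log_exp] at h11
    have h12 : (p : ℤ) ∣ 1 := by
      rw [← dvd_neg]; exact h11
    have h13 : p ∣ 1 := by exact_mod_cast h12
    exact hp.one_lt.ne' (Nat.dvd_one.1 h13)
  obtain ⟨η, hη⟩ := hpow ((y : K) : E₁)
  have hη0 : η ≠ 0 := by
    rintro rfl
    rw [zero_pow hp.ne_zero] at hη
    exact hy0 (by simpa using hη.symm)
  have hηH : ∀ h ∈ H, h (η ^ p) = η ^ p := by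
    intro h hh
    rw [hη]
    exact hKH h hh _ (y : K).2
  have hηc : ∀ h ∈ H, ∀ c : E₁ ≃ₐ[F₁] E₁, h (c (η ^ p)) = c (η ^ p) := by
    intro h hh c
    exact hKH h hh _ (hKc c _ (by rw [hη]; exact (y : K).2))
  obtain ⟨κ, hκ⟩ := exists_kummer_char hp hζ H (fun h hh => hh) hη0 hηH
  have hwp : (p : 𝓞 K) ∉ w.asIdeal := by
    intro h
    apply hvp
    rw [hOv]
    have h1 := (hw _).1 h
    simpa using h1
  obtain ⟨t, htK, ht, ht1, htp, htη⟩ := exists_tame_proP K hp hζ hζK w hwp (y : K) hy0 hyd η hη O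
    hO hw
  have htζ : t ζ = ζ := htK ζ hζK
  let := H.fintypeQuotientOfFiniteIndex
  -- triviality of the terms
  have hterm : ∀ (t' : E₁ ≃ₐ[F₁] E₁) (ht' : t' ∈ H) (c : E₁ ≃ₐ[F₁] E₁)
      (hc : c⁻¹ * t' * c ∈ H), t' (c η) = c η → κ ⟨c⁻¹ * t' * c, hc⟩ = 1 := by
    intro t' _ c hc h
    have h1 := hκ ⟨c⁻¹ * t' * c, hc⟩ 0 (by
      show (c⁻¹ * t' * c) η = _
      rw [AlgEquiv.mul_apply, AlgEquiv.mul_apply, h, ← AlgEquiv.mul_apply, inv_mul_cancel,
        AlgEquiv.one_apply, pow_zero, one_mul])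
    rw [h1]
    simp
  refine ⟨MonoidHom.transfer κ, ?_, ⟨O, t, hO, hOv, ht, ht1, htp, htζ, ?_⟩, ?_⟩
  · -- the kernel is open
    let N : Subgroup (E₁ ≃ₐ[F₁] E₁) := H ⊓ ⨅ q : (E₁ ≃ₐ[F₁] E₁) ⧸ H,
      MulAction.stabilizer (E₁ ≃ₐ[F₁] E₁) (q.out η)
    have hN : IsOpen (N : Set (E₁ ≃ₐ[F₁] E₁)) := by
      have h1 : IsOpen ((⨅ q : (E₁ ≃ₐ[F₁] E₁) ⧸ H,
          MulAction.stabilizer (E₁ ≃ₐ[F₁] E₁) (q.out η) : Subgroup (E₁ ≃ₐ[F₁] E₁)) :
          Set (E₁ ≃ₐ[F₁] E₁)) := by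
        rw [Subgroup.coe_iInf]
        exact isOpen_iInter_of_finite fun q =>
          stabilizer_isOpen_of_isIntegral (K := F₁) (L := E₁) (q.out η)
      exact hH.inter h1
    refine Subgroup.isOpen_mono (H₁ := N) ?_ hN
    rintro g ⟨hgH, hgN⟩
    rw [MonoidHom.mem_ker, transfer_apply_of_mem κ hgH]
    refine Finset.prod_eq_one fun q _ => ?_
    refine hterm g hgH q.out _ ?_
    have h1 := Subgroup.mem_iInf.1 hgN q
    exact h1
  · -- nontrivial on `t`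
    have htH : t ∈ H := htζ
    rw [transfer_apply_of_mem κ htH, Finset.prod_eq_single (1 : (E₁ ≃ₐ[F₁] E₁) ⧸ H)]
    · set c : E₁ ≃ₐ[F₁] E₁ := (1 : (E₁ ≃ₐ[F₁] E₁) ⧸ H).out with hc
      have hcH : c ∈ H := by
        have h1 : (QuotientGroup.mk c : (E₁ ≃ₐ[F₁] E₁) ⧸ H) = 1 := Quotient.out_eq' _
        rwa [QuotientGroup.eq_one_iff] at h1
      have h1 : κ ⟨c⁻¹ * t * c, conj_out_mem htH 1⟩ = κ ⟨t, htH⟩ := by
        have h2 : (⟨c⁻¹ * t * c, conj_out_mem htH 1⟩ : H) =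
            (⟨c, hcH⟩ : H)⁻¹ * ⟨t, htH⟩ * ⟨c, hcH⟩ := rfl
        rw [h2, map_mul, map_mul, map_inv, mul_comm, ← mul_assoc, mul_inv_cancel, one_mul]
      rw [h1]
      intro h2
      obtain ⟨e, he⟩ := exists_exp_of_fix hp.pos hζ (X := η) rfl (pow_ne_zero _ hη0) t
        (hηH t htH)
      have h3 := hκ ⟨t, htH⟩ e he
      rw [h2] at h3
      have h4 : ((e : ℕ) : ZMod p) = 0 := by
        have := congrArg Multiplicative.toAdd h3
        simpa using this.symm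
      apply htη
      rw [he]
      have h5 : p ∣ e := (ZMod.natCast_eq_zero_iff e p).1 h4
      obtain ⟨k, rfl⟩ := h5
      rw [pow_mul, hζ.pow_eq_one, one_pow, one_mul]
    · intro q _ hq
      refine hterm t htH q.out _ ?_
      have hO' := conjO_ne_top hO (q.out)⁻¹
      obtain ⟨w', hw'⟩ := exists_center (K := K) _ hO'
      have hcv : IsCenter (conjO O (q.out)⁻¹) v := by
        intro x
        rw [nonunits_conjO, AlgEquiv.commutes]
        exact hOv x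
      refine inertia_fix_root hp K O hO hpO t ht1 y η hη0 hη q.out (hηc t htH _) w' hw' ?_
      refine hyT w' (hT'mem v (Set.mem_insert _ _) _ hcv w' hw') ?_
      rintro rfl
      apply hq
      have h1 := center_conj_ne hζ hp K hζK hKH v hvp hv1 O hO hOv w' hw q.out hw'
      have h2 : (QuotientGroup.mk q.out : (E₁ ≃ₐ[F₁] E₁) ⧸ H) = q := Quotient.out_eq' _
      rw [← h2, QuotientGroup.eq_one_iff]
      exact h1
    · intro h
      exact absurd (Finset.mem_univ _) h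
  · -- trivial at the other primes
    intro v' hv'T hv'p O' t' hO' hO'v ht'1 ht'ζ
    have ht'H : t' ∈ H := ht'ζ
    have hpO' : (p : E₁) ∉ O'.nonunits := by
      have := natCast_pow_notMem_nonunits hO'v hv'p 1
      simpa using this
    rw [transfer_apply_of_mem κ ht'H]
    refine Finset.prod_eq_one fun q _ => ?_
    refine hterm t' ht'H q.out _ ?_
    have hO'' := conjO_ne_top hO' (q.out)⁻¹
    obtain ⟨w', hw'⟩ := exists_center (K := K) _ hO''
    have hcv : IsCenter (conjO O' (q.out)⁻¹) v' := by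
      intro x
      rw [nonunits_conjO, AlgEquiv.commutes]
      exact hO'v x
    refine inertia_fix_root hp K O' hO' hpO' t' ht'1 y η hη0 hη q.out (hηc t' ht'H _) w' hw' ?_
    refine hyT w' (hT'mem v' (Set.mem_insert_of_mem _ hv'T) _ hcv w' hw') ?_
    rintro rfl
    have h1 := pullPrime_center (F := F₁) (K := K) hcv hw'
    have h2 := pullPrime_center (F := F₁) (K := K) hOv hw
    rw [h1] at h2
    rw [h2] at hv'T
    exact hvT hv'T

theorem finite_bad (hE₁ : SolvablyClosed E₁) (α : (E₁ ≃ₐ[F₁] E₁) →* (E₂ ≃ₐ[F₂] E₂))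
    {p : ℕ} (hp : p.Prime) (X : Set (E₁ ≃ₐ[F₁] E₁)) (hX : X.Finite)
    (hfin : ∀ χ : (E₁ ≃ₐ[F₁] E₁) →* Multiplicative (ZMod p),
      IsOpen (χ.ker : Set (E₁ ≃ₐ[F₁] E₁)) → (∀ x ∈ X, χ x = 1) → ∀ g, α g = 1 → χ g = 1) :
    {v : HeightOneSpectrum (𝓞 F₁) | (p : 𝓞 F₁) ∉ v.asIdeal ∧
      Ideal.absNorm v.asIdeal ≡ 1 [MOD p] ∧ v ∉ Alive α p}.Finite := by
  classical
  have : CharZero E₁ := charZero_of_injective_algebraMap (algebraMap F₁ E₁).injective
  have : Algebra.IsAlgebraic ℚ E₁ := Algebra.IsAlgebraic.trans ℚ F₁ E₁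
  obtain ⟨ζ, hζ⟩ := hE₁.exists_primitiveRoot p hp.pos
  by_contra hinf
  have hinf' : Set.Infinite {v : HeightOneSpectrum (𝓞 F₁) | (p : 𝓞 F₁) ∉ v.asIdeal ∧
      Ideal.absNorm v.asIdeal ≡ 1 [MOD p] ∧ v ∉ Alive α p} := hinf
  let f := hinf'.natEmbedding
  have hch := fun k : ℕ => exists_char (F₁ := F₁) hp (hE₁.exists_root p hp.pos) hζ (f k).1
    (f k).2.1 (f k).2.2.1 ((fun i => (f i).1) '' {i : ℕ | i < k})
    ((Set.finite_lt_nat k).image _) (by
      rintro ⟨i, hi, hik⟩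
      have h1 : i = k := f.injective (Subtype.ext hik)
      exact absurd hi (by rw [h1]; exact lt_irrefl k))
  choose χ hχo hχ1 hχ2 using hch
  choose O t hO hOv ht ht1 htp htζ hχt using hχ1
  have hXf : Finite X := hX
  have hnz : NeZero p := ⟨hp.ne_zero⟩
  have hfinM : Finite (Multiplicative (ZMod p)) := inferInstance
  obtain ⟨i, j, hij, hχij⟩ := Finite.exists_ne_map_eq_of_infinite
    (fun k : ℕ => fun x : X => χ k x.1)
  have key : ∀ i j : ℕ, i < j → (∀ x ∈ X, χ i x = χ j x) → False := by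
    intro i j hij hX'
    have hαt : α (t i) = 1 := by
      by_contra hne
      exact (f i).2.2.2 ⟨(f i).2.1, O i, hO i, hOv i, t i, ht i, ht1 i, htp i, hne⟩
    have hχj : χ j (t i) = 1 := hχ2 j (f i).1 ⟨i, hij, rfl⟩ (f i).2.1 (O i) (t i) (hO i) (hOv i)
      (ht1 i) (htζ i)
    have h1 := hfin (χ i / χ j) ?_ ?_ (t i) hαt
    · rw [MonoidHom.div_apply, hχj, div_one] at h1
      exact hχt i h1
    · refine Subgroup.isOpen_mono (H₁ := (χ i).ker ⊓ (χ j).ker) ?_ ((hχo i).inter (hχo j))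
      rintro g ⟨hg1, hg2⟩
      rw [MonoidHom.mem_ker, MonoidHom.div_apply]
      rw [MonoidHom.mem_ker.1 hg1, MonoidHom.mem_ker.1 hg2, div_one]
    · intro x hx
      rw [MonoidHom.div_apply, hX' x hx, div_self']
  rcases lt_or_gt_of_ne hij with h | h
  · exact key i j h (fun x hx => congrFun hχij ⟨x, hx⟩)
  · exact key j i h (fun x hx => (congrFun hχij ⟨x, hx⟩).symm)

/-- An open homomorphism is induced if, for the primes `p` in `Q`, its kernel has finite image in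
the abelianization modulo `p`. -/
theorem induced_of_finAb (hE₁ : SolvablyClosed E₁) (hE₂ : SolvablyClosed E₂)
    (α : (E₁ ≃ₐ[F₁] E₁) →* (E₂ ≃ₐ[F₂] E₂)) (hα : Continuous α) (hopen : IsOpen (Set.range α))
    (Q : Set ℕ) (hQ : MeetsSplit Q)
    (h : ∀ p : ℕ, p.Prime → p ∈ Q → ∃ X : Set (E₁ ≃ₐ[F₁] E₁), X.Finite ∧
      ∀ χ : (E₁ ≃ₐ[F₁] E₁) →* Multiplicative (ZMod p),
        IsOpen (χ.ker : Set (E₁ ≃ₐ[F₁] E₁)) → (∀ x ∈ X, χ x = 1) → ∀ g, α g = 1 → χ g = 1) :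
    ∃ j : E₂ →+* E₁, ∀ (g : E₁ ≃ₐ[F₁] E₁) (x : E₂), g (j x) = j ((α g) x) := by
  have : CharZero E₁ := charZero_of_injective_algebraMap (algebraMap F₁ E₁).injective
  have hF0 : (0 : ℝ) < Module.finrank ℚ F₁ := by
    rw [Nat.cast_pos]
    exact Module.finrank_pos
  refine induced_of_aliveOne hE₁ hE₂ α hα hopen Q hQ
    (δ := 1 / (2 * Module.finrank ℚ F₁)) (by positivity) ?_
  intro p hp hpQ
  obtain ⟨X, hX, hfin⟩ := h p hp hpQ
  obtain ⟨ζ, hζ⟩ := hE₁.exists_primitiveRoot p hp.pos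
  have hbad := finite_bad hE₁ α hp X hX hfin
  refine Eventually.frequently (eventually_toReal F₁ _ ?_)
  have h1 := eventually_dens_one F₁ hp hζ ∅ (by
    have h0 : {p : ℕ | p.Prime ∧ p ∈ (∅ : Set ℕ)} = ∅ := by ext p; simp
    rw [h0]
    simp) _ (hbad.union (finite_above F₁ hp.ne_zero))
  refine h1.mono fun s hs => hs.trans ?_
  refine ENNReal.tsum_mono_subtype (fun v => ENNReal.ofReal (nm F₁ v s)) ?_
  rintro v ⟨-, -, hv1, hvS⟩
  have hvp : (p : 𝓞 F₁) ∉ v.asIdeal := fun h => hvS (Or.inr h)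
  refine ⟨?_, hv1⟩
  by_contra hcon
  exact hvS (Or.inl ⟨hvp, hv1, hcon⟩)

end

end Vale.Agent.P024
end
end

section

section

/-!
Open homomorphisms do not kill the `p`-part of inertia at infinitely many primes.
-/

namespace Vale.Agent.P024

open scoped NumberField ENNReal Topology
open IsDedekindDomain NumberField Filter

theorem exists_infinite_fiber {β : Type*} [Finite β] (I : Set ℕ) (hI : I.Infinite) (f : ℕ → β) :
    ∃ b, {i | i ∈ I ∧ f i = b}.Infinite := by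
  by_contra hcon
  have hcon' : ∀ b, {i | i ∈ I ∧ f i = b}.Finite := fun b => Set.not_infinite.1 fun h =>
    hcon ⟨b, h⟩
  apply hI
  refine (Set.finite_iUnion hcon').subset ?_
  intro i hi
  exact Set.mem_iUnion.2 ⟨f i, hi, rfl⟩

theorem infinite_primes (F : Type*) [Field F] [NumberField F] :
    (Set.univ : Set (HeightOneSpectrum (𝓞 F))).Infinite := by
  intro hfin
  obtain ⟨C, hC⟩ := lower F
  have e2 : ∀ᶠ s : ℝ in 𝓝[>] 1, C + hfin.toFinset.card + 1 < Real.log (1 / (s - 1)) :=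
    tendsto_log_one_div.eventually_gt_atTop _
  obtain ⟨s, hs1, hs2, hs3⟩ := (hC.and (e2.and self_mem_nhdsWithin)).exists
  have hs' : (1 : ℝ) < s := hs3
  have h1 : degOneSum F s ≤ ∑' w : (Set.univ : Set (HeightOneSpectrum (𝓞 F))),
      ENNReal.ofReal (nm F w.1 s) :=
    ENNReal.tsum_mono_subtype (fun v => ENNReal.ofReal (nm F v s)) (Set.subset_univ _)
  have h2 := (hs1.trans h1).trans (tsum_finite_le F hfin hs')
  rw [← ENNReal.ofReal_natCast, ENNReal.ofReal_le_ofReal_iff (by positivity)] at h2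
  linarith

/-- infinitely many independent classes -/
theorem exists_indep_seq (F : Type*) [Field F] [NumberField F] {p : ℕ} (hp : p.Prime) :
    ∃ x : ℕ → F, (∀ i, x i ≠ 0) ∧ ∀ i j, i ≠ j → ∀ z : F, x i ≠ x j * z ^ p := by
  classical
  let f := (infinite_primes F).natEmbedding
  have hx := fun k : ℕ => exists_uniformizer_coprime F (f k).1 ((fun i => (f i).1) '' {i | i < k})
    ((Set.finite_lt_nat k).image _)
  choose x hx1 hx2 using hx
  have hne : ∀ i j, i ≠ j → (f i).1 ≠ (f j).1 := fun i j hij h => hij (f.injective (Subtype.ext h))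
  have hx0 : ∀ i, ((x i : 𝓞 F) : F) ≠ 0 := by
    intro i h
    have := hx1 i
    rw [h, map_zero] at this
    exact WithZero.exp_ne_zero this.symm
  have hp1 : ¬ (p : ℤ) ∣ 1 := by
    intro h
    have h13 : p ∣ 1 := by exact_mod_cast h
    exact hp.one_lt.ne' (Nat.dvd_one.1 h13)
  have key : ∀ i j, i < j → ∀ z : F, ((x i : 𝓞 F) : F) * z ^ p = ((x j : 𝓞 F) : F) → False := by
    intro i j hij z hz
    have h1 : (f i).1.valuation F ((x j : 𝓞 F) : F) = 1 := by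
      have h2 := hx2 j (f i).1 ⟨i, hij, rfl⟩ (hne i j hij.ne)
      exact (f i).1.valuation_eq_one_iff_notMem.2 h2
    have h2 : DvdVal (f i).1 p ((x i : 𝓞 F) : F) := ⟨z, by rw [hz, h1]⟩
    have h3 := ((dvdVal_iff (f i).1 hp.ne_zero _).1 h2).2
    rw [hx1, WithZero.log_exp, dvd_neg] at h3
    exact hp1 h3
  refine ⟨fun i => ((x i : 𝓞 F) : F), hx0, ?_⟩
  intro i j hij z hz
  rcases lt_or_gt_of_ne hij with h | h
  · refine key i j h z⁻¹ ?_
    have hz0 : z ≠ 0 := by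
      rintro rfl
      rw [zero_pow hp.ne_zero, mul_zero] at hz
      exact hx0 i hz
    have hz' : ((x i : 𝓞 F) : F) = ((x j : 𝓞 F) : F) * z ^ p := hz
    rw [hz', mul_assoc, ← mul_pow, mul_inv_cancel₀ hz0, one_pow, mul_one]
  · exact key j i h z hz.symm

section

variable {F₁ E₁ F₂ E₂ : Type*} [Field F₁] [NumberField F₁] [Field E₁] [Algebra F₁ E₁]
    [IsGalois F₁ E₁] [Field F₂] [NumberField F₂] [Field E₂] [Algebra F₂ E₂] [IsGalois F₂ E₂]

theorem alive_infinite (hE₁ : SolvablyClosed E₁) (hE₂ : SolvablyClosed E₂)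
    (α : (E₁ ≃ₐ[F₁] E₁) →* (E₂ ≃ₐ[F₂] E₂)) (hα : Continuous α) (hopen : IsOpen (Set.range α))
    {p : ℕ} (hp : p.Prime) : (Alive α p).Infinite := by
  classical
  have : CharZero E₁ := charZero_of_injective_algebraMap (algebraMap F₁ E₁).injective
  have : CharZero E₂ := charZero_of_injective_algebraMap (algebraMap F₂ E₂).injective
  have : Algebra.IsAlgebraic ℚ E₁ := Algebra.IsAlgebraic.trans ℚ F₁ E₁
  have hnz : NeZero p := ⟨hp.ne_zero⟩
  have hp0 := hp.ne_zero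
  intro hfin
  obtain ⟨ζ₁, hζ₁⟩ := hE₁.exists_primitiveRoot p hp.pos
  obtain ⟨ζ₂, hζ₂⟩ := hE₂.exists_primitiveRoot p hp.pos
  let H : Subgroup (E₁ ≃ₐ[F₁] E₁) :=
    (MulAction.stabilizer (E₂ ≃ₐ[F₂] E₂) ζ₂).comap α ⊓ MulAction.stabilizer (E₁ ≃ₐ[F₁] E₁) ζ₁
  have hH : IsOpen (H : Set (E₁ ≃ₐ[F₁] E₁)) := by
    have h1 : IsOpen ((MulAction.stabilizer (E₂ ≃ₐ[F₂] E₂) ζ₂ : Subgroup (E₂ ≃ₐ[F₂] E₂)) :
      Set (E₂ ≃ₐ[F₂] E₂)) := stabilizer_isOpen_of_isIntegral (K := F₂) (L := E₂) ζ₂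
    have h2 : IsOpen ((MulAction.stabilizer (E₁ ≃ₐ[F₁] E₁) ζ₁ : Subgroup (E₁ ≃ₐ[F₁] E₁)) :
      Set (E₁ ≃ₐ[F₁] E₁)) := stabilizer_isOpen_of_isIntegral (K := F₁) (L := E₁) ζ₁
    exact (h1.preimage hα).inter h2
  have hHmem : ∀ g : E₁ ≃ₐ[F₁] E₁, g ∈ H ↔ α g ζ₂ = ζ₂ ∧ g ζ₁ = ζ₁ := fun g => Iff.rfl
  obtain ⟨hfd, hfix⟩ := finiteDimensional_fixedField H hH
  set K₁ := IntermediateField.fixedField H with hK₁
  have hNF : NumberField K₁ := NumberField.of_module_finite F₁ K₁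
  have hHK : ∀ g : E₁ ≃ₐ[F₁] E₁, (∀ x ∈ K₁, g x = x) → g ∈ H := by
    intro g hg
    rw [← hfix, IntermediateField.mem_fixingSubgroup_iff]
    exact hg
  have hζK : ζ₁ ∈ K₁ := by
    rw [hK₁, IntermediateField.mem_fixedField_iff]
    intro g hg
    exact ((hHmem g).1 hg).2
  obtain ⟨κ, hκ0, hκb, hκ, hκmul, S, hS⟩ := exists_kappa α hα hopen K₁
    (⊥ : IntermediateField F₂ E₂) hp (hE₂.exists_root p hp.pos) hζ₁ hζK hζ₂
    (fun g hg => ((hHmem g).1 (hHK g hg)).1) (fun g _ x hx => by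
      obtain ⟨y, rfl⟩ := IntermediateField.mem_bot.1 hx
      exact (α g).commutes y)
  -- the valuations at the primes that are not alive
  have hval : ∀ x : (⊥ : IntermediateField F₂ E₂), x ≠ 0 → ∀ v : HeightOneSpectrum (𝓞 K₁),
      (p : 𝓞 K₁) ∉ v.asIdeal → pullPrime (algebraMap F₁ K₁) v ∉ Alive α p →
      DvdVal v p (κ x) := by
    intro x hx v hvp hv
    by_contra hd
    obtain ⟨b, hb⟩ := hκb x hx
    obtain ⟨O, hO, hOv⟩ := exists_valuationSubring_over (E := E₁) v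
    obtain ⟨t, htK, ht, ht1, htp, htb⟩ := exists_tame_proP K₁ hp hζ₁ hζK v hvp (κ x) (hκ0 x hx) hd
      b hb O hO hOv
    apply hv
    have hcen : IsCenter O (pullPrime (algebraMap F₁ K₁) v) := by
      intro y
      rw [mem_pullPrime, hOv]
      rfl
    refine ⟨?_, O, hO, hcen, t, ht, ht1, htp, ?_⟩
    · intro h
      apply hvp
      rw [mem_pullPrime, map_natCast] at h
      exact h
    · intro hαt
      apply htb
      obtain ⟨X, hX⟩ := hE₂.exists_root p hp.pos (x : E₂)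
      have := hκ x hx b hb X hX t htK 0 (by rw [hαt]; simp)
      simpa using this
  -- the primes above the alive ones
  set A : Set (HeightOneSpectrum (𝓞 K₁)) := {v | pullPrime (algebraMap F₁ K₁) v ∈ Alive α p}
    with hA
  have hAfin : A.Finite := by
    have h1 : A ⊆ ⋃ v ∈ Alive α p, {w : HeightOneSpectrum (𝓞 K₁) |
        ((Ideal.absNorm v.asIdeal : ℕ) : 𝓞 K₁) ∈ w.asIdeal} := by
      intro w hw
      refine Set.mem_biUnion hw ?_
      have h2 : ((Ideal.absNorm (pullPrime (algebraMap F₁ K₁) w).asIdeal : ℕ) : 𝓞 F₁) ∈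
        (pullPrime (algebraMap F₁ K₁) w).asIdeal := Ideal.absNorm_mem _
      rw [mem_pullPrime, map_natCast] at h2
      exact h2
    refine Set.Finite.subset (hfin.biUnion fun v _ => finite_above K₁ ?_) h1
    rw [Ne, Ideal.absNorm_eq_zero_iff]
    exact v.ne_bot
  have hAf : Finite A := hAfin
  -- the sequence of classes
  obtain ⟨x', hx'0, hx'⟩ := exists_indep_seq F₂ hp
  let x : ℕ → (⊥ : IntermediateField F₂ E₂) := fun i => algebraMap F₂ _ (x' i)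
  have hx0 : ∀ i, x i ≠ 0 := fun i => by
    show algebraMap F₂ (⊥ : IntermediateField F₂ E₂) (x' i) ≠ 0
    rw [Ne, map_eq_zero]
    exact hx'0 i
  -- valuations modulo `p` at the alive primes
  let a : ℕ → A → ZMod p := fun i v => ((WithZero.log (v.1.valuation K₁ (κ (x i))) : ℤ) : ZMod p)
  obtain ⟨c, hc⟩ := exists_infinite_fiber Set.univ Set.infinite_univ a
  obtain ⟨k, hk, hkc⟩ := hc.nonempty
  obtain ⟨T, hT0, hT⟩ := selmer_finite K₁ p hp0
  have hsel : ∀ i : ℕ, i ∈ {i | i ∈ Set.univ ∧ a i = c} → ∃ t ∈ T, ∃ z : K₁, z ≠ 0 ∧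
      κ (x i) * (κ (x k))⁻¹ = t * z ^ p := by
    rintro i ⟨-, hi⟩
    refine hT _ (mul_ne_zero (hκ0 _ (hx0 i)) (inv_ne_zero (hκ0 _ (hx0 k)))) ?_
    intro v hvp
    rw [dvdVal_iff v hp0]
    refine ⟨mul_ne_zero (hκ0 _ (hx0 i)) (inv_ne_zero (hκ0 _ (hx0 k))), ?_⟩
    have hv1 : v.valuation K₁ (κ (x i)) ≠ 0 := (Valuation.ne_zero_iff _).2 (hκ0 _ (hx0 i))
    have hv2 : v.valuation K₁ (κ (x k)) ≠ 0 := (Valuation.ne_zero_iff _).2 (hκ0 _ (hx0 k))
    rw [map_mul, map_inv₀, WithZero.log_mul hv1 (inv_ne_zero hv2), WithZero.log_inv]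
    by_cases hvA : v ∈ A
    · have h1 : a i ⟨v, hvA⟩ = a k ⟨v, hvA⟩ := by rw [hi, hkc]
      have h2 : ((WithZero.log (v.valuation K₁ (κ (x i))) +
          -WithZero.log (v.valuation K₁ (κ (x k))) : ℤ) : ZMod p) = 0 := by
        push_cast
        have h3 : ((WithZero.log (v.valuation K₁ (κ (x i))) : ℤ) : ZMod p) =
          ((WithZero.log (v.valuation K₁ (κ (x k))) : ℤ) : ZMod p) := h1
        rw [h3, add_neg_cancel]
      exact (ZMod.intCast_zmod_eq_zero_iff_dvd _ _).1 h2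
    · have h1 := ((dvdVal_iff v hp0 _).1 (hval _ (hx0 i) v hvp hvA)).2
      have h2 := ((dvdVal_iff v hp0 _).1 (hval _ (hx0 k) v hvp hvA)).2
      exact dvd_add h1 (dvd_neg.2 h2)
  -- pigeonhole in the Selmer group
  let t : ℕ → T := fun i => if h : i ∈ {i | i ∈ Set.univ ∧ a i = c} then
    ⟨(hsel i h).choose, (hsel i h).choose_spec.1⟩ else ⟨(hsel k ⟨hk, hkc⟩).choose,
      (hsel k ⟨hk, hkc⟩).choose_spec.1⟩
  have ht : ∀ i ∈ {i | i ∈ Set.univ ∧ a i = c}, ∃ z : K₁, z ≠ 0 ∧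
      κ (x i) * (κ (x k))⁻¹ = (t i : K₁) * z ^ p := by
    intro i hi
    have h1 : (t i : K₁) = (hsel i hi).choose := by
      show ((dite _ _ _ : T) : K₁) = _
      rw [dif_pos hi]
    rw [h1]
    exact (hsel i hi).choose_spec.2
  obtain ⟨t₀, ht₀⟩ := exists_infinite_fiber _ hc t
  obtain ⟨m, hm, hmt⟩ := ht₀.nonempty
  -- the classes of `x i / x m`
  have hfinal : ∀ i ∈ {i | i ∈ {i | i ∈ Set.univ ∧ a i = c} ∧ t i = t₀}, ∃ s ∈ S,
      ∃ z : (⊥ : IntermediateField F₂ E₂), x i * x m ^ (p - 1) = s * z ^ p := by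
    rintro i ⟨hi, hit⟩
    have hne : x i * x m ^ (p - 1) ≠ 0 := mul_ne_zero (hx0 i) (pow_ne_zero _ (hx0 m))
    obtain ⟨zi, hzi0, hzi⟩ := ht i hi
    obtain ⟨zm, hzm0, hzm⟩ := ht m hm
    rw [hit] at hzi
    rw [hmt] at hzm
    have hκk : κ (x k) ≠ 0 := hκ0 _ (hx0 k)
    have hκm : κ (x m) ≠ 0 := hκ0 _ (hx0 m)
    -- `κ (x i) = κ (x m) * (zi / zm) ^ p`
    have h1 : κ (x i) = κ (x m) * (zi / zm) ^ p := by
      have h2 : κ (x i) = (t₀ : K₁) * zi ^ p * κ (x k) := by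
        rw [← hzi, mul_assoc, inv_mul_cancel₀ hκk, mul_one]
      have h3 : κ (x m) = (t₀ : K₁) * zm ^ p * κ (x k) := by
        rw [← hzm, mul_assoc, inv_mul_cancel₀ hκk, mul_one]
      rw [h2, h3, div_pow]
      field_simp
    -- `κ (x m ^ n)` is `κ (x m) ^ n` up to `p`-th powers
    have h4 : ∀ n : ℕ, ∃ z : K₁, κ (x m ^ (n + 1)) * z ^ p = κ (x m) ^ (n + 1) := by
      intro n
      induction n with
      | zero => exact ⟨1, by simp⟩
      | succ n ih =>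
        obtain ⟨z, hz⟩ := ih
        obtain ⟨z', hz'⟩ := hκmul (x m ^ (n + 1)) (x m) (pow_ne_zero _ (hx0 m)) (hx0 m)
        refine ⟨z' * z, ?_⟩
        rw [pow_succ (x m), mul_pow, ← mul_assoc, hz', pow_succ (κ (x m)), ← hz]
        ring
    obtain ⟨z₁, hz₁⟩ := h4 (p - 2)
    have hpp : p - 2 + 1 = p - 1 := by have := hp.two_le; omega
    rw [hpp] at hz₁
    obtain ⟨z₂, hz₂⟩ := hκmul (x i) (x m ^ (p - 1)) (hx0 i) (pow_ne_zero _ (hx0 m))
    have hz₁0 : z₁ ≠ 0 := by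
      rintro rfl
      rw [zero_pow hp0, mul_zero] at hz₁
      exact pow_ne_zero _ hκm hz₁.symm
    have hz₂0 : z₂ ≠ 0 := by
      rintro rfl
      rw [zero_pow hp0, mul_zero] at hz₂
      exact mul_ne_zero (hκ0 _ (hx0 i)) (hκ0 _ (pow_ne_zero _ (hx0 m))) hz₂.symm
    obtain ⟨s, hs, hs0, z, hz⟩ := hS (x i * x m ^ (p - 1)) hne
      ⟨κ (x m) * (zi / zm) / z₁ / z₂, by
        have h5 : κ (x i * x m ^ (p - 1)) = κ (x i) * κ (x m ^ (p - 1)) / z₂ ^ p := by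
          rw [← hz₂, mul_div_cancel_right₀ _ (pow_ne_zero _ hz₂0)]
        have h6 : κ (x m ^ (p - 1)) = κ (x m) ^ (p - 1) / z₁ ^ p := by
          rw [← hz₁, mul_div_cancel_right₀ _ (pow_ne_zero _ hz₁0)]
        have h7 : κ (x m) ^ p = κ (x m) * κ (x m) ^ (p - 1) := by
          rw [← pow_succ', Nat.sub_add_cancel hp.one_le]
        rw [h5, h6, h1, div_pow (κ (x m) * (zi / zm) / z₁) z₂ p,
          div_pow (κ (x m) * (zi / zm)) z₁ p, mul_pow, h7]
        ring⟩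
    exact ⟨s, hs, z, hz⟩
  let s : ℕ → S := fun i => if h : i ∈ {i | i ∈ {i | i ∈ Set.univ ∧ a i = c} ∧ t i = t₀} then
    ⟨(hfinal i h).choose, (hfinal i h).choose_spec.1⟩ else
      ⟨(hfinal m ⟨hm, hmt⟩).choose, (hfinal m ⟨hm, hmt⟩).choose_spec.1⟩
  have hs : ∀ i ∈ {i | i ∈ {i | i ∈ Set.univ ∧ a i = c} ∧ t i = t₀},
      ∃ z : (⊥ : IntermediateField F₂ E₂), x i * x m ^ (p - 1) = (s i : _) * z ^ p := by
    intro i hi
    have h1 : (s i : (⊥ : IntermediateField F₂ E₂)) = (hfinal i hi).choose := by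
      show ((dite _ _ _ : S) : (⊥ : IntermediateField F₂ E₂)) = _
      rw [dif_pos hi]
    rw [h1]
    exact (hfinal i hi).choose_spec.2
  obtain ⟨s₀, hs₀⟩ := exists_infinite_fiber _ ht₀ s
  obtain ⟨i, hi, j, hj, hij⟩ := hs₀.nontrivial
  obtain ⟨zi, hzi⟩ := hs i hi.1
  obtain ⟨zj, hzj⟩ := hs j hj.1
  rw [hi.2] at hzi
  rw [hj.2] at hzj
  have hxm : x m ^ (p - 1) ≠ 0 := pow_ne_zero _ (hx0 m)
  have hzj0 : zj ≠ 0 := by
    rintro rfl
    rw [zero_pow hp0, mul_zero] at hzj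
    exact mul_ne_zero (hx0 j) hxm hzj
  have hs₀0 : (s₀ : (⊥ : IntermediateField F₂ E₂)) ≠ 0 := by
    intro h
    rw [h, zero_mul] at hzj
    exact mul_ne_zero (hx0 j) hxm hzj
  have h8 : x i = x j * (zi / zj) ^ p := by
    have h9 : x i * x m ^ (p - 1) = x j * x m ^ (p - 1) * (zi / zj) ^ p := by
      rw [hzi, hzj, div_pow]
      field_simp
    have h10 : x i * x m ^ (p - 1) = x j * (zi / zj) ^ p * x m ^ (p - 1) := by
      rw [h9]; ring
    exact mul_right_cancel₀ hxm h10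
  obtain ⟨z, hz⟩ := IntermediateField.mem_bot.1 (zi / zj).2
  refine hx' i j hij z ?_
  apply (algebraMap F₂ (⊥ : IntermediateField F₂ E₂)).injective
  rw [map_mul, map_pow]
  have h11 : algebraMap F₂ (⊥ : IntermediateField F₂ E₂) z = zi / zj := by
    apply Subtype.ext
    exact hz
  rw [h11]
  exact h8

end

end Vale.Agent.P024
end
end

section

section

/-!
Inertia criteria for Uchida's conjecture: the main theorems.
-/

namespace Vale.Agent.P024

open scoped NumberField ENNReal Topology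
open IsDedekindDomain NumberField Filter

section

variable {F₁ E₁ F₂ E₂ : Type*} [Field F₁] [NumberField F₁] [Field E₁] [Algebra F₁ E₁]
    [IsGalois F₁ E₁] [Field F₂] [NumberField F₂] [Field E₂] [Algebra F₂ E₂] [IsGalois F₂ E₂]

theorem tendsto_empty : Tendsto (fun s : ℝ => (∑' p : {p : ℕ | p.Prime ∧ p ∈ (∅ : Set ℕ)},
    ((p : ℕ) : ℝ) ^ (-s)) / Real.log (1 / (s - 1))) (𝓝[>] 1) (𝓝 0) := by
  have h0 : {p : ℕ | p.Prime ∧ p ∈ (∅ : Set ℕ)} = ∅ := by ext p; simp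
  rw [h0]
  simp

/-- the kernel version -/
theorem aliveOne_dens_of_kernel (hE₁ : SolvablyClosed E₁)
    (α : (E₁ ≃ₐ[F₁] E₁) →* (E₂ ≃ₐ[F₂] E₂)) (B : Set ℕ)
    (hB : Tendsto (fun s : ℝ => (∑' p : {p : ℕ | p.Prime ∧ p ∈ B}, ((p : ℕ) : ℝ) ^ (-s)) /
      Real.log (1 / (s - 1))) (𝓝[>] 1) (𝓝 0))
    (U : Subgroup (E₁ ≃ₐ[F₁] E₁)) (hU : IsOpen (U : Set (E₁ ≃ₐ[F₁] E₁)))
    (h : ∀ g ∈ U, α g = 1 → ∀ r : ℕ, r.Prime → r ∉ B → ∀ z : E₁, z ^ r = 1 → g z = z)
    {p : ℕ} (hp : p.Prime) :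
    ∃ᶠ s : ℝ in 𝓝[>] 1,
      1 / (2 * Module.finrank ℚ F₁) / (p - 1) * Real.log (1 / (s - 1)) ≤
        ∑' v : AliveOne α p, (Ideal.absNorm v.1.asIdeal : ℝ) ^ (-s) := by
  have : CharZero E₁ := charZero_of_injective_algebraMap (algebraMap F₁ E₁).injective
  obtain ⟨ζ, hζ⟩ := hE₁.exists_primitiveRoot p hp.pos
  obtain ⟨S, hS, hS'⟩ := alive_of_kernel hE₁ α U hU hp
  refine Eventually.frequently (eventually_toReal F₁ _ ?_)
  refine (eventually_dens_one F₁ hp hζ B hB S hS).mono fun s hs => hs.trans ?_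
  refine ENNReal.tsum_mono_subtype (fun v => ENNReal.ofReal (nm F₁ v s)) ?_
  rintro v ⟨hv, hvB, hv1, hvS⟩
  exact hS' v hvS hv hv1 fun g hg hαg z hz => h g hg hαg _ hv hvB z hz

theorem induced_of_kernel (hE₁ : SolvablyClosed E₁) (hE₂ : SolvablyClosed E₂)
    (α : (E₁ ≃ₐ[F₁] E₁) →* (E₂ ≃ₐ[F₂] E₂)) (hα : Continuous α) (hopen : IsOpen (Set.range α))
    (B : Set ℕ)
    (hB : Tendsto (fun s : ℝ => (∑' p : {p : ℕ | p.Prime ∧ p ∈ B}, ((p : ℕ) : ℝ) ^ (-s)) /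
      Real.log (1 / (s - 1))) (𝓝[>] 1) (𝓝 0))
    (U : Subgroup (E₁ ≃ₐ[F₁] E₁)) (hU : IsOpen (U : Set (E₁ ≃ₐ[F₁] E₁)))
    (h : ∀ g ∈ U, α g = 1 → ∀ r : ℕ, r.Prime → r ∉ B → ∀ z : E₁, z ^ r = 1 → g z = z) :
    ∃ j : E₂ →+* E₁, ∀ (g : E₁ ≃ₐ[F₁] E₁) (x : E₂), g (j x) = j ((α g) x) := by
  have hF0 : (0 : ℝ) < Module.finrank ℚ F₁ := by
    rw [Nat.cast_pos]
    exact Module.finrank_pos
  exact induced_of_aliveOne hE₁ hE₂ α hα hopen Set.univ
    (by have := meetsSplit_compl tendsto_empty; rwa [Set.compl_empty] at this)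
    (δ := 1 / (2 * Module.finrank ℚ F₁)) (by positivity)
    fun p hp _ => aliveOne_dens_of_kernel hE₁ α B hB U hU h hp

/-- roots of unity are fixed by the kernel of an induced homomorphism -/
theorem kernel_of_induced (hE₂ : SolvablyClosed E₂)
    (α : (E₁ ≃ₐ[F₁] E₁) →* (E₂ ≃ₐ[F₂] E₂)) (j : E₂ →+* E₁)
    (hj : ∀ (g : E₁ ≃ₐ[F₁] E₁) (x : E₂), g (j x) = j ((α g) x)) (g : E₁ ≃ₐ[F₁] E₁)
    (hg : α g = 1) {r : ℕ} (hr : 0 < r) (z : E₁) (hz : z ^ r = 1) : g z = z := by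
  have : CharZero E₂ := charZero_of_injective_algebraMap (algebraMap F₂ E₂).injective
  have : NeZero r := ⟨hr.ne'⟩
  obtain ⟨ζ, hζ⟩ := hE₂.exists_primitiveRoot r hr
  have h1 : IsPrimitiveRoot (j ζ) r := hζ.map_of_injective j.injective
  obtain ⟨i, -, hi⟩ := h1.eq_pow_of_pow_eq_one hz
  rw [← hi, map_pow, hj, hg, AlgEquiv.one_apply]

theorem aliveOne_dens_of_induced (hE₁ : SolvablyClosed E₁) (hE₂ : SolvablyClosed E₂)
    (α : (E₁ ≃ₐ[F₁] E₁) →* (E₂ ≃ₐ[F₂] E₂)) (j : E₂ →+* E₁)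
    (hj : ∀ (g : E₁ ≃ₐ[F₁] E₁) (x : E₂), g (j x) = j ((α g) x)) {p : ℕ} (hp : p.Prime) :
    ∃ᶠ s : ℝ in 𝓝[>] 1,
      1 / (2 * Module.finrank ℚ F₁) / (p - 1) * Real.log (1 / (s - 1)) ≤
        ∑' v : AliveOne α p, (Ideal.absNorm v.1.asIdeal : ℝ) ^ (-s) :=
  aliveOne_dens_of_kernel hE₁ α ∅ tendsto_empty ⊤ isOpen_univ
    (fun g _ hg _ hr _ z hz => kernel_of_induced hE₂ α j hj g hg hr.pos z hz) hp

theorem eventually_dens_all (F : Type*) [Field F] [NumberField F]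
    (S : Set (HeightOneSpectrum (𝓞 F))) (hS : S.Finite) :
    ∀ᶠ s : ℝ in 𝓝[>] 1, ENNReal.ofReal (1 / 2 * Real.log (1 / (s - 1))) ≤
      ∑' v : (Sᶜ : Set (HeightOneSpectrum (𝓞 F))), ENNReal.ofReal (nm F v.1 s) := by
  obtain ⟨C, hC⟩ := lower F
  have h2 : ∀ᶠ s : ℝ in 𝓝[>] 1,
      2 * (|C| + hS.toFinset.card) < Real.log (1 / (s - 1)) :=
    tendsto_log_one_div.eventually_gt_atTop _
  filter_upwards [hC, h2, self_mem_nhdsWithin] with s hs hs2 hs1
  have hs1' : (1 : ℝ) < s := hs1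
  have h3 : degOneSum F s ≤ ∑' v : HeightOneSpectrum (𝓞 F), ENNReal.ofReal (nm F v s) := by
    exact ENNReal.tsum_comp_le_tsum_of_injective Subtype.val_injective
      (fun v : HeightOneSpectrum (𝓞 F) => ENNReal.ofReal (nm F v s))
  have h4 : ∑' v : HeightOneSpectrum (𝓞 F), ENNReal.ofReal (nm F v s) =
      ∑' v : S, ENNReal.ofReal (nm F v.1 s) +
        ∑' v : (Sᶜ : Set (HeightOneSpectrum (𝓞 F))), ENNReal.ofReal (nm F v.1 s) :=
    (ENNReal.summable.tsum_add_tsum_compl ENNReal.summable).symm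
  have h5 := tsum_finite_le F hS hs1'
  have h6 : ENNReal.ofReal (Real.log (1 / (s - 1)) - C) ≤ (hS.toFinset.card : ℝ≥0∞) +
      ∑' v : (Sᶜ : Set (HeightOneSpectrum (𝓞 F))), ENNReal.ofReal (nm F v.1 s) := by
    refine hs.trans (h3.trans ?_)
    rw [h4]
    gcongr
  have h7 : ENNReal.ofReal (1 / 2 * Real.log (1 / (s - 1))) + (hS.toFinset.card : ℝ≥0∞) ≤
      ENNReal.ofReal (Real.log (1 / (s - 1)) - C) := by
    rw [← ENNReal.ofReal_natCast, ← ENNReal.ofReal_add]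
    · apply ENNReal.ofReal_le_ofReal
      have := le_abs_self C
      linarith
    · have : (0 : ℝ) ≤ 2 * (|C| + hS.toFinset.card) := by positivity
      linarith
    · positivity
  have h8 := h7.trans h6
  rw [add_comm] at h8
  exact (ENNReal.add_le_add_iff_left (ENNReal.natCast_ne_top _)).1 h8

theorem alive_dens_of_induced (hE₁ : SolvablyClosed E₁) (hE₂ : SolvablyClosed E₂)
    (α : (E₁ ≃ₐ[F₁] E₁) →* (E₂ ≃ₐ[F₂] E₂)) (j : E₂ →+* E₁)
    (hj : ∀ (g : E₁ ≃ₐ[F₁] E₁) (x : E₂), g (j x) = j ((α g) x)) {p : ℕ} (hp : p.Prime) :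
    ∃ᶠ s : ℝ in 𝓝[>] 1, 1 / 2 * Real.log (1 / (s - 1)) ≤
      ∑' v : Alive α p, (Ideal.absNorm v.1.asIdeal : ℝ) ^ (-s) := by
  refine Eventually.frequently (eventually_toReal F₁ _ ?_)
  refine (eventually_dens_all F₁ _ (finite_above F₁ hp.ne_zero)).mono fun s hs => hs.trans ?_
  refine ENNReal.tsum_mono_subtype (fun v => ENNReal.ofReal (nm F₁ v s)) ?_
  intro v hv
  exact alive_of_induced hE₁ hE₂ α j hj hp v hv

end

end Vale.Agent.P024
end
end

section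

section

/-!
The local correspondence for homomorphisms which are not assumed to be compatible with the
cyclotomic characters.
-/

namespace Vale.Agent.P024

open scoped NumberField
open IsDedekindDomain NumberField

section

variable {F₁ E₁ F₂ E₂ : Type*} [Field F₁] [NumberField F₁] [Field E₁] [Algebra F₁ E₁]
    [IsGalois F₁ E₁] [Field F₂] [NumberField F₂] [Field E₂] [Algebra F₂ E₂] [IsGalois F₂ E₂]

/-- inertia at an alive prime acts trivially on the roots of unity of the target -/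
theorem inertia_fix_roots (hE₁ : SolvablyClosed E₁) (hE₂ : SolvablyClosed E₂)
    (α : (E₁ ≃ₐ[F₁] E₁) →* (E₂ ≃ₐ[F₂] E₂)) (hα : Continuous α) {r : ℕ} (hr : r.Prime)
    (hr2 : r ≠ 2) (v : HeightOneSpectrum (𝓞 F₁)) (hv : v ∈ Alive α r) (O : ValuationSubring E₁)
    (hO : O ≠ ⊤) (hOv : IsCenter O v) (t : E₁ ≃ₐ[F₁] E₁) (ht : Stab O t) (ht1 : ActsPow O t 1)
    (z : E₂) (hz : z ^ r = 1) : α t z = z := by
  have : CharZero E₁ := charZero_of_injective_algebraMap (algebraMap F₁ E₁).injective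
  have : CharZero E₂ := charZero_of_injective_algebraMap (algebraMap F₂ E₂).injective
  have : Algebra.IsAlgebraic ℚ E₁ := Algebra.IsAlgebraic.trans ℚ F₁ E₁
  have : Algebra.IsAlgebraic ℚ E₂ := Algebra.IsAlgebraic.trans ℚ F₂ E₂
  obtain ⟨hvr, O', hO', hv', hA⟩ := hv
  have hA' : AliveAt α r O := hA.of_center hO' hO hv' hOv
  obtain ⟨s, hs, hs'⟩ := exists_frob O hO v hOv
  have hcard : Nat.card (𝓞 F₁ ⧸ v.asIdeal) = Ideal.absNorm v.asIdeal := by
    rw [Ideal.absNorm_apply]; rfl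
  rw [hcard] at hs'
  have key := frob_of_alive α hα hr hr2 (hE₁.exists_root r hr.pos) (hE₂.exists_root r hr.pos)
    (fun n hn => hE₁.exists_primitiveRoot n hn) (fun n hn => hE₂.exists_primitiveRoot n hn)
    v hvr O hO hOv hA'
  have h1 := key s hs hs' z hz
  have h2 := key (s * t) (hs.mul ht) (by simpa using ActsPow.mul hs ht hs' ht1) z hz
  rw [map_mul, AlgEquiv.mul_apply, ← h1] at h2
  exact (α s).injective h2

/-- The local correspondence. -/
theorem local_match_alive (hE₁ : SolvablyClosed E₁) (hE₂ : SolvablyClosed E₂)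
    (α : (E₁ ≃ₐ[F₁] E₁) →* (E₂ ≃ₐ[F₂] E₂)) (hα : Continuous α)
    (K₁ : IntermediateField F₁ E₁) [NumberField K₁] (K₂ : IntermediateField F₂ E₂) [NumberField K₂]
    (hαK : ∀ g : E₁ ≃ₐ[F₁] E₁, (∀ x ∈ K₁, g x = x) → ∀ y ∈ K₂, α g y = y)
    {l : ℕ} (hl : l.Prime) (hl2 : l ≠ 2)
    (z₁ : K₁) (hz₁ : IsPrimitiveRoot z₁ l) (z₂ : K₂) (hz₂ : IsPrimitiveRoot z₂ l)
    (hμ : ∃ ξ ∈ K₂, IsPrimitiveRoot ξ (l ^ 2))
    (κ : K₂ → K₁) (hκ : IsTransfer α K₁ K₂ l (z₁ : E₁) (z₂ : E₂) κ)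
    (v : HeightOneSpectrum (𝓞 K₁)) (hvl : (l : 𝓞 K₁) ∉ v.asIdeal) (x₀ : K₂) (hx₀ : x₀ ≠ 0)
    (hx₀v : ¬ DvdVal v l (κ x₀)) :
    pullPrime (algebraMap F₁ K₁) v ∈ Alive α l ∧
    ∃ w : HeightOneSpectrum (𝓞 K₂), (l : 𝓞 K₂) ∉ w.asIdeal ∧
      (∀ x, x ≠ 0 → (DvdVal w l x ↔ DvdVal v l (κ x))) ∧
      (∀ r : ℕ, r.Prime → l ∣ r - 1 → w.valuation K₂ (r : K₂) = WithZero.exp (-1 : ℤ) →
        pullPrime (algebraMap F₁ K₁) v ∉ Alive α r) := by
  have : CharZero E₁ := charZero_of_injective_algebraMap (algebraMap F₁ E₁).injective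
  have : CharZero E₂ := charZero_of_injective_algebraMap (algebraMap F₂ E₂).injective
  have : Algebra.IsAlgebraic ℚ E₁ := Algebra.IsAlgebraic.trans ℚ F₁ E₁
  have : Algebra.IsAlgebraic ℚ E₂ := Algebra.IsAlgebraic.trans ℚ F₂ E₂
  have hpow₁ := hE₁.exists_root l hl.pos
  have hpow₂ := hE₂.exists_root l hl.pos
  have hl0 := hl.pos
  have : NeZero l := ⟨hl0.ne'⟩
  have hζ₁ : IsPrimitiveRoot (z₁ : E₁) l :=
    hz₁.map_of_injective (f := algebraMap K₁ E₁) (algebraMap K₁ E₁).injective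
  have hζ₂ : IsPrimitiveRoot (z₂ : E₂) l :=
    hz₂.map_of_injective (f := algebraMap K₂ E₂) (algebraMap K₂ E₂).injective
  obtain ⟨b₀, hb₀⟩ := hpow₁ (κ x₀ : E₁)
  obtain ⟨O, hO, hOv⟩ := exists_valuationSubring_over (E := E₁) v
  obtain ⟨t, htK, ht, ht', htp, htb⟩ := exists_tame_proP K₁ hl hζ₁ z₁.2 v hvl (κ x₀)
    (hκ.ne_zero x₀ hx₀) hx₀v b₀ hb₀ O hO hOv
  obtain ⟨s₁, hs₁, hs₁'⟩ := exists_frob O hO v hOv
  set s : E₁ ≃ₐ[F₁] E₁ := s₁.restrictScalars F₁ with hsdef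
  have hs : Stab O s := hs₁
  have hsK : ∀ x ∈ K₁, s x = x := fun x hx => s₁.commutes ⟨x, hx⟩
  set q := Ideal.absNorm v.asIdeal with hq
  have hs' : ActsPow O s q := by
    have hcard : Nat.card (𝓞 K₁ ⧸ v.asIdeal) = q := by
      rw [hq, Ideal.absNorm_apply]; rfl
    rw [hcard] at hs₁'
    exact hs₁'
  have hcen : IsCenter O (pullPrime (algebraMap F₁ K₁) v) := by
    intro y
    rw [mem_pullPrime, hOv]
    rfl
  have hlO : ∀ n : ℕ, ((l ^ n : ℕ) : E₁) ∉ O.nonunits := by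
    intro n
    apply natCast_notMem O v hOv
    rw [Nat.cast_pow]
    intro h
    exact hvl (v.isPrime.mem_of_pow_mem _ h)
  have hlO1 : (l : E₁) ∉ O.nonunits := by simpa using hlO 1
  -- the tame relation
  set δ₁ := s * t * s⁻¹ * (t ^ q)⁻¹ with hδ₁
  have hδ₁' := theta_rel O s t q hs hs' ht ht'
  rw [← hδ₁] at hδ₁'
  have hrel : α s * α t = α δ₁ * α t ^ q * α s := by
    rw [← map_pow, ← map_mul, ← map_mul, ← map_mul, hδ₁]
    congr 1
    group
  have hδ : ∀ b : E₂, ∀ n : ℕ, ((α δ₁) ^ (l ^ n)) b = b → (α δ₁) b = b := by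
    intro b n hb
    let V : Subgroup (E₁ ≃ₐ[F₁] E₁) := (MulAction.stabilizer (E₂ ≃ₐ[F₂] E₂) b).comap α
    have hV : IsOpen (V : Set (E₁ ≃ₐ[F₁] E₁)) := by
      have h1 : IsOpen ((MulAction.stabilizer (E₂ ≃ₐ[F₂] E₂) b : Subgroup (E₂ ≃ₐ[F₂] E₂)) :
        Set (E₂ ≃ₐ[F₂] E₂)) := stabilizer_isOpen_of_isIntegral (K := F₂) (L := E₂) b
      exact h1.preimage hα
    have h2 := wild_mem O δ₁ hδ₁' (l ^ n) (hlO n) V hV (by
      change α (δ₁ ^ (l ^ n)) b = b
      rw [map_pow]; exact hb)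
    exact h2
  have hpowpos : ∀ n : ℕ, 0 < l ^ n := fun n => pow_pos hl0 n
  have hq1 : 1 < q := one_lt_absNorm v
  have hsK2 : ∀ x ∈ K₂, (α s) x = x := hαK s hsK
  have htK2 : ∀ x ∈ K₂, (α t) x = x := hαK t htK
  -- transfer of fixedness
  have htr : ∀ x : K₂, x ≠ 0 → ∀ (X : E₂) (b : E₁), X ^ l = x → b ^ l = κ x →
      ((α t) X = X ↔ t b = b) := by
    intro x hx X b hX hb
    have hxE : (x : E₂) ≠ 0 := by simpa using hx
    obtain ⟨e, he⟩ := exists_exp_of_fix hl0 hζ₂ hX hxE (α t) (htK2 x x.2)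
    have h1 := hκ.spec x hx X b hX hb t htK e he
    have hX0 : X ≠ 0 := by rintro rfl; rw [zero_pow hl0.ne'] at hX; exact hxE hX.symm
    have hκE : (κ x : E₁) ≠ 0 := by simpa using hκ.ne_zero x hx
    have hb0 : b ≠ 0 := by rintro rfl; rw [zero_pow hl0.ne'] at hb; exact hκE hb.symm
    rw [he, h1, mul_eq_right₀ hX0, mul_eq_right₀ hb0, hζ₂.pow_eq_one_iff_dvd,
      hζ₁.pow_eq_one_iff_dvd]
  obtain ⟨X₀, hX₀⟩ := hpow₂ (x₀ : E₂)
  have hX₀t : (α t) X₀ ≠ X₀ := by rw [Ne, htr x₀ hx₀ X₀ b₀ hX₀ hb₀]; exact htb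
  have halive : pullPrime (algebraMap F₁ K₁) v ∈ Alive α l := by
    refine ⟨?_, O, hO, hcen, t, ht, ht', htp, ?_⟩
    · intro h
      apply hvl
      rw [mem_pullPrime, map_natCast] at h
      exact h
    · intro hαt
      apply hX₀t
      rw [hαt, AlgEquiv.one_apply]
  refine ⟨halive, ?_⟩
  have hne : ∃ b : E₂, b ^ l ∈ K₂ ∧ (α t) b ≠ b :=
    ⟨X₀, by rw [hX₀]; exact x₀.2, hX₀t⟩
  obtain ⟨hact₁, hact₂⟩ := auto_cyc K₂ hl hl2 hpow₂
    (fun n => hE₂.exists_primitiveRoot _ (hpowpos n)) (α s) (α t) (α δ₁) q hsK2 htK2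
    hrel hq1 hδ hμ hne
  have hq2 : l ^ 2 ∣ q - 1 := by
    obtain ⟨ξ, hξK, hξ⟩ := hμ
    have h1 := hact₁ 2 ξ hξ.pow_eq_one
    rw [hsK2 ξ hξK] at h1
    have hξ0 : ξ ≠ 0 := hξ.ne_zero (hpowpos 2).ne'
    rw [← hξ.pow_eq_one_iff_dvd]
    have h2 : ξ ^ (q - 1) * ξ = 1 * ξ := by
      rw [← pow_succ, show q - 1 + 1 = q by omega, one_mul, ← h1]
    exact mul_right_cancel₀ hξ0 h2
  obtain ⟨w, hwl, hw1, hw2, -⟩ := local_lemma K₂ hl hl2 hpow₂ hζ₂ (α s) (α t) (α δ₁) q hsK2 htK2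
    hrel hq1 hq2 hδ hact₁ hact₂ hne
  refine ⟨w, hwl, ?_, ?_⟩
  · intro x hx
    obtain ⟨X, hX⟩ := hpow₂ (x : E₂)
    obtain ⟨b, hb⟩ := hpow₁ (κ x : E₁)
    have h1 : DvdVal w l x ↔ (α t) X = X := ⟨hw1 X x hX, hw2 X x hx hX⟩
    rw [h1, htr x hx X b hX hb]
    constructor
    · intro htb'
      have hK0 : ∀ y : K₁, y ≠ 0 → (y : E₁) ≠ 0 := fun y hy => by simpa using hy
      have htz : t.toRingEquiv (z₁ : E₁) = z₁ := htK z₁ z₁.2
      refine dvdVal_of_char v hl (fun y => kum hpow₁ (z₁ : E₁) t.toRingEquiv (y : E₁)) ?_ ?_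
        (hκ.ne_zero x₀ hx₀) ?_ (hκ.ne_zero x hx) ?_
      · intro y y' hy hy'
        exact kum_mul hpow₁ hl0 hζ₁ htz (hK0 y hy) (hK0 y' hy') (htK y y.2) (htK y' y'.2)
      · intro y hy
        have hy0 := ((dvdVal_iff v hl0.ne' y).mp hy).1
        obtain ⟨c, hc⟩ := hpow₁ (y : E₁)
        exact (kum_eq_zero_iff hpow₁ hl0 hζ₁ htz (hK0 y hy0) (htK y y.2) hc).mpr
          (tame_fix K₁ hl0.ne' O hO v hOv hvl t htK ht' y c hc hy)
      · rw [Ne, kum_eq_zero_iff hpow₁ hl0 hζ₁ htz (hK0 _ (hκ.ne_zero x₀ hx₀))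
          (htK _ (κ x₀).2) hb₀]
        exact htb
      · exact (kum_eq_zero_iff hpow₁ hl0 hζ₁ htz (hK0 _ (hκ.ne_zero x hx))
          (htK _ (κ x).2) hb).mpr htb'
    · exact tame_fix K₁ hl0.ne' O hO v hOv hvl t htK ht' (κ x) b hb
  · intro r hr hlr hwr hvr
    have hr2 : r ≠ 2 := by
      rintro rfl
      have := Nat.le_of_dvd (by norm_num) hlr
      have := hl.two_le
      omega
    obtain ⟨ξ₂, hξ₂⟩ := hE₂.exists_primitiveRoot r hr.pos
    obtain ⟨b, x, hb0, hbx, hndvd, hfix⟩ :=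
      exists_cyclotomic_kummer K₂ hl hr hlr hζ₂ z₂.2 hξ₂ w hwr
    have hx0 : x ≠ 0 := by
      rintro rfl
      exact pow_ne_zero l hb0 (by rw [hbx]; rfl)
    exact hndvd (hw2 b x hx0 hbx (hfix (α t) htK2
      (inertia_fix_roots hE₁ hE₂ α hα hr hr2 _ hvr O hO hcen t ht ht' ξ₂ hξ₂.pow_eq_one)))

end

end Vale.Agent.P024
end
end

section

section

/-!
For all but finitely many primes `r` congruent to one modulo `l` there is a prime which is alive at
`l` and either lies above `r` or is not alive at `r`.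
-/

namespace Vale.Agent.P024

open scoped NumberField
open IsDedekindDomain NumberField

theorem prime_mem_unique {K : Type*} [Field K] [NumberField K] (w : HeightOneSpectrum (𝓞 K))
    {r r' : ℕ} (hr : r.Prime) (hr' : r'.Prime) (h : (r : 𝓞 K) ∈ w.asIdeal)
    (h' : (r' : 𝓞 K) ∈ w.asIdeal) : r = r' := by
  by_contra hne
  have hcop : IsCoprime (r : ℤ) (r' : ℤ) :=
    Nat.isCoprime_iff_coprime.2 ((Nat.coprime_primes hr hr').2 hne)
  obtain ⟨a, b, hab⟩ := hcop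
  apply w.isPrime.ne_top
  rw [Ideal.eq_top_iff_one]
  have h1 : (1 : 𝓞 K) = (a : 𝓞 K) * (r : 𝓞 K) + (b : 𝓞 K) * (r' : 𝓞 K) := by
    have := congrArg (fun n : ℤ => (n : 𝓞 K)) hab
    push_cast at this
    exact this.symm
  rw [h1]
  exact w.asIdeal.add_mem (w.asIdeal.mul_mem_left _ h) (w.asIdeal.mul_mem_left _ h')

theorem exists_prime_above (K : Type*) [Field K] [NumberField K] {r : ℕ} (hr : r.Prime) :
    ∃ w : HeightOneSpectrum (𝓞 K), (r : 𝓞 K) ∈ w.asIdeal := by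
  have h1 : Ideal.span {(r : 𝓞 K)} ≠ ⊤ := by
    intro h
    have h2 : Ideal.absNorm (Ideal.span {(r : 𝓞 K)}) = r ^ Module.finrank ℤ (𝓞 K) := by
      have h3 : (r : 𝓞 K) = algebraMap ℤ (𝓞 K) r := by simp
      rw [Ideal.absNorm_span_singleton, h3, Algebra.norm_algebraMap]
      simp
    rw [h, Ideal.absNorm_top] at h2
    have h4 : Module.finrank ℤ (𝓞 K) ≠ 0 := by
      rw [RingOfIntegers.rank]
      exact Module.finrank_pos.ne'
    have h5 := Nat.one_lt_pow h4 hr.one_lt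
    omega
  obtain ⟨M, hM, hle⟩ := Ideal.exists_le_maximal _ h1
  have hmem : (r : 𝓞 K) ∈ M := hle (Ideal.mem_span_singleton_self _)
  refine ⟨⟨M, hM.isPrime, ?_⟩, hmem⟩
  rintro rfl
  have : (r : 𝓞 K) = 0 := by simpa using hmem
  exact hr.ne_zero (by exact_mod_cast this)

section

variable {F₁ E₁ F₂ E₂ : Type*} [Field F₁] [NumberField F₁] [Field E₁] [Algebra F₁ E₁]
    [IsGalois F₁ E₁] [Field F₂] [NumberField F₂] [Field E₂] [Algebra F₂ E₂] [IsGalois F₂ E₂]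

theorem exists_alive_dead (hE₁ : SolvablyClosed E₁) (hE₂ : SolvablyClosed E₂)
    (α : (E₁ ≃ₐ[F₁] E₁) →* (E₂ ≃ₐ[F₂] E₂)) (hα : Continuous α) (hopen : IsOpen (Set.range α))
    {l : ℕ} (hl : l.Prime) (hl2 : l ≠ 2) (T : Set (HeightOneSpectrum (𝓞 F₁))) (hT : T.Finite) :
    ∃ R : Set ℕ, R.Finite ∧ ∀ r : ℕ, r.Prime → r ∉ R → l ∣ r - 1 →
      ∃ v ∈ Alive α l, v ∉ T ∧ v ∉ Alive α r := by
  classical
  have : CharZero E₁ := charZero_of_injective_algebraMap (algebraMap F₁ E₁).injective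
  have : CharZero E₂ := charZero_of_injective_algebraMap (algebraMap F₂ E₂).injective
  have : Algebra.IsAlgebraic ℚ E₁ := Algebra.IsAlgebraic.trans ℚ F₁ E₁
  have : Algebra.IsAlgebraic ℚ E₂ := Algebra.IsAlgebraic.trans ℚ F₂ E₂
  have hpow₁ := hE₁.exists_root l hl.pos
  have hpow₂ := hE₂.exists_root l hl.pos
  have hl0 := hl.pos
  have hl20 : 0 < l ^ 2 := pow_pos hl0 2
  have hnz : NeZero l := ⟨hl.ne_zero⟩
  -- the fields
  obtain ⟨ξ, hξ⟩ := hE₂.exists_primitiveRoot (l ^ 2) hl20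
  have hζ₂ : IsPrimitiveRoot (ξ ^ l) l := hξ.pow hl20 (by rw [pow_two])
  obtain ⟨ζ₁, hζ₁⟩ := hE₁.exists_primitiveRoot l hl0
  set K₂ := IntermediateField.adjoin F₂ {ξ} with hK₂
  have hfd₂ : FiniteDimensional F₂ K₂ :=
    IntermediateField.adjoin.finiteDimensional (Algebra.IsIntegral.isIntegral ξ)
  have hNF₂ : NumberField K₂ := NumberField.of_module_finite F₂ K₂
  have hξK : ξ ∈ K₂ := IntermediateField.mem_adjoin_simple_self F₂ ξ
  let H : Subgroup (E₁ ≃ₐ[F₁] E₁) :=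
    (K₂.fixingSubgroup).comap α ⊓ MulAction.stabilizer (E₁ ≃ₐ[F₁] E₁) ζ₁
  have hH : IsOpen (H : Set (E₁ ≃ₐ[F₁] E₁)) := by
    have h1 : IsOpen ((K₂.fixingSubgroup : Subgroup (E₂ ≃ₐ[F₂] E₂)) :
      Set (E₂ ≃ₐ[F₂] E₂)) := K₂.fixingSubgroup_isOpen
    have h2 : IsOpen ((MulAction.stabilizer (E₁ ≃ₐ[F₁] E₁) ζ₁ : Subgroup (E₁ ≃ₐ[F₁] E₁)) :
      Set (E₁ ≃ₐ[F₁] E₁)) := stabilizer_isOpen_of_isIntegral (K := F₁) (L := E₁) ζ₁
    exact (h1.preimage hα).inter h2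
  obtain ⟨hfd₁, hfix⟩ := finiteDimensional_fixedField H hH
  set K₁ := IntermediateField.fixedField H with hK₁
  have hNF₁ : NumberField K₁ := NumberField.of_module_finite F₁ K₁
  have hHK : ∀ g : E₁ ≃ₐ[F₁] E₁, (∀ x ∈ K₁, g x = x) → g ∈ H := by
    intro g hg
    rw [← hfix, IntermediateField.mem_fixingSubgroup_iff]
    exact hg
  have hζK : ζ₁ ∈ K₁ := by
    rw [hK₁, IntermediateField.mem_fixedField_iff]
    intro g hg
    exact hg.2
  have hαK : ∀ g : E₁ ≃ₐ[F₁] E₁, (∀ x ∈ K₁, g x = x) → ∀ y ∈ K₂, α g y = y := by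
    intro g hg
    have h1 : α g ∈ K₂.fixingSubgroup := (hHK g hg).1
    rwa [IntermediateField.mem_fixingSubgroup_iff] at h1
  let z₁ : K₁ := ⟨ζ₁, hζK⟩
  have hz₁ : IsPrimitiveRoot z₁ l :=
    IsPrimitiveRoot.of_map_of_injective (f := algebraMap K₁ E₁) hζ₁ (algebraMap K₁ E₁).injective
  let z₂ : K₂ := ⟨ξ ^ l, pow_mem hξK l⟩
  have hz₂ : IsPrimitiveRoot z₂ l :=
    IsPrimitiveRoot.of_map_of_injective (f := algebraMap K₂ E₂) hζ₂ (algebraMap K₂ E₂).injective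
  obtain ⟨κ, hκ⟩ := exists_transfer α hα K₁ K₂ hαK hl hζ₁ z₁.2 hζ₂ z₂.2 hpow₂
  have hmatch := local_match_alive hE₁ hE₂ α hα K₁ K₂ hαK hl hl2 z₁ hz₁ z₂ hz₂
    ⟨ξ, hξK, hξ⟩ κ hκ
  have hfin := hit hl κ hκ.ne_zero (hκ.mul hl0 hαK hζ₁ hζ₂ hpow₁ hpow₂)
    (hκ.ker hl (fun V hV => isOpen_map_of_isOpen_range α hα hopen V hV) hαK hζ₁ hζ₂ z₂.2 hpow₂) (by
      rintro v hvl ⟨x₀, hx₀, hx₀v⟩
      obtain ⟨-, w, -, hw, -⟩ := hmatch v hvl x₀ hx₀ hx₀v
      refine ⟨w, fun x hx => (hw x ?_).mp hx⟩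
      exact ((dvdVal_iff w hl0.ne' x).mp hx).1)
  -- the primes of `K₂` below the primes above `T`
  set A : Set (HeightOneSpectrum (𝓞 K₁)) := {v | pullPrime (algebraMap F₁ K₁) v ∈ T} with hA
  have hAfin : A.Finite := by
    have h1 : A ⊆ ⋃ v ∈ T, {w : HeightOneSpectrum (𝓞 K₁) |
        ((Ideal.absNorm v.asIdeal : ℕ) : 𝓞 K₁) ∈ w.asIdeal} := by
      intro w hw
      refine Set.mem_biUnion hw ?_
      have h2 : ((Ideal.absNorm (pullPrime (algebraMap F₁ K₁) w).asIdeal : ℕ) : 𝓞 F₁) ∈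
        (pullPrime (algebraMap F₁ K₁) w).asIdeal := Ideal.absNorm_mem _
      rw [mem_pullPrime, map_natCast] at h2
      exact h2
    refine Set.Finite.subset (hT.biUnion fun v _ => finite_above K₁ ?_) h1
    rw [Ne, Ideal.absNorm_eq_zero_iff]
    exact v.ne_bot
  let P : HeightOneSpectrum (𝓞 K₁) → HeightOneSpectrum (𝓞 K₂) → Prop := fun v w =>
    (l : 𝓞 K₁) ∉ v.asIdeal ∧ (∃ x : K₂, x ≠ 0 ∧ ¬ DvdVal v l (κ x)) ∧
      ∀ x : K₂, DvdVal w l x → DvdVal v l (κ x)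
  have hPuniq : ∀ v w w', P v w → P v w' → w = w' := by
    rintro v w w' ⟨hvl, ⟨x₀, hx₀, hx₀v⟩, hw⟩ ⟨-, -, hw'⟩
    obtain ⟨-, w₀, -, hw₀, -⟩ := hmatch v hvl x₀ hx₀ hx₀v
    rw [eq_of_dvdVal_imp hl w w₀ fun x hx hxw => (hw₀ x hx).mpr (hw x hxw),
      eq_of_dvdVal_imp hl w' w₀ fun x hx hxw => (hw₀ x hx).mpr (hw' x hxw)]
  set W₁ : Set (HeightOneSpectrum (𝓞 K₂)) := ⋃ v ∈ A, {w | P v w} with hW₁
  have hW₁fin : W₁.Finite := by
    refine hAfin.biUnion fun v _ => ?_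
    refine Set.Subsingleton.finite ?_
    intro w hw w' hw'
    exact hPuniq v w w' hw hw'
  have hbad := (hfin.union (finite_ramified K₂)).union hW₁fin
  refine ⟨resChar '' _, hbad.image _, ?_⟩
  intro r hr hrR hlr
  obtain ⟨w, hw⟩ := exists_prime_above K₂ hr
  have hrw : resChar w = r :=
    prime_mem_unique w (resChar_spec w).1 hr (resChar_spec w).2.1 hw
  have hwbad : ¬ ((w ∈ _ ∨ w ∈ _) ∨ w ∈ W₁) := fun h => hrR ⟨w, h, hrw⟩
  obtain ⟨hw12, hw3⟩ := not_or.1 hwbad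
  obtain ⟨hw1, hw2⟩ := not_or.1 hw12
  replace hw1 := not_not.mp hw1
  obtain ⟨v, hvl, ⟨x₀, hx₀, hx₀v⟩, hv⟩ := hw1
  obtain ⟨halive, w', hwl', hw'1, hw'2⟩ := hmatch v hvl x₀ hx₀ hx₀v
  have hww : w = w' := eq_of_dvdVal_imp hl w w' fun x hx hxw => (hw'1 x hx).mpr (hv x hxw)
  subst hww
  have hwexp : w.valuation K₂ (r : K₂) = WithZero.exp (-1 : ℤ) := by
    by_contra hne
    exact hw2 ⟨r, hr, hw, hne⟩
  refine ⟨_, halive, ?_, hw'2 r hr hlr hwexp⟩
  intro hvT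
  apply hw3
  exact Set.mem_biUnion (show v ∈ A from hvT) ⟨hvl, ⟨x₀, hx₀, hx₀v⟩, hv⟩

end

end Vale.Agent.P024
end
end

section

section

/-!
Independence of `p` of the alive primes is equivalent to being induced.
-/

namespace Vale.Agent.P024

open scoped NumberField ENNReal Topology
open IsDedekindDomain NumberField Filter

theorem tendsto_insert (B : Set ℕ) (n : ℕ)
    (hB : Tendsto (fun s : ℝ => (∑' p : {p : ℕ | p.Prime ∧ p ∈ B}, ((p : ℕ) : ℝ) ^ (-s)) /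
      Real.log (1 / (s - 1))) (𝓝[>] 1) (𝓝 0)) :
    Tendsto (fun s : ℝ => (∑' p : {p : ℕ | p.Prime ∧ p ∈ insert n B}, ((p : ℕ) : ℝ) ^ (-s)) /
      Real.log (1 / (s - 1))) (𝓝[>] 1) (𝓝 0) := by
  have h2 : ∀ᶠ s : ℝ in 𝓝[>] 1, (0 : ℝ) < Real.log (1 / (s - 1)) :=
    tendsto_log_one_div.eventually_gt_atTop _
  have h3 : Tendsto (fun s : ℝ => 1 / Real.log (1 / (s - 1))) (𝓝[>] 1) (𝓝 0) := by
    have := tendsto_log_one_div.inv_tendsto_atTop
    refine this.congr fun s => ?_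
    simp
  have h4 := hB.add h3
  rw [add_zero] at h4
  refine tendsto_of_tendsto_of_tendsto_of_le_of_le' tendsto_const_nhds h4 ?_ ?_
  · filter_upwards [h2] with s hs
    refine div_nonneg (tsum_nonneg fun p => ?_) hs.le
    positivity
  · filter_upwards [h2, self_mem_nhdsWithin] with s hs hs1
    have hs1' : (1 : ℝ) < s := hs1
    rw [← add_div]
    apply div_le_div_of_nonneg_right _ hs.le
    have hsum1 := summable_rpow_neg {p : ℕ | p.Prime ∧ p ∈ B} hs1'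
    have hsum2 := summable_rpow_neg {p : ℕ | p.Prime ∧ p ∈ insert n B} hs1'
    let g : ℕ → ℝ := fun p => (p : ℝ) ^ (-s)
    have hg0 : ∀ p, 0 ≤ g p := fun p => by positivity
    have e1 : ∀ A : Set ℕ, ∑' p : A, ((p : ℕ) : ℝ) ^ (-s) = ∑' p : ℕ, A.indicator g p :=
      fun A => tsum_subtype A g
    rw [e1, e1]
    have s1 : Summable ({p : ℕ | p.Prime ∧ p ∈ B}.indicator g) :=
      summable_subtype_iff_indicator.1 hsum1
    have s2 : Summable ({p : ℕ | p.Prime ∧ p ∈ insert n B}.indicator g) :=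
      summable_subtype_iff_indicator.1 hsum2
    let d : ℕ → ℝ := fun p => if p = n then 1 else 0
    have hd : Summable d := (hasSum_ite_eq n (1 : ℝ)).summable
    have hd1 : ∑' p, d p = 1 := tsum_ite_eq n _
    rw [← hd1, ← s1.tsum_add hd]
    refine s2.tsum_le_tsum (fun p => ?_) (s1.add hd)
    have hd0 : 0 ≤ d p := by
      show 0 ≤ (if p = n then (1 : ℝ) else 0)
      split_ifs <;> norm_num
    have hi0 : 0 ≤ {p : ℕ | p.Prime ∧ p ∈ B}.indicator g p := Set.indicator_nonneg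
      (fun p _ => hg0 p) p
    by_cases hmem : p ∈ {p : ℕ | p.Prime ∧ p ∈ insert n B}
    · rw [Set.indicator_of_mem hmem]
      rcases hmem.2 with hpn | hpB
      · have h5 : g p ≤ 1 := Real.rpow_le_one_of_one_le_of_nonpos
          (by exact_mod_cast hmem.1.one_le) (by linarith)
        have h6 : d p = 1 := if_pos hpn
        linarith
      · have h5 : p ∈ {p : ℕ | p.Prime ∧ p ∈ B} := ⟨hmem.1, hpB⟩
        rw [Set.indicator_of_mem h5]
        linarith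
    · rw [Set.indicator_of_notMem hmem]
      positivity

section

variable {F₁ E₁ F₂ E₂ : Type*} [Field F₁] [NumberField F₁] [Field E₁] [Algebra F₁ E₁]
    [IsGalois F₁ E₁] [Field F₂] [NumberField F₂] [Field E₂] [Algebra F₂ E₂] [IsGalois F₂ E₂]

omit [IsGalois F₁ E₁] [IsGalois F₂ E₂] [NumberField F₂] in
theorem aliveOne_dens_of_above (α : (E₁ ≃ₐ[F₁] E₁) →* (E₂ ≃ₐ[F₂] E₂)) (B : Set ℕ)
    (hB : Tendsto (fun s : ℝ => (∑' p : {p : ℕ | p.Prime ∧ p ∈ B}, ((p : ℕ) : ℝ) ^ (-s)) /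
      Real.log (1 / (s - 1))) (𝓝[>] 1) (𝓝 0)) (R : Set ℕ) (hR : R.Finite)
    {p : ℕ} (hp : p.Prime)
    (h : ∀ r : ℕ, r.Prime → r ∉ R → r ∉ B → p ∣ r - 1 → ∃ v ∈ Alive α p, (r : 𝓞 F₁) ∈ v.asIdeal)
    (Z : Type*) [Field Z] [NumberField Z] [IsGalois ℚ Z] (f : F₁ →+* Z) :
    ∃ᶠ s : ℝ in 𝓝[>] 1,
      1 / (2 * Module.finrank ℚ Z) / Module.finrank ℚ Z / (p - 1) * Real.log (1 / (s - 1)) ≤
        ∑' v : AliveOne α p, (Ideal.absNorm v.1.asIdeal : ℝ) ^ (-s) := by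
  classical
  have hnz : NeZero p := ⟨hp.ne_zero⟩
  have : NeZero ((p : ℕ) : AlgebraicClosure Z) := ⟨Nat.cast_ne_zero.2 hp.ne_zero⟩
  obtain ⟨ζ, hζ⟩ := HasEnoughRootsOfUnity.exists_primitiveRoot (AlgebraicClosure Z) p
  refine Eventually.frequently (eventually_toReal F₁ _ ?_)
  have hd := eventually_dens_one Z hp hζ B hB _ (finite_above_set Z hR)
  have hp1 : (0 : ℝ) < (p : ℝ) - 1 := by
    have : (1 : ℝ) < p := by exact_mod_cast hp.one_lt
    linarith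
  have hZ0 : (0 : ℝ) < Module.finrank ℚ Z := by
    rw [Nat.cast_pos]
    exact Module.finrank_pos
  set A : Set (HeightOneSpectrum (𝓞 Z)) := {v : HeightOneSpectrum (𝓞 Z) |
    (Ideal.absNorm v.asIdeal).Prime ∧ Ideal.absNorm v.asIdeal ∉ B ∧
      Ideal.absNorm v.asIdeal ≡ 1 [MOD p] ∧
        v ∉ {v : HeightOneSpectrum (𝓞 Z) | ∃ p ∈ R, p.Prime ∧ (p : 𝓞 Z) ∈ v.asIdeal}} with hA
  have hmap : ∀ w : A, ∃ v : AliveOne α p,
      Ideal.absNorm v.1.asIdeal = Ideal.absNorm w.1.asIdeal := by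
    rintro ⟨w, hw, hwB, hw1, hwR⟩
    have hwmem : ((Ideal.absNorm w.asIdeal : ℕ) : 𝓞 Z) ∈ w.asIdeal := Ideal.absNorm_mem _
    obtain ⟨v, hv, hvr⟩ := h _ hw (fun h => hwR ⟨_, h, hw, hwmem⟩) hwB
      ((Nat.modEq_iff_dvd' hw.one_le).1 hw1.symm)
    obtain ⟨P, hP⟩ := exists_pull_eq f v
    have hPr : ((Ideal.absNorm w.asIdeal : ℕ) : 𝓞 Z) ∈ P.asIdeal := by
      rw [← hP, mem_pullPrime, map_natCast] at hvr
      exact hvr
    obtain ⟨σ, hσ⟩ := exists_gal_pull w P hw hwmem hPr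
    have h1 : Ideal.absNorm P.asIdeal = Ideal.absNorm w.asIdeal := by
      rw [← hσ, absNorm_pull _ w hw]
    have h2 : Ideal.absNorm v.asIdeal = Ideal.absNorm w.asIdeal := by
      rw [← hP, absNorm_pull f P (by rw [h1]; exact hw), h1]
    exact ⟨⟨v, hv, by rw [h2]; exact hw1⟩, h2⟩
  choose φ hφ using hmap
  refine hd.mono fun s hs => ?_
  have h3 := tsum_fiber_le Z A (fun w hw => hw.1) φ
    (fun v => ENNReal.ofReal (nm F₁ v.1 s)) s (fun w => by rw [nm, nm, hφ])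
    (fun w w' hww => by rw [← hφ, ← hφ, hww])
  rw [RingOfIntegers.rank] at h3
  have h4 := hs.trans h3
  have h5 : ENNReal.ofReal (1 / (2 * Module.finrank ℚ Z) / (p - 1) * Real.log (1 / (s - 1))) =
      (Module.finrank ℚ Z : ℝ≥0∞) * ENNReal.ofReal
        (1 / (2 * Module.finrank ℚ Z) / Module.finrank ℚ Z / (p - 1) *
          Real.log (1 / (s - 1))) := by
    rw [← ENNReal.ofReal_natCast, ← ENNReal.ofReal_mul hZ0.le]
    congr 1
    field_simp
  rw [h5] at h4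
  exact (ENNReal.mul_le_mul_iff_right (Nat.cast_ne_zero.2 (by
    intro h0; rw [h0] at hZ0; simp at hZ0)) (ENNReal.natCast_ne_top _)).1 h4

theorem induced_of_indep (hE₁ : SolvablyClosed E₁) (hE₂ : SolvablyClosed E₂)
    (α : (E₁ ≃ₐ[F₁] E₁) →* (E₂ ≃ₐ[F₂] E₂)) (hα : Continuous α) (hopen : IsOpen (Set.range α))
    (B : Set ℕ)
    (hB : Tendsto (fun s : ℝ => (∑' p : {p : ℕ | p.Prime ∧ p ∈ B}, ((p : ℕ) : ℝ) ^ (-s)) /
      Real.log (1 / (s - 1))) (𝓝[>] 1) (𝓝 0))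
    (h : ∀ p : ℕ, p.Prime → p ∉ B → {v : HeightOneSpectrum (𝓞 F₁) | v ∈ Alive α p ∧
      ∃ q : ℕ, q.Prime ∧ q ∉ B ∧ q ≡ 1 [MOD p] ∧ (q : 𝓞 F₁) ∉ v.asIdeal ∧
        v ∉ Alive α q}.Finite) :
    ∃ j : E₂ →+* E₁, ∀ (g : E₁ ≃ₐ[F₁] E₁) (x : E₂), g (j x) = j ((α g) x) := by
  classical
  have : Algebra.IsAlgebraic ℚ (AlgebraicClosure F₁) := Algebra.IsAlgebraic.trans ℚ F₁ _
  have : Normal ℚ (AlgebraicClosure F₁) := normal_iff.2 fun x =>
    ⟨(Algebra.IsAlgebraic.isAlgebraic x).isIntegral, IsAlgClosed.splits _⟩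
  let Z := IntermediateField.normalClosure ℚ F₁ (AlgebraicClosure F₁)
  have hfd : FiniteDimensional ℚ Z := inferInstance
  have hZ : NumberField Z := ⟨⟩
  have hN : Normal ℚ Z := normalClosure.normal ℚ F₁ (AlgebraicClosure F₁)
  have hZ' : IsGalois ℚ Z := ⟨⟩
  have hZ0 : (0 : ℝ) < Module.finrank ℚ Z := by
    rw [Nat.cast_pos]
    exact Module.finrank_pos
  have hB' := tendsto_insert B 2 hB
  refine induced_of_aliveOne hE₁ hE₂ α hα hopen _ (meetsSplit_compl hB')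
    (δ := 1 / (2 * Module.finrank ℚ Z) / Module.finrank ℚ Z) (by positivity) ?_
  intro p hp hpQ
  have hp2 : p ≠ 2 := fun h => hpQ (Or.inl h)
  have hpB : p ∉ B := fun h => hpQ (Or.inr h)
  obtain ⟨R, hR, hR'⟩ := exists_alive_dead hE₁ hE₂ α hα hopen hp hp2 _ (h p hp hpB)
  refine aliveOne_dens_of_above α B hB R hR hp ?_ Z (algebraMap F₁ Z)
  intro r hr hrR hrB hpr
  obtain ⟨v, hv, hvT, hvr⟩ := hR' r hr hrR hpr
  refine ⟨v, hv, ?_⟩
  by_contra hcon
  exact hvT ⟨hv, r, hr, hrB, ((Nat.modEq_iff_dvd' hr.one_le).2 hpr).symm, hcon, hvr⟩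

end

end Vale.Agent.P024
end
end

section

section

/-!
The equivalences, in terms of the notions of the helper files.
-/

namespace Vale.Agent.P024

open scoped NumberField ENNReal Topology
open IsDedekindDomain NumberField Filter

section

variable {F₁ E₁ F₂ E₂ : Type*} [Field F₁] [NumberField F₁] [Field E₁] [Algebra F₁ E₁]
    [IsGalois F₁ E₁] [Field F₂] [NumberField F₂] [Field E₂] [Algebra F₂ E₂] [IsGalois F₂ E₂]

theorem equiv (hE₁ : SolvablyClosed E₁) (hE₂ : SolvablyClosed E₂)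
    (α : (E₁ ≃ₐ[F₁] E₁) →* (E₂ ≃ₐ[F₂] E₂)) (hα : Continuous α)
    (DZ : Set ℕ → Prop) (hDZ : ∀ B, DZ B ↔ Tendsto (fun s : ℝ =>
      (∑' p : {p : ℕ | p.Prime ∧ p ∈ B}, ((p : ℕ) : ℝ) ^ (-s)) / Real.log (1 / (s - 1)))
        (𝓝[>] 1) (𝓝 0))
    (DL : Set (HeightOneSpectrum (𝓞 F₁)) → ℝ → Prop) (hDL : ∀ P d, DL P d ↔
      ∃ᶠ s : ℝ in 𝓝[>] 1, d * Real.log (1 / (s - 1)) ≤
        ∑' v : P, (Ideal.absNorm v.1.asIdeal : ℝ) ^ (-s)) :
    List.TFAE [
      ∃! j : E₂ →+* E₁, ∀ (g : E₁ ≃ₐ[F₁] E₁) (x : E₂), g (j x) = j ((α g) x),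
      ∀ (g : E₁ ≃ₐ[F₁] E₁) (n k : ℕ), 0 < n → (∀ z : E₁, z ^ n = 1 → g z = z ^ k) →
        ∀ z : E₂, z ^ n = 1 → (α g) z = z ^ k,
      ∃ (B : Set ℕ) (d : ℝ), DZ B ∧ 0 < d ∧
        ∀ p : ℕ, p.Prime → p ∉ B → DL (Alive α p) d,
      IsOpen (Set.range α) ∧ ∃ (B : Set ℕ) (d : ℝ), DZ B ∧ 0 < d ∧
        ∀ p : ℕ, p.Prime → p ∉ B →
          DL {v | v ∈ Alive α p ∧ Ideal.absNorm v.asIdeal ≡ 1 [MOD p]} (d / (p - 1)),
      IsOpen (Set.range α) ∧ ∃ B : Set ℕ, DZ B ∧ ∀ p : ℕ, p.Prime → p ∉ B →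
        {v | v ∈ Alive α p ∧ ∃ q : ℕ, q.Prime ∧ q ∉ B ∧ q ≡ 1 [MOD p] ∧
          (q : 𝓞 F₁) ∉ v.asIdeal ∧ v ∉ Alive α q}.Finite,
      IsOpen (Set.range α) ∧ ∃ (B : Set ℕ) (U : Subgroup (E₁ ≃ₐ[F₁] E₁)), DZ B ∧
        IsOpen (U : Set (E₁ ≃ₐ[F₁] E₁)) ∧
        ∀ g ∈ U, α g = 1 → ∀ r : ℕ, r.Prime → r ∉ B → ∀ z : E₁, z ^ r = 1 → g z = z] := by
  have huniq := existsUnique_of_exists hE₁ hE₂ α
  have h0 : DZ ∅ := (hDZ ∅).2 tendsto_empty
  have hF0 : (0 : ℝ) < Module.finrank ℚ F₁ := by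
    rw [Nat.cast_pos]
    exact Module.finrank_pos
  tfae_have 1 → 2 := by
    rintro ⟨j, hj, -⟩ g n k hn hg z hz
    apply j.injective
    rw [← hj g z, map_pow]
    exact hg (j z) (by rw [← map_pow, hz, map_one])
  tfae_have 2 → 1 := fun h => huniq (induced_of_acts_A hE₁ hE₂ α hα Nat.prime_three (by norm_num)
    ⊤ isOpen_univ Set.univ (meetsSplit_of_ringHom fun Z _ _ _ => ringHom_univ Z)
    fun g _ p _ hp _ ⟨c, hc⟩ => ⟨c, acts_of_compatible hE₁ hE₂ α h g hp.pos hc⟩)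
  tfae_have 1 → 3 := by
    rintro ⟨j, hj, -⟩
    exact ⟨∅, 1 / 2, h0, by norm_num, fun p hp _ =>
      (hDL _ _).2 (alive_dens_of_induced hE₁ hE₂ α j hj hp)⟩
  tfae_have 3 → 1 := by
    rintro ⟨B, d, hB, hd, h⟩
    exact huniq (induced_of_alive hE₁ hE₂ α hα Bᶜ (meetsSplit_compl ((hDZ B).1 hB)) hd
      fun p hp hpB => (hDL _ _).1 (h p hp hpB))
  tfae_have 1 → 4 := by
    rintro ⟨j, hj, -⟩
    exact ⟨isOpen_range_of_induces α hα j hj, ∅, 1 / (2 * Module.finrank ℚ F₁), h0,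
      by positivity, fun p hp _ => (hDL _ _).2 (aliveOne_dens_of_induced hE₁ hE₂ α j hj hp)⟩
  tfae_have 4 → 1 := by
    rintro ⟨hopen, B, d, hB, hd, h⟩
    exact huniq (induced_of_aliveOne hE₁ hE₂ α hα hopen Bᶜ (meetsSplit_compl ((hDZ B).1 hB)) hd
      fun p hp hpB => (hDL _ _).1 (h p hp hpB))
  tfae_have 1 → 5 := by
    rintro ⟨j, hj, -⟩
    refine ⟨isOpen_range_of_induces α hα j hj, ∅, h0, fun p hp _ => ?_⟩
    convert Set.finite_empty
    rw [Set.eq_empty_iff_forall_notMem]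
    rintro v ⟨-, q, hq, -, -, hqv, hv⟩
    exact hv (alive_of_induced hE₁ hE₂ α j hj hq v hqv)
  tfae_have 5 → 1 := by
    rintro ⟨hopen, B, hB, h⟩
    exact huniq (induced_of_indep hE₁ hE₂ α hα hopen B ((hDZ B).1 hB) h)
  tfae_have 1 → 6 := by
    rintro ⟨j, hj, -⟩
    exact ⟨isOpen_range_of_induces α hα j hj, ∅, ⊤, h0, isOpen_univ,
      fun g _ hg r hr _ z hz => kernel_of_induced hE₂ α j hj g hg hr.pos z hz⟩
  tfae_have 6 → 1 := by
    rintro ⟨hopen, B, U, hB, hU, h⟩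
    exact huniq (induced_of_kernel hE₁ hE₂ α hα hopen B ((hDZ B).1 hB) U hU h)
  tfae_finish

theorem finite_subset_alive (hE₁ : SolvablyClosed E₁) (hE₂ : SolvablyClosed E₂)
    (α : (E₁ ≃ₐ[F₁] E₁) →* (E₂ ≃ₐ[F₂] E₂)) (hα : Continuous α) (hopen : IsOpen (Set.range α))
    {p : ℕ} (hp : p.Prime) (hp2 : p ≠ 2) :
    {r : ℕ | r.Prime ∧ r ≡ 1 [MOD p] ∧ Alive α p ⊆ Alive α r}.Finite := by
  obtain ⟨R, hR, h⟩ := exists_alive_dead hE₁ hE₂ α hα hopen hp hp2 ∅ Set.finite_empty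
  refine hR.subset ?_
  rintro r ⟨hr, hr1, hsub⟩
  by_contra hcon
  obtain ⟨v, hv, -, hv'⟩ := h r hr hcon ((Nat.modEq_iff_dvd' hr.one_le).1 hr1.symm)
  exact hv' (hsub hv)

end

end Vale.Agent.P024
end
end

section

section

/-!
Local theory, part 1: the prime of a finite level attached to an inertia element.
-/

namespace Vale.Agent.P024

open scoped NumberField
open IsDedekindDomain NumberField

/-- The kernel of the Kummer character of `B` on `K` is given by the valuation `w`. -/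
def IsW {F E : Type*} [Field F] [Field E] [Algebra F E] (l : ℕ) (K : IntermediateField F E)
    [NumberField K] (B : E ≃ₐ[F] E) (w : HeightOneSpectrum (𝓞 K)) : Prop :=
  (l : 𝓞 K) ∉ w.asIdeal ∧ ∀ (b : E) (x : K), x ≠ 0 → b ^ l = x → (B b = b ↔ DvdVal w l x)

/-- `g` is an inertia element whose image fixes `K` and moves an `l`-th root of an element of
`K`. -/
def Test {F₁ E₁ F₂ E₂ : Type*} [Field F₁] [Field E₁] [Algebra F₁ E₁] [Field F₂] [Field E₂]
    [Algebra F₂ E₂] (α : (E₁ ≃ₐ[F₁] E₁) →* (E₂ ≃ₐ[F₂] E₂)) (l : ℕ) (O : ValuationSubring E₁)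
    (K : IntermediateField F₂ E₂) (g : E₁ ≃ₐ[F₁] E₁) : Prop :=
  Stab O g ∧ ActsPow O g 1 ∧ (∀ y ∈ K, α g y = y) ∧ ∃ b : E₂, b ^ l ∈ K ∧ α g b ≠ b

theorem exists_pow_fix {F E : Type*} [Field F] [Field E] [Algebra F E] [IsGalois F E]
    (A : E ≃ₐ[F] E) (K : IntermediateField F E) [FiniteDimensional F K] :
    ∃ m : ℕ, 0 < m ∧ ∀ y ∈ K, (A ^ m) y = y := by
  have hQ : Finite ((E ≃ₐ[F] E) ⧸ K.fixingSubgroup) :=
    Subgroup.quotient_finite_of_isOpen _ K.fixingSubgroup_isOpen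
  have hind : K.fixingSubgroup.index ≠ 0 := Subgroup.index_ne_zero_of_finite
  obtain ⟨m, hm, -, h⟩ := K.fixingSubgroup.exists_pow_mem_of_index_ne_zero hind A
  rw [IntermediateField.mem_fixingSubgroup_iff] at h
  exact ⟨m, hm, h⟩

section

variable {F₁ E₁ F₂ E₂ : Type*} [Field F₁] [NumberField F₁] [Field E₁] [Algebra F₁ E₁]
    [IsGalois F₁ E₁] [Field F₂] [NumberField F₂] [Field E₂] [Algebra F₂ E₂] [IsGalois F₂ E₂]

theorem exists_isW (_hE₁ : SolvablyClosed E₁) (hE₂ : SolvablyClosed E₂)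
    (α : (E₁ ≃ₐ[F₁] E₁) →* (E₂ ≃ₐ[F₂] E₂)) (hα : Continuous α)
    {l : ℕ} (hl : l.Prime) (hl2 : l ≠ 2) (O : ValuationSubring E₁) (hO : O ≠ ⊤)
    (v : HeightOneSpectrum (𝓞 F₁)) (hOv : IsCenter O v) (hvl : (l : 𝓞 F₁) ∉ v.asIdeal)
    (K : IntermediateField F₂ E₂) [NumberField K] (hμ : ∃ ξ ∈ K, IsPrimitiveRoot ξ (l ^ 2))
    (g : E₁ ≃ₐ[F₁] E₁) (hg : Test α l O K g) :
    ∃ w : HeightOneSpectrum (𝓞 K), IsW l K (α g) w := by
  have : CharZero E₁ := charZero_of_injective_algebraMap (algebraMap F₁ E₁).injective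
  have : CharZero E₂ := charZero_of_injective_algebraMap (algebraMap F₂ E₂).injective
  have : Algebra.IsAlgebraic ℚ E₁ := Algebra.IsAlgebraic.trans ℚ F₁ E₁
  have : Algebra.IsAlgebraic ℚ E₂ := Algebra.IsAlgebraic.trans ℚ F₂ E₂
  have hfd : FiniteDimensional F₂ K := Module.Finite.of_restrictScalars_finite ℚ F₂ K
  have hpow₂ := hE₂.exists_root l hl.pos
  have hpos : ∀ n : ℕ, 0 < l ^ n := fun n => pow_pos hl.pos n
  have hroot₂' : ∀ n : ℕ, ∃ ξ : E₂, IsPrimitiveRoot ξ (l ^ n) :=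
    fun n => hE₂.exists_primitiveRoot _ (hpos n)
  have hlO := natCast_pow_notMem_nonunits hOv hvl
  obtain ⟨s, hs, hs'⟩ := exists_frob O hO v hOv
  have hcard : Nat.card (𝓞 F₁ ⧸ v.asIdeal) = Ideal.absNorm v.asIdeal := by
    rw [Ideal.absNorm_apply]; rfl
  rw [hcard] at hs'
  set q := Ideal.absNorm v.asIdeal with hq
  have hq1 : 1 < q := one_lt_absNorm v
  obtain ⟨hg1, hg2, hgK, hne⟩ := hg
  obtain ⟨m, hm, hAm⟩ := exists_pow_fix (α s) K
  set δ := s ^ m * g * (s ^ m)⁻¹ * (g ^ (q ^ m))⁻¹ with hδ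
  have hrel : (α s) ^ m * α g = α δ * (α g) ^ (q ^ m) * (α s) ^ m := by
    rw [← map_pow, ← map_pow, ← map_mul, ← map_mul, ← map_mul, hδ]
    congr 1
    group
  have hδ2 : ∀ b : E₂, ∀ n : ℕ, ((α δ) ^ (l ^ n)) b = b → (α δ) b = b := fun c n hc =>
    wild_image hα hlO _ (theta_rel O (s ^ m) g (q ^ m) (hs.pow m) (ActsPow.pow hs hs' m)
      hg1 hg2) c n hc
  have hqm : 1 < q ^ m := Nat.one_lt_pow hm.ne' hq1
  obtain ⟨hact₁, hact₂⟩ := auto_cyc K hl hl2 hpow₂ hroot₂' ((α s) ^ m) (α g) (α δ) (q ^ m) hAm hgK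
    hrel hqm hδ2 hμ hne
  have hq2 : l ^ 2 ∣ q ^ m - 1 := by
    obtain ⟨ξ, hξK, hξ⟩ := hμ
    have h1 := hact₁ 2 ξ hξ.pow_eq_one
    rw [hAm ξ hξK] at h1
    have hξ0 : ξ ≠ 0 := hξ.ne_zero (hpos 2).ne'
    rw [← hξ.pow_eq_one_iff_dvd]
    have h2 : ξ ^ (q ^ m - 1) * ξ = 1 * ξ := by
      rw [← pow_succ, show q ^ m - 1 + 1 = q ^ m by omega, one_mul, ← h1]
    exact mul_right_cancel₀ hξ0 h2
  obtain ⟨ζ₂, hζ₂⟩ := hE₂.exists_primitiveRoot l hl.pos
  obtain ⟨w, hwl, hw1, hw2, -⟩ := local_lemma K hl hl2 hpow₂ hζ₂ ((α s) ^ m) (α g) (α δ) (q ^ m)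
    hAm hgK hrel hqm hq2 hδ2 hact₁ hact₂ hne
  exact ⟨w, hwl, fun b x hx hb => ⟨hw2 b x hx hb, hw1 b x hb⟩⟩

theorem not_dvdVal_of_uniformizer {K : Type*} [Field K] [NumberField K] {l : ℕ} (hl : l.Prime)
    {w : HeightOneSpectrum (𝓞 K)} {y : K} (hy : w.valuation K y = WithZero.exp (-1 : ℤ)) :
    ¬ DvdVal w l y := by
  intro hd
  have h11 := ((dvdVal_iff w hl.ne_zero y).1 hd).2
  rw [hy, WithZero.log_exp] at h11
  have h12 : (l : ℤ) ∣ 1 := by
    rw [← dvd_neg]; exact h11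
  have h13 : l ∣ 1 := by exact_mod_cast h12
  exact hl.one_lt.ne' (Nat.dvd_one.1 h13)

theorem ne_zero_of_uniformizer {K : Type*} [Field K] [NumberField K]
    {w : HeightOneSpectrum (𝓞 K)} {y : K} (hy : w.valuation K y = WithZero.exp (-1 : ℤ)) :
    y ≠ 0 := by
  rintro rfl
  rw [map_zero] at hy
  exact WithZero.exp_ne_zero hy.symm

/-- (F0) independence of the inertia element -/
theorem isW_eq (hE₁ : SolvablyClosed E₁) (hE₂ : SolvablyClosed E₂)
    (α : (E₁ ≃ₐ[F₁] E₁) →* (E₂ ≃ₐ[F₂] E₂)) (hα : Continuous α)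
    {l : ℕ} (hl : l.Prime) (hl2 : l ≠ 2) (O : ValuationSubring E₁) (hO : O ≠ ⊤)
    (v : HeightOneSpectrum (𝓞 F₁)) (hOv : IsCenter O v) (hvl : (l : 𝓞 F₁) ∉ v.asIdeal)
    (K : IntermediateField F₂ E₂) [NumberField K] (hμ : ∃ ξ ∈ K, IsPrimitiveRoot ξ (l ^ 2))
    (g g' : E₁ ≃ₐ[F₁] E₁) (hg : Test α l O K g) (hg' : Test α l O K g')
    (w w' : HeightOneSpectrum (𝓞 K)) (hw : IsW l K (α g) w) (hw' : IsW l K (α g') w') :
    w = w' := by
  have : CharZero E₂ := charZero_of_injective_algebraMap (algebraMap F₂ E₂).injective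
  by_contra hne
  -- the product moves the root of a uniformizer
  have key : ∀ u : HeightOneSpectrum (𝓞 K), ∃ y : 𝓞 K,
      w.valuation K (y : K) = WithZero.exp (-1 : ℤ) ∧ w'.valuation K (y : K) = 1 ∧
        (u ≠ w → u.valuation K (y : K) = 1) := by
    intro u
    obtain ⟨y, hy, hy'⟩ := exists_uniformizer_coprime K w {w', u} (by simp)
    exact ⟨y, hy, w'.valuation_eq_one_iff_notMem.2 (hy' w' (by simp) (Ne.symm hne)),
      fun hu => u.valuation_eq_one_iff_notMem.2 (hy' u (by simp) hu)⟩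
  have key' : ∀ u : HeightOneSpectrum (𝓞 K), ∃ y : 𝓞 K,
      w'.valuation K (y : K) = WithZero.exp (-1 : ℤ) ∧ w.valuation K (y : K) = 1 ∧
        (u ≠ w' → u.valuation K (y : K) = 1) := by
    intro u
    obtain ⟨y, hy, hy'⟩ := exists_uniformizer_coprime K w' {w, u} (by simp)
    exact ⟨y, hy, w.valuation_eq_one_iff_notMem.2 (hy' w (by simp) hne),
      fun hu => u.valuation_eq_one_iff_notMem.2 (hy' u (by simp) hu)⟩
  have hmov : ∀ (y : K) (b : E₂), y ≠ 0 → b ^ l = y → w'.valuation K y = 1 →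
      ¬ DvdVal w l y → α (g * g') b ≠ b := by
    intro y b hy0 hb h1 h2 h3
    have h4 : α g' b = b := (hw'.2 b y hy0 hb).2 (dvdVal_of_valuation_eq_one h1)
    rw [map_mul, AlgEquiv.mul_apply, h4] at h3
    exact h2 ((hw.2 b y hy0 hb).1 h3)
  have hmov' : ∀ (y : K) (b : E₂), y ≠ 0 → b ^ l = y → w.valuation K y = 1 →
      ¬ DvdVal w' l y → α (g * g') b ≠ b := by
    intro y b hy0 hb h1 h2 h3
    have h4 : α g b = b := (hw.2 b y hy0 hb).2 (dvdVal_of_valuation_eq_one h1)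
    rw [map_mul, AlgEquiv.mul_apply] at h3
    have h5 : α g' b = b := (α g).injective (h3.trans h4.symm)
    exact h2 ((hw'.2 b y hy0 hb).1 h5)
  obtain ⟨y₀, hy₀, hy₀', -⟩ := key w
  obtain ⟨b₀, hb₀⟩ := hE₂.exists_root l hl.pos ((y₀ : K) : E₂)
  have htest : Test α l O K (g * g') := by
    refine ⟨hg.1.mul hg'.1, by simpa using ActsPow.mul hg.1 hg'.1 hg.2.1 hg'.2.1, ?_, b₀, ?_, ?_⟩
    · intro y hy
      rw [map_mul, AlgEquiv.mul_apply, hg'.2.2.1 y hy, hg.2.2.1 y hy]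
    · rw [hb₀]
      exact (y₀ : K).2
    · exact hmov _ b₀ (ne_zero_of_uniformizer hy₀) hb₀ hy₀' (not_dvdVal_of_uniformizer hl hy₀)
  obtain ⟨u, hu⟩ := exists_isW hE₁ hE₂ α hα hl hl2 O hO v hOv hvl K hμ (g * g') htest
  have h1 : u = w := by
    by_contra huw
    obtain ⟨y, hy, hy', hyu⟩ := key u
    obtain ⟨b, hb⟩ := hE₂.exists_root l hl.pos ((y : K) : E₂)
    have hy0 := ne_zero_of_uniformizer hy
    exact hmov _ b hy0 hb hy' (not_dvdVal_of_uniformizer hl hy)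
      ((hu.2 b _ hy0 hb).2 (dvdVal_of_valuation_eq_one (hyu huw)))
  have h2 : u = w' := by
    by_contra huw
    obtain ⟨y, hy, hy', hyu⟩ := key' u
    obtain ⟨b, hb⟩ := hE₂.exists_root l hl.pos ((y : K) : E₂)
    have hy0 := ne_zero_of_uniformizer hy
    exact hmov' _ b hy0 hb hy' (not_dvdVal_of_uniformizer hl hy)
      ((hu.2 b _ hy0 hb).2 (dvdVal_of_valuation_eq_one (hyu huw)))
  exact hne (h1.symm.trans h2)

omit [NumberField F₂] [IsGalois F₂ E₂] in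
/-- (F3a) compatibility for one element fixing both fields -/
theorem isW_pull (hE₂ : SolvablyClosed E₂) {l : ℕ} (hl : l.Prime)
    {K K' : IntermediateField F₂ E₂} [NumberField K] [NumberField K'] (hle : K ≤ K')
    {B : E₂ ≃ₐ[F₂] E₂} {w : HeightOneSpectrum (𝓞 K)} {w' : HeightOneSpectrum (𝓞 K')}
    (h : IsW l K B w) (h' : IsW l K' B w') :
    pullPrime (IntermediateField.inclusion hle : K →+* K') w' = w := by
  have : CharZero E₂ := charZero_of_injective_algebraMap (algebraMap K E₂).injective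
  by_contra hne
  set u := pullPrime (IntermediateField.inclusion hle : K →+* K') w' with hu
  obtain ⟨y, hy, hy'⟩ := exists_uniformizer_coprime K w {u} (by simp)
  have hy1 : u.valuation K (y : K) = 1 := u.valuation_eq_one_iff_notMem.2 (hy' u (by simp) hne)
  have hy2 := valuation_pull_eq_one (IntermediateField.inclusion hle : K →+* K') w' hy1
  obtain ⟨b, hb⟩ := hE₂.exists_root l hl.pos ((y : K) : E₂)
  have hy0 := ne_zero_of_uniformizer hy
  have h3 : B b = b := by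
    refine (h'.2 b ((IntermediateField.inclusion hle : K →+* K') (y : K)) ?_ hb).2
      (dvdVal_of_valuation_eq_one hy2)
    rw [Ne, map_eq_zero]
    exact hy0
  exact not_dvdVal_of_uniformizer hl hy ((h.2 b _ hy0 hb).1 h3)

end

end Vale.Agent.P024
end
end

section

section

/-!
Local theory, part 2: decomposition elements fix the primes of stable fields; compatibility.
-/

namespace Vale.Agent.P024

open scoped NumberField
open IsDedekindDomain NumberField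

theorem exists_uniformizer_congr (K : Type*) [Field K] [NumberField K]
    (w u : HeightOneSpectrum (𝓞 K)) (hne : u ≠ w) :
    ∃ y : 𝓞 K, w.valuation K (y : K) = WithZero.exp (-1 : ℤ) ∧ y - 1 ∈ u.asIdeal := by
  classical
  obtain ⟨π, hπ⟩ := w.intValuation_exists_uniformizer
  obtain ⟨y, hy⟩ := IsDedekindDomain.exists_forall_sub_mem_ideal (s := {w, u})
    (fun w' : HeightOneSpectrum (𝓞 K) => w'.asIdeal) (fun _ => 2)
    (fun w' _ => w'.prime) (fun w₁ _ w₂ _ h h' => h (HeightOneSpectrum.ext h'))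
    (fun w' => if w'.1 = w then π else 1)
  refine ⟨y, ?_, ?_⟩
  · have h1 := hy w (by simp)
    simp only [if_true] at h1
    have h2 : w.intValuation (y - π) ≤ WithZero.exp (-(2 : ℤ)) := by
      have := (w.intValuation_le_pow_iff_mem (y - π) 2).2 h1
      simpa using this
    have h3 : w.intValuation y = WithZero.exp (-1 : ℤ) := by
      have h4 : w.intValuation (y - π) < w.intValuation π := by
        rw [hπ]
        refine lt_of_le_of_lt h2 ?_
        rw [WithZero.exp_lt_exp]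
        norm_num
      have h5 := Valuation.map_add_eq_of_lt_right _ h4
      rw [sub_add_cancel] at h5
      rw [h5, hπ]
    rw [HeightOneSpectrum.valuation_of_algebraMap]
    exact h3
  · have h1 := hy u (by simp)
    simp only [if_neg hne] at h1
    exact Ideal.pow_le_self two_ne_zero h1

section Pull

variable {K Z : Type*} [Field K] [NumberField K] [Field Z] [NumberField Z] (f : K →+* Z)
  (P : HeightOneSpectrum (𝓞 Z))

theorem valuation_pull_gt_one {x : K} (h : 1 < (pullPrime f P).valuation K x) :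
    1 < P.valuation Z (f x) := by
  have hx : x ≠ 0 := by
    rintro rfl
    rw [map_zero] at h
    exact not_lt_of_ge zero_le_one h
  have h1 : (pullPrime f P).valuation K x⁻¹ < 1 := by
    rw [map_inv₀]
    exact inv_lt_one_of_one_lt₀ h
  have h2 := valuation_pull_lt_one f P h1
  rw [map_inv₀, map_inv₀] at h2
  have h3 : P.valuation Z (f x) ≠ 0 := by
    rw [Ne, Valuation.zero_iff]
    rwa [map_eq_zero]
  exact (inv_lt_one₀ (zero_lt_iff.2 h3)).1 h2

theorem valuation_pull_le_one_iff {x : K} :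
    (pullPrime f P).valuation K x ≤ 1 ↔ P.valuation Z (f x) ≤ 1 := by
  refine ⟨valuation_pull_le_one f P, fun h => ?_⟩
  by_contra hcon
  exact not_lt_of_ge h (valuation_pull_gt_one f P (not_le.1 hcon))

theorem valuation_pull_eq_one_iff {x : K} :
    (pullPrime f P).valuation K x = 1 ↔ P.valuation Z (f x) = 1 := by
  refine ⟨valuation_pull_eq_one f P, fun h => ?_⟩
  rcases lt_trichotomy ((pullPrime f P).valuation K x) 1 with h1 | h1 | h1
  · exact absurd h (valuation_pull_lt_one f P h1).ne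
  · exact h1
  · exact absurd h (valuation_pull_gt_one f P h1).ne'

end Pull

section

variable {F₁ E₁ F₂ E₂ : Type*} [Field F₁] [NumberField F₁] [Field E₁] [Algebra F₁ E₁]
    [IsGalois F₁ E₁] [Field F₂] [NumberField F₂] [Field E₂] [Algebra F₂ E₂] [IsGalois F₂ E₂]

/-- (F3b) decomposition elements fix the prime -/
theorem isW_stable (hE₁ : SolvablyClosed E₁) (hE₂ : SolvablyClosed E₂)
    (α : (E₁ ≃ₐ[F₁] E₁) →* (E₂ ≃ₐ[F₂] E₂)) (hα : Continuous α)
    {l : ℕ} (hl : l.Prime) (hl2 : l ≠ 2) (O : ValuationSubring E₁) (hO : O ≠ ⊤)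
    (v : HeightOneSpectrum (𝓞 F₁)) (hOv : IsCenter O v) (hvl : (l : 𝓞 F₁) ∉ v.asIdeal)
    (K : IntermediateField F₂ E₂) [NumberField K] (hμ : ∃ ξ ∈ K, IsPrimitiveRoot ξ (l ^ 2))
    (d : E₁ ≃ₐ[F₁] E₁) (hd : Test α l O K d) (w : HeightOneSpectrum (𝓞 K))
    (hw : IsW l K (α d) w) (s : E₁ ≃ₐ[F₁] E₁) (hs : Stab O s) (τ : K ≃ₐ[F₂] K)
    (hτ : ∀ y : K, ((τ y : K) : E₂) = α s y) :
    pullPrime (τ : K →+* K) w = w := by
  have : CharZero E₁ := charZero_of_injective_algebraMap (algebraMap F₁ E₁).injective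
  have : Algebra.IsAlgebraic ℚ E₁ := Algebra.IsAlgebraic.trans ℚ F₁ E₁
  have : CharZero E₂ := charZero_of_injective_algebraMap (algebraMap F₂ E₂).injective
  have hτi : ∀ y : K, ((τ.symm y : K) : E₂) = (α s)⁻¹ y := by
    intro y
    have h1 := hτ (τ.symm y)
    rw [AlgEquiv.apply_symm_apply] at h1
    rw [h1, ← AlgEquiv.mul_apply, inv_mul_cancel, AlgEquiv.one_apply]
  have hconj : ∀ b : E₂, α (s⁻¹ * d * s) b = (α s)⁻¹ (α d (α s b)) := by
    intro b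
    rw [map_mul, map_mul, map_inv, AlgEquiv.mul_apply, AlgEquiv.mul_apply]
  have hinj : ∀ b c : E₂, (α s)⁻¹ b = c ↔ b = α s c := by
    intro b c
    constructor
    · rintro rfl
      rw [← AlgEquiv.mul_apply, mul_inv_cancel, AlgEquiv.one_apply]
    · rintro rfl
      rw [← AlgEquiv.mul_apply, inv_mul_cancel, AlgEquiv.one_apply]
  have hd' : Test α l O K (s⁻¹ * d * s) := by
    obtain ⟨h1, h2, h3, b, hbK, hb⟩ := hd
    refine ⟨(hs.inv.mul h1).mul hs, ?_, ?_, (α s)⁻¹ b, ?_, ?_⟩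
    · have := ActsPow.conj hs.inv h2
      rwa [inv_inv] at this
    · intro y hy
      rw [hconj, hinj]
      apply h3
      rw [← hτ ⟨y, hy⟩]
      exact (τ ⟨y, hy⟩).2
    · rw [← map_pow, ← hτi ⟨_, hbK⟩]
      exact (τ.symm _).2
    · intro h
      rw [hconj, ← AlgEquiv.mul_apply (α s) (α s)⁻¹, mul_inv_cancel, AlgEquiv.one_apply] at h
      exact hb ((α s)⁻¹.injective h)
  obtain ⟨w', hw'⟩ := exists_isW hE₁ hE₂ α hα hl hl2 O hO v hOv hvl K hμ _ hd'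
  have hww := isW_eq hE₁ hE₂ α hα hl hl2 O hO v hOv hvl K hμ _ _ hd hd' w w' hw hw'
  subst hww
  symm
  refine eq_of_dvdVal_imp hl w _ fun x hx hxw => ?_
  obtain ⟨b, hb⟩ := hE₂.exists_root l hl.pos (x : E₂)
  have h1 := (hw'.2 b x hx hb).2 hxw
  rw [hconj, hinj] at h1
  have h2 : DvdVal w l (τ x) := by
    refine (hw.2 (α s b) (τ x) ?_ ?_).1 h1
    · rw [Ne, map_eq_zero_iff _ τ.injective]
      exact hx
    · rw [← map_pow, hb, hτ]
  obtain ⟨z, hz⟩ := h2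
  refine ⟨τ.symm z, ?_⟩
  rw [valuation_pull_eq_one_iff]
  have h3 : (τ : K →+* K) (x * τ.symm z ^ l) = τ x * z ^ l := by
    show τ (x * τ.symm z ^ l) = _
    rw [map_mul, map_pow, AlgEquiv.apply_symm_apply]
  rw [h3]
  exact hz

/-- (F3) compatibility -/
theorem isW_compat (hE₁ : SolvablyClosed E₁) (hE₂ : SolvablyClosed E₂)
    (α : (E₁ ≃ₐ[F₁] E₁) →* (E₂ ≃ₐ[F₂] E₂)) (hα : Continuous α)
    {l : ℕ} (hl : l.Prime) (hl2 : l ≠ 2) (O : ValuationSubring E₁) (hO : O ≠ ⊤)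
    (v : HeightOneSpectrum (𝓞 F₁)) (hOv : IsCenter O v) (hvl : (l : 𝓞 F₁) ∉ v.asIdeal)
    {K K' : IntermediateField F₂ E₂} [NumberField K] [NumberField K'] (hle : K ≤ K')
    (hμ : ∃ ξ ∈ K, IsPrimitiveRoot ξ (l ^ 2))
    (g d : E₁ ≃ₐ[F₁] E₁) (hg : Test α l O K g) (hd : Test α l O K' d)
    (w : HeightOneSpectrum (𝓞 K)) (w' : HeightOneSpectrum (𝓞 K'))
    (hw : IsW l K (α g) w) (hw' : IsW l K' (α d) w') (hK' : ∀ y ∈ K', α g y ∈ K') :
    pullPrime (IntermediateField.inclusion hle : K →+* K') w' = w := by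
  have : CharZero E₂ := charZero_of_injective_algebraMap (algebraMap F₂ E₂).injective
  by_contra hne
  set u := pullPrime (IntermediateField.inclusion hle : K →+* K') w' with hu
  obtain ⟨y, hy, hyu⟩ := exists_uniformizer_congr K w u hne
  have hy0 := ne_zero_of_uniformizer hy
  obtain ⟨c, hc⟩ := hE₂.exists_root l hl.pos ((y : K) : E₂)
  have hc0 : c ≠ 0 := by
    rintro rfl
    rw [zero_pow hl.ne_zero] at hc
    exact hy0 (by simpa using hc.symm)
  -- `g` moves `c`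
  have hgc : α g c ≠ c := fun h => not_dvdVal_of_uniformizer hl hy ((hw.2 c _ hy0 hc).1 h)
  -- `d` fixes `c`
  have hy1 : u.valuation K (y : K) = 1 := by
    refine u.valuation_eq_one_iff_notMem.2 fun hmem => ?_
    have h3 : (1 : 𝓞 K) ∈ u.asIdeal := by
      have := u.asIdeal.sub_mem hmem hyu
      simpa using this
    exact u.isPrime.ne_top ((Ideal.eq_top_iff_one _).2 h3)
  have hy2 := valuation_pull_eq_one (IntermediateField.inclusion hle : K →+* K') w' hy1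
  have hdc : α d c = c := by
    refine (hw'.2 c ((IntermediateField.inclusion hle : K →+* K') (y : K)) ?_ hc).2
      (dvdVal_of_valuation_eq_one hy2)
    rw [Ne, map_eq_zero]
    exact hy0
  -- the root of unity
  obtain ⟨ξ, hξK, hξ⟩ := hμ
  have hζ : IsPrimitiveRoot (ξ ^ l) l := hξ.pow (pow_pos hl.pos 2) (by rw [pow_two])
  obtain ⟨e, he⟩ := exists_exp_of_fix hl.pos hζ hc (by simpa using hy0) (α g)
    (hg.2.2.1 _ (y : K).2)
  have hζK : ξ ^ l ∈ K := pow_mem hξK l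
  -- the field `K' (c)`
  set K₃ := K' ⊔ IntermediateField.adjoin F₂ {c} with hK₃
  have hfd' : FiniteDimensional F₂ K' := Module.Finite.of_restrictScalars_finite ℚ F₂ K'
  have hfdc : FiniteDimensional F₂ (IntermediateField.adjoin F₂ {c}) :=
    IntermediateField.adjoin.finiteDimensional (Algebra.IsIntegral.isIntegral c)
  have hfd₃ : FiniteDimensional F₂ K₃ := IntermediateField.finiteDimensional_sup _ _
  have hNF₃ : NumberField K₃ := NumberField.of_module_finite F₂ K₃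
  have hle₃ : K' ≤ K₃ := le_sup_left
  have hcK₃ : c ∈ K₃ := (le_sup_right : _ ≤ K₃) (IntermediateField.mem_adjoin_simple_self F₂ c)
  have hsub : ∀ (A : E₂ ≃ₐ[F₂] E₂) (L : IntermediateField F₂ E₂), (∀ y ∈ K', A y ∈ L) →
      A c ∈ L → ∀ y ∈ K₃, A y ∈ L := by
    intro A L h1 h2
    have h3 : K₃ ≤ L.comap (A : E₂ →ₐ[F₂] E₂) := by
      refine sup_le h1 ?_
      rw [IntermediateField.adjoin_simple_le_iff]
      exact h2
    exact fun y hy => h3 hy
  have hd₃ : ∀ y ∈ K₃, α d y = y := by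
    have h3 : K₃ ≤ IntermediateField.fixedField (Subgroup.zpowers (α d)) := by
      refine sup_le ?_ ?_
      · intro y hy
        rw [IntermediateField.mem_fixedField_iff]
        intro f hf
        have h5 : ∀ f ∈ Subgroup.zpowers (α d), f ∈ MulAction.stabilizer (E₂ ≃ₐ[F₂] E₂) y :=
          Subgroup.zpowers_le.2 (hd.2.2.1 y hy)
        exact h5 f hf
      · rw [IntermediateField.adjoin_simple_le_iff, IntermediateField.mem_fixedField_iff]
        intro f hf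
        have h5 : ∀ f ∈ Subgroup.zpowers (α d), f ∈ MulAction.stabilizer (E₂ ≃ₐ[F₂] E₂) c :=
          Subgroup.zpowers_le.2 hdc
        exact h5 f hf
    intro y hy
    exact (IntermediateField.mem_fixedField_iff _ _).1 (h3 hy) _ (Subgroup.mem_zpowers _)
  have hd₃' : Test α l O K₃ d := by
    obtain ⟨h1, h2, -, b, hbK, hb⟩ := hd
    exact ⟨h1, h2, hd₃, b, hle₃ hbK, hb⟩
  have hμ₃ : ∃ ξ ∈ K₃, IsPrimitiveRoot ξ (l ^ 2) := ⟨ξ, hle₃ (hle hξK), hξ⟩
  obtain ⟨w₃, hw₃⟩ := exists_isW hE₁ hE₂ α hα hl hl2 O hO v hOv hvl K₃ hμ₃ d hd₃'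
  have hpull := isW_pull hE₂ hl hle₃ hw' hw₃
  -- `g` fixes the prime `w₃`
  have hg₃ : ∀ y ∈ K₃, α g y ∈ K₃ := by
    refine hsub _ _ (fun y hy => hle₃ (hK' y hy)) ?_
    rw [he]
    exact mul_mem (pow_mem (hle₃ (hle hζK)) e) hcK₃
  obtain ⟨m, hm, hAm⟩ := exists_pow_fix (α g) K₃
  obtain ⟨τ, hτ⟩ := exists_restrict (α g) K₃ hg₃ hm hAm
  have hstab := isW_stable hE₁ hE₂ α hα hl hl2 O hO v hOv hvl K₃ hμ₃ d hd₃' w₃ hw₃ g hg.1 τ hτ
  -- `c` is congruent to a root of unity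
  let c₃ : K₃ := ⟨c, hcK₃⟩
  let ζ₃ : K₃ := ⟨ξ ^ l, hle₃ (hle hζK)⟩
  have hζ₃ : IsPrimitiveRoot ζ₃ l :=
    IsPrimitiveRoot.of_map_of_injective (f := algebraMap K₃ E₂) hζ (algebraMap K₃ E₂).injective
  have hnz : NeZero l := ⟨hl.ne_zero⟩
  have hvc : w₃.valuation K₃ (c₃ ^ l - 1) < 1 := by
    have h1 : (y : K) - 1 = (((y - 1 : 𝓞 K) : 𝓞 K) : K) := by push_cast; rfl
    have h2 : u.valuation K ((y : K) - 1) < 1 := by
      rw [h1]
      exact (u.valuation_lt_one_iff_mem _).2 hyu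
    have h3 := valuation_pull_lt_one (IntermediateField.inclusion hle : K →+* K') w' h2
    rw [← hpull] at h3
    have h4 := valuation_pull_lt_one (IntermediateField.inclusion hle₃ : K' →+* K₃) w₃ h3
    convert h4 using 2
    apply Subtype.ext
    show c ^ l - 1 = ((y : K) : E₂) - 1
    rw [hc]
  have hwl : w₃.valuation K₃ (l : K₃) = 1 := by
    have := w₃.valuation_eq_one_iff_notMem (K := K₃) (r := (l : 𝓞 K₃))
    rw [map_natCast] at this
    exact this.2 hw₃.1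
  have hc1 : w₃.valuation K₃ c₃ = 1 := by
    have h1 : w₃.valuation K₃ (c₃ ^ l) = 1 := by
      have h2 : c₃ ^ l = (c₃ ^ l - 1) + 1 := by ring
      rw [h2, Valuation.map_add_eq_of_lt_right _ (by rw [map_one]; exact hvc), map_one]
    rw [map_pow] at h1
    exact (pow_eq_one_iff_of_nonneg zero_le hl.ne_zero).1 h1
  obtain ⟨i, hi⟩ : ∃ i : ℕ, w₃.valuation K₃ (c₃ - ζ₃ ^ i) < 1 := by
    by_contra hcon
    push Not at hcon
    have h1 : c₃ ^ l - 1 = ∏ μ ∈ Polynomial.nthRootsFinset l (1 : K₃), (c₃ - μ) := by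
      have h2 := hζ₃.pow_sub_pow_eq_prod_sub_mul c₃ 1 hl.pos
      rw [one_pow] at h2
      rw [h2]
      refine Finset.prod_congr rfl fun μ _ => ?_
      rw [mul_one]
    rw [h1, map_prod] at hvc
    have h3 : (1 : WithZero (Multiplicative ℤ)) ≤
        ∏ μ ∈ Polynomial.nthRootsFinset l (1 : K₃), w₃.valuation K₃ (c₃ - μ) := by
      refine Finset.one_le_prod' ?_
      intro μ hμ
      have h4 : μ ^ l = 1 := (Polynomial.mem_nthRootsFinset hl.pos _).1 hμ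
      obtain ⟨i, -, rfl⟩ := hζ₃.eq_pow_of_pow_eq_one h4
      exact hcon i
    exact not_lt_of_ge h3 hvc
  have hζi : (τ (c₃ - ζ₃ ^ i)) = ζ₃ ^ e * c₃ - ζ₃ ^ i := by
    apply Subtype.ext
    rw [hτ]
    show α g (c - (ξ ^ l) ^ i) = (ξ ^ l) ^ e * c - (ξ ^ l) ^ i
    rw [map_sub, he, map_pow, hg.2.2.1 _ hζK]
  have h5 : w₃.valuation K₃ (τ (c₃ - ζ₃ ^ i)) < 1 := by
    rw [← hstab] at hi
    exact valuation_pull_lt_one (τ : K₃ →+* K₃) w₃ hi
  rw [hζi] at h5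
  have h6 : w₃.valuation K₃ ((1 - ζ₃ ^ e) * c₃) < 1 := by
    have h7 : (1 - ζ₃ ^ e) * c₃ = (c₃ - ζ₃ ^ i) - (ζ₃ ^ e * c₃ - ζ₃ ^ i) := by ring
    rw [h7]
    exact lt_of_le_of_lt (Valuation.map_sub _ _ _) (max_lt hi h5)
  rw [map_mul, hc1, mul_one] at h6
  refine val_one_sub hl.ne_zero w₃ hwl (μ := ζ₃ ^ e) ?_ ?_ h6
  · rw [← pow_mul, mul_comm, pow_mul, hζ₃.pow_eq_one, one_pow]
  · intro h
    apply hgc
    have h8 : (ξ ^ l) ^ e = 1 := congrArg (Subtype.val : K₃ → E₂) h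
    rw [he, h8, one_mul]

end

end Vale.Agent.P024
end
end

section

section

/-!
Local theory, part 4: existence of test elements for arbitrarily large stable fields.
-/

namespace Vale.Agent.P024

open scoped NumberField
open IsDedekindDomain NumberField

section Pull

variable {K Z : Type*} [Field K] [NumberField K] [Field Z] [NumberField Z] (f : K →+* Z)
  (P : HeightOneSpectrum (𝓞 Z))

theorem log_pull {y : K} (hy : (pullPrime f P).valuation K y = WithZero.exp (-1 : ℤ)) {x : K}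
    (hx : x ≠ 0) :
    WithZero.log (P.valuation Z (f x)) =
      -(WithZero.log ((pullPrime f P).valuation K x) * WithZero.log (P.valuation Z (f y))) := by
  have hy0 := ne_zero_of_uniformizer hy
  have hwx : (pullPrime f P).valuation K x ≠ 0 := (Valuation.ne_zero_iff _).2 hx
  set m : ℤ := WithZero.log ((pullPrime f P).valuation K x) with hm
  have h1 : (pullPrime f P).valuation K (x * y ^ m) = 1 := by
    rw [map_mul, map_zpow₀, hy, ← WithZero.exp_log hwx, ← hm, ← WithZero.exp_zsmul,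
      ← WithZero.exp_add]
    simp
  have h2 := valuation_pull_eq_one f P h1
  have hfx : P.valuation Z (f x) ≠ 0 :=
    (Valuation.ne_zero_iff _).2 ((map_ne_zero f).2 hx)
  have hfy : P.valuation Z (f y) ≠ 0 :=
    (Valuation.ne_zero_iff _).2 ((map_ne_zero f).2 hy0)
  rw [map_mul, map_zpow₀, map_mul, map_zpow₀] at h2
  have h3 := congrArg WithZero.log h2
  rw [WithZero.log_mul hfx (zpow_ne_zero m hfy), WithZero.log_zpow, WithZero.log_one,
    smul_eq_mul] at h3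
  linarith

end Pull

section

variable {F₁ E₁ F₂ E₂ : Type*} [Field F₁] [NumberField F₁] [Field E₁] [Algebra F₁ E₁]
    [IsGalois F₁ E₁] [Field F₂] [NumberField F₂] [Field E₂] [Algebra F₂ E₂] [IsGalois F₂ E₂]

theorem image_fix_roots (hE₂ : SolvablyClosed E₂)
    (α : (E₁ ≃ₐ[F₁] E₁) →* (E₂ ≃ₐ[F₂] E₂)) (hα : Continuous α)
    {l : ℕ} (hl : l.Prime) (hl2 : l ≠ 2) (O : ValuationSubring E₁) (hO : O ≠ ⊤)
    (v : HeightOneSpectrum (𝓞 F₁)) (hOv : IsCenter O v) (hvl : (l : 𝓞 F₁) ∉ v.asIdeal)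
    (g : E₁ ≃ₐ[F₁] E₁) (hg : Stab O g) (hg1 : ActsPow O g 1)
    (hg2 : ∀ z : E₂, z ^ l = 1 → α g z = z) (n : ℕ) (ξ : E₂) (hξ : ξ ^ (l ^ n) = 1) :
    α g ξ = ξ := by
  have : CharZero E₁ := charZero_of_injective_algebraMap (algebraMap F₁ E₁).injective
  have : CharZero E₂ := charZero_of_injective_algebraMap (algebraMap F₂ E₂).injective
  have : Algebra.IsAlgebraic ℚ E₁ := Algebra.IsAlgebraic.trans ℚ F₁ E₁
  have hpos : ∀ n : ℕ, 0 < l ^ n := fun n => pow_pos hl.pos n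
  have hroot₂' : ∀ n : ℕ, ∃ ξ : E₂, IsPrimitiveRoot ξ (l ^ n) :=
    fun n => hE₂.exists_primitiveRoot _ (hpos n)
  have hlO := natCast_pow_notMem_nonunits hOv hvl
  obtain ⟨s, hs, hs'⟩ := exists_frob O hO v hOv
  have hcard : Nat.card (𝓞 F₁ ⧸ v.asIdeal) = Ideal.absNorm v.asIdeal := by
    rw [Ideal.absNorm_apply]; rfl
  rw [hcard] at hs'
  set q := Ideal.absNorm v.asIdeal with hq
  have hq1 : 1 < q := one_lt_absNorm v
  set δ := s * g * s⁻¹ * (g ^ q)⁻¹ with hδ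
  have hrel : α s * α g = α δ * (α g) ^ q * α s := by
    rw [← map_pow, ← map_mul, ← map_mul, ← map_mul, hδ]
    congr 1
    group
  have hδ2 : ∀ b : E₂, ∀ n : ℕ, ((α δ) ^ (l ^ n)) b = b → (α δ) b = b := fun b n hb =>
    wild_image hα hlO _ (theta_rel O s g q hs hs' hg hg1) b n hb
  exact (fix_roots hl hl2 hroot₂' (α s) (α g) (α δ) q hrel hq1 hδ2 hg2).1 n ξ hξ

/-- infinite order -/
theorem image_pow_ne (hE₁ : SolvablyClosed E₁) (hE₂ : SolvablyClosed E₂)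
    (α : (E₁ ≃ₐ[F₁] E₁) →* (E₂ ≃ₐ[F₂] E₂)) (hα : Continuous α)
    {l : ℕ} (hl : l.Prime) (hl2 : l ≠ 2) (O : ValuationSubring E₁) (hO : O ≠ ⊤)
    (v : HeightOneSpectrum (𝓞 F₁)) (hOv : IsCenter O v) (hv : v ∈ Alive α l)
    (t : E₁ ≃ₐ[F₁] E₁) (ht : Stab O t) (ht1 : ActsPow O t 1) (htp : ProP l t) (htα : α t ≠ 1)
    {N : ℕ} (hN : 0 < N) : (α t) ^ N ≠ 1 := by
  have : CharZero F₁ := inferInstance
  have : CharZero E₂ := charZero_of_injective_algebraMap (algebraMap F₂ E₂).injective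
  intro hBN
  have hB : ProP l (α t) := htp.image hα
  obtain ⟨a, ha⟩ := pow_fix_of_proP hl hB hN
  have hex : ∃ a : ℕ, (α t) ^ (l ^ a) = 1 := by
    refine ⟨a, ?_⟩
    ext y
    rw [AlgEquiv.one_apply]
    apply ha
    rw [hBN, AlgEquiv.one_apply]
  classical
  set n := Nat.find hex with hn
  have hn1 : (α t) ^ (l ^ n) = 1 := Nat.find_spec hex
  have hn0 : n ≠ 0 := by
    intro h0
    rw [h0, pow_zero, pow_one] at hn1
    exact htα hn1
  have hn2 : (α t) ^ (l ^ (n - 1)) ≠ 1 := Nat.find_min hex (by omega)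
  set D := (α t) ^ (l ^ (n - 1)) with hD
  have hDl : D ^ l = 1 := by
    rw [hD, ← pow_mul, ← pow_succ, Nat.sub_add_cancel (Nat.pos_of_ne_zero hn0)]
    exact hn1
  have hfix : ∀ m : ℕ, ∀ ξ : E₂, ξ ^ (l ^ m) = 1 → D ξ = ξ := by
    intro m ξ hξ
    have h1 : α t ξ = ξ := image_fix_roots hE₂ α hα hl hl2 O hO v hOv hv.1 t ht ht1
      (fun z hz => inertia_fix_roots hE₁ hE₂ α hα hl hl2 v hv O hO hOv t ht ht1 z hz) m ξ hξ
    have h2 : α t ∈ MulAction.stabilizer (E₂ ≃ₐ[F₂] E₂) ξ := h1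
    exact (MulAction.stabilizer (E₂ ≃ₐ[F₂] E₂) ξ).pow_mem h2 _
  obtain ⟨z, hz⟩ : ∃ z, D z ≠ z := by
    by_contra hcon
    push Not at hcon
    exact hn2 (AlgEquiv.ext hcon)
  obtain ⟨ζ, hζ⟩ := hE₂.exists_primitiveRoot l hl.pos
  obtain ⟨b, -, i, hb0, hi, hb⟩ := exists_eigen hl hζ D
    (hfix 1 ζ (by rw [pow_one]; exact hζ.pow_eq_one)) z (by rw [hDl, AlgEquiv.one_apply]) hz ⊤
    (fun _ => IntermediateField.mem_top) IntermediateField.mem_top
  obtain ⟨c, hc⟩ := hE₂.exists_root l hl.pos b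
  have hc0 : c ≠ 0 := by
    rintro rfl
    rw [zero_pow hl.ne_zero] at hc
    exact hb0 hc.symm
  set ρ := D c / c with hρ
  have hρl : ρ ^ l = ζ ^ i := by
    rw [hρ, div_pow, ← map_pow, hc, hb, mul_div_assoc, div_self hb0, mul_one]
  have hDc : D c = ρ * c := by
    rw [hρ, div_mul_cancel₀ _ hc0]
  have hρfix : D ρ = ρ := by
    apply hfix 2
    rw [pow_two, pow_mul, hρl, ← pow_mul, mul_comm, pow_mul, hζ.pow_eq_one, one_pow]
  have hpow : ∀ k : ℕ, (D ^ k) c = ρ ^ k * c := by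
    intro k
    induction k with
    | zero => rw [pow_zero, pow_zero, one_mul, AlgEquiv.one_apply]
    | succ k ih =>
      rw [pow_succ', AlgEquiv.mul_apply, ih, map_mul, map_pow, hρfix, hDc, pow_succ]
      ring
  have h3 := hpow l
  rw [hDl, AlgEquiv.one_apply, hρl] at h3
  apply hi
  rw [← hζ.pow_eq_one_iff_dvd]
  exact (mul_eq_right₀ hc0).1 h3.symm

/-- a test element for a large field -/
theorem exists_test (hE₁ : SolvablyClosed E₁) (hE₂ : SolvablyClosed E₂)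
    (α : (E₁ ≃ₐ[F₁] E₁) →* (E₂ ≃ₐ[F₂] E₂)) (hα : Continuous α)
    {l : ℕ} (hl : l.Prime) (hl2 : l ≠ 2) (O : ValuationSubring E₁) (hO : O ≠ ⊤)
    (v : HeightOneSpectrum (𝓞 F₁)) (hOv : IsCenter O v) (hv : v ∈ Alive α l)
    (K : IntermediateField F₂ E₂) [NumberField K] (hK : StableK K)
    (hμ : ∃ ξ ∈ K, IsPrimitiveRoot ξ (l ^ 2)) :
    ∃ (k : IntermediateField F₂ E₂) (_ : NumberField k) (g : E₁ ≃ₐ[F₁] E₁), K ≤ k ∧
      Test α l O k g := by
  have : CharZero E₁ := charZero_of_injective_algebraMap (algebraMap F₁ E₁).injective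
  have : Algebra.IsAlgebraic ℚ E₁ := Algebra.IsAlgebraic.trans ℚ F₁ E₁
  have : CharZero E₂ := charZero_of_injective_algebraMap (algebraMap F₂ E₂).injective
  have hA : AliveAt α l O := by
    obtain ⟨-, O', hO', hv', hA⟩ := hv
    exact hA.of_center hO' hO hv' hOv
  obtain ⟨t, ht, ht1, htp, htα⟩ := hA
  have hfd : FiniteDimensional F₂ K := Module.Finite.of_restrictScalars_finite ℚ F₂ K
  obtain ⟨N, hN, hNK⟩ := exists_pow_fix (α t) K
  have hB : ProP l (α t) := htp.image hα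
  have hne := image_pow_ne hE₁ hE₂ α hα hl hl2 O hO v hOv hv t ht ht1 htp htα hN
  obtain ⟨z, hz⟩ : ∃ z, ((α t) ^ N) z ≠ z := by
    by_contra hcon
    push Not at hcon
    exact hne (AlgEquiv.ext hcon)
  obtain ⟨K', hNF', hKK', hK', hzK', -⟩ := exists_stable_sup K hK z
  have hfd' : FiniteDimensional F₂ K' := Module.Finite.of_restrictScalars_finite ℚ F₂ K'
  obtain ⟨m, hm, hmK'⟩ := exists_pow_fix ((α t) ^ N) K'
  have hDp : ProP l ((α t) ^ N) := by
    intro y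
    obtain ⟨k, hk⟩ := hB y
    refine ⟨k, ?_⟩
    rw [← pow_mul, mul_comm, pow_mul]
    have h2 : (α t) ^ (l ^ k) ∈ MulAction.stabilizer (E₂ ≃ₐ[F₂] E₂) y := hk
    exact (MulAction.stabilizer (E₂ ≃ₐ[F₂] E₂) y).pow_mem h2 _
  obtain ⟨a, ha⟩ := pow_fix_of_proP hl hDp hm
  have hex : ∃ a : ℕ, ∀ y ∈ K', (((α t) ^ N) ^ (l ^ a)) y = y :=
    ⟨a, fun y hy => ha y (hmK' y hy)⟩
  classical
  set n := Nat.find hex with hn
  have hn1 : ∀ y ∈ K', (((α t) ^ N) ^ (l ^ n)) y = y := Nat.find_spec hex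
  have hn0 : n ≠ 0 := by
    intro h0
    have := hn1 z hzK'
    rw [h0, pow_zero, pow_one] at this
    exact hz this
  have hn2 : ¬ ∀ y ∈ K', (((α t) ^ N) ^ (l ^ (n - 1))) y = y := Nat.find_min hex (by omega)
  push Not at hn2
  obtain ⟨z', hz'K', hz'⟩ := hn2
  set D := ((α t) ^ N) ^ (l ^ (n - 1)) with hD
  have hDl : D ^ l = ((α t) ^ N) ^ (l ^ n) := by
    rw [hD, ← pow_mul, ← pow_succ, Nat.sub_add_cancel (Nat.pos_of_ne_zero hn0)]
  have hDt : D = α (t ^ (N * l ^ (n - 1))) := by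
    rw [hD, ← pow_mul, map_pow]
  have hDK : ∀ y ∈ K, D y = y := by
    intro y hy
    have h2 : (α t) ^ N ∈ MulAction.stabilizer (E₂ ≃ₐ[F₂] E₂) y := hNK y hy
    exact (MulAction.stabilizer (E₂ ≃ₐ[F₂] E₂) y).pow_mem h2 _
  obtain ⟨ξ, hξK, hξ⟩ := hμ
  have hζ : IsPrimitiveRoot (ξ ^ l) l := hξ.pow (pow_pos hl.pos 2) (by rw [pow_two])
  have hζK : ξ ^ l ∈ K := pow_mem hξK l
  have hDK' : ∀ i : ℕ, (D ^ i) z' ∈ K' := fun i => hK' _ z' hz'K'
  obtain ⟨b, hbK', i, hb0, hi, hb⟩ := exists_eigen hl hζ D (hDK _ hζK) z'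
    (by rw [hDl]; exact hn1 z' hz'K') hz' K' hDK' (hKK' hζK)
  have hDbl : D (b ^ l) = b ^ l := by
    rw [map_pow, hb, mul_pow, ← pow_mul, mul_comm i l, pow_mul, hζ.pow_eq_one, one_pow, one_mul]
  have hfdb : FiniteDimensional F₂ (IntermediateField.adjoin F₂ {b ^ l}) :=
    IntermediateField.adjoin.finiteDimensional (Algebra.IsIntegral.isIntegral (b ^ l))
  have hfdk : FiniteDimensional F₂
      (K ⊔ IntermediateField.adjoin F₂ {b ^ l} : IntermediateField F₂ E₂) :=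
    IntermediateField.finiteDimensional_sup _ _
  refine ⟨K ⊔ IntermediateField.adjoin F₂ {b ^ l}, NumberField.of_module_finite F₂ _,
    t ^ (N * l ^ (n - 1)), le_sup_left, ?_, ?_, ?_, b, ?_, ?_⟩
  · exact ht.pow _
  · have := ActsPow.pow ht ht1 (N * l ^ (n - 1))
    rwa [one_pow] at this
  · rw [← hDt]
    have h3 : K ⊔ IntermediateField.adjoin F₂ {b ^ l} ≤
        IntermediateField.fixedField (Subgroup.zpowers D) := by
      refine sup_le ?_ ?_
      · intro y hy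
        rw [IntermediateField.mem_fixedField_iff]
        intro f hf
        have h5 : ∀ f ∈ Subgroup.zpowers D, f ∈ MulAction.stabilizer (E₂ ≃ₐ[F₂] E₂) y :=
          Subgroup.zpowers_le.2 (hDK y hy)
        exact h5 f hf
      · rw [IntermediateField.adjoin_simple_le_iff, IntermediateField.mem_fixedField_iff]
        intro f hf
        have h5 : ∀ f ∈ Subgroup.zpowers D, f ∈ MulAction.stabilizer (E₂ ≃ₐ[F₂] E₂) (b ^ l) :=
          Subgroup.zpowers_le.2 hDbl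
        exact h5 f hf
    intro y hy
    exact (IntermediateField.mem_fixedField_iff _ _).1 (h3 hy) _ (Subgroup.mem_zpowers _)
  · exact (le_sup_right : _ ≤ K ⊔ IntermediateField.adjoin F₂ {b ^ l})
      (IntermediateField.mem_adjoin_simple_self F₂ _)
  · rw [← hDt, hb]
    intro h
    rw [mul_eq_right₀ hb0, hζ.pow_eq_one_iff_dvd] at h
    exact hi h

/-- a test element for a large stable field -/
theorem exists_good (hE₁ : SolvablyClosed E₁) (hE₂ : SolvablyClosed E₂)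
    (α : (E₁ ≃ₐ[F₁] E₁) →* (E₂ ≃ₐ[F₂] E₂)) (hα : Continuous α)
    {l : ℕ} (hl : l.Prime) (hl2 : l ≠ 2) (O : ValuationSubring E₁) (hO : O ≠ ⊤)
    (v : HeightOneSpectrum (𝓞 F₁)) (hOv : IsCenter O v) (hv : v ∈ Alive α l)
    (K₀ : IntermediateField F₂ E₂) [NumberField K₀] (hK₀ : StableK K₀)
    (hμ : ∃ ξ ∈ K₀, IsPrimitiveRoot ξ (l ^ 2)) :
    ∃ (K : IntermediateField F₂ E₂) (_ : NumberField K) (g : E₁ ≃ₐ[F₁] E₁), K₀ ≤ K ∧
      StableK K ∧ Test α l O K g := by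
  have : CharZero E₂ := charZero_of_injective_algebraMap (algebraMap F₂ E₂).injective
  by_contra hcon
  obtain ⟨k, hNk, g, hK₀k, hg⟩ :=
    exists_test hE₁ hE₂ α hα hl hl2 O hO v hOv hv K₀ hK₀ hμ
  obtain ⟨ξ, hξK, hξ⟩ := hμ
  have hμk : ∃ ξ ∈ k, IsPrimitiveRoot ξ (l ^ 2) := ⟨ξ, hK₀k hξK, hξ⟩
  obtain ⟨w, hw⟩ := exists_isW hE₁ hE₂ α hα hl hl2 O hO v hOv hv.1 k hμk g hg
  set x : ℕ := Ideal.absNorm w.asIdeal with hx
  have hx0 : x ≠ 0 := by
    rw [hx, Ne, Ideal.absNorm_eq_zero_iff]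
    exact w.ne_bot
  have hxw : w.valuation k (x : k) < 1 := by
    have h1 : ((x : 𝓞 k)) ∈ w.asIdeal := Ideal.absNorm_mem w.asIdeal
    have h2 := (w.valuation_lt_one_iff_mem (K := k) _).2 h1
    have h3 : (((x : 𝓞 k) : 𝓞 k) : k) = (x : k) := map_natCast (algebraMap (𝓞 k) k) x
    rwa [← h3]
  choose f hf using hE₂.exists_root l hl.pos
  set c : ℕ → E₂ := fun n => f^[n] (x : E₂) with hc
  have hc0 : c 0 = x := rfl
  have hcs : ∀ n, c (n + 1) ^ l = c n := by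
    intro n
    rw [hc]
    simp only [Function.iterate_succ_apply']
    exact hf _
  have hcn : ∀ n, c n ^ (l ^ n) = x := by
    intro n
    induction n with
    | zero => rw [pow_zero, pow_one, hc0]
    | succ n ih => rw [pow_succ', pow_mul, hcs, ih]
  -- `α g` fixes all the roots
  have hfix : ∀ n, ∃ (K : IntermediateField F₂ E₂) (_ : NumberField K), K₀ ≤ K ∧ StableK K ∧
      c n ∈ K ∧ ∀ y ∈ K, α g y = y := by
    intro n
    induction n with
    | zero =>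
      refine ⟨K₀, inferInstance, le_rfl, hK₀, ?_, fun y hy => hg.2.2.1 y (hK₀k hy)⟩
      rw [hc0]
      exact natCast_mem K₀ x
    | succ n ih =>
      obtain ⟨K, hNK, hK₀K, hKs, hcK, hgK⟩ := ih
      obtain ⟨K', hNK', hKK', hKs', hcK', hcrit⟩ := exists_stable_sup K hKs (c (n + 1))
      refine ⟨K', hNK', hK₀K.trans hKK', hKs', hcK', hcrit (α g) hgK ?_⟩
      intro σ
      by_contra hσ
      refine hcon ⟨K, hNK, g, hK₀K, hKs, hg.1, hg.2.1, hgK, σ (c (n + 1)), ?_, hσ⟩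
      rw [← map_pow, hcs]
      exact hKs σ _ hcK
  have hgc : ∀ n, α g (c n) = c n := fun n => by
    obtain ⟨K, -, -, -, h1, h2⟩ := hfix n
    exact h2 _ h1
  -- a uniformizer
  obtain ⟨y, hy⟩ := w.valuation_exists_uniformizer k
  have hy0 := ne_zero_of_uniformizer hy
  set e : ℤ := -WithZero.log (w.valuation k (x : k)) with he
  have hxk0 : (x : k) ≠ 0 := Nat.cast_ne_zero.2 hx0
  have he0 : 0 < e := by
    have h1 : w.valuation k (x : k) ≠ 0 := (Valuation.ne_zero_iff _).2 hxk0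
    rw [← WithZero.exp_log h1, ← WithZero.exp_zero, WithZero.exp_lt_exp] at hxw
    omega
  have hdiv : ∀ n : ℕ, ((l ^ n : ℕ) : ℤ) ∣ e := by
    intro n
    have hfdk : FiniteDimensional F₂ k := Module.Finite.of_restrictScalars_finite ℚ F₂ k
    have hfdc : FiniteDimensional F₂ (IntermediateField.adjoin F₂ {c n}) :=
      IntermediateField.adjoin.finiteDimensional (Algebra.IsIntegral.isIntegral (c n))
    set k' : IntermediateField F₂ E₂ := k ⊔ IntermediateField.adjoin F₂ {c n} with hk'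
    have hfd' : FiniteDimensional F₂ k' := IntermediateField.finiteDimensional_sup _ _
    have hNk' : NumberField k' := NumberField.of_module_finite F₂ k'
    have hle : k ≤ k' := le_sup_left
    have hck' : c n ∈ k' :=
      (le_sup_right : _ ≤ k') (IntermediateField.mem_adjoin_simple_self F₂ _)
    have hgk' : ∀ y ∈ k', α g y = y := by
      have h3 : k' ≤ IntermediateField.fixedField (Subgroup.zpowers (α g)) := by
        refine sup_le ?_ ?_
        · intro y hy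
          rw [IntermediateField.mem_fixedField_iff]
          intro f hf
          have h5 : ∀ f ∈ Subgroup.zpowers (α g), f ∈ MulAction.stabilizer (E₂ ≃ₐ[F₂] E₂) y :=
            Subgroup.zpowers_le.2 (hg.2.2.1 y hy)
          exact h5 f hf
        · rw [IntermediateField.adjoin_simple_le_iff, IntermediateField.mem_fixedField_iff]
          intro f hf
          have h5 : ∀ f ∈ Subgroup.zpowers (α g), f ∈
              MulAction.stabilizer (E₂ ≃ₐ[F₂] E₂) (c n) :=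
            Subgroup.zpowers_le.2 (hgc n)
          exact h5 f hf
      intro y hy
      exact (IntermediateField.mem_fixedField_iff _ _).1 (h3 hy) _ (Subgroup.mem_zpowers _)
    have hgk'' : Test α l O k' g := by
      obtain ⟨h1, h2, -, b, hbk, hb⟩ := hg
      exact ⟨h1, h2, hgk', b, hle hbk, hb⟩
    obtain ⟨w', hw'⟩ := exists_isW hE₁ hE₂ α hα hl hl2 O hO v hOv hv.1 k'
      ⟨ξ, hle (hK₀k hξK), hξ⟩ g hgk''
    have hpull := isW_pull hE₂ hl hle hw hw'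
    set ι : k →+* k' := (IntermediateField.inclusion hle : k →+* k') with hι
    have hyp := hy
    rw [← hpull] at hyp
    have h1 := log_pull ι w' hyp hxk0
    rw [hpull] at h1
    -- the exponent of `y` is not divisible by `l`
    have h2 : ¬ (l : ℤ) ∣ WithZero.log (w'.valuation k' (ι y)) := by
      intro hd
      have hιy0 : ι y ≠ 0 := (map_ne_zero ι).2 hy0
      obtain ⟨b, hb⟩ := hE₂.exists_root l hl.pos (y : E₂)
      have h3 : α g b = b := (hw'.2 b (ι y) hιy0 hb).2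
        ((dvdVal_iff w' hl.ne_zero _).2 ⟨hιy0, hd⟩)
      exact not_dvdVal_of_uniformizer hl hy ((hw.2 b y hy0 hb).1 h3)
    have h3 : WithZero.log (w'.valuation k' (ι (x : k))) =
        (l ^ n : ℕ) * WithZero.log (w'.valuation k' ⟨c n, hck'⟩) := by
      have h4 : ι (x : k) = (⟨c n, hck'⟩ : k') ^ (l ^ n) := by
        apply Subtype.ext
        show (((x : k) : k) : E₂) = c n ^ (l ^ n)
        rw [hcn]
        rfl
      rw [h4, map_pow, WithZero.log_pow, nsmul_eq_mul]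
    rw [h3] at h1
    have h4 : ((l ^ n : ℕ) : ℤ) ∣ e * WithZero.log (w'.valuation k' (ι y)) := by
      refine ⟨WithZero.log (w'.valuation k' ⟨c n, hck'⟩), ?_⟩
      rw [h1, he]
      ring
    refine IsCoprime.dvd_of_dvd_mul_right ?_ h4
    rw [Nat.cast_pow]
    apply IsCoprime.pow_left
    rw [Int.isCoprime_iff_gcd_eq_one]
    have h5 := (Nat.Prime.coprime_iff_not_dvd hl).2 (fun h => h2 (Int.natCast_dvd.2 h))
    exact h5
  have h1 := hdiv e.toNat
  have h2 := Int.le_of_dvd he0 h1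
  have h3 : e.toNat < l ^ e.toNat := Nat.lt_pow_self hl.one_lt
  have h4 : ((e.toNat : ℕ) : ℤ) = e := Int.toNat_of_nonneg he0.le
  have h5 : ((e.toNat : ℕ) : ℤ) < ((l ^ e.toNat : ℕ) : ℤ) := by exact_mod_cast h3
  omega

end

end Vale.Agent.P024
end
end

section

section

/-!
Local theory, part 5: the valuation ring attached to an alive prime.
-/

namespace Vale.Agent.P024

open scoped NumberField
open IsDedekindDomain NumberField

/-- `w` is the prime of the stable number field `K` attached to `O`. -/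
def GoodAt {F₁ E₁ F₂ E₂ : Type*} [Field F₁] [Field E₁] [Algebra F₁ E₁] [Field F₂] [Field E₂]
    [Algebra F₂ E₂] (α : (E₁ ≃ₐ[F₁] E₁) →* (E₂ ≃ₐ[F₂] E₂)) (l : ℕ) (O : ValuationSubring E₁)
    (K : IntermediateField F₂ E₂) [NumberField K] (w : HeightOneSpectrum (𝓞 K)) : Prop :=
  StableK K ∧ (∃ ξ ∈ K, IsPrimitiveRoot ξ (l ^ 2)) ∧
    ∃ g : E₁ ≃ₐ[F₁] E₁, Test α l O K g ∧ IsW l K (α g) w

theorem StableK.sup {F E : Type*} [Field F] [Field E] [Algebra F E] {K K' : IntermediateField F E}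
    (h : StableK K) (h' : StableK K') : StableK (K ⊔ K') := by
  intro σ
  have h1 : K ⊔ K' ≤ (K ⊔ K').comap (σ : E →ₐ[F] E) :=
    sup_le (fun y hy => (le_sup_left : K ≤ K ⊔ K') (h σ y hy))
      (fun y hy => (le_sup_right : K' ≤ K ⊔ K') (h' σ y hy))
  exact fun y hy => h1 hy

section

variable {F₁ E₁ F₂ E₂ : Type*} [Field F₁] [NumberField F₁] [Field E₁] [Algebra F₁ E₁]
    [IsGalois F₁ E₁] [Field F₂] [NumberField F₂] [Field E₂] [Algebra F₂ E₂] [IsGalois F₂ E₂]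

theorem GoodAt.pull (hE₁ : SolvablyClosed E₁) (hE₂ : SolvablyClosed E₂)
    (α : (E₁ ≃ₐ[F₁] E₁) →* (E₂ ≃ₐ[F₂] E₂)) (hα : Continuous α)
    {l : ℕ} (hl : l.Prime) (hl2 : l ≠ 2) (O : ValuationSubring E₁) (hO : O ≠ ⊤)
    (v : HeightOneSpectrum (𝓞 F₁)) (hOv : IsCenter O v) (hv : v ∈ Alive α l)
    {K K' : IntermediateField F₂ E₂} [NumberField K] [NumberField K'] (hle : K ≤ K')
    {w : HeightOneSpectrum (𝓞 K)} {w' : HeightOneSpectrum (𝓞 K')}
    (h : GoodAt α l O K w) (h' : GoodAt α l O K' w') :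
    pullPrime (IntermediateField.inclusion hle : K →+* K') w' = w := by
  obtain ⟨-, hμ, g, hg, hw⟩ := h
  obtain ⟨hs', -, g', hg', hw'⟩ := h'
  exact isW_compat hE₁ hE₂ α hα hl hl2 O hO v hOv hv.1 hle hμ g g' hg hg' w w' hw hw'
    (fun y hy => hs' _ y hy)

theorem exists_goodAt (hE₁ : SolvablyClosed E₁) (hE₂ : SolvablyClosed E₂)
    (α : (E₁ ≃ₐ[F₁] E₁) →* (E₂ ≃ₐ[F₂] E₂)) (hα : Continuous α)
    {l : ℕ} (hl : l.Prime) (hl2 : l ≠ 2) (O : ValuationSubring E₁) (hO : O ≠ ⊤)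
    (v : HeightOneSpectrum (𝓞 F₁)) (hOv : IsCenter O v) (hv : v ∈ Alive α l)
    (K₀ : IntermediateField F₂ E₂) [NumberField K₀] (hK₀ : StableK K₀) (x y : E₂) :
    ∃ (K : IntermediateField F₂ E₂) (_ : NumberField K) (w : HeightOneSpectrum (𝓞 K)), K₀ ≤ K ∧
      x ∈ K ∧ y ∈ K ∧ GoodAt α l O K w := by
  have : CharZero E₂ := charZero_of_injective_algebraMap (algebraMap F₂ E₂).injective
  obtain ⟨ξ, hξ⟩ := hE₂.exists_primitiveRoot (l ^ 2) (pow_pos hl.pos 2)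
  obtain ⟨K₁, hN₁, hle₁, hs₁, hx₁, -⟩ := exists_stable_sup K₀ hK₀ x
  obtain ⟨K₂, hN₂, hle₂, hs₂, hx₂, -⟩ := exists_stable_sup K₁ hs₁ y
  obtain ⟨K₃, hN₃, hle₃, hs₃, hx₃, -⟩ := exists_stable_sup K₂ hs₂ ξ
  obtain ⟨K, hN, g, hle, hs, hg⟩ := exists_good hE₁ hE₂ α hα hl hl2 O hO v hOv hv K₃ hs₃
    ⟨ξ, hx₃, hξ⟩
  obtain ⟨w, hw⟩ := exists_isW hE₁ hE₂ α hα hl hl2 O hO v hOv hv.1 K ⟨ξ, hle hx₃, hξ⟩ g hg
  exact ⟨K, hN, w, hle₁.trans (hle₂.trans (hle₃.trans hle)), hle (hle₃ (hle₂ hx₁)),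
    hle (hle₃ hx₂), hs, ⟨ξ, hle hx₃, hξ⟩, g, hg, hw⟩

theorem GoodAt.iff (hE₁ : SolvablyClosed E₁) (hE₂ : SolvablyClosed E₂)
    (α : (E₁ ≃ₐ[F₁] E₁) →* (E₂ ≃ₐ[F₂] E₂)) (hα : Continuous α)
    {l : ℕ} (hl : l.Prime) (hl2 : l ≠ 2) (O : ValuationSubring E₁) (hO : O ≠ ⊤)
    (v : HeightOneSpectrum (𝓞 F₁)) (hOv : IsCenter O v) (hv : v ∈ Alive α l)
    {K K' : IntermediateField F₂ E₂} [NumberField K] [NumberField K']
    {w : HeightOneSpectrum (𝓞 K)} {w' : HeightOneSpectrum (𝓞 K')}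
    (h : GoodAt α l O K w) (h' : GoodAt α l O K' w') (x : E₂) (hx : x ∈ K) (hx' : x ∈ K') :
    w.valuation K ⟨x, hx⟩ ≤ 1 ↔ w'.valuation K' ⟨x, hx'⟩ ≤ 1 := by
  have hfd : FiniteDimensional F₂ K := Module.Finite.of_restrictScalars_finite ℚ F₂ K
  have hfd' : FiniteDimensional F₂ K' := Module.Finite.of_restrictScalars_finite ℚ F₂ K'
  have hfd'' : FiniteDimensional F₂ (K ⊔ K' : IntermediateField F₂ E₂) :=
    IntermediateField.finiteDimensional_sup _ _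
  have hN : NumberField (K ⊔ K' : IntermediateField F₂ E₂) := NumberField.of_module_finite F₂ _
  obtain ⟨L, hL, u, hle, -, -, hu⟩ := exists_goodAt hE₁ hE₂ α hα hl hl2 O hO v hOv hv (K ⊔ K')
    (h.1.sup h'.1) 0 0
  have hKL : K ≤ L := le_sup_left.trans hle
  have hKL' : K' ≤ L := le_sup_right.trans hle
  have h1 := GoodAt.pull hE₁ hE₂ α hα hl hl2 O hO v hOv hv hKL h hu
  have h2 := GoodAt.pull hE₁ hE₂ α hα hl hl2 O hO v hOv hv hKL' h' hu
  have h3 := valuation_pull_le_one_iff (IntermediateField.inclusion hKL : K →+* L) u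
    (x := ⟨x, hx⟩)
  have h4 := valuation_pull_le_one_iff (IntermediateField.inclusion hKL' : K' →+* L) u
    (x := ⟨x, hx'⟩)
  rw [h1] at h3
  rw [h2] at h4
  exact h3.trans h4.symm

/-- The valuation ring attached to an alive prime. -/
theorem exists_ring (hE₁ : SolvablyClosed E₁) (hE₂ : SolvablyClosed E₂)
    (α : (E₁ ≃ₐ[F₁] E₁) →* (E₂ ≃ₐ[F₂] E₂)) (hα : Continuous α)
    {l : ℕ} (hl : l.Prime) (hl2 : l ≠ 2) (O : ValuationSubring E₁) (hO : O ≠ ⊤)
    (v : HeightOneSpectrum (𝓞 F₁)) (hOv : IsCenter O v) (hv : v ∈ Alive α l) :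
    ∃ V : ValuationSubring E₂, V ≠ ⊤ ∧ (l : E₂) ∉ V.nonunits ∧
      (∀ σ, Stab O σ → Stab V (α σ)) ∧
      ∀ (K : IntermediateField F₂ E₂) [NumberField K] (w : HeightOneSpectrum (𝓞 K)),
        GoodAt α l O K w → ∀ x : K, (x : E₂) ∈ V ↔ w.valuation K x ≤ 1 := by
  have : CharZero E₂ := charZero_of_injective_algebraMap (algebraMap F₂ E₂).injective
  let C : Set E₂ := {x | ∃ (K : IntermediateField F₂ E₂) (_ : NumberField K)
    (w : HeightOneSpectrum (𝓞 K)) (hx : x ∈ K), GoodAt α l O K w ∧ w.valuation K ⟨x, hx⟩ ≤ 1}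
  have hC : ∀ (K : IntermediateField F₂ E₂) [NumberField K] (w : HeightOneSpectrum (𝓞 K)),
      GoodAt α l O K w → ∀ x : K, (x : E₂) ∈ C ↔ w.valuation K x ≤ 1 := by
    intro K _ w hw x
    constructor
    · rintro ⟨K', hN', w', hx', hw', h1⟩
      exact (GoodAt.iff hE₁ hE₂ α hα hl hl2 O hO v hOv hv hw hw' x x.2 hx').2 h1
    · intro h1
      exact ⟨K, inferInstance, w, x.2, hw, h1⟩
  have hbot : NumberField (⊥ : IntermediateField F₂ E₂) := NumberField.of_module_finite F₂ _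
  have hsbot : StableK (⊥ : IntermediateField F₂ E₂) := by
    intro σ y hy
    rw [IntermediateField.mem_bot] at hy ⊢
    obtain ⟨a, rfl⟩ := hy
    exact ⟨a, (σ.commutes a).symm⟩
  have hex : ∀ x y : E₂, ∃ (K : IntermediateField F₂ E₂) (_ : NumberField K)
      (w : HeightOneSpectrum (𝓞 K)), x ∈ K ∧ y ∈ K ∧ GoodAt α l O K w := by
    intro x y
    obtain ⟨K, hN, w, -, hx, hy, hw⟩ := exists_goodAt hE₁ hE₂ α hα hl hl2 O hO v hOv hv ⊥ hsbot x y
    exact ⟨K, hN, w, hx, hy, hw⟩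
  let V : ValuationSubring E₂ :=
    { carrier := C
      mul_mem' := by
        intro x y hx hy
        obtain ⟨K, hN, w, hxK, hyK, hw⟩ := hex x y
        have h1 := (hC K w hw ⟨x, hxK⟩).1 hx
        have h2 := (hC K w hw ⟨y, hyK⟩).1 hy
        refine (hC K w hw (⟨x, hxK⟩ * ⟨y, hyK⟩)).2 ?_
        rw [map_mul]
        exact mul_le_one' h1 h2
      one_mem' := by
        obtain ⟨K, hN, w, -, -, hw⟩ := hex 0 0
        refine (hC K w hw 1).2 ?_
        rw [map_one]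
      add_mem' := by
        intro x y hx hy
        obtain ⟨K, hN, w, hxK, hyK, hw⟩ := hex x y
        have h1 := (hC K w hw ⟨x, hxK⟩).1 hx
        have h2 := (hC K w hw ⟨y, hyK⟩).1 hy
        refine (hC K w hw (⟨x, hxK⟩ + ⟨y, hyK⟩)).2 ?_
        exact (Valuation.map_add _ _ _).trans (max_le h1 h2)
      zero_mem' := by
        obtain ⟨K, hN, w, -, -, hw⟩ := hex 0 0
        refine (hC K w hw 0).2 ?_
        rw [map_zero]
        exact zero_le_one
      neg_mem' := by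
        intro x hx
        obtain ⟨K, hN, w, hxK, -, hw⟩ := hex x x
        have h1 := (hC K w hw ⟨x, hxK⟩).1 hx
        refine (hC K w hw (-⟨x, hxK⟩)).2 ?_
        rw [Valuation.map_neg]
        exact h1
      mem_or_inv_mem' := by
        intro x
        obtain ⟨K, hN, w, hxK, -, hw⟩ := hex x x
        rcases le_total (w.valuation K ⟨x, hxK⟩) 1 with h1 | h1
        · exact Or.inl ((hC K w hw ⟨x, hxK⟩).2 h1)
        · refine Or.inr ((hC K w hw (⟨x, hxK⟩)⁻¹).2 ?_)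
          rw [map_inv₀]
          exact inv_le_one_of_one_le₀ h1 }
  have hV : ∀ (K : IntermediateField F₂ E₂) [NumberField K] (w : HeightOneSpectrum (𝓞 K)),
      GoodAt α l O K w → ∀ x : K, (x : E₂) ∈ V ↔ w.valuation K x ≤ 1 := hC
  refine ⟨V, ?_, ?_, ?_, hV⟩
  · intro htop
    obtain ⟨K, hN, w, -, -, hw⟩ := hex 0 0
    obtain ⟨y, hy⟩ := w.valuation_exists_uniformizer K
    have hy0 := ne_zero_of_uniformizer hy
    have h1 : ((y⁻¹ : K) : E₂) ∈ V := by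
      rw [htop]
      exact ValuationSubring.mem_top _
    rw [hV K w hw, map_inv₀, hy, ← WithZero.exp_neg, ← WithZero.exp_zero,
      WithZero.exp_le_exp] at h1
    norm_num at h1
  · intro hlV
    obtain ⟨K, hN, w, -, -, hw⟩ := hex 0 0
    obtain ⟨-, -, g, -, hw1, -⟩ := id hw
    have h1 : w.valuation K (l : K) = 1 := by
      have h2 := w.valuation_eq_one_iff_notMem (K := K) (r := (l : 𝓞 K))
      have h3 : (((l : 𝓞 K) : 𝓞 K) : K) = (l : K) := map_natCast (algebraMap (𝓞 K) K) l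
      rw [← h3]
      exact h2.2 hw1
    have h2 : (((l : K)⁻¹ : K) : E₂) ∈ V := by
      rw [hV K w hw, map_inv₀, h1, inv_one]
    have h3 : (((l : K)⁻¹ : K) : E₂) = (l : E₂)⁻¹ := by push_cast; rfl
    rw [h3] at h2
    rw [ValuationSubring.mem_nonunits_iff] at hlV
    rw [← V.valuation_le_one_iff, map_inv₀] at h2
    have h4 : V.valuation (l : E₂) ≠ 0 :=
      (Valuation.ne_zero_iff _).2 (Nat.cast_ne_zero.2 hl.ne_zero)
    exact absurd ((inv_le_one₀ (zero_lt_iff.2 h4)).1 h2) (not_le.2 hlV)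
  · intro σ hσ x
    obtain ⟨K, hN, w, hxK, -, hw⟩ := hex x x
    have hfd : FiniteDimensional F₂ K := Module.Finite.of_restrictScalars_finite ℚ F₂ K
    obtain ⟨hs, hμ, g, hg, hw'⟩ := id hw
    obtain ⟨m, hm, hAm⟩ := exists_pow_fix (α σ) K
    obtain ⟨τ, hτ⟩ := exists_restrict (α σ) K (hs (α σ)) hm hAm
    have h1 := isW_stable hE₁ hE₂ α hα hl hl2 O hO v hOv hv.1 K hμ g hg w hw' σ hσ τ hτ
    have h2 := valuation_pull_le_one_iff (τ : K →+* K) w (x := ⟨x, hxK⟩)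
    rw [h1, ← hV K w hw] at h2
    have h3 := hV K w hw (τ ⟨x, hxK⟩)
    rw [hτ] at h3
    exact h3.trans h2.symm

end

end Vale.Agent.P024
end
end

section

section

/-!
Local theory, part 6: uniqueness of the valuation ring.
-/

namespace Vale.Agent.P024

open scoped NumberField
open IsDedekindDomain NumberField

theorem exists_uniformizer_congr_lt (K : Type*) [Field K] [NumberField K]
    (w u : HeightOneSpectrum (𝓞 K)) (hne : u ≠ w) (z : K) (hz : z ≠ 0) :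
    ∃ y : 𝓞 K, w.valuation K (y : K) = WithZero.exp (-1 : ℤ) ∧
      u.valuation K ((y : K) - 1) < u.valuation K z := by
  classical
  have hz' : u.valuation K z ≠ 0 := (Valuation.ne_zero_iff _).2 hz
  set M : ℕ := (-WithZero.log (u.valuation K z)).toNat + 1 with hM
  obtain ⟨π, hπ⟩ := w.intValuation_exists_uniformizer
  obtain ⟨y, hy⟩ := IsDedekindDomain.exists_forall_sub_mem_ideal (s := {w, u})
    (fun w' : HeightOneSpectrum (𝓞 K) => w'.asIdeal) (fun _ => M + 1)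
    (fun w' _ => w'.prime) (fun w₁ _ w₂ _ h h' => h (HeightOneSpectrum.ext h'))
    (fun w' => if w'.1 = w then π else 1)
  refine ⟨y, ?_, ?_⟩
  · have h1 := hy w (by simp)
    simp only [if_true] at h1
    have h2 : w.intValuation (y - π) ≤ WithZero.exp (-((M + 1 : ℕ) : ℤ)) :=
      (w.intValuation_le_pow_iff_mem (y - π) (M + 1)).2 h1
    have h3 : w.intValuation y = WithZero.exp (-1 : ℤ) := by
      have h4 : w.intValuation (y - π) < w.intValuation π := by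
        rw [hπ]
        refine lt_of_le_of_lt h2 ?_
        rw [WithZero.exp_lt_exp]
        push_cast
        omega
      have h5 := Valuation.map_add_eq_of_lt_right _ h4
      rw [sub_add_cancel] at h5
      rw [h5, hπ]
    rw [HeightOneSpectrum.valuation_of_algebraMap]
    exact h3
  · have h1 := hy u (by simp)
    simp only [if_neg hne] at h1
    have h2 : u.intValuation (y - 1) ≤ WithZero.exp (-((M + 1 : ℕ) : ℤ)) :=
      (u.intValuation_le_pow_iff_mem (y - 1) (M + 1)).2 h1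
    have h3 : (y : K) - 1 = (((y - 1 : 𝓞 K) : 𝓞 K) : K) := by push_cast; rfl
    rw [h3, HeightOneSpectrum.valuation_of_algebraMap]
    refine lt_of_le_of_lt h2 ?_
    rw [← WithZero.exp_log hz', WithZero.exp_lt_exp]
    have h4 := Int.self_le_toNat (-WithZero.log (u.valuation K z))
    push_cast [hM]
    omega

section

variable {F₁ E₁ F₂ E₂ : Type*} [Field F₁] [NumberField F₁] [Field E₁] [Algebra F₁ E₁]
    [IsGalois F₁ E₁] [Field F₂] [NumberField F₂] [Field E₂] [Algebra F₂ E₂] [IsGalois F₂ E₂]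

omit [NumberField F₁] [IsGalois F₁ E₁] in
/-- the center of a stable valuation ring is the prime attached to the inertia element -/
theorem center_eq_of_stab (hE₂ : SolvablyClosed E₂)
    (α : (E₁ ≃ₐ[F₁] E₁) →* (E₂ ≃ₐ[F₂] E₂)) {l : ℕ} (hl : l.Prime) (O : ValuationSubring E₁)
    (V : ValuationSubring E₂) (hV : V ≠ ⊤)
    (hst : ∀ σ, Stab O σ → Stab V (α σ)) (K : IntermediateField F₂ E₂) [NumberField K]
    (w : HeightOneSpectrum (𝓞 K)) (hw : GoodAt α l O K w) (u : HeightOneSpectrum (𝓞 K))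
    (hu : IsCenter V u) : u = w := by
  have : CharZero E₂ := charZero_of_injective_algebraMap (algebraMap F₂ E₂).injective
  have : Algebra.IsAlgebraic ℚ E₂ := Algebra.IsAlgebraic.trans ℚ F₂ E₂
  by_contra hne
  obtain ⟨-, ⟨ξ, hξK, hξ⟩, g, hg, hwl, hwg⟩ := hw
  have hlK : (l : K) ≠ 0 := Nat.cast_ne_zero.2 hl.ne_zero
  have hlE : (l : E₂) ≠ 0 := Nat.cast_ne_zero.2 hl.ne_zero
  obtain ⟨y, hy, hyu⟩ := exists_uniformizer_congr_lt K w u hne ((l : K) ^ 2) (pow_ne_zero 2 hlK)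
  have hy0 := ne_zero_of_uniformizer hy
  obtain ⟨c, hc⟩ := hE₂.exists_root l hl.pos ((y : K) : E₂)
  have hc0 : c ≠ 0 := by
    rintro rfl
    rw [zero_pow hl.ne_zero] at hc
    exact hy0 (by simpa using hc.symm)
  have hgc : α g c ≠ c := fun h => not_dvdVal_of_uniformizer hl hy ((hwg c _ hy0 hc).1 h)
  have hζ : IsPrimitiveRoot (ξ ^ l) l := hξ.pow (pow_pos hl.pos 2) (by rw [pow_two])
  obtain ⟨e, he⟩ := exists_exp_of_fix hl.pos hζ hc (by simpa using hy0) (α g)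
    (hg.2.2.1 _ (y : K).2)
  have hζK : ξ ^ l ∈ K := pow_mem hξK l
  have hgζ : α g (ξ ^ l) = ξ ^ l := hg.2.2.1 _ hζK
  have hgV : Stab V (α g) := hst g hg.1
  have hcl : V.valuation (c ^ l - 1) < V.valuation (l : E₂) ^ 2 := by
    have h1 : u.valuation K (((y : K) - 1) / (l : K) ^ 2) < 1 := by
      rw [map_div₀, div_lt_one₀ (zero_lt_iff.2 ((Valuation.ne_zero_iff _).2 (pow_ne_zero 2 hlK)))]
      exact hyu
    have h2 := (mem_iff_of_center V hV u hu _).2.2 h1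
    rw [ValuationSubring.mem_nonunits_iff] at h2
    have h3 : algebraMap K E₂ (((y : K) - 1) / (l : K) ^ 2) = (c ^ l - 1) / (l : E₂) ^ 2 := by
      rw [map_div₀, map_sub, map_pow, map_natCast, map_one, hc]
      rfl
    rw [h3, map_div₀, map_pow, div_lt_one₀ (zero_lt_iff.2 (pow_ne_zero 2
      ((Valuation.ne_zero_iff _).2 hlE)))] at h2
    exact h2
  have hl1 : V.valuation (l : E₂) ≤ 1 := (V.valuation_le_one_iff _).2 (natCast_mem V l)
  have hvl : V.valuation (1 - ξ ^ l) ^ (l - 1) = V.valuation (l : E₂) :=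
    val_pow_sub_one_eq V hl hζ
  have hvζ : V.valuation (ξ ^ l) = 1 := val_root_eq_one V hl.ne_zero hζ.pow_eq_one
  have hvζ1 : V.valuation (1 - ξ ^ l) ≤ 1 := by
    refine (Valuation.map_sub _ _ _).trans (max_le ?_ hvζ.le)
    rw [map_one]
  have hl2' : V.valuation (l : E₂) ≤ V.valuation (1 - ξ ^ l) := by
    rw [← hvl]
    exact pow_le_of_le_one zero_le hvζ1 (by have := hl.two_le; omega)
  have hcl1 : V.valuation (c ^ l - 1) < 1 := lt_of_lt_of_le hcl (pow_le_one₀ zero_le hl1)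
  have hvc : V.valuation c = 1 := by
    have h1 : V.valuation (c ^ l) = 1 := by
      have h2 : c ^ l = (c ^ l - 1) + 1 := by ring
      rw [h2, Valuation.map_add_eq_of_lt_right _ (by rw [map_one]; exact hcl1), map_one]
    rw [map_pow] at h1
    exact (pow_eq_one_iff_of_nonneg zero_le hl.ne_zero).1 h1
  have hnz : NeZero l := ⟨hl.ne_zero⟩
  have hcl2 : V.valuation (c ^ l - 1) < V.valuation (1 - ξ ^ l) ^ l := by
    refine lt_of_lt_of_le hcl ?_
    have h1 : V.valuation (1 - ξ ^ l) ^ l =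
        V.valuation (l : E₂) * V.valuation (1 - ξ ^ l) := by
      rw [← hvl, ← pow_succ, Nat.sub_add_cancel hl.one_le]
    rw [h1, pow_two]
    exact mul_le_mul_right hl2' _
  obtain ⟨i, hi⟩ : ∃ i : ℕ, V.valuation (c - (ξ ^ l) ^ i) < V.valuation (1 - ξ ^ l) := by
    by_contra hcon
    push Not at hcon
    have h1 : c ^ l - 1 = ∏ μ ∈ Polynomial.nthRootsFinset l (1 : E₂), (c - μ) := by
      have h2 := hζ.pow_sub_pow_eq_prod_sub_mul c 1 hl.pos
      rw [one_pow] at h2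
      rw [h2]
      refine Finset.prod_congr rfl fun μ _ => ?_
      rw [mul_one]
    rw [h1, map_prod] at hcl2
    have h3 : V.valuation (1 - ξ ^ l) ^ l ≤
        ∏ μ ∈ Polynomial.nthRootsFinset l (1 : E₂), V.valuation (c - μ) := by
      have h5 := Finset.prod_le_prod' (s := Polynomial.nthRootsFinset l (1 : E₂))
        (f := fun _ => V.valuation (1 - ξ ^ l)) (g := fun μ => V.valuation (c - μ)) (by
          intro μ hμ
          have h4 : μ ^ l = 1 := (Polynomial.mem_nthRootsFinset hl.pos _).1 hμ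
          obtain ⟨i, -, rfl⟩ := hζ.eq_pow_of_pow_eq_one h4
          exact hcon i)
      rwa [Finset.prod_const, hζ.card_nthRootsFinset] at h5
    exact not_lt_of_ge h3 hcl2
  have h5 : V.valuation ((ξ ^ l) ^ e * c - (ξ ^ l) ^ i) < V.valuation (1 - ξ ^ l) := by
    have h6 : α g (c - (ξ ^ l) ^ i) = (ξ ^ l) ^ e * c - (ξ ^ l) ^ i := by
      rw [map_sub, he, map_pow, hgζ]
    rw [← h6, valuation_map_eq V (α g) hgV]
    exact hi
  have h6 : V.valuation ((1 - (ξ ^ l) ^ e) * c) < V.valuation (1 - ξ ^ l) := by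
    have h7 : (1 - (ξ ^ l) ^ e) * c = (c - (ξ ^ l) ^ i) - ((ξ ^ l) ^ e * c - (ξ ^ l) ^ i) := by
      ring
    rw [h7]
    exact lt_of_le_of_lt (Valuation.map_sub _ _ _) (max_lt hi h5)
  rw [map_mul, hvc, mul_one, val_one_sub_pow V hl hζ] at h6
  · exact lt_irrefl _ h6
  · refine Nat.Coprime.symm ((Nat.Prime.coprime_iff_not_dvd hl).2 fun hd => hgc ?_)
    rw [he, (hζ.pow_eq_one_iff_dvd e).2 hd, one_mul]

omit [NumberField F₁] [IsGalois F₁ E₁] in
theorem mem_iff_of_stab (hE₂ : SolvablyClosed E₂)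
    (α : (E₁ ≃ₐ[F₁] E₁) →* (E₂ ≃ₐ[F₂] E₂)) {l : ℕ} (hl : l.Prime) (O : ValuationSubring E₁)
    (V : ValuationSubring E₂) (hV : V ≠ ⊤)
    (hst : ∀ σ, Stab O σ → Stab V (α σ)) (K : IntermediateField F₂ E₂) [NumberField K]
    (w : HeightOneSpectrum (𝓞 K)) (hw : GoodAt α l O K w) (x : K) :
    (x : E₂) ∈ V ↔ w.valuation K x ≤ 1 := by
  have : CharZero E₂ := charZero_of_injective_algebraMap (algebraMap F₂ E₂).injective
  have : Algebra.IsAlgebraic ℚ E₂ := Algebra.IsAlgebraic.trans ℚ F₂ E₂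
  obtain ⟨u, hu⟩ := exists_center (K := K) V hV
  have huw := center_eq_of_stab hE₂ α hl O V hV hst K w hw u hu
  subst huw
  exact (mem_iff_of_center V hV u hu x).1

/-- The valuation ring attached to an alive prime is unique. -/
theorem existsUnique_ring (hE₁ : SolvablyClosed E₁) (hE₂ : SolvablyClosed E₂)
    (α : (E₁ ≃ₐ[F₁] E₁) →* (E₂ ≃ₐ[F₂] E₂)) (hα : Continuous α)
    {l : ℕ} (hl : l.Prime) (hl2 : l ≠ 2) (O : ValuationSubring E₁) (hO : O ≠ ⊤)
    (v : HeightOneSpectrum (𝓞 F₁)) (hOv : IsCenter O v) (hv : v ∈ Alive α l) :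
    ∃! V : ValuationSubring E₂, V ≠ ⊤ ∧ ∀ σ, Stab O σ → Stab V (α σ) := by
  obtain ⟨V, hV, hlV, hst, hVw⟩ := exists_ring hE₁ hE₂ α hα hl hl2 O hO v hOv hv
  refine ⟨V, ⟨hV, hst⟩, ?_⟩
  rintro V' ⟨hV', hst'⟩
  have hbot : NumberField (⊥ : IntermediateField F₂ E₂) := NumberField.of_module_finite F₂ _
  have hsbot : StableK (⊥ : IntermediateField F₂ E₂) := by
    intro σ y hy
    rw [IntermediateField.mem_bot] at hy ⊢
    obtain ⟨a, rfl⟩ := hy
    exact ⟨a, (σ.commutes a).symm⟩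
  ext x
  obtain ⟨K, hN, w, -, hxK, -, hw⟩ :=
    exists_goodAt hE₁ hE₂ α hα hl hl2 O hO v hOv hv ⊥ hsbot x x
  have h1 := mem_iff_of_stab hE₂ α hl O V' hV' hst' K w hw ⟨x, hxK⟩
  have h2 := hVw K w hw ⟨x, hxK⟩
  exact h1.trans h2.symm

theorem prime_notMem_of_stab (hE₁ : SolvablyClosed E₁) (hE₂ : SolvablyClosed E₂)
    (α : (E₁ ≃ₐ[F₁] E₁) →* (E₂ ≃ₐ[F₂] E₂)) (hα : Continuous α)
    {l : ℕ} (hl : l.Prime) (hl2 : l ≠ 2) (O : ValuationSubring E₁) (hO : O ≠ ⊤)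
    (v : HeightOneSpectrum (𝓞 F₁)) (hOv : IsCenter O v) (hv : v ∈ Alive α l)
    (V : ValuationSubring E₂) (hV : V ≠ ⊤) (hst : ∀ σ, Stab O σ → Stab V (α σ)) :
    (l : E₂) ∉ V.nonunits := by
  obtain ⟨V', hV', hlV', hst', -⟩ := exists_ring hE₁ hE₂ α hα hl hl2 O hO v hOv hv
  rwa [(existsUnique_ring hE₁ hE₂ α hα hl hl2 O hO v hOv hv).unique ⟨hV, hst⟩ ⟨hV', hst'⟩]

end

end Vale.Agent.P024
end
end

section

section

/-!
Local theory, part 7: almost all primes of the target field are hit.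
-/

namespace Vale.Agent.P024

open scoped NumberField
open IsDedekindDomain NumberField

section

variable {F₁ E₁ F₂ E₂ : Type*} [Field F₁] [NumberField F₁] [Field E₁] [Algebra F₁ E₁]
    [IsGalois F₁ E₁] [Field F₂] [NumberField F₂] [Field E₂] [Algebra F₂ E₂] [IsGalois F₂ E₂]

/-- The local correspondence, with the valuation rings. -/
theorem local_match_test (hE₁ : SolvablyClosed E₁) (hE₂ : SolvablyClosed E₂)
    (α : (E₁ ≃ₐ[F₁] E₁) →* (E₂ ≃ₐ[F₂] E₂)) (hα : Continuous α)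
    (K₁ : IntermediateField F₁ E₁) [NumberField K₁] (K₂ : IntermediateField F₂ E₂) [NumberField K₂]
    (hαK : ∀ g : E₁ ≃ₐ[F₁] E₁, (∀ x ∈ K₁, g x = x) → ∀ y ∈ K₂, α g y = y)
    {l : ℕ} (hl : l.Prime) (hl2 : l ≠ 2)
    (z₁ : K₁) (hz₁ : IsPrimitiveRoot z₁ l) (z₂ : K₂) (hz₂ : IsPrimitiveRoot z₂ l)
    (hμ : ∃ ξ ∈ K₂, IsPrimitiveRoot ξ (l ^ 2))
    (κ : K₂ → K₁) (hκ : IsTransfer α K₁ K₂ l (z₁ : E₁) (z₂ : E₂) κ)
    (v : HeightOneSpectrum (𝓞 K₁)) (hvl : (l : 𝓞 K₁) ∉ v.asIdeal) (x₀ : K₂) (hx₀ : x₀ ≠ 0)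
    (hx₀v : ¬ DvdVal v l (κ x₀)) :
    pullPrime (algebraMap F₁ K₁) v ∈ Alive α l ∧
    ∃ (O : ValuationSubring E₁) (t : E₁ ≃ₐ[F₁] E₁) (w : HeightOneSpectrum (𝓞 K₂)), O ≠ ⊤ ∧
      IsCenter O (pullPrime (algebraMap F₁ K₁) v) ∧ Test α l O K₂ t ∧ IsW l K₂ (α t) w ∧
      ∀ x, x ≠ 0 → (DvdVal w l x ↔ DvdVal v l (κ x)) := by
  have : CharZero E₁ := charZero_of_injective_algebraMap (algebraMap F₁ E₁).injective
  have : CharZero E₂ := charZero_of_injective_algebraMap (algebraMap F₂ E₂).injective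
  have : Algebra.IsAlgebraic ℚ E₁ := Algebra.IsAlgebraic.trans ℚ F₁ E₁
  have : Algebra.IsAlgebraic ℚ E₂ := Algebra.IsAlgebraic.trans ℚ F₂ E₂
  have hpow₁ := hE₁.exists_root l hl.pos
  have hpow₂ := hE₂.exists_root l hl.pos
  have hl0 := hl.pos
  have : NeZero l := ⟨hl0.ne'⟩
  have hζ₁ : IsPrimitiveRoot (z₁ : E₁) l :=
    hz₁.map_of_injective (f := algebraMap K₁ E₁) (algebraMap K₁ E₁).injective
  have hζ₂ : IsPrimitiveRoot (z₂ : E₂) l :=
    hz₂.map_of_injective (f := algebraMap K₂ E₂) (algebraMap K₂ E₂).injective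
  obtain ⟨b₀, hb₀⟩ := hpow₁ (κ x₀ : E₁)
  obtain ⟨O, hO, hOv⟩ := exists_valuationSubring_over (E := E₁) v
  obtain ⟨t, htK, ht, ht', htp, htb⟩ := exists_tame_proP K₁ hl hζ₁ z₁.2 v hvl (κ x₀)
    (hκ.ne_zero x₀ hx₀) hx₀v b₀ hb₀ O hO hOv
  have hcen : IsCenter O (pullPrime (algebraMap F₁ K₁) v) := by
    intro y
    rw [mem_pullPrime, hOv]
    rfl
  have hvl' : (l : 𝓞 F₁) ∉ (pullPrime (algebraMap F₁ K₁) v).asIdeal := by
    intro h
    apply hvl
    rw [mem_pullPrime, map_natCast] at h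
    exact h
  have htK2 : ∀ x ∈ K₂, (α t) x = x := hαK t htK
  -- transfer of fixedness
  have htr : ∀ x : K₂, x ≠ 0 → ∀ (X : E₂) (b : E₁), X ^ l = x → b ^ l = κ x →
      ((α t) X = X ↔ t b = b) := by
    intro x hx X b hX hb
    have hxE : (x : E₂) ≠ 0 := by simpa using hx
    obtain ⟨e, he⟩ := exists_exp_of_fix hl0 hζ₂ hX hxE (α t) (htK2 x x.2)
    have h1 := hκ.spec x hx X b hX hb t htK e he
    have hX0 : X ≠ 0 := by rintro rfl; rw [zero_pow hl0.ne'] at hX; exact hxE hX.symm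
    have hκE : (κ x : E₁) ≠ 0 := by simpa using hκ.ne_zero x hx
    have hb0 : b ≠ 0 := by rintro rfl; rw [zero_pow hl0.ne'] at hb; exact hκE hb.symm
    rw [he, h1, mul_eq_right₀ hX0, mul_eq_right₀ hb0, hζ₂.pow_eq_one_iff_dvd,
      hζ₁.pow_eq_one_iff_dvd]
  obtain ⟨X₀, hX₀⟩ := hpow₂ (x₀ : E₂)
  have hX₀t : (α t) X₀ ≠ X₀ := by rw [Ne, htr x₀ hx₀ X₀ b₀ hX₀ hb₀]; exact htb
  have halive : pullPrime (algebraMap F₁ K₁) v ∈ Alive α l := by
    refine ⟨hvl', O, hO, hcen, t, ht, ht', htp, ?_⟩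
    intro hαt
    apply hX₀t
    rw [hαt, AlgEquiv.one_apply]
  have htest : Test α l O K₂ t := ⟨ht, ht', htK2, X₀, by rw [hX₀]; exact x₀.2, hX₀t⟩
  obtain ⟨w, hw⟩ := exists_isW hE₁ hE₂ α hα hl hl2 O hO _ hcen hvl' K₂ hμ t htest
  refine ⟨halive, O, t, w, hO, hcen, htest, hw, ?_⟩
  intro x hx
  obtain ⟨X, hX⟩ := hpow₂ (x : E₂)
  obtain ⟨b, hb⟩ := hpow₁ (κ x : E₁)
  rw [← hw.2 X x hx hX, htr x hx X b hX hb]
  constructor
  · intro htb'
    have hK0 : ∀ y : K₁, y ≠ 0 → (y : E₁) ≠ 0 := fun y hy => by simpa using hy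
    have htz : t.toRingEquiv (z₁ : E₁) = z₁ := htK z₁ z₁.2
    refine dvdVal_of_char v hl (fun y => kum hpow₁ (z₁ : E₁) t.toRingEquiv (y : E₁)) ?_ ?_
      (hκ.ne_zero x₀ hx₀) ?_ (hκ.ne_zero x hx) ?_
    · intro y y' hy hy'
      exact kum_mul hpow₁ hl0 hζ₁ htz (hK0 y hy) (hK0 y' hy') (htK y y.2) (htK y' y'.2)
    · intro y hy
      have hy0 := ((dvdVal_iff v hl0.ne' y).mp hy).1
      obtain ⟨c, hc⟩ := hpow₁ (y : E₁)
      exact (kum_eq_zero_iff hpow₁ hl0 hζ₁ htz (hK0 y hy0) (htK y y.2) hc).mpr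
        (tame_fix K₁ hl0.ne' O hO v hOv hvl t htK ht' y c hc hy)
    · rw [Ne, kum_eq_zero_iff hpow₁ hl0 hζ₁ htz (hK0 _ (hκ.ne_zero x₀ hx₀))
        (htK _ (κ x₀).2) hb₀]
      exact htb
    · exact (kum_eq_zero_iff hpow₁ hl0 hζ₁ htz (hK0 _ (hκ.ne_zero x hx))
        (htK _ (κ x).2) hb).mpr htb'
  · exact tame_fix K₁ hl0.ne' O hO v hOv hvl t htK ht' (κ x) b hb

/-- Almost all primes of a stable number field are hit. -/
theorem exists_hits_aux (hE₁ : SolvablyClosed E₁) (hE₂ : SolvablyClosed E₂)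
    (α : (E₁ ≃ₐ[F₁] E₁) →* (E₂ ≃ₐ[F₂] E₂)) (hα : Continuous α) (hopen : IsOpen (Set.range α))
    {l : ℕ} (hl : l.Prime) (hl2 : l ≠ 2) (T : Set (HeightOneSpectrum (𝓞 F₁))) (hT : T.Finite)
    (K₂ : IntermediateField F₂ E₂) [NumberField K₂] (hstab : StableK K₂) (ξ : E₂) (hξK : ξ ∈ K₂)
    (hξ : IsPrimitiveRoot ξ (l ^ 2)) :
    ∃ W : Set (HeightOneSpectrum (𝓞 K₂)), W.Finite ∧ ∀ w ∉ W, ∃ v ∈ Alive α l, v ∉ T ∧
      ∃ (O : ValuationSubring E₁) (V : ValuationSubring E₂), O ≠ ⊤ ∧ IsCenter O v ∧ V ≠ ⊤ ∧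
        IsCenter V w ∧ ∀ σ, Stab O σ → Stab V (α σ) := by
  classical
  have : CharZero E₁ := charZero_of_injective_algebraMap (algebraMap F₁ E₁).injective
  have : CharZero E₂ := charZero_of_injective_algebraMap (algebraMap F₂ E₂).injective
  have : Algebra.IsAlgebraic ℚ E₁ := Algebra.IsAlgebraic.trans ℚ F₁ E₁
  have : Algebra.IsAlgebraic ℚ E₂ := Algebra.IsAlgebraic.trans ℚ F₂ E₂
  have hpow₁ := hE₁.exists_root l hl.pos
  have hpow₂ := hE₂.exists_root l hl.pos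
  have hl0 := hl.pos
  have hl20 : 0 < l ^ 2 := pow_pos hl0 2
  have hnz : NeZero l := ⟨hl.ne_zero⟩
  -- the fields
  have hζ₂ : IsPrimitiveRoot (ξ ^ l) l := hξ.pow hl20 (by rw [pow_two])
  obtain ⟨ζ₁, hζ₁⟩ := hE₁.exists_primitiveRoot l hl0
  have hfd₂ : FiniteDimensional F₂ K₂ := Module.Finite.of_restrictScalars_finite ℚ F₂ K₂
  let H : Subgroup (E₁ ≃ₐ[F₁] E₁) :=
    (K₂.fixingSubgroup).comap α ⊓ MulAction.stabilizer (E₁ ≃ₐ[F₁] E₁) ζ₁
  have hH : IsOpen (H : Set (E₁ ≃ₐ[F₁] E₁)) := by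
    have h1 : IsOpen ((K₂.fixingSubgroup : Subgroup (E₂ ≃ₐ[F₂] E₂)) :
      Set (E₂ ≃ₐ[F₂] E₂)) := K₂.fixingSubgroup_isOpen
    have h2 : IsOpen ((MulAction.stabilizer (E₁ ≃ₐ[F₁] E₁) ζ₁ : Subgroup (E₁ ≃ₐ[F₁] E₁)) :
      Set (E₁ ≃ₐ[F₁] E₁)) := stabilizer_isOpen_of_isIntegral (K := F₁) (L := E₁) ζ₁
    exact (h1.preimage hα).inter h2
  obtain ⟨hfd₁, hfix⟩ := finiteDimensional_fixedField H hH
  set K₁ := IntermediateField.fixedField H with hK₁
  have hNF₁ : NumberField K₁ := NumberField.of_module_finite F₁ K₁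
  have hHK : ∀ g : E₁ ≃ₐ[F₁] E₁, (∀ x ∈ K₁, g x = x) → g ∈ H := by
    intro g hg
    rw [← hfix, IntermediateField.mem_fixingSubgroup_iff]
    exact hg
  have hζK : ζ₁ ∈ K₁ := by
    rw [hK₁, IntermediateField.mem_fixedField_iff]
    intro g hg
    exact hg.2
  have hαK : ∀ g : E₁ ≃ₐ[F₁] E₁, (∀ x ∈ K₁, g x = x) → ∀ y ∈ K₂, α g y = y := by
    intro g hg
    have h1 : α g ∈ K₂.fixingSubgroup := (hHK g hg).1
    rwa [IntermediateField.mem_fixingSubgroup_iff] at h1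
  let z₁ : K₁ := ⟨ζ₁, hζK⟩
  have hz₁ : IsPrimitiveRoot z₁ l :=
    IsPrimitiveRoot.of_map_of_injective (f := algebraMap K₁ E₁) hζ₁ (algebraMap K₁ E₁).injective
  let z₂ : K₂ := ⟨ξ ^ l, pow_mem hξK l⟩
  have hz₂ : IsPrimitiveRoot z₂ l :=
    IsPrimitiveRoot.of_map_of_injective (f := algebraMap K₂ E₂) hζ₂ (algebraMap K₂ E₂).injective
  obtain ⟨κ, hκ⟩ := exists_transfer α hα K₁ K₂ hαK hl hζ₁ z₁.2 hζ₂ z₂.2 hpow₂
  have hmatch := local_match_test hE₁ hE₂ α hα K₁ K₂ hαK hl hl2 z₁ hz₁ z₂ hz₂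
    ⟨ξ, hξK, hξ⟩ κ hκ
  have hfin := hit hl κ hκ.ne_zero (hκ.mul hl0 hαK hζ₁ hζ₂ hpow₁ hpow₂)
    (hκ.ker hl (fun V hV => isOpen_map_of_isOpen_range α hα hopen V hV) hαK hζ₁ hζ₂ z₂.2 hpow₂) (by
      rintro v hvl ⟨x₀, hx₀, hx₀v⟩
      obtain ⟨-, -, -, w, -, -, -, -, hw⟩ := hmatch v hvl x₀ hx₀ hx₀v
      refine ⟨w, fun x hx => (hw x ?_).mp hx⟩
      exact ((dvdVal_iff w hl0.ne' x).mp hx).1)
  -- the primes of `K₂` below the primes above `T`
  set A : Set (HeightOneSpectrum (𝓞 K₁)) := {v | pullPrime (algebraMap F₁ K₁) v ∈ T} with hA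
  have hAfin : A.Finite := by
    have h1 : A ⊆ ⋃ v ∈ T, {w : HeightOneSpectrum (𝓞 K₁) |
        ((Ideal.absNorm v.asIdeal : ℕ) : 𝓞 K₁) ∈ w.asIdeal} := by
      intro w hw
      refine Set.mem_biUnion hw ?_
      have h2 : ((Ideal.absNorm (pullPrime (algebraMap F₁ K₁) w).asIdeal : ℕ) : 𝓞 F₁) ∈
        (pullPrime (algebraMap F₁ K₁) w).asIdeal := Ideal.absNorm_mem _
      rw [mem_pullPrime, map_natCast] at h2
      exact h2
    refine Set.Finite.subset (hT.biUnion fun v _ => finite_above K₁ ?_) h1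
    rw [Ne, Ideal.absNorm_eq_zero_iff]
    exact v.ne_bot
  let P : HeightOneSpectrum (𝓞 K₁) → HeightOneSpectrum (𝓞 K₂) → Prop := fun v w =>
    (l : 𝓞 K₁) ∉ v.asIdeal ∧ (∃ x : K₂, x ≠ 0 ∧ ¬ DvdVal v l (κ x)) ∧
      ∀ x : K₂, DvdVal w l x → DvdVal v l (κ x)
  have hPuniq : ∀ v w w', P v w → P v w' → w = w' := by
    rintro v w w' ⟨hvl, ⟨x₀, hx₀, hx₀v⟩, hw⟩ ⟨-, -, hw'⟩
    obtain ⟨-, -, -, w₀, -, -, -, -, hw₀⟩ := hmatch v hvl x₀ hx₀ hx₀v
    rw [eq_of_dvdVal_imp hl w w₀ fun x hx hxw => (hw₀ x hx).mpr (hw x hxw),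
      eq_of_dvdVal_imp hl w' w₀ fun x hx hxw => (hw₀ x hx).mpr (hw' x hxw)]
  set W₁ : Set (HeightOneSpectrum (𝓞 K₂)) := ⋃ v ∈ A, {w | P v w} with hW₁
  have hW₁fin : W₁.Finite := by
    refine hAfin.biUnion fun v _ => ?_
    refine Set.Subsingleton.finite ?_
    intro w hw w' hw'
    exact hPuniq v w w' hw hw'
  have hbad := hfin.union hW₁fin
  refine ⟨_, hbad, ?_⟩
  intro w hwbad
  obtain ⟨hw1, hw3⟩ := not_or.1 hwbad
  replace hw1 := not_not.mp hw1
  obtain ⟨v, hvl, ⟨x₀, hx₀, hx₀v⟩, hv⟩ := hw1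
  obtain ⟨halive, O, t, w', hO, hcen, htest, hw', hiff⟩ := hmatch v hvl x₀ hx₀ hx₀v
  have hww : w = w' := eq_of_dvdVal_imp hl w w' fun x hx hxw => (hiff x hx).mpr (hv x hxw)
  subst hww
  obtain ⟨V, hV, hlV, hst, -⟩ := exists_ring hE₁ hE₂ α hα hl hl2 O hO _ hcen halive
  obtain ⟨w', hw''⟩ := exists_center (K := K₂) V hV
  have hww : w' = w := center_eq_of_stab hE₂ α hl O V hV hst K₂ w
    ⟨hstab, ⟨ξ, hξK, hξ⟩, t, htest, hw'⟩ w' hw''
  subst hww
  refine ⟨_, halive, ?_, O, V, hO, hcen, hV, hw'', hst⟩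
  intro hvT
  apply hw3
  exact Set.mem_biUnion (show v ∈ A from hvT) ⟨hvl, ⟨x₀, hx₀, hx₀v⟩, hv⟩

theorem stableK_of_normal {F E : Type*} [Field F] [Field E] [Algebra F E]
    (K : IntermediateField F E) [Normal F K] : StableK K := by
  intro σ y hy
  have h1 := AlgEquiv.restrictNormal_commutes σ K ⟨y, hy⟩
  have h2 : σ y = ((σ.restrictNormal K ⟨y, hy⟩ : K) : E) := h1.symm
  rw [h2]
  exact Subtype.property _

/-- Every valuation ring above almost all primes of the target is hit. -/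
theorem exists_hits (hE₁ : SolvablyClosed E₁) (hE₂ : SolvablyClosed E₂)
    (α : (E₁ ≃ₐ[F₁] E₁) →* (E₂ ≃ₐ[F₂] E₂)) (hα : Continuous α) (hopen : IsOpen (Set.range α))
    {l : ℕ} (hl : l.Prime) (hl2 : l ≠ 2) (T : Set (HeightOneSpectrum (𝓞 F₁))) (hT : T.Finite) :
    ∃ W : Set (HeightOneSpectrum (𝓞 F₂)), W.Finite ∧ ∀ u ∉ W, ∀ V : ValuationSubring E₂, V ≠ ⊤ →
      IsCenter V u → ∃ v ∈ Alive α l, v ∉ T ∧ ∃ O : ValuationSubring E₁, O ≠ ⊤ ∧ IsCenter O v ∧
        ∀ σ, Stab O σ → Stab V (α σ) := by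
  classical
  have : CharZero E₁ := charZero_of_injective_algebraMap (algebraMap F₁ E₁).injective
  have : CharZero E₂ := charZero_of_injective_algebraMap (algebraMap F₂ E₂).injective
  have : Algebra.IsAlgebraic ℚ E₁ := Algebra.IsAlgebraic.trans ℚ F₁ E₁
  have : Algebra.IsAlgebraic ℚ E₂ := Algebra.IsAlgebraic.trans ℚ F₂ E₂
  -- a stable field whose group is in the image
  have hΓ : IsOpen ((α.range : Subgroup (E₂ ≃ₐ[F₂] E₂)) : Set (E₂ ≃ₐ[F₂] E₂)) := by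
    rw [MonoidHom.coe_range]
    exact hopen
  obtain ⟨hfdΓ, hfixΓ⟩ := finiteDimensional_fixedField α.range hΓ
  set L := IntermediateField.fixedField α.range with hL
  let N := IntermediateField.normalClosure F₂ L E₂
  have hfdN : FiniteDimensional F₂ N := inferInstance
  have hNN : NumberField N := NumberField.of_module_finite F₂ N
  have hnorm : Normal F₂ N := inferInstance
  have hLN : L ≤ N := IntermediateField.le_normalClosure L
  have hNst : StableK N := stableK_of_normal N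
  obtain ⟨ξ, hξ⟩ := hE₂.exists_primitiveRoot (l ^ 2) (pow_pos hl.pos 2)
  obtain ⟨K, hNK, hNK', hKst, hξK, -⟩ := exists_stable_sup N hNst ξ
  obtain ⟨W, hW, hWhit⟩ := exists_hits_aux hE₁ hE₂ α hα hopen hl hl2 T hT K hKst ξ hξK hξ
  refine ⟨pullPrime (algebraMap F₂ K) '' W, hW.image _, ?_⟩
  intro u hu V hV hVu
  obtain ⟨w, hw⟩ := exists_center (K := K) V hV
  have hwu : pullPrime (algebraMap F₂ K) w = u := by
    apply HeightOneSpectrum.ext
    ext x
    rw [hVu, mem_pullPrime, hw]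
    rfl
  obtain ⟨v, hv, hvT, O, V', hO, hOv, hV', hV'w, hst⟩ := hWhit w (fun h => hu ⟨w, h, hwu⟩)
  obtain ⟨γ, hγ⟩ := exists_conj (M := K) V' V hV' hV (fun x =>
    (mem_iff_of_center V' hV' w hV'w x).1.trans (mem_iff_of_center V hV w hw x).1.symm)
  have hγΓ : γ.restrictScalars F₂ ∈ α.range := by
    rw [← hfixΓ, IntermediateField.mem_fixingSubgroup_iff]
    intro y hy
    exact γ.commutes ⟨y, hNK' (hLN hy)⟩
  obtain ⟨g, hg⟩ := hγΓ
  have hγ' : ∀ x, (α g) x ∈ V ↔ x ∈ V' := by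
    intro x
    rw [hg]
    exact hγ x
  refine ⟨v, hv, hvT, conjO O g, conjO_ne_top hO g, ?_, ?_⟩
  · intro x
    rw [nonunits_conjO, g⁻¹.commutes]
    exact hOv x
  · intro σ hσ
    have h1 : Stab O (g⁻¹ * σ * g) := by
      intro y
      have h2 := hσ (g y)
      rw [mem_conjO, mem_conjO, ← AlgEquiv.mul_apply g⁻¹ g, inv_mul_cancel,
        AlgEquiv.one_apply] at h2
      exact h2
    have h3 := hst _ h1
    intro y
    have h4 := h3 ((α g)⁻¹ y)
    rw [← hγ', ← hγ', map_mul, map_mul, map_inv, ← AlgEquiv.mul_apply, ← AlgEquiv.mul_apply,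
      ← AlgEquiv.mul_apply] at h4
    have h5 : α g * ((α g)⁻¹ * α σ * α g) * (α g)⁻¹ = α σ := by group
    have h6 : (α g) * (α g)⁻¹ = 1 := mul_inv_cancel _
    rw [h5, h6, AlgEquiv.one_apply] at h4
    exact h4

end

end Vale.Agent.P024
end
end

section

section

/-!
Local theory, part 8: a homomorphism which preserves residue characteristics is induced.
-/

namespace Vale.Agent.P024

open scoped NumberField Topology
open IsDedekindDomain NumberField Filter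

section

variable {F₁ E₁ F₂ E₂ : Type*} [Field F₁] [NumberField F₁] [Field E₁] [Algebra F₁ E₁]
    [IsGalois F₁ E₁] [Field F₂] [NumberField F₂] [Field E₂] [Algebra F₂ E₂] [IsGalois F₂ E₂]

theorem induced_of_resChar (hE₁ : SolvablyClosed E₁) (hE₂ : SolvablyClosed E₂)
    (α : (E₁ ≃ₐ[F₁] E₁) →* (E₂ ≃ₐ[F₂] E₂)) (hα : Continuous α) (hopen : IsOpen (Set.range α))
    (B : Set ℕ)
    (hB : Tendsto (fun s : ℝ => (∑' p : {p : ℕ | p.Prime ∧ p ∈ B}, ((p : ℕ) : ℝ) ^ (-s)) /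
      Real.log (1 / (s - 1))) (𝓝[>] 1) (𝓝 0))
    (h : ∀ p : ℕ, p.Prime → p ∉ B → {v : HeightOneSpectrum (𝓞 F₁) | v ∈ Alive α p ∧
      ∃ (O : ValuationSubring E₁) (V : ValuationSubring E₂), IsCenter O v ∧ V ≠ ⊤ ∧
        (∀ σ, Stab O σ → Stab V (α σ)) ∧
        ∃ r : ℕ, (r : E₁) ∈ O.nonunits ∧ (r : E₂) ∉ V.nonunits}.Finite) :
    ∃ j : E₂ →+* E₁, ∀ (g : E₁ ≃ₐ[F₁] E₁) (x : E₂), g (j x) = j ((α g) x) := by
  classical
  have : CharZero E₁ := charZero_of_injective_algebraMap (algebraMap F₁ E₁).injective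
  have : CharZero E₂ := charZero_of_injective_algebraMap (algebraMap F₂ E₂).injective
  have : Algebra.IsAlgebraic ℚ (AlgebraicClosure F₁) := Algebra.IsAlgebraic.trans ℚ F₁ _
  have : Normal ℚ (AlgebraicClosure F₁) := normal_iff.2 fun x =>
    ⟨(Algebra.IsAlgebraic.isAlgebraic x).isIntegral, IsAlgClosed.splits _⟩
  let Z := IntermediateField.normalClosure ℚ F₁ (AlgebraicClosure F₁)
  have hfd : FiniteDimensional ℚ Z := inferInstance
  have hZ : NumberField Z := ⟨⟩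
  have hN : Normal ℚ Z := normalClosure.normal ℚ F₁ (AlgebraicClosure F₁)
  have hZ' : IsGalois ℚ Z := ⟨⟩
  have hZ0 : (0 : ℝ) < Module.finrank ℚ Z := by
    rw [Nat.cast_pos]
    exact Module.finrank_pos
  have hB' := tendsto_insert B 2 hB
  refine induced_of_aliveOne hE₁ hE₂ α hα hopen _ (meetsSplit_compl hB')
    (δ := 1 / (2 * Module.finrank ℚ Z) / Module.finrank ℚ Z) (by positivity) ?_
  intro p hp hpQ
  have hp2 : p ≠ 2 := fun h => hpQ (Or.inl h)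
  have hpB : p ∉ B := fun h => hpQ (Or.inr h)
  obtain ⟨W, hW, hhit⟩ := exists_hits hE₁ hE₂ α hα hopen hp hp2 _ (h p hp hpB)
  refine aliveOne_dens_of_above α B hB (resChar '' W) (hW.image _) hp ?_ Z (algebraMap F₁ Z)
  intro r hr hrW _ _
  obtain ⟨u, hu⟩ := exists_prime_above F₂ hr
  have hur : resChar u = r :=
    prime_mem_unique u (resChar_spec u).1 hr (resChar_spec u).2.1 hu
  obtain ⟨V, hV, hVu⟩ := exists_valuationSubring_over (E := E₂) u
  obtain ⟨v, hv, hvT, O, hO, hOv, hst⟩ := hhit u (fun h => hrW ⟨u, h, hur⟩) V hV hVu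
  refine ⟨v, hv, ?_⟩
  have hq : ((resChar v : ℕ) : E₁) ∈ O.nonunits := by
    have h1 := (hOv (resChar v : 𝓞 F₁)).1 (resChar_spec v).2.1
    simpa using h1
  have hqV : ((resChar v : ℕ) : E₂) ∈ V.nonunits := by
    by_contra hcon
    exact hvT ⟨hv, O, V, hOv, hV, hst, _, hq, hcon⟩
  have hqu : ((resChar v : ℕ) : 𝓞 F₂) ∈ u.asIdeal := by
    rw [hVu]
    simpa using hqV
  have hqr : resChar v = r := prime_mem_unique u (resChar_spec v).1 hr hqu hu
  rw [← hqr]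
  exact (resChar_spec v).2.1

theorem resChar_of_induced (hE₁ : SolvablyClosed E₁) (hE₂ : SolvablyClosed E₂)
    (α : (E₁ ≃ₐ[F₁] E₁) →* (E₂ ≃ₐ[F₂] E₂)) (hα : Continuous α) (j : E₂ →+* E₁)
    (hj : ∀ (g : E₁ ≃ₐ[F₁] E₁) (x : E₂), g (j x) = j ((α g) x)) {p : ℕ} (hp : p.Prime)
    (hp2 : p ≠ 2) (v : HeightOneSpectrum (𝓞 F₁)) (hv : v ∈ Alive α p)
    (O : ValuationSubring E₁) (hO : O ≠ ⊤) (hOv : IsCenter O v) (V : ValuationSubring E₂)
    (hV : V ≠ ⊤) (hst : ∀ σ, Stab O σ → Stab V (α σ)) : V = O.comap j := by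
  have : CharZero E₁ := charZero_of_injective_algebraMap (algebraMap F₁ E₁).injective
  have : Algebra.IsAlgebraic ℚ E₁ := Algebra.IsAlgebraic.trans ℚ F₁ E₁
  refine (existsUnique_ring hE₁ hE₂ α hα hp hp2 O hO v hOv hv).unique ⟨hV, hst⟩ ⟨?_, ?_⟩
  · intro htop
    obtain ⟨n, hn0, hn⟩ := exists_nat_mem_nonunits O hO
    rcases nonunits_iff.1 hn with h | h
    · exact hn0 (by exact_mod_cast h)
    · apply h
      have h1 : ((n : E₂)⁻¹) ∈ O.comap j := by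
        rw [htop]
        trivial
      rw [ValuationSubring.mem_comap, map_inv₀, map_natCast] at h1
      exact h1
  · intro σ hσ x
    rw [ValuationSubring.mem_comap, ValuationSubring.mem_comap, ← hj]
    exact hσ (j x)

end

end Vale.Agent.P024
end
end

section

section

/-!
Local theory, part 9: Frobenius elements at alive primes and roots of unity of `l`-power order.
-/

namespace Vale.Agent.P024

open scoped NumberField
open IsDedekindDomain NumberField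

theorem modEq_of_pow_modEq_lte {l : ℕ} (hl : l.Prime) (hl2 : l ≠ 2) {a q m : ℕ} (hm : 0 < m)
    (haq : a ≡ q [MOD l]) (hq : ¬ l ∣ q) (n : ℕ) (h : a ^ m ≡ q ^ m [MOD l ^ (n + m)]) :
    a ≡ q [MOD l ^ n] := by
  have h1 : (l : ℤ) ∣ (q : ℤ) - a := Nat.modEq_iff_dvd.1 haq
  have h2 : ¬ (l : ℤ) ∣ q := fun h => hq (Int.natCast_dvd_natCast.1 h)
  have h3 := Int.emultiplicity_pow_sub_pow hl (hl.odd_of_ne_two hl2) h1 h2 m
  have h4 : ((l ^ (n + m) : ℕ) : ℤ) ∣ (q : ℤ) ^ m - (a : ℤ) ^ m := by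
    have := Nat.modEq_iff_dvd.1 h
    push_cast at this ⊢
    exact this
  rw [Nat.modEq_iff_dvd]
  push_cast at h4 ⊢
  rw [pow_dvd_iff_le_emultiplicity, h3] at h4
  by_contra hcon
  rw [← emultiplicity_lt_iff_not_dvd] at hcon
  have h5 : emultiplicity (l : ℕ) (m : ℕ) < m := by
    rw [emultiplicity_lt_iff_not_dvd]
    intro hd
    have h6 := Nat.le_of_dvd hm hd
    have h7 : m < l ^ m := Nat.lt_pow_self hl.one_lt
    omega
  have h8 : emultiplicity (l : ℤ) ((q : ℤ) - a) + emultiplicity l m < (n : ℕ∞) + m :=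
    ENat.add_lt_add hcon h5
  push_cast at h4
  exact absurd h4 (not_le.2 h8)

section

variable {F₁ E₁ F₂ E₂ : Type*} [Field F₁] [NumberField F₁] [Field E₁] [Algebra F₁ E₁]
    [IsGalois F₁ E₁] [Field F₂] [NumberField F₂] [Field E₂] [Algebra F₂ E₂] [IsGalois F₂ E₂]

theorem frob_pow_of_alive (hE₁ : SolvablyClosed E₁) (hE₂ : SolvablyClosed E₂)
    (α : (E₁ ≃ₐ[F₁] E₁) →* (E₂ ≃ₐ[F₂] E₂)) (hα : Continuous α)
    {l : ℕ} (hl : l.Prime) (hl2 : l ≠ 2) (O : ValuationSubring E₁) (hO : O ≠ ⊤)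
    (v : HeightOneSpectrum (𝓞 F₁)) (hOv : IsCenter O v) (hv : v ∈ Alive α l)
    (s : E₁ ≃ₐ[F₁] E₁) (hs : Stab O s) (hs' : ActsPow O s (Ideal.absNorm v.asIdeal))
    (n : ℕ) (z : E₂) (hz : z ^ (l ^ n) = 1) : α s z = z ^ Ideal.absNorm v.asIdeal := by
  have : CharZero E₁ := charZero_of_injective_algebraMap (algebraMap F₁ E₁).injective
  have : CharZero E₂ := charZero_of_injective_algebraMap (algebraMap F₂ E₂).injective
  have : Algebra.IsAlgebraic ℚ E₁ := Algebra.IsAlgebraic.trans ℚ F₁ E₁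
  have : Algebra.IsAlgebraic ℚ E₂ := Algebra.IsAlgebraic.trans ℚ F₂ E₂
  have hpow₂ := hE₂.exists_root l hl.pos
  have hpos : ∀ n : ℕ, 0 < l ^ n := fun n => pow_pos hl.pos n
  have hroot₂' : ∀ n : ℕ, ∃ ξ : E₂, IsPrimitiveRoot ξ (l ^ n) :=
    fun n => hE₂.exists_primitiveRoot _ (hpos n)
  have hlO := natCast_pow_notMem_nonunits hOv hv.1
  have hlO1 : (l : E₁) ∉ O.nonunits := by simpa using hlO 1
  have hbot : NumberField (⊥ : IntermediateField F₂ E₂) := NumberField.of_module_finite F₂ _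
  have hsbot : StableK (⊥ : IntermediateField F₂ E₂) := by
    intro σ y hy
    rw [IntermediateField.mem_bot] at hy ⊢
    obtain ⟨a, rfl⟩ := hy
    exact ⟨a, (σ.commutes a).symm⟩
  obtain ⟨K, hN, w, -, -, -, hKs, hμ, g, hg, hw⟩ :=
    exists_goodAt hE₁ hE₂ α hα hl hl2 O hO v hOv hv ⊥ hsbot 0 0
  have hfd : FiniteDimensional F₂ K := Module.Finite.of_restrictScalars_finite ℚ F₂ K
  set q := Ideal.absNorm v.asIdeal with hq
  have hq1 : 1 < q := one_lt_absNorm v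
  obtain ⟨hg1, hg2, hgK, hne⟩ := hg
  obtain ⟨m, hm, hAm⟩ := exists_pow_fix (α s) K
  set δ := s ^ m * g * (s ^ m)⁻¹ * (g ^ (q ^ m))⁻¹ with hδ
  have hrel : (α s) ^ m * α g = α δ * (α g) ^ (q ^ m) * (α s) ^ m := by
    rw [← map_pow, ← map_pow, ← map_mul, ← map_mul, ← map_mul, hδ]
    congr 1
    group
  have hδ2 : ∀ b : E₂, ∀ n : ℕ, ((α δ) ^ (l ^ n)) b = b → (α δ) b = b := fun b n hc =>
    wild_image hα hlO _ (theta_rel O (s ^ m) g (q ^ m) (hs.pow m) (ActsPow.pow hs hs' m)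
      hg1 hg2) b n hc
  have hqm : 1 < q ^ m := Nat.one_lt_pow hm.ne' hq1
  obtain ⟨hact, -⟩ := auto_cyc K hl hl2 hpow₂ hroot₂' ((α s) ^ m) (α g) (α δ) (q ^ m) hAm hgK
    hrel hqm hδ2 hμ hne
  -- the action on the `l`-th roots of unity
  have hA : AliveAt α l O := by
    obtain ⟨-, O', hO', hv', hA⟩ := hv
    exact hA.of_center hO' hO hv' hOv
  have hact1 := frob_of_alive α hα hl hl2 (hE₁.exists_root l hl.pos) hpow₂
    (fun n hn => hE₁.exists_primitiveRoot n hn) (fun n hn => hE₂.exists_primitiveRoot n hn)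
    v hv.1 O hO hOv hA s hs hs'
  have hqcop : ¬ l ∣ q := by
    obtain ⟨ζ₁, hζ₁⟩ := hE₁.exists_primitiveRoot l hl.pos
    have h1 : s ζ₁ = ζ₁ ^ q := acts_on_root O s q hs' l hlO1 ζ₁ hζ₁.pow_eq_one
    have h2 : IsPrimitiveRoot (ζ₁ ^ q) l := by
      rw [← h1]; exact hζ₁.map_of_injective s.injective
    rw [← Nat.Prime.coprime_iff_not_dvd hl]
    exact ((hζ₁.pow_iff_coprime hl.pos q).1 h2).symm
  obtain ⟨ξ, hξ⟩ := hroot₂' (n + 1 + m)
  obtain ⟨a, ha⟩ := exists_exp_root (α s) (hpos _) hξ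
  have h1 : a ^ m ≡ q ^ m [MOD l ^ (n + 1 + m)] := by
    rw [← rootPow_eq_iff_modEq hξ _ _ (hpos _), ← pow_apply_root (α s) ha]
    exact hact _ ξ hξ.pow_eq_one
  have h2 : a ≡ q [MOD l] := by
    have h3 : IsPrimitiveRoot (ξ ^ (l ^ (n + m))) l := by
      apply hξ.pow (hpos _)
      rw [← pow_succ]
      congr 1
      omega
    rw [← rootPow_eq_iff_modEq h3 _ _ hl.pos, ← hact1 _ h3.pow_eq_one, map_pow, ha, ← pow_mul,
      ← pow_mul, mul_comm]
  have h3 := modEq_of_pow_modEq_lte hl hl2 hm h2 hqcop (n + 1) h1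
  have h4 : IsPrimitiveRoot (ξ ^ (l ^ (m + 1))) (l ^ n) := by
    apply hξ.pow (hpos _)
    rw [← pow_add]
    congr 1
    omega
  have : NeZero (l ^ n) := ⟨(hpos n).ne'⟩
  obtain ⟨i, -, rfl⟩ := h4.eq_pow_of_pow_eq_one hz
  have h5 : a ≡ q [MOD l ^ n] := h3.of_dvd (pow_dvd_pow l (Nat.le_succ n))
  have h6 : α s (ξ ^ (l ^ (m + 1))) = (ξ ^ (l ^ (m + 1))) ^ q := by
    rw [map_pow, ha, ← (rootPow_eq_iff_modEq h4 _ _ (hpos n)).2 h5, ← pow_mul, ← pow_mul, mul_comm]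
  rw [map_pow, h6, pow_right_comm]

end

end Vale.Agent.P024
end
end

section

section

/-!
The equivalences, including the preservation of residue characteristics.
-/

namespace Vale.Agent.P024

open scoped NumberField ENNReal Topology
open IsDedekindDomain NumberField Filter

section

variable {F₁ E₁ F₂ E₂ : Type*} [Field F₁] [NumberField F₁] [Field E₁] [Algebra F₁ E₁]
    [IsGalois F₁ E₁] [Field F₂] [NumberField F₂] [Field E₂] [Algebra F₂ E₂] [IsGalois F₂ E₂]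

omit [NumberField F₁] [IsGalois F₁ E₁] in
theorem ne_top_of_center {O : ValuationSubring E₁} {v : HeightOneSpectrum (𝓞 F₁)}
    (hOv : IsCenter O v) : O ≠ ⊤ := by
  rintro rfl
  obtain ⟨x, hx, hx0⟩ := Submodule.exists_mem_ne_zero_of_ne_bot v.ne_bot
  rcases nonunits_iff.1 ((hOv x).1 hx) with h | h
  · exact hx0 (by simpa using h)
  · exact h trivial

theorem equiv₇ (hE₁ : SolvablyClosed E₁) (hE₂ : SolvablyClosed E₂)
    (α : (E₁ ≃ₐ[F₁] E₁) →* (E₂ ≃ₐ[F₂] E₂)) (hα : Continuous α)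
    (DZ : Set ℕ → Prop) (hDZ : ∀ B, DZ B ↔ Tendsto (fun s : ℝ =>
      (∑' p : {p : ℕ | p.Prime ∧ p ∈ B}, ((p : ℕ) : ℝ) ^ (-s)) / Real.log (1 / (s - 1)))
        (𝓝[>] 1) (𝓝 0)) :
    (∃! j : E₂ →+* E₁, ∀ (g : E₁ ≃ₐ[F₁] E₁) (x : E₂), g (j x) = j ((α g) x)) ↔
      (IsOpen (Set.range α) ∧ ∃ B : Set ℕ, DZ B ∧ ∀ p : ℕ, p.Prime → p ∉ B →
        {v | v ∈ Alive α p ∧ ∃ (O : ValuationSubring E₁) (V : ValuationSubring E₂), IsCenter O v ∧
          (V ≠ ⊤ ∧ ∀ σ, Stab O σ → Stab V (α σ)) ∧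
          ∃ r : ℕ, (r : E₁) ∈ O.nonunits ∧ (r : E₂) ∉ V.nonunits}.Finite) := by
  constructor
  · rintro ⟨j, hj, -⟩
    refine ⟨isOpen_range_of_induces α hα j hj, insert 2 ∅, (hDZ _).2
      (tendsto_insert ∅ 2 tendsto_empty), fun p hp hp2 => ?_⟩
    convert Set.finite_empty
    rw [Set.eq_empty_iff_forall_notMem]
    rintro v ⟨hv, O, V, hOv, ⟨hV, hst⟩, r, hr, hrV⟩
    have hVj := resChar_of_induced hE₁ hE₂ α hα j hj hp (fun h => hp2 (Or.inl h)) v hv O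
      (ne_top_of_center hOv) hOv V hV hst
    subst hVj
    apply hrV
    rw [nonunits_iff] at hr ⊢
    rcases hr with h | h
    · have : CharZero E₁ := charZero_of_injective_algebraMap (algebraMap F₁ E₁).injective
      left
      have h1 : (r : ℕ) = 0 := by exact_mod_cast h
      rw [h1, Nat.cast_zero]
    · right
      rw [ValuationSubring.mem_comap, map_inv₀, map_natCast]
      exact h
  · rintro ⟨hopen, B, hB, h⟩
    refine existsUnique_of_exists hE₁ hE₂ α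
      (induced_of_resChar hE₁ hE₂ α hα hopen B ((hDZ B).1 hB) fun p hp hpB => ?_)
    refine (h p hp hpB).subset ?_
    rintro v ⟨hv, O, V, hOv, hV, hst, hr⟩
    exact ⟨hv, O, V, hOv, ⟨hV, hst⟩, hr⟩

end

end Vale.Agent.P024
end
end

section

section

/-!
Decomposition elements and Frobenius elements; a weak form of Chebotarev's theorem.
-/

namespace Vale.Agent.P024

open scoped NumberField ENNReal Topology
open IsDedekindDomain NumberField Filter

theorem finite_pull {F K : Type*} [Field F] [NumberField F] [Field K] [NumberField K]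
    (f : F →+* K) {T : Set (HeightOneSpectrum (𝓞 F))} (hT : T.Finite) :
    {w : HeightOneSpectrum (𝓞 K) | pullPrime f w ∈ T}.Finite := by
  have h1 : {w : HeightOneSpectrum (𝓞 K) | pullPrime f w ∈ T} ⊆
      ⋃ v ∈ T, {w : HeightOneSpectrum (𝓞 K) |
        ((Ideal.absNorm v.asIdeal : ℕ) : 𝓞 K) ∈ w.asIdeal} := by
    intro w hw
    refine Set.mem_biUnion hw ?_
    have h2 : ((Ideal.absNorm (pullPrime f w).asIdeal : ℕ) : 𝓞 F) ∈
      (pullPrime f w).asIdeal := Ideal.absNorm_mem _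
    rw [mem_pullPrime, map_natCast] at h2
    exact h2
  refine Set.Finite.subset (hT.biUnion fun v _ => finite_above K ?_) h1
  rw [Ne, Ideal.absNorm_eq_zero_iff]
  exact v.ne_bot

theorem eventually_dens_most (F : Type*) [Field F] [NumberField F]
    (S : Set (HeightOneSpectrum (𝓞 F))) (hS : S.Finite) :
    ∀ᶠ s : ℝ in 𝓝[>] 1, ENNReal.ofReal (3 / 4 * Real.log (1 / (s - 1))) ≤
      ∑' v : (Sᶜ : Set (HeightOneSpectrum (𝓞 F))), ENNReal.ofReal (nm F v.1 s) := by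
  obtain ⟨C, hC⟩ := lower F
  have h2 : ∀ᶠ s : ℝ in 𝓝[>] 1,
      4 * (|C| + hS.toFinset.card) < Real.log (1 / (s - 1)) :=
    tendsto_log_one_div.eventually_gt_atTop _
  filter_upwards [hC, h2, self_mem_nhdsWithin] with s hs hs2 hs1
  have hs1' : (1 : ℝ) < s := hs1
  have h3 : degOneSum F s ≤ ∑' v : HeightOneSpectrum (𝓞 F), ENNReal.ofReal (nm F v s) := by
    exact ENNReal.tsum_comp_le_tsum_of_injective Subtype.val_injective
      (fun v : HeightOneSpectrum (𝓞 F) => ENNReal.ofReal (nm F v s))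
  have h4 : ∑' v : HeightOneSpectrum (𝓞 F), ENNReal.ofReal (nm F v s) =
      ∑' v : S, ENNReal.ofReal (nm F v.1 s) +
        ∑' v : (Sᶜ : Set (HeightOneSpectrum (𝓞 F))), ENNReal.ofReal (nm F v.1 s) :=
    (ENNReal.summable.tsum_add_tsum_compl ENNReal.summable).symm
  have h5 := tsum_finite_le F hS hs1'
  have h6 : ENNReal.ofReal (Real.log (1 / (s - 1)) - C) ≤ (hS.toFinset.card : ℝ≥0∞) +
      ∑' v : (Sᶜ : Set (HeightOneSpectrum (𝓞 F))), ENNReal.ofReal (nm F v.1 s) := by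
    refine hs.trans (h3.trans ?_)
    rw [h4]
    gcongr
  have h7 : ENNReal.ofReal (3 / 4 * Real.log (1 / (s - 1))) + (hS.toFinset.card : ℝ≥0∞) ≤
      ENNReal.ofReal (Real.log (1 / (s - 1)) - C) := by
    rw [← ENNReal.ofReal_natCast, ← ENNReal.ofReal_add]
    · apply ENNReal.ofReal_le_ofReal
      have := le_abs_self C
      linarith
    · have : (0 : ℝ) ≤ 4 * (|C| + hS.toFinset.card) := by positivity
      linarith
    · positivity
  have h8 := h7.trans h6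
  rw [add_comm] at h8
  exact (ENNReal.add_le_add_iff_left (ENNReal.natCast_ne_top _)).1 h8

section

variable {F E : Type*} [Field F] [NumberField F] [Field E] [Algebra F E] [IsGalois F E]
  [CharZero E] [Algebra.IsAlgebraic ℚ E]

/-- A weak form of Chebotarev's theorem: the Frobenius elements above almost all primes do not lie
in a proper open subgroup. -/
theorem exists_frob_notMem (W : Subgroup (E ≃ₐ[F] E)) (hW : IsOpen (W : Set (E ≃ₐ[F] E)))
    (γ : E ≃ₐ[F] E) (hγ : γ ∉ W) (S : Set (HeightOneSpectrum (𝓞 F))) (hS : S.Finite) :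
    ∃ v : HeightOneSpectrum (𝓞 F), v ∉ S ∧ ∃ O : ValuationSubring E, O ≠ ⊤ ∧ IsCenter O v ∧
      ∃ s : E ≃ₐ[F] E, Stab O s ∧ ActsPow O s (Ideal.absNorm v.asIdeal) ∧ s ∉ W := by
  by_contra hcon
  push Not at hcon
  have h1 := index_bound W hW (Sᶜ) (3 / 4) (eventually_dens_most F S hS).frequently S hS
    (fun v _ hv O hO hOv s hs hs' => hcon v hv O hO hOv s hs hs') 2 (by norm_num)
    (fun i => if i = 0 then 1 else γ) (by
      intro i j hij
      fin_cases i <;> fin_cases j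
      · exact absurd rfl hij
      · simpa using hγ
      · simpa using hγ
      · exact absurd rfl hij)
  norm_num at h1

end

section

variable {F E : Type*} [Field F] [NumberField F] [Field E] [Algebra F E] [IsGalois F E]
  [CharZero E] [Algebra.IsAlgebraic ℚ E]

/-- Every decomposition element which fixes `L` is a product of an inertia element, an element
fixing `K` and a power of a Frobenius element over `L`. -/
theorem exists_decomp (V : ValuationSubring E) (hV : V ≠ ⊤) (L K : IntermediateField F E)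
    [NumberField L] [NumberField K] (hLK : L ≤ K) (u : HeightOneSpectrum (𝓞 L))
    (hu : IsCenter V u) (σ s : E ≃ₐ[F] E) (hσ : Stab V σ)
    (hσ' : ActsPow V σ (Ideal.absNorm u.asIdeal)) (hs : Stab V s) (hsL : ∀ y ∈ L, s y = y)
    (hsK : ∀ y ∈ K, s y ∈ K) (hσK : ∀ y ∈ K, σ⁻¹ y ∈ K) :
    ∃ (a : ℕ) (δ : E ≃ₐ[F] E), Stab V δ ∧ (∀ y ∈ K, δ y = y) ∧
      ActsPow V (s * (σ ^ a)⁻¹ * δ⁻¹) 1 := by
  obtain ⟨w, hw⟩ := exists_center (K := K) V hV
  set Q := Ideal.absNorm u.asIdeal with hQ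
  have hfd : FiniteDimensional F K := Module.Finite.of_restrictScalars_finite ℚ F K
  obtain ⟨m, hm, hsm⟩ := exists_pow_fix s K
  obtain ⟨sK, hsK'⟩ := exists_restrict s K hsK hm hsm
  -- the residue fields
  have hmaxu : u.asIdeal.IsMaximal := u.isMaximal
  have hmaxw : w.asIdeal.IsMaximal := w.isMaximal
  let _ : Field (𝓞 L ⧸ u.asIdeal) := Ideal.Quotient.field _
  let _ : Field (𝓞 K ⧸ w.asIdeal) := Ideal.Quotient.field _
  have hcard₀ : Nat.card (𝓞 L ⧸ u.asIdeal) = Q := by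
    rw [hQ, Ideal.absNorm_apply]; rfl
  have hfin₀ : Finite (𝓞 L ⧸ u.asIdeal) := Nat.finite_of_card_ne_zero (by
    rw [hcard₀]
    exact (Nat.lt_of_lt_of_le Nat.zero_lt_one (one_lt_absNorm u).le).ne')
  have hfin : Finite (𝓞 K ⧸ w.asIdeal) := Nat.finite_of_card_ne_zero (by
    have h1 : Nat.card (𝓞 K ⧸ w.asIdeal) = Ideal.absNorm w.asIdeal := by
      rw [Ideal.absNorm_apply]; rfl
    rw [h1]
    exact (Nat.lt_of_lt_of_le Nat.zero_lt_one (one_lt_absNorm w).le).ne')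
  let ι : L →+* K := (IntermediateField.inclusion hLK : L →+* K)
  have hle₁ : u.asIdeal ≤ w.asIdeal.comap (RingOfIntegers.mapRingHom ι) := by
    intro x hx
    rw [Ideal.mem_comap, hw]
    exact (hu x).1 hx
  have hle₂ : w.asIdeal ≤ w.asIdeal.comap (RingOfIntegers.mapRingHom (sK : K →+* K)) := by
    intro x hx
    rw [Ideal.mem_comap, hw]
    have h1 := nonunits_map V s hs ((hw x).1 hx)
    have h2 : algebraMap K E (((RingOfIntegers.mapRingHom (sK : K →+* K)) x : 𝓞 K) : K) =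
        s (algebraMap K E (x : K)) := hsK' (x : K)
    rw [h2]
    exact h1
  let f : (𝓞 L ⧸ u.asIdeal) →+* (𝓞 K ⧸ w.asIdeal) :=
    Ideal.quotientMap w.asIdeal (RingOfIntegers.mapRingHom ι) hle₁
  let τ : (𝓞 K ⧸ w.asIdeal) →+* (𝓞 K ⧸ w.asIdeal) :=
    Ideal.quotientMap w.asIdeal (RingOfIntegers.mapRingHom (sK : K →+* K)) hle₂
  have hτ : ∀ x, τ (f x) = f x := by
    intro x
    obtain ⟨b, rfl⟩ := Ideal.Quotient.mk_surjective x
    show Ideal.Quotient.mk w.asIdeal (RingOfIntegers.mapRingHom (sK : K →+* K)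
      (RingOfIntegers.mapRingHom ι b)) = Ideal.Quotient.mk w.asIdeal
        (RingOfIntegers.mapRingHom ι b)
    congr 1
    apply RingOfIntegers.ext
    apply Subtype.ext
    exact (hsK' (ι (b : L))).trans (hsL _ (b : L).2)
  obtain ⟨a, ha⟩ := exists_frob_pow f τ hτ
  rw [hcard₀] at ha
  have hint : ∀ b : 𝓞 K, s (algebraMap K E (b : K)) - (algebraMap K E (b : K)) ^ (Q ^ a) ∈
      V.nonunits := by
    intro b
    have h1 := ha (Ideal.Quotient.mk _ b)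
    have h2 : τ (Ideal.Quotient.mk _ b) = Ideal.Quotient.mk w.asIdeal
      (RingOfIntegers.mapRingHom (sK : K →+* K) b) := rfl
    rw [h2, ← map_pow, Ideal.Quotient.eq, hw] at h1
    have h3 : algebraMap K E (((RingOfIntegers.mapRingHom (sK : K →+* K)) b - b ^ (Q ^ a) :
        𝓞 K) : K) = s (algebraMap K E (b : K)) - (algebraMap K E (b : K)) ^ (Q ^ a) := by
      have h4 : (((RingOfIntegers.mapRingHom (sK : K →+* K)) b - b ^ (Q ^ a) : 𝓞 K) : K) =
          sK (b : K) - (b : K) ^ (Q ^ a) := by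
        push_cast
        rfl
      rw [h4, map_sub, map_pow]
      congr 1
      exact hsK' (b : K)
    rwa [h3] at h1
  -- extension to `K ∩ V`
  have hext : ∀ z : K, algebraMap K E z ∈ V →
      s (algebraMap K E z) - (algebraMap K E z) ^ (Q ^ a) ∈ V.nonunits := by
    intro z hz
    obtain ⟨n, d, hd, hnd⟩ := exists_num_den w z ((mem_iff_of_center V hV w hw z).1.1 hz)
    have hdV : V.valuation (algebraMap K E (d : K)) = 1 := by
      refine le_antisymm ?_ (not_lt.1 fun h => hd ((hw d).2 h))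
      rw [V.valuation_le_one_iff]
      exact ((mem_iff_of_center V hV w hw (d : K)).1.2 (w.valuation_le_one d))
    have hsd : V.valuation (s (algebraMap K E (d : K))) = 1 := by
      rw [valuation_map_eq V s hs, hdV]
    have hzn : algebraMap K E z * algebraMap K E (d : K) = algebraMap K E (n : K) := by
      rw [← map_mul, hnd]
    have h1 : s (algebraMap K E (d : K)) * (s (algebraMap K E z) -
        (algebraMap K E z) ^ (Q ^ a)) = (s (algebraMap K E (n : K)) -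
        (algebraMap K E (n : K)) ^ (Q ^ a)) - (algebraMap K E z) ^ (Q ^ a) *
          (s (algebraMap K E (d : K)) - (algebraMap K E (d : K)) ^ (Q ^ a)) := by
      rw [← hzn, map_mul, mul_pow]
      ring
    have h2 : s (algebraMap K E (d : K)) * (s (algebraMap K E z) -
        (algebraMap K E z) ^ (Q ^ a)) ∈ V.nonunits := by
      rw [h1]
      refine V.nonunits.sub_mem (hint n) (Near.mul_mem_nonunits ?_ (hint d))
      rw [V.valuation_le_one_iff]
      exact V.pow_mem hz _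
    rw [ValuationSubring.mem_nonunits_iff, map_mul, hsd, one_mul] at h2
    exact h2
  -- the element acting trivially on the residue field of `K`
  have hσa : Stab V (σ ^ a) := hσ.pow a
  have hσa' : ActsPow V (σ ^ a) (Q ^ a) := ActsPow.pow hσ hσ' a
  have hσaK : ∀ y ∈ K, (σ ^ a)⁻¹ y ∈ K := by
    intro y hy
    rw [← inv_pow]
    have : ∀ n : ℕ, (σ⁻¹ ^ n) y ∈ K := by
      intro n
      induction n with
      | zero => exact hy
      | succ n ih =>
        rw [pow_succ', AlgEquiv.mul_apply]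
        exact hσK _ ih
    exact this a
  have hδ : Stab V (s * (σ ^ a)⁻¹) := hs.mul hσa.inv
  have hM : ∀ x : K, algebraMap K E x ∈ V →
      (s * (σ ^ a)⁻¹) (algebraMap K E x) - algebraMap K E x ∈ V.nonunits := by
    intro x hx
    have hz : (σ ^ a)⁻¹ (algebraMap K E x) ∈ K := hσaK _ x.2
    have hzV : (σ ^ a)⁻¹ (algebraMap K E x) ∈ V := (hσa.inv _).2 hx
    have h1 := hext ⟨_, hz⟩ hzV
    have h2 := hσa' _ hzV
    have h3 : (σ ^ a) ((σ ^ a)⁻¹ (algebraMap K E x)) = algebraMap K E x := by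
      rw [← AlgEquiv.mul_apply, mul_inv_cancel, AlgEquiv.one_apply]
    rw [h3] at h2
    have h4 : (s * (σ ^ a)⁻¹) (algebraMap K E x) - algebraMap K E x =
        (s ((σ ^ a)⁻¹ (algebraMap K E x)) - ((σ ^ a)⁻¹ (algebraMap K E x)) ^ (Q ^ a)) -
          (algebraMap K E x - ((σ ^ a)⁻¹ (algebraMap K E x)) ^ (Q ^ a)) := by
      rw [AlgEquiv.mul_apply]
      ring
    rw [h4]
    exact V.nonunits.sub_mem h1 h2
  obtain ⟨g, hg, hg'⟩ := exists_stab_lift (M := K) V hV (s * (σ ^ a)⁻¹).toRingEquiv hδ hM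
  refine ⟨a, g.restrictScalars F, hg, fun y hy => g.commutes ⟨y, hy⟩, ?_⟩
  intro y hy
  have hgF : Stab V (g.restrictScalars F) := hg
  have hy' : (g.restrictScalars F)⁻¹ y ∈ V := (hgF.inv y).2 hy
  have h1 := hg' _ hy'
  have h2 : g ((g.restrictScalars F)⁻¹ y) = y := by
    have : (g.restrictScalars F) ((g.restrictScalars F)⁻¹ y) = y := by
      rw [← AlgEquiv.mul_apply, mul_inv_cancel, AlgEquiv.one_apply]
    exact this
  rw [h2] at h1
  have h3 := V.nonunits.neg_mem h1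
  rw [neg_sub] at h3
  rw [pow_one]
  exact h3

end

end Vale.Agent.P024
end
end

section

section

/-!
A continuous `l`-adic character which factors through the image and is trivial on the Frobenius
elements of all alive primes is trivial.
-/

namespace Vale.Agent.P024

open scoped NumberField ENNReal Topology
open IsDedekindDomain NumberField Filter

section

variable {F₁ E₁ F₂ E₂ : Type*} [Field F₁] [NumberField F₁] [Field E₁] [Algebra F₁ E₁]
    [IsGalois F₁ E₁] [Field F₂] [NumberField F₂] [Field E₂] [Algebra F₂ E₂] [IsGalois F₂ E₂]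

theorem rho_eq_one (hE₁ : SolvablyClosed E₁) (hE₂ : SolvablyClosed E₂)
    (α : (E₁ ≃ₐ[F₁] E₁) →* (E₂ ≃ₐ[F₂] E₂)) (hα : Continuous α) (hopen : IsOpen (Set.range α))
    {l : ℕ} [hlf : Fact l.Prime] (hl2 : l ≠ 2) (ρ : (E₁ ≃ₐ[F₁] E₁) →* ℤ_[l]ˣ)
    (hρ : ∀ k, IsOpen ((((redu k).comp ρ).ker : Subgroup (E₁ ≃ₐ[F₁] E₁)) :
      Set (E₁ ≃ₐ[F₁] E₁)))
    (hρ1 : ∀ g, redu 1 (ρ g) = 1) (hρN : ∀ g, α g = 1 → ρ g = 1)
    (hρF : ∀ v ∈ Alive α l, ∀ O : ValuationSubring E₁, O ≠ ⊤ → IsCenter O v →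
      ∀ s : E₁ ≃ₐ[F₁] E₁, Stab O s → ActsPow O s (Ideal.absNorm v.asIdeal) → ρ s = 1) :
    ∀ g, ρ g = 1 := by
  classical
  have : CharZero E₁ := charZero_of_injective_algebraMap (algebraMap F₁ E₁).injective
  have : CharZero E₂ := charZero_of_injective_algebraMap (algebraMap F₂ E₂).injective
  have : Algebra.IsAlgebraic ℚ E₁ := Algebra.IsAlgebraic.trans ℚ F₁ E₁
  have : Algebra.IsAlgebraic ℚ E₂ := Algebra.IsAlgebraic.trans ℚ F₂ E₂
  have hl := hlf.out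
  have hpos : ∀ n : ℕ, 0 < l ^ n := fun n => pow_pos hl.pos n
  by_contra hcon
  push Not at hcon
  obtain ⟨g₀, hg₀⟩ := hcon
  obtain ⟨n, hn⟩ : ∃ n, redu n (ρ g₀) ≠ 1 := by
    by_contra hcon
    push Not at hcon
    exact hg₀ (redu_ext fun k => by rw [hcon k, map_one])
  set U : ℕ → Subgroup (E₁ ≃ₐ[F₁] E₁) := fun k => ((redu k).comp ρ).ker with hU
  have hUmem : ∀ k g, g ∈ U k ↔ redu k (ρ g) = 1 := fun k g => Iff.rfl
  have hfac : ∀ g g', α g = α g' → ρ g = ρ g' := by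
    intro g g' h
    have h1 := hρN (g * g'⁻¹) (by rw [map_mul, map_inv, h, mul_inv_cancel])
    rw [map_mul, map_inv, mul_inv_eq_one] at h1
    exact h1
  have hmem : ∀ k g, α g ∈ (U k).map α → g ∈ U k := by
    rintro k g ⟨g', hg', h⟩
    rw [hUmem, hfac g g' h.symm]
    exact hg'
  have hmapopen : ∀ V : Subgroup (E₁ ≃ₐ[F₁] E₁), IsOpen (V : Set (E₁ ≃ₐ[F₁] E₁)) →
      IsOpen ((V.map α : Subgroup (E₂ ≃ₐ[F₂] E₂)) : Set (E₂ ≃ₐ[F₂] E₂)) := fun V hV =>
    isOpen_map_of_isOpen_range α hα hopen V hV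
  -- the fixed field of the image
  have hΓ : IsOpen ((α.range : Subgroup (E₂ ≃ₐ[F₂] E₂)) : Set (E₂ ≃ₐ[F₂] E₂)) := by
    rw [MonoidHom.coe_range]
    exact hopen
  obtain ⟨hfdΓ, hfixΓ⟩ := finiteDimensional_fixedField α.range hΓ
  set L := IntermediateField.fixedField α.range with hL
  have hNL : NumberField L := NumberField.of_module_finite F₂ L
  have hαL : ∀ g, ∀ y ∈ L, α g y = y := by
    intro g y hy
    exact (IntermediateField.mem_fixedField_iff _ _).1 hy _ ⟨g, rfl⟩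
  -- the open subgroup of `Gal(E₂/L)`
  obtain ⟨hfdM, hfixM⟩ := finiteDimensional_fixedField _ (hmapopen (U n) (hρ n))
  set M := IntermediateField.fixedField ((U n).map α) with hM
  obtain ⟨y₀, hy₀⟩ := Field.exists_primitive_element F₂ M
  have hMy₀ : M = IntermediateField.adjoin F₂ {(y₀ : E₂)} := by
    have h4 := congrArg (IntermediateField.map M.val) hy₀
    rw [IntermediateField.adjoin_map, Set.image_singleton, ← AlgHom.fieldRange_eq_map,
      IntermediateField.fieldRange_val] at h4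
    exact h4.symm
  let W : Subgroup (E₂ ≃ₐ[L] E₂) := MulAction.stabilizer (E₂ ≃ₐ[L] E₂) (y₀ : E₂)
  have hW : IsOpen (W : Set (E₂ ≃ₐ[L] E₂)) :=
    stabilizer_isOpen_of_isIntegral (K := L) (L := E₂) (y₀ : E₂)
  have hWmem : ∀ γ : E₂ ≃ₐ[L] E₂, γ.restrictScalars F₂ ∈ (U n).map α → γ ∈ W := by
    intro γ hγ
    rw [← hfixM, IntermediateField.mem_fixingSubgroup_iff] at hγ
    exact hγ _ y₀.2
  have hg₀L : α g₀ ∈ L.fixingSubgroup := by
    rw [IntermediateField.mem_fixingSubgroup_iff]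
    exact hαL g₀
  let γ₀ : E₂ ≃ₐ[L] E₂ := IntermediateField.fixingSubgroupEquiv L ⟨α g₀, hg₀L⟩
  have hγ₀ : ∀ x, γ₀ x = α g₀ x := fun x => rfl
  have hγ₀W : γ₀ ∉ W := by
    intro h
    have h1 : α g₀ ∈ (U n).map α := by
      rw [← hfixM, IntermediateField.mem_fixingSubgroup_iff]
      intro y hy
      rw [hMy₀] at hy
      refine fix_adjoin (α g₀) {(y₀ : E₂)} ?_ y hy
      rintro _ rfl
      exact h
    exact hn (hmem n g₀ h1)
  -- hits
  obtain ⟨T, hT, hhit⟩ := exists_hits hE₁ hE₂ α hα hopen hl hl2 ∅ Set.finite_empty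
  obtain ⟨uL, huL, V, hV, hVuL, σL, hσ, hσ', hσW⟩ := exists_frob_notMem W hW γ₀ hγ₀W
    ({w | pullPrime (algebraMap F₂ L) w ∈ T} ∪ {w | ((l : ℕ) : 𝓞 L) ∈ w.asIdeal})
    ((finite_pull (algebraMap F₂ L) hT).union (finite_above L hl.ne_zero))
  obtain ⟨huT, hul⟩ := not_or.1 huL
  have hlV : ∀ k : ℕ, ((l ^ k : ℕ) : E₂) ∉ V.nonunits := natCast_pow_notMem_nonunits hVuL hul
  set Q := Ideal.absNorm uL.asIdeal with hQ
  have hQ1 : 1 < Q := one_lt_absNorm uL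
  set σ : E₂ ≃ₐ[F₂] E₂ := σL.restrictScalars F₂ with hσdef
  have hσs : Stab V σ := hσ
  have hσp : ActsPow V σ Q := hσ'
  have hσΓ : σ ∈ α.range := by
    rw [← hfixΓ, IntermediateField.mem_fixingSubgroup_iff]
    intro y hy
    exact σL.commutes ⟨y, hy⟩
  obtain ⟨h, hh⟩ := hσΓ
  have hhn : redu n (ρ h) ≠ 1 := fun h1 => hσW (hWmem σL ⟨h, h1, hh⟩)
  have hVu : IsCenter V (pullPrime (algebraMap F₂ L) uL) := by
    intro x
    rw [mem_pullPrime, hVuL]
    rfl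
  obtain ⟨v, hv, -, O, hO, hOv, hst⟩ := hhit _ huT V hV hVu
  obtain ⟨s, hs, hs'⟩ := exists_frob O hO v hOv
  have hcard : Nat.card (𝓞 F₁ ⧸ v.asIdeal) = Ideal.absNorm v.asIdeal := by
    rw [Ideal.absNorm_apply]; rfl
  rw [hcard] at hs'
  set q := Ideal.absNorm v.asIdeal with hq
  have hq1 : 1 < q := one_lt_absNorm v
  have hρs : ρ s = 1 := hρF v hv O hO hOv s hs hs'
  have hsV : Stab V (α s) := hst s hs
  -- the main congruence
  have key : ∀ j, n ≤ j → l ^ (j - n + 1) ∣ q ^ (l - 1) - 1 := by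
    intro j hj
    obtain ⟨ξ, hξ⟩ := hE₂.exists_primitiveRoot (l ^ j) (hpos j)
    let U' : Subgroup (E₁ ≃ₐ[F₁] E₁) :=
      U j ⊓ (MulAction.stabilizer (E₂ ≃ₐ[F₂] E₂) ξ).comap α
    have hU' : IsOpen (U' : Set (E₁ ≃ₐ[F₁] E₁)) := by
      have h1 : IsOpen ((MulAction.stabilizer (E₂ ≃ₐ[F₂] E₂) ξ : Subgroup (E₂ ≃ₐ[F₂] E₂)) :
        Set (E₂ ≃ₐ[F₂] E₂)) := stabilizer_isOpen_of_isIntegral (K := F₂) (L := E₂) ξ
      exact (hρ j).inter (h1.preimage hα)
    have : NeZero (l ^ j) := ⟨(hpos j).ne'⟩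
    have hU'norm : ∀ g, ∀ g' ∈ U', g⁻¹ * g' * g ∈ U' := by
      rintro g g' ⟨h1, h2⟩
      refine ⟨?_, ?_⟩
      · show redu j (ρ (g⁻¹ * g' * g)) = 1
        have h1' : redu j (ρ g') = 1 := h1
        rw [map_mul ρ, map_mul ρ, map_inv ρ, mul_comm (ρ g)⁻¹, mul_assoc, inv_mul_cancel,
          mul_one, h1']
      · have h2' : α g' ξ = ξ := h2
        show α (g⁻¹ * g' * g) ξ = ξ
        obtain ⟨c, -, hc⟩ := hξ.eq_pow_of_pow_eq_one (ξ := α g ξ)
          (by rw [← map_pow, hξ.pow_eq_one, map_one])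
        rw [map_mul, map_mul, map_inv, AlgEquiv.mul_apply, AlgEquiv.mul_apply, ← hc, map_pow, h2',
          hc, ← AlgEquiv.mul_apply, inv_mul_cancel, AlgEquiv.one_apply]
    obtain ⟨hfdK, hfixK⟩ := finiteDimensional_fixedField _ (hmapopen U' hU')
    set K := IntermediateField.fixedField (U'.map α) with hK
    have hNK : NumberField K := NumberField.of_module_finite F₂ K
    have hLK : L ≤ K := by
      intro y hy
      rw [hK, IntermediateField.mem_fixedField_iff]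
      rintro _ ⟨g, -, rfl⟩
      exact hαL g y hy
    have hαK : ∀ g, ∀ y ∈ K, α g y ∈ K := by
      intro g y hy
      rw [hK, IntermediateField.mem_fixedField_iff] at hy ⊢
      rintro _ ⟨g', hg', rfl⟩
      have h1 := hy _ ⟨_, hU'norm g g' hg', rfl⟩
      rw [map_mul, map_mul, map_inv, AlgEquiv.mul_apply, AlgEquiv.mul_apply] at h1
      have h2 := congrArg (α g) h1
      rwa [← AlgEquiv.mul_apply, mul_inv_cancel, AlgEquiv.one_apply] at h2
    obtain ⟨a, δ, hδ, hδK, hι⟩ := exists_decomp V hV L K hLK uL hVuL σ (α s) hσs hσp hsV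
      (hαL s) (hαK s) (by
        intro y hy
        rw [← hh, ← map_inv]
        exact hαK _ y hy)
    have hδmem : δ ∈ U'.map α := by
      rw [← hfixK, IntermediateField.mem_fixingSubgroup_iff]
      exact hδK
    obtain ⟨d, hd, hdδ⟩ := hδmem
    set i := s * (h ^ a)⁻¹ * d⁻¹ with hi
    have hαi : α i = α s * (σ ^ a)⁻¹ * δ⁻¹ := by
      rw [hi, map_mul, map_mul, map_inv, map_inv, map_pow, hh, hdδ]
    have hιs : Stab V (α i) := by
      rw [hαi]
      exact (hsV.mul (hσs.pow a).inv).mul hδ.inv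
    rw [← hαi] at hι
    -- `ρ i = 1`
    set e := h * i * h⁻¹ * (i ^ Q)⁻¹ with he
    have hαe : α e = σ * α i * σ⁻¹ * ((α i) ^ Q)⁻¹ := by
      rw [he, map_mul, map_mul, map_mul, map_inv, map_inv, map_pow, hh]
    have hwild := theta_rel V σ (α i) Q hσs hσp hιs hι
    rw [← hαe] at hwild
    have hρe : ρ e = 1 := by
      refine redu_ext fun k => ?_
      rw [map_one]
      refine hmem k e (wild_mem V (α e) hwild (l ^ k) (hlV k) _ (hmapopen (U k) (hρ k)) ?_)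
      refine ⟨e ^ (l ^ k), ?_, map_pow α e _⟩
      show redu k (ρ (e ^ (l ^ k))) = 1
      rw [map_pow ρ]
      exact redu_pow_eq_one (hρ1 e) k
    have hρi : ρ i = 1 := by
      refine eq_one_of_pow_eq_one hl2 (hρ1 i) (m := Q - 1) (by omega) ?_
      rw [he, map_mul, map_mul, map_mul, map_inv, map_inv, map_pow, mul_comm (ρ h), mul_assoc,
        mul_assoc, ← mul_assoc (ρ h), mul_inv_cancel, one_mul, mul_inv_eq_one] at hρe
      have h1 : ρ i ^ (Q - 1) * ρ i = 1 * ρ i := by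
        rw [← pow_succ, Nat.sub_add_cancel hQ1.le, one_mul, ← hρe]
      exact mul_right_cancel h1
    have hha : redu j (ρ h ^ a) = 1 := by
      rw [hi, map_mul, map_mul, map_inv, map_inv, hρs, one_mul, ← mul_inv_rev, inv_eq_one,
        map_pow] at hρi
      have h1 : ρ h ^ a = (ρ d)⁻¹ := by
        rw [eq_inv_iff_mul_eq_one, mul_comm]
        exact hρi
      have h2 : redu j (ρ d) = 1 := hd.1
      rw [h1, map_inv, h2, inv_one]
    have hdvd := dvd_of_redu_pow hl2 (hρ1 h) hhn hj hha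
    -- the action on the roots of unity
    have h1 : α s ξ = ξ ^ q :=
      frob_pow_of_alive hE₁ hE₂ α hα hl hl2 O hO v hOv hv s hs hs' j ξ hξ.pow_eq_one
    have h2 : (σ ^ a) ξ = ξ ^ (Q ^ a) :=
      acts_on_root V (σ ^ a) (Q ^ a) (ActsPow.pow hσs hσp a) (l ^ j) (hlV j) ξ hξ.pow_eq_one
    have h3 : α i ξ = ξ := by
      have := acts_on_root V (α i) 1 hι (l ^ j) (hlV j) ξ hξ.pow_eq_one
      rwa [pow_one] at this
    have h4 : δ ξ = ξ := by
      rw [← hdδ]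
      exact hd.2
    have h5 : α s = α i * δ * σ ^ a := by
      rw [hαi]
      group
    have h6 : q ≡ Q ^ a [MOD l ^ j] := by
      rw [← rootPow_eq_iff_modEq hξ _ _ (hpos j), ← h1, h5, AlgEquiv.mul_apply,
        AlgEquiv.mul_apply, h2, map_pow, map_pow, h4, h3]
    have hcop : Nat.Coprime Q l := by
      obtain ⟨ζ, hζ⟩ := hE₂.exists_primitiveRoot l hl.pos
      have h7 : σ ζ = ζ ^ Q := acts_on_root V σ Q hσp l (by simpa using hlV 1) ζ hζ.pow_eq_one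
      have h8 : IsPrimitiveRoot (ζ ^ Q) l := by
        rw [← h7]; exact hζ.map_of_injective σ.injective
      exact (hζ.pow_iff_coprime hl.pos Q).1 h8
    have h7 : q ^ (l - 1) ≡ 1 [MOD l ^ (j - n + 1)] := by
      rcases Nat.eq_zero_or_pos n with hn0 | hn0
      · exfalso
        apply hn
        subst hn0
        apply Units.ext
        exact Subsingleton.elim (α := ZMod (l ^ 0)) (h := by rw [pow_zero]; infer_instance) _ _
      · have h8 : q ≡ Q ^ a [MOD l ^ (j - n + 1)] := h6.of_dvd (pow_dvd_pow l (by omega))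
        refine (h8.pow (l - 1)).trans ?_
        obtain ⟨b, hb⟩ := hdvd
        have h9 : (Q ^ a) ^ (l - 1) = (Q ^ Nat.totient (l ^ (j - n + 1))) ^ (l * b) := by
          rw [Nat.totient_prime_pow_succ hl, ← pow_mul, ← pow_mul, hb, pow_succ]
          congr 1
          ring
        rw [h9]
        have h10 := Nat.ModEq.pow_totient (hcop.pow_right (j - n + 1))
        have h11 := h10.pow (l * b)
        rwa [one_pow] at h11
    exact (Nat.modEq_iff_dvd' (Nat.one_le_pow _ _ (by omega))).1 h7.symm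
  have h1 := key (n + q ^ (l - 1)) (Nat.le_add_right _ _)
  rw [Nat.add_sub_cancel_left] at h1
  have h2 : 1 < q ^ (l - 1) := Nat.one_lt_pow (Nat.sub_pos_of_lt hl.one_lt).ne' hq1
  have h3 := Nat.le_of_dvd (by omega) h1
  have h4 : q ^ (l - 1) + 1 < l ^ (q ^ (l - 1) + 1) := Nat.lt_pow_self hl.one_lt
  omega

end

end Vale.Agent.P024
end
end

section

section

/-!
The subgroup on which a homomorphism with open image is compatible with the `l`-adic cyclotomic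
characters has open image.
-/

namespace Vale.Agent.P024

open scoped NumberField ENNReal Topology
open IsDedekindDomain NumberField Filter

section Chi

variable {F E : Type*} [Field F] [Field E] [Algebra F E] {l : ℕ} [hlf : Fact l.Prime]

/-- the `l`-adic cyclotomic character -/
noncomputable def chi (F E : Type*) [Field F] [Field E] [Algebra F E] (l : ℕ) [Fact l.Prime] :
    (E ≃ₐ[F] E) →* ℤ_[l]ˣ :=
  (cyclotomicCharacter E l).comp (MulSemiringAction.toRingAut (E ≃ₐ[F] E) E)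

theorem chi_spec (hroot : ∀ i, ∃ ζ : E, IsPrimitiveRoot ζ (l ^ i)) (g : E ≃ₐ[F] E) (k : ℕ) (z : E)
    (hz : z ^ (l ^ k) = 1) :
    g z = z ^ ((redu k (chi F E l g) : (ZMod (l ^ k))ˣ) : ZMod (l ^ k)).val := by
  have _ (i) : HasEnoughRootsOfUnity E (l ^ i) := by
    have : NeZero (l ^ i) := ⟨(pow_pos hlf.out.pos i).ne'⟩
    exact ⟨hroot i, rootsOfUnity.isCyclic _ _⟩
  exact cyclotomicCharacter.spec l (MulSemiringAction.toRingAut (E ≃ₐ[F] E) E g) z hz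

theorem redu_chi_iff (hroot : ∀ i, ∃ ζ : E, IsPrimitiveRoot ζ (l ^ i)) (g : E ≃ₐ[F] E) (k c : ℕ) :
    ((redu k (chi F E l g) : (ZMod (l ^ k))ˣ) : ZMod (l ^ k)) = (c : ZMod (l ^ k)) ↔
      ∀ z : E, z ^ (l ^ k) = 1 → g z = z ^ c := by
  have hpos : 0 < l ^ k := pow_pos hlf.out.pos k
  have : NeZero (l ^ k) := ⟨hpos.ne'⟩
  have hspec := chi_spec hroot g k
  set x : ZMod (l ^ k) := ((redu k (chi F E l g) : (ZMod (l ^ k))ˣ) : ZMod (l ^ k)) with hx
  have hxv : ((x.val : ℕ) : ZMod (l ^ k)) = x := ZMod.natCast_zmod_val x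
  constructor
  · intro h z hz
    rw [hspec z hz]
    have h1 : x.val ≡ c [MOD l ^ k] := by
      rw [← ZMod.natCast_eq_natCast_iff, hxv, h]
    obtain ⟨ζ, hζ⟩ := hroot k
    obtain ⟨i, -, rfl⟩ := hζ.eq_pow_of_pow_eq_one hz
    rw [← pow_mul, ← pow_mul, rootPow_eq_iff_modEq hζ _ _ hpos]
    exact h1.mul_left i
  · intro h
    obtain ⟨ζ, hζ⟩ := hroot k
    have h1 := hspec ζ hζ.pow_eq_one
    rw [h ζ hζ.pow_eq_one, rootPow_eq_iff_modEq hζ _ _ hpos] at h1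
    rw [← hxv, ZMod.natCast_eq_natCast_iff]
    exact h1.symm

end Chi

section

variable {F₁ E₁ F₂ E₂ : Type*} [Field F₁] [Field E₁] [Algebra F₁ E₁]
    [Field F₂] [Field E₂] [Algebra F₂ E₂]

/-- `g` and `α g` act in the same way on the roots of unity of `p`-power order. -/
def CompatAt (α : (E₁ ≃ₐ[F₁] E₁) →* (E₂ ≃ₐ[F₂] E₂)) (p : ℕ) (g : E₁ ≃ₐ[F₁] E₁) : Prop :=
  ∀ n k : ℕ, (∀ z : E₁, z ^ (p ^ n) = 1 → g z = z ^ k) → ∀ z : E₂, z ^ (p ^ n) = 1 →
    α g z = z ^ k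

/-- the quotient of the cyclotomic characters -/
noncomputable def eta (α : (E₁ ≃ₐ[F₁] E₁) →* (E₂ ≃ₐ[F₂] E₂)) (l : ℕ) [Fact l.Prime] :
    (E₁ ≃ₐ[F₁] E₁) →* ℤ_[l]ˣ :=
  ((chi F₂ E₂ l).comp α) * (chi F₁ E₁ l)⁻¹

theorem eta_apply (α : (E₁ ≃ₐ[F₁] E₁) →* (E₂ ≃ₐ[F₂] E₂)) (l : ℕ) [Fact l.Prime]
    (g : E₁ ≃ₐ[F₁] E₁) : eta α l g = chi F₂ E₂ l (α g) * (chi F₁ E₁ l g)⁻¹ := rfl

variable {l : ℕ} [hlf : Fact l.Prime] (α : (E₁ ≃ₐ[F₁] E₁) →* (E₂ ≃ₐ[F₂] E₂))

theorem redu_eta_iff (g : E₁ ≃ₐ[F₁] E₁) (k : ℕ) :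
    redu k (eta α l g) = 1 ↔ redu k (chi F₂ E₂ l (α g)) = redu k (chi F₁ E₁ l g) := by
  rw [eta_apply, map_mul, map_inv, mul_inv_eq_one]

theorem redu_eta_eq_one (hroot₁ : ∀ i, ∃ ζ : E₁, IsPrimitiveRoot ζ (l ^ i))
    (hroot₂ : ∀ i, ∃ ζ : E₂, IsPrimitiveRoot ζ (l ^ i)) (g : E₁ ≃ₐ[F₁] E₁) (k c : ℕ)
    (h₁ : ∀ z : E₁, z ^ (l ^ k) = 1 → g z = z ^ c)
    (h₂ : ∀ z : E₂, z ^ (l ^ k) = 1 → α g z = z ^ c) : redu k (eta α l g) = 1 := by
  rw [redu_eta_iff]
  apply Units.ext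
  rw [(redu_chi_iff hroot₁ g k c).2 h₁, (redu_chi_iff hroot₂ (α g) k c).2 h₂]

theorem compatAt_iff (hroot₁ : ∀ i, ∃ ζ : E₁, IsPrimitiveRoot ζ (l ^ i))
    (hroot₂ : ∀ i, ∃ ζ : E₂, IsPrimitiveRoot ζ (l ^ i)) (g : E₁ ≃ₐ[F₁] E₁) :
    CompatAt α l g ↔ eta α l g = 1 := by
  constructor
  · intro h
    refine redu_ext fun k => ?_
    rw [map_one]
    have : NeZero (l ^ k) := ⟨(pow_pos hlf.out.pos k).ne'⟩
    have h1 := (redu_chi_iff hroot₁ g k
      ((redu k (chi F₁ E₁ l g) : (ZMod (l ^ k))ˣ) : ZMod (l ^ k)).val).1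
        (ZMod.natCast_zmod_val _).symm
    exact redu_eta_eq_one α hroot₁ hroot₂ g k _ h1 (h k _ h1)
  · intro h n k hk
    rw [← redu_chi_iff hroot₂]
    rw [← redu_chi_iff hroot₁] at hk
    have h1 := (redu_eta_iff α g n).1 (by rw [h, map_one])
    rw [h1, hk]

end

section

variable {F₁ E₁ F₂ E₂ : Type*} [Field F₁] [NumberField F₁] [Field E₁] [Algebra F₁ E₁]
    [IsGalois F₁ E₁] [Field F₂] [NumberField F₂] [Field E₂] [Algebra F₂ E₂] [IsGalois F₂ E₂]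

theorem isOpen_ker_eta (hE₁ : SolvablyClosed E₁) (hE₂ : SolvablyClosed E₂)
    (α : (E₁ ≃ₐ[F₁] E₁) →* (E₂ ≃ₐ[F₂] E₂)) (hα : Continuous α) {l : ℕ} [hlf : Fact l.Prime]
    (k : ℕ) : IsOpen ((((redu k).comp (eta α l)).ker : Subgroup (E₁ ≃ₐ[F₁] E₁)) :
      Set (E₁ ≃ₐ[F₁] E₁)) := by
  have : CharZero E₁ := charZero_of_injective_algebraMap (algebraMap F₁ E₁).injective
  have : CharZero E₂ := charZero_of_injective_algebraMap (algebraMap F₂ E₂).injective
  have hpos : ∀ i : ℕ, 0 < l ^ i := fun i => pow_pos hlf.out.pos i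
  have hroot₁ : ∀ i, ∃ ζ : E₁, IsPrimitiveRoot ζ (l ^ i) :=
    fun i => hE₁.exists_primitiveRoot _ (hpos i)
  have hroot₂ : ∀ i, ∃ ζ : E₂, IsPrimitiveRoot ζ (l ^ i) :=
    fun i => hE₂.exists_primitiveRoot _ (hpos i)
  have : NeZero (l ^ k) := ⟨(hpos k).ne'⟩
  obtain ⟨ζ₁, hζ₁⟩ := hroot₁ k
  obtain ⟨ζ₂, hζ₂⟩ := hroot₂ k
  let V : Subgroup (E₁ ≃ₐ[F₁] E₁) := MulAction.stabilizer (E₁ ≃ₐ[F₁] E₁) ζ₁ ⊓
    (MulAction.stabilizer (E₂ ≃ₐ[F₂] E₂) ζ₂).comap α
  have hV : IsOpen (V : Set (E₁ ≃ₐ[F₁] E₁)) := by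
    have h1 : IsOpen ((MulAction.stabilizer (E₂ ≃ₐ[F₂] E₂) ζ₂ : Subgroup (E₂ ≃ₐ[F₂] E₂)) :
      Set (E₂ ≃ₐ[F₂] E₂)) := stabilizer_isOpen_of_isIntegral (K := F₂) (L := E₂) ζ₂
    have h2 : IsOpen ((MulAction.stabilizer (E₁ ≃ₐ[F₁] E₁) ζ₁ : Subgroup (E₁ ≃ₐ[F₁] E₁)) :
      Set (E₁ ≃ₐ[F₁] E₁)) := stabilizer_isOpen_of_isIntegral (K := F₁) (L := E₁) ζ₁
    exact h2.inter (h1.preimage hα)
  refine Subgroup.isOpen_mono ?_ hV
  rintro g ⟨hg1, hg2⟩
  have hg1' : g ζ₁ = ζ₁ := hg1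
  have hg2' : α g ζ₂ = ζ₂ := hg2
  show redu k (eta α l g) = 1
  refine redu_eta_eq_one α hroot₁ hroot₂ g k 1 ?_ ?_
  · intro z hz
    obtain ⟨i, -, rfl⟩ := hζ₁.eq_pow_of_pow_eq_one hz
    rw [map_pow, hg1', pow_one]
  · intro z hz
    obtain ⟨i, -, rfl⟩ := hζ₂.eq_pow_of_pow_eq_one hz
    rw [map_pow, hg2', pow_one]

theorem eta_frob (hE₁ : SolvablyClosed E₁) (hE₂ : SolvablyClosed E₂)
    (α : (E₁ ≃ₐ[F₁] E₁) →* (E₂ ≃ₐ[F₂] E₂)) (hα : Continuous α) {l : ℕ} [hlf : Fact l.Prime]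
    (hl2 : l ≠ 2) (v : HeightOneSpectrum (𝓞 F₁)) (hv : v ∈ Alive α l) (O : ValuationSubring E₁)
    (hO : O ≠ ⊤) (hOv : IsCenter O v) (s : E₁ ≃ₐ[F₁] E₁) (hs : Stab O s)
    (hs' : ActsPow O s (Ideal.absNorm v.asIdeal)) : eta α l s = 1 := by
  have : CharZero E₁ := charZero_of_injective_algebraMap (algebraMap F₁ E₁).injective
  have : Algebra.IsAlgebraic ℚ E₁ := Algebra.IsAlgebraic.trans ℚ F₁ E₁
  have : CharZero E₂ := charZero_of_injective_algebraMap (algebraMap F₂ E₂).injective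
  have hpos : ∀ i : ℕ, 0 < l ^ i := fun i => pow_pos hlf.out.pos i
  have hroot₁ : ∀ i, ∃ ζ : E₁, IsPrimitiveRoot ζ (l ^ i) :=
    fun i => hE₁.exists_primitiveRoot _ (hpos i)
  have hroot₂ : ∀ i, ∃ ζ : E₂, IsPrimitiveRoot ζ (l ^ i) :=
    fun i => hE₂.exists_primitiveRoot _ (hpos i)
  have hlO := natCast_pow_notMem_nonunits hOv hv.1
  refine redu_ext fun k => ?_
  rw [map_one]
  refine redu_eta_eq_one α hroot₁ hroot₂ s k (Ideal.absNorm v.asIdeal) ?_ ?_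
  · intro z hz
    exact acts_on_root O s _ hs' (l ^ k) (hlO k) z hz
  · intro z hz
    exact frob_pow_of_alive hE₁ hE₂ α hα hlf.out hl2 O hO v hOv hv s hs hs' k z hz

theorem redu_one_pow {l : ℕ} [hlf : Fact l.Prime] (x : ℤ_[l]ˣ) : redu 1 (x ^ (l - 1)) = 1 := by
  rw [map_pow]
  have h1 := ZMod.pow_totient (redu 1 x)
  have h2 : (l ^ 1).totient = l - 1 := by rw [pow_one, Nat.totient_prime hlf.out]
  rwa [h2] at h1

/-- if the kernel acts on the roots of unity through a torsion group -/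
theorem eta_pow_eq_one (hE₁ : SolvablyClosed E₁) (hE₂ : SolvablyClosed E₂)
    (α : (E₁ ≃ₐ[F₁] E₁) →* (E₂ ≃ₐ[F₂] E₂)) (hα : Continuous α) (hopen : IsOpen (Set.range α))
    {l : ℕ} [hlf : Fact l.Prime] (hl2 : l ≠ 2)
    (hN : ∀ g, α g = 1 → eta α l g ^ (l - 1) = 1) : ∀ g, eta α l g ^ (l - 1) = 1 := by
  let ρ : (E₁ ≃ₐ[F₁] E₁) →* ℤ_[l]ˣ := (powMonoidHom (l - 1)).comp (eta α l)
  have hρ : ∀ g, ρ g = eta α l g ^ (l - 1) := fun g => rfl
  refine rho_eq_one hE₁ hE₂ α hα hopen hl2 ρ (fun k => ?_) (fun g => ?_) hN ?_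
  · refine Subgroup.isOpen_mono ?_ (isOpen_ker_eta hE₁ hE₂ α hα (l := l) k)
    intro g hg
    have h1 : redu k (eta α l g) = 1 := hg
    show redu k (ρ g) = 1
    rw [hρ, map_pow, h1, one_pow]
  · rw [hρ]
    exact redu_one_pow _
  · intro v hv O hO hOv s hs hs'
    rw [hρ, eta_frob hE₁ hE₂ α hα hl2 v hv O hO hOv s hs hs', one_pow]

theorem isOpen_image_compatAt (hE₁ : SolvablyClosed E₁) (hE₂ : SolvablyClosed E₂)
    (α : (E₁ ≃ₐ[F₁] E₁) →* (E₂ ≃ₐ[F₂] E₂)) (hα : Continuous α) (hopen : IsOpen (Set.range α))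
    {l : ℕ} (hl : l.Prime) (hl2 : l ≠ 2) : IsOpen (α '' {g | CompatAt α l g}) := by
  have hlf : Fact l.Prime := ⟨hl⟩
  have : CharZero E₁ := charZero_of_injective_algebraMap (algebraMap F₁ E₁).injective
  have : CharZero E₂ := charZero_of_injective_algebraMap (algebraMap F₂ E₂).injective
  have hpos : ∀ i : ℕ, 0 < l ^ i := fun i => pow_pos hl.pos i
  have hroot₁ : ∀ i, ∃ ζ : E₁, IsPrimitiveRoot ζ (l ^ i) :=
    fun i => hE₁.exists_primitiveRoot _ (hpos i)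
  have hroot₂ : ∀ i, ∃ ζ : E₂, IsPrimitiveRoot ζ (l ^ i) :=
    fun i => hE₂.exists_primitiveRoot _ (hpos i)
  have hset : {g | CompatAt α l g} = ((eta α l).ker : Set (E₁ ≃ₐ[F₁] E₁)) := by
    ext g
    exact compatAt_iff α hroot₁ hroot₂ g
  rw [hset, ← Subgroup.coe_map]
  by_cases hcase : ∀ g, α g = 1 → eta α l g ^ (l - 1) = 1
  · have h1 := eta_pow_eq_one hE₁ hE₂ α hα hopen hl2 hcase
    apply isOpen_map_of_isOpen_range α hα hopen
    refine Subgroup.isOpen_mono ?_ (isOpen_ker_eta hE₁ hE₂ α hα (l := l) 1)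
    intro g hg
    exact eq_one_of_pow_eq_one hl2 hg (Nat.sub_pos_of_lt hl.one_lt) (h1 g)
  · push Not at hcase
    obtain ⟨n₀, hn₀, hne⟩ := hcase
    obtain ⟨c, hc⟩ := exists_redu_pow hl2 (redu_one_pow (eta α l n₀)) hne
    refine Subgroup.isOpen_mono ?_
      (isOpen_map_of_isOpen_range α hα hopen _ (isOpen_ker_eta hE₁ hE₂ α hα (l := l) c))
    rintro _ ⟨g, hg, rfl⟩
    have hg' : redu c (eta α l g) = 1 := hg
    -- an element of the kernel with the same value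
    let C : ℕ → Set (E₁ ≃ₐ[F₁] E₁) := fun j =>
      {m | α m = 1 ∧ redu j (eta α l m) = redu j (eta α l g)}
    have hclosed : ∀ j, IsClosed (C j) := by
      intro j
      have h1 : IsClosed {m : E₁ ≃ₐ[F₁] E₁ | α m = 1} :=
        (isClosed_singleton (x := (1 : E₂ ≃ₐ[F₂] E₂))).preimage hα
      have h2 : IsClosed {m : E₁ ≃ₐ[F₁] E₁ |
          m * g⁻¹ ∈ ((redu j).comp (eta α l)).ker} :=
        (Subgroup.isClosed_of_isOpen _ (isOpen_ker_eta hE₁ hE₂ α hα (l := l) j)).preimage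
          (continuous_mul_const g⁻¹)
      convert h1.inter h2 using 1
      ext m
      show (α m = 1 ∧ _) ↔ (α m = 1 ∧ redu j (eta α l (m * g⁻¹)) = 1)
      rw [map_mul (eta α l), map_inv (eta α l), map_mul, map_inv, mul_inv_eq_one]
    have hC : (⋂ j, C j).Nonempty := by
      refine IsCompact.nonempty_iInter_of_sequence_nonempty_isCompact_isClosed C ?_ ?_ ?_ ?_
      · rintro j m ⟨h1, h2⟩
        refine ⟨h1, ?_⟩
        have h3 : redu (j + 1) (eta α l m * (eta α l g)⁻¹) = 1 := by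
          rw [map_mul, map_inv, h2, mul_inv_cancel]
        obtain ⟨X, hX⟩ := exists_int_rep (eta α l m * (eta α l g)⁻¹) (j + 1)
        rw [redu_eq_one_iff _ le_rfl hX] at h3
        have h4 := (redu_eq_one_iff _ (Nat.le_succ j) hX).2
          ((pow_dvd_pow _ (Nat.le_succ j)).trans h3)
        rwa [map_mul, map_inv, mul_inv_eq_one] at h4
      · intro j
        obtain ⟨a, ha⟩ := hc _ hg' j
        refine ⟨(n₀ ^ (l - 1)) ^ a, ?_, ?_⟩
        · rw [map_pow, map_pow, hn₀, one_pow, one_pow]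
        · rw [map_pow (eta α l), map_pow (eta α l)]
          exact ha
      · exact (hclosed 0).isCompact
      · exact hclosed
    obtain ⟨m, hm⟩ := hC
    rw [Set.mem_iInter] at hm
    refine ⟨g * m⁻¹, ?_, ?_⟩
    · show eta α l (g * m⁻¹) = 1
      rw [map_mul, map_inv, mul_inv_eq_one]
      exact redu_ext fun j => ((hm j).2).symm
    · rw [map_mul, map_inv, (hm 0).1, inv_one, mul_one]

end

end Vale.Agent.P024
end
end
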